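import Crest.Agent.R017.Poisson

/-! # Row 17: analytic part of the functional equation -/

set_option autoImplicit false

noncomputable section

open scoped BigOperators ComplexConjugate Topology
open Complex MeasureTheory Filter Set Asymptotics

namespace Crest.Agent.R017

theorem f1_norm_sin (z : ℂ) : ‖Complex.sin z‖ ≤ Real.exp |z.im| := by
  rw [Complex.sin, norm_div, norm_mul, norm_I, mul_one]
  have h1 : ‖cexp (-z * I)‖ ≤ Real.exp |z.im| := by
    rw [norm_exp]; exact Real.exp_le_exp.2 (by simpa using le_abs_self _)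
  have h2 : ‖cexp (z * I)‖ ≤ Real.exp |z.im| := by
    rw [norm_exp]; exact Real.exp_le_exp.2 (by simpa using neg_le_abs _)
  have := norm_sub_le (cexp (-z * I)) (cexp (z * I))
  simp only [norm_ofNat]
  linarith

theorem f1_inv_Gamma_left (A : ℝ) : ∃ C : ℝ, 0 ≤ C ∧ ∀ z : ℂ, -A ≤ z.re → z.re ≤ 1 / 2 →
    ‖(Gamma z)⁻¹‖ ≤ C * Real.exp (Real.pi * |z.im|) := by
  have hc : ContinuousOn Real.Gamma (Icc (1 / 2) (A + 1)) := fun x hx =>
    (Real.differentiableAt_Gamma fun m => by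
      have : (0 : ℝ) ≤ m := m.cast_nonneg
      have := hx.1
      linarith).continuousAt.continuousWithinAt
  obtain ⟨C, hC⟩ := isCompact_Icc.exists_bound_of_continuousOn hc
  refine ⟨max C 0, le_max_right _ _, fun z h1 h2 => ?_⟩
  by_cases hG : Gamma z = 0
  · rw [hG, inv_zero, norm_zero]; positivity
  have hre : 0 < (1 - z).re := by simp; linarith
  have hG' : Gamma (1 - z) ≠ 0 := Gamma_ne_zero_of_re_pos hre
  have hr := Gamma_mul_Gamma_one_sub z
  have hpi : (Real.pi : ℂ) ≠ 0 := ofReal_ne_zero.2 Real.pi_ne_zero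
  have hs : Complex.sin (Real.pi * z) ≠ 0 := by
    intro h; rw [h, div_zero] at hr; exact mul_ne_zero hG hG' hr
  have he : (Gamma z)⁻¹ = Gamma (1 - z) * Complex.sin (Real.pi * z) / Real.pi := by
    rw [eq_div_iff hs] at hr
    rw [eq_div_iff hpi, inv_mul_eq_iff_eq_mul₀ hG, ← mul_assoc]
    exact hr.symm
  have b1 : ‖Gamma (1 - z)‖ ≤ max C 0 := by
    refine (p2_norm_Gamma_le_real hre).trans ((le_abs_self _).trans ((hC _ ?_).trans
      (le_max_left _ _)))
    simp only [sub_re, one_re]; constructor <;> linarith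
  have b2 : ‖Complex.sin (Real.pi * z)‖ ≤ Real.exp (Real.pi * |z.im|) := by
    have := f1_norm_sin (Real.pi * z)
    simpa [abs_mul, abs_of_pos Real.pi_pos] using this
  rw [he, norm_div, norm_mul, norm_real, Real.norm_of_nonneg Real.pi_pos.le]
  refine (div_le_self (by positivity) (by linarith [Real.pi_gt_three])).trans ?_
  exact mul_le_mul b1 b2 (norm_nonneg _) (le_max_right _ _)

theorem f1_inv_Gamma (A : ℝ) : ∃ C : ℝ, 0 ≤ C ∧ ∀ z : ℂ, |z.re| ≤ A →
    ‖(Gamma z)⁻¹‖ ≤ C * Real.exp (Real.pi * |z.im|) := by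
  obtain ⟨C₁, hC₁, h₁⟩ := f1_inv_Gamma_left A
  have hK : IsCompact (Icc (-A) A ×ℂ Icc (-1) 1) := isCompact_Icc.reProdIm isCompact_Icc
  obtain ⟨C₂, h₂⟩ := hK.exists_bound_of_continuousOn
    differentiable_one_div_Gamma.continuous.continuousOn
  have key : ∀ m : ℕ, ∀ z : ℂ, -A ≤ z.re → z.re ≤ 1 / 2 + m → 1 ≤ |z.im| →
      ‖(Gamma z)⁻¹‖ ≤ max C₁ (C₁ + 1) * Real.exp (Real.pi * |z.im|) ∨ A < 1 / 2 := by
    intro m
    induction m with
    | zero =>
      intro z h1 h2 _
      exact Or.inl ((h₁ z h1 (by simpa using h2)).trans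
        (mul_le_mul_of_nonneg_right (le_max_left _ _) (by positivity)))
    | succ m ih =>
      intro z h1 h2 h3
      by_cases hA : A < 1 / 2
      · exact Or.inr hA
      by_cases hz : z.re ≤ 1 / 2
      · exact Or.inl ((h₁ z h1 hz).trans
          (mul_le_mul_of_nonneg_right (le_max_left _ _) (by positivity)))
      have hi := ih (z - 1) (by simp; linarith) (by simp at h2 ⊢; linarith) (by simpa using h3)
      refine hi.imp (fun hi => ?_) id
      have e := one_div_Gamma_eq_self_mul_one_div_Gamma_add_one (z - 1)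
      rw [sub_add_cancel] at e
      have hn : 1 ≤ ‖z - 1‖ := h3.trans (by simpa using abs_im_le_norm (z - 1))
      rw [e, norm_mul] at hi
      simp only [sub_im, one_im, sub_zero] at hi
      exact (le_mul_of_one_le_left (norm_nonneg _) hn).trans hi
  refine ⟨max (max C₁ (C₁ + 1)) C₂, le_max_of_le_left (le_max_of_le_left hC₁), fun z hz => ?_⟩
  obtain ⟨hz1, hz2⟩ := abs_le.1 hz
  have hexp : 1 ≤ Real.exp (Real.pi * |z.im|) := Real.one_le_exp (by positivity)
  by_cases h3 : 1 ≤ |z.im|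
  · rcases key ⌈A⌉₊ z hz1 (by linarith [Nat.le_ceil A]) h3 with h | h
    · exact h.trans (mul_le_mul_of_nonneg_right (le_max_left _ _) (by positivity))
    · exact (h₁ z hz1 (by linarith)).trans (mul_le_mul_of_nonneg_right
        (le_max_of_le_left (le_max_left _ _)) (by positivity))
  · have := h₂ z ⟨⟨hz1, hz2⟩, abs_le.1 (not_le.1 h3).le⟩
    exact (this.trans (le_max_right _ _)).trans (le_mul_of_one_le_right
      (le_max_of_le_left (le_max_of_le_left hC₁)) hexp)

theorem f1_Λ₀_bound (P : WeakFEPair ℂ) (A : ℝ) : ∃ C : ℝ, ∀ s : ℂ, |s.re| ≤ A → ‖P.Λ₀ s‖ ≤ C := by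
  have h1 : IntegrableOn (fun t : ℝ => (t : ℂ) ^ ((A : ℂ) - 1) • P.f_modif t) (Ioi 0) :=
    (P.isStrongFEPair_toStrongFEPair.hasMellin A).1
  have h2 : IntegrableOn (fun t : ℝ => (t : ℂ) ^ (((-A : ℝ) : ℂ) - 1) • P.f_modif t) (Ioi 0) :=
    (P.isStrongFEPair_toStrongFEPair.hasMellin (-A : ℝ)).1
  refine ⟨∫ t in Ioi (0 : ℝ), (‖(t : ℂ) ^ ((A : ℂ) - 1) • P.f_modif t‖ +
    ‖(t : ℂ) ^ (((-A : ℝ) : ℂ) - 1) • P.f_modif t‖), fun s hs => ?_⟩
  refine norm_integral_le_of_norm_le (h1.norm.add h2.norm) ?_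
  filter_upwards [ae_restrict_mem measurableSet_Ioi] with t ht
  simp only [norm_smul, norm_cpow_eq_rpow_re_of_pos ht, sub_re, one_re, ofReal_re, ← add_mul]
  refine mul_le_mul_of_nonneg_right ?_ (norm_nonneg _)
  obtain ⟨hs1, hs2⟩ := abs_le.1 hs
  have ht' : (0 : ℝ) < t := ht
  rcases le_total 1 t with h | h
  · exact (Real.rpow_le_rpow_of_exponent_le h (by linarith)).trans
      (le_add_of_nonneg_right (by positivity))
  · exact (Real.rpow_le_rpow_of_exponent_ge ht' h (by linarith)).trans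
      (le_add_of_nonneg_left (by positivity))

/-- The theta function. -/
def f1_th (a : O → ℂ) (κ t : ℝ) : ℂ := ∑' x : O, (Phi (κ * t * Nr x) : ℂ) * a x

theorem f1_th_summable {a : O → ℂ} (ha : ∀ x, ‖a x‖ ≤ 1) {R : ℝ} (hR : 0 < R) :
    Summable fun x : O => (Phi (R * Nr x) : ℂ) * a x := by
  refine Summable.of_norm_bounded (p1_summable0' hR) fun x => ?_
  rw [norm_mul, norm_real, Real.norm_of_nonneg (Phi_pos _).le]
  exact mul_le_of_le_one_right (Phi_pos _).le (ha x)

theorem f1_th_cont {a : O → ℂ} (ha : ∀ x, ‖a x‖ ≤ 1) {κ : ℝ} (hκ : 0 < κ) :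
    ContinuousOn (f1_th a κ) (Ioi 0) := by
  intro t₀ ht₀
  have ht₀' : (0 : ℝ) < t₀ := ht₀
  have : ContinuousOn (f1_th a κ) (Ioi (t₀ / 2)) := by
    refine continuousOn_tsum (u := fun x => Phi (κ * (t₀ / 2) * Nr x)) (fun x => ?_)
      (p1_summable0' (by positivity)) fun x t ht => ?_
    · unfold Phi; fun_prop
    · rw [norm_mul, norm_real, Real.norm_of_nonneg (Phi_pos _).le]
      refine (mul_le_of_le_one_right (Phi_pos _).le (ha x)).trans (p1_anti ?_)
      have := Nr_nonneg x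
      have : t₀ / 2 ≤ t := le_of_lt ht
      gcongr
  exact (this.continuousAt (Ioi_mem_nhds (by linarith))).continuousWithinAt

theorem f1_th_hasSum {a : O → ℂ} (ha : ∀ x, ‖a x‖ ≤ 1) {κ t : ℝ} (hκ : 0 < κ) (ht : 0 < t) :
    HasSum (fun x : O => if x = 0 then 0 else (Phi (κ * t * Nr x) : ℂ) * a x)
      (f1_th a κ t - a 0) := by
  have h := (f1_th_summable ha (mul_pos hκ ht)).hasSum
  have h2 := hasSum_ite_sub_hasSum h 0
  simpa [f1_th, Nr_zero, Phi] using h2

theorem f1_th_top {a : O → ℂ} (ha : ∀ x, ‖a x‖ ≤ 1) {κ : ℝ} (hκ : 0 < κ) (r : ℝ) :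
    (fun t => f1_th a κ t - a 0) =O[atTop] (· ^ r) := by
  set A := max 2 (-r) with hA
  have hA2 : 1 < A := lt_of_lt_of_le one_lt_two (le_max_left _ _)
  obtain ⟨C, hC⟩ := Phi_le_rpow (A := A) (by linarith)
  have hC0 : 0 ≤ C := by
    have := (Phi_pos 1).le.trans (hC 1 one_pos)
    simpa using this
  have hs := summable_Nr_rpow hA2
  refine IsBigO.of_bound (C * κ ^ (-A) * ∑' x : O, Nr x ^ (-A)) ?_
  filter_upwards [eventually_ge_atTop 1] with t ht
  have ht0 : 0 < t := by linarith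
  have h1 : ‖f1_th a κ t - a 0‖ ≤ C * κ ^ (-A) * t ^ (-A) * ∑' x : O, Nr x ^ (-A) := by
    refine (f1_th_hasSum ha hκ ht0).norm_le_of_bounded (hs.hasSum.mul_left _) fun x => ?_
    have := Nr_nonneg x
    split_ifs with hx
    · rw [norm_zero]; positivity
    · have hx' := Nr_pos hx
      rw [norm_mul, norm_real, Real.norm_of_nonneg (Phi_pos _).le]
      refine (mul_le_of_le_one_right (Phi_pos _).le (ha x)).trans ((hC _ (by positivity)).trans ?_)
      rw [Real.mul_rpow (by positivity) this, Real.mul_rpow hκ.le ht0.le]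
      exact le_of_eq (by ring)
  have h2 : t ^ (-A) ≤ ‖t ^ r‖ := by
    rw [Real.norm_of_nonneg (by positivity)]
    exact Real.rpow_le_rpow_of_exponent_le ht (by linarith [le_max_right 2 (-r)])
  have h3 : 0 ≤ ∑' x : O, Nr x ^ (-A) := tsum_nonneg fun x => Real.rpow_nonneg (Nr_nonneg x) _
  calc _ ≤ _ := h1
    _ = C * κ ^ (-A) * (∑' x : O, Nr x ^ (-A)) * t ^ (-A) := by ring
    _ ≤ _ := mul_le_mul_of_nonneg_left h2 (by positivity)

/-- The Dirichlet series over all non-zero elements. -/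
def f1_D (a : O → ℂ) (s : ℂ) : ℂ := ∑' n : O, if n = 0 then 0 else a n * (Nr n : ℂ) ^ (-s)

theorem f1_D_summable {a : O → ℂ} (ha : ∀ x, ‖a x‖ ≤ 1) {s : ℂ} (hs : 1 < s.re) :
    Summable fun n : O => if n = 0 then 0 else a n * (Nr n : ℂ) ^ (-s) := by
  refine Summable.of_norm_bounded (summable_Nr_rpow hs) fun x => ?_
  split_ifs with hx
  · rw [norm_zero]; exact Real.rpow_nonneg (Nr_nonneg x) _
  · rw [norm_mul, norm_cpow_eq_rpow_re_of_pos (Nr_pos hx), neg_re]
    exact mul_le_of_le_one_left (Real.rpow_nonneg (Nr_nonneg x) _) (ha x)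

theorem f1_mellin {a : O → ℂ} (ha : ∀ x, ‖a x‖ ≤ 1) {κ : ℝ} (hκ : 0 < κ) {s : ℂ}
    (hs : 1 < s.re) :
    mellin (fun t => f1_th a κ t - a 0) s =
      Gamma s * (((c0 * κ : ℝ) : ℂ) ^ s)⁻¹ * f1_D a s := by
  have hc := c0_pos
  have h := hasSum_mellin (a := fun x : O => if x = 0 then 0 else a x)
    (p := fun x => c0 * κ * Nr x) (F := fun t => f1_th a κ t - a 0) (s := s)
    (fun x => by
      by_cases hx : x = 0
      · simp [hx]
      · have := Nr_pos hx
        exact Or.inr (by positivity))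
    (by linarith)
    (fun t ht => by
      convert f1_th_hasSum ha hκ ht using 2 with x
      split_ifs
      · simp
      · rw [mul_comm, Phi]; congr 3; ring)
    (by
      refine Summable.of_norm_bounded ((summable_Nr_rpow hs).mul_left ((c0 * κ) ^ (-s.re)))
        fun x => ?_
      have := Nr_nonneg x
      rw [Real.norm_of_nonneg (by positivity), Real.mul_rpow (by positivity) this,
        Real.rpow_neg (by positivity), Real.rpow_neg this, ← mul_inv, div_eq_mul_inv]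
      refine mul_le_of_le_one_left (by positivity) ?_
      split_ifs
      · simp
      · exact ha x)
  rw [← h.tsum_eq, f1_D, ← tsum_mul_left]
  refine tsum_congr fun x => ?_
  split_ifs with hx
  · simp
  · rw [ofReal_mul (c0 * κ), mul_cpow_ofReal_nonneg (by positivity) (Nr_nonneg x), cpow_neg]
    ring

/-- The completed entire function of an FE-pair of weight one. -/
def f1_xi (P : WeakFEPair ℂ) (s : ℂ) : ℂ :=
  s * (s - 1) * P.Λ₀ s - (s - 1) * P.f₀ + s * (P.ε * P.g₀)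

theorem f1_xi_diff (P : WeakFEPair ℂ) : Differentiable ℂ (f1_xi P) := by
  have := P.differentiable_Λ₀
  unfold f1_xi
  fun_prop

theorem f1_xi_eq (P : WeakFEPair ℂ) (hk : P.k = 1) {s : ℂ} (hs : 1 < s.re) :
    f1_xi P s = s * (s - 1) * mellin (fun t => P.f t - P.f₀) s := by
  rw [(P.hasMellin (by rwa [hk])).2, f1_xi, WeakFEPair.Λ, hk]
  have h0 : s ≠ 0 := by rintro rfl; norm_num at hs
  have h1 : 1 - s ≠ 0 := by
    intro h; rw [← sub_eq_zero.1 h] at hs; norm_num at hs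
  simp only [smul_eq_mul, ofReal_one]
  field_simp
  ring

theorem f1_xi_FE (P : WeakFEPair ℂ) (hk : P.k = 1) (s : ℂ) :
    f1_xi P (1 - s) = P.ε * f1_xi P.symm s := by
  have h := P.functional_equation₀ s
  rw [hk, ofReal_one, smul_eq_mul] at h
  have := P.hε
  simp only [f1_xi, h, WeakFEPair.symm]
  field_simp
  ring

theorem f1_xi_bound (P : WeakFEPair ℂ) (A : ℝ) : ∃ C : ℝ, 0 ≤ C ∧ ∀ s : ℂ, |s.re| ≤ A →
    ‖f1_xi P s‖ ≤ C * Real.exp (2 * |s.im|) := by
  obtain ⟨C, hC⟩ := f1_Λ₀_bound P A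
  refine ⟨(|A| + 2) ^ 2 * (|C| + ‖P.f₀‖ + ‖P.ε * P.g₀‖), by positivity, fun s hs => ?_⟩
  set E := Real.exp |s.im| with hE
  have hE1 : 1 + |s.im| ≤ E := by linarith [Real.add_one_le_exp |s.im|]
  have h0 : 0 ≤ |s.im| := abs_nonneg _
  have hA : A ≤ |A| := le_abs_self _
  have hA0 : 0 ≤ |A| := abs_nonneg _
  set B := (|A| + 2) * E with hB
  have hB1 : 1 ≤ B := by nlinarith
  have b1 : ‖s‖ ≤ B := (norm_le_abs_re_add_abs_im s).trans (by nlinarith)
  have b2 : ‖s - 1‖ ≤ B := (norm_sub_le _ _).trans (by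
    have := norm_le_abs_re_add_abs_im s
    rw [norm_one]; nlinarith)
  have hBB : B ≤ B * B := by nlinarith
  have e : (|A| + 2) ^ 2 * (|C| + ‖P.f₀‖ + ‖P.ε * P.g₀‖) * Real.exp (2 * |s.im|) =
      B * B * |C| + B * B * ‖P.f₀‖ + B * B * ‖P.ε * P.g₀‖ := by
    rw [two_mul, Real.exp_add, hB]; ring
  rw [e, f1_xi]
  refine (norm_add_le _ _).trans (add_le_add ((norm_sub_le _ _).trans (add_le_add ?_ ?_)) ?_)
  · rw [norm_mul, norm_mul]
    exact mul_le_mul (mul_le_mul b1 b2 (norm_nonneg _) (by linarith))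
      ((hC s hs).trans (le_abs_self _)) (norm_nonneg _) (by positivity)
  · rw [norm_mul]; exact mul_le_mul_of_nonneg_right (b2.trans hBB) (norm_nonneg _)
  · rw [norm_mul s]; exact mul_le_mul_of_nonneg_right (b1.trans hBB) (norm_nonneg _)

theorem f1_ext {F G : ℂ → ℂ} (hF : Differentiable ℂ F) (hG : Differentiable ℂ G)
    (h : ∀ s : ℂ, 1 < s.re → F s = G s) : F = G := by
  refine AnalyticOnNhd.eq_of_eventuallyEq (z₀ := 2) (fun z _ => hF.analyticAt z)
    (fun z _ => hG.analyticAt z) ?_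
  have : {s : ℂ | 1 < s.re} ∈ 𝓝 (2 : ℂ) :=
    (isOpen_lt continuous_const continuous_re).mem_nhds (by norm_num)
  filter_upwards [this] with s hs using h s hs

theorem f1_conj_cpow {x : ℝ} (hx : 0 ≤ x) (s : ℂ) : conj ((x : ℂ) ^ conj s) = (x : ℂ) ^ s := by
  rw [cpow_conj _ _ (by rw [arg_ofReal_of_nonneg hx]; exact Real.pi_ne_zero.symm), conj_conj,
    conj_ofReal]

theorem f1_D_conj (a : O → ℂ) (s : ℂ) : conj (f1_D a (conj s)) = f1_D (fun x => conj (a x)) s := by
  rw [f1_D, f1_D, conj_tsum]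
  refine tsum_congr fun x => ?_
  split_ifs
  · simp
  · rw [map_mul, ← map_neg, f1_conj_cpow (Nr_nonneg x)]

/-- The analytic theorem. -/
theorem f1_analytic {a : O → ℂ} (ha : ∀ x, ‖a x‖ ≤ 1) {N : ℝ} (hN : 0 < N) {w : ℂ} (hw : w ≠ 0)
    (hP : ∀ R : ℝ, 0 < R → ∑' x : O, (Phi (Nr x / R) : ℂ) * a x =
      ((R / N : ℝ) : ℂ) * ∑' h : O, conj (a h) * (w * (Real.sqrt N : ℂ)) * (Phi (R * Nr h / N) : ℂ)) :
    ∃ G : ℂ → ℂ, Differentiable ℂ G ∧
      (∀ s : ℂ, 1 < s.re → G s = (s - 1) * ((1 / 6 : ℂ) * f1_D a s)) ∧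
      (∀ s : ℂ, s.re < 2 → G s = w * (N : ℂ) ^ (1 / 2 - s) * (c0 : ℂ) ^ (2 * s - 1) *
        Complex.Gamma (2 - s) * (Complex.Gamma (1 + s))⁻¹ * conj (G (conj (1 - s)))) ∧
      (∀ A : ℝ, ∃ C : ℝ, ∀ s : ℂ, |s.re| ≤ A → ‖G s‖ ≤ C * Real.exp (C * |s.im|)) := by
  have hq : 0 < Real.sqrt N := Real.sqrt_pos.2 hN
  have hqq : Real.sqrt N * Real.sqrt N = N := Real.mul_self_sqrt hN.le
  set κ := (Real.sqrt N)⁻¹ with hκdef
  have hκ : 0 < κ := inv_pos.2 hq
  have ha' : ∀ x, ‖conj (a x)‖ ≤ 1 := fun x => by simpa using ha x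
  let P : WeakFEPair ℂ :=
    { f := f1_th a κ
      g := f1_th (fun x => conj (a x)) κ
      k := 1
      ε := w
      f₀ := a 0
      g₀ := conj (a 0)
      hf_int := (f1_th_cont ha hκ).locallyIntegrableOn measurableSet_Ioi
      hg_int := (f1_th_cont ha' hκ).locallyIntegrableOn measurableSet_Ioi
      hk := one_pos
      hε := hw
      h_feq := fun t ht => by
        have ht' : (0 : ℝ) < t := ht
        have h := hP (Real.sqrt N * t) (by positivity)
        have e1 : ∀ x : O, κ * (1 / t) * Nr x = Nr x / (Real.sqrt N * t) := fun x => by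
          rw [hκdef]; field_simp
        have e2 : ∀ x : O, Real.sqrt N * t * Nr x / N = κ * t * Nr x := fun x => by
          rw [hκdef, div_eq_iff hN.ne']; field_simp; rw [Real.sq_sqrt hN.le, mul_comm]
        simp only [f1_th, e1, h, e2, Real.rpow_one, smul_eq_mul, ← tsum_mul_left]
        refine tsum_congr fun x => ?_
        have e3 : ((Real.sqrt N * t / N : ℝ) : ℂ) * (Real.sqrt N : ℂ) = t := by
          rw [← ofReal_mul]; congr 1; field_simp; exact Real.sq_sqrt hN.le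
        linear_combination (conj (a x) * w * (Phi (κ * t * Nr x) : ℂ)) * e3
      hf_top := f1_th_top ha hκ
      hg_top := f1_th_top ha' hκ }
  have hc := c0_pos
  set k : ℝ := c0 * κ with hk
  have hk0 : 0 < k := by positivity
  have hkC : (k : ℂ) ≠ 0 := ofReal_ne_zero.2 hk0.ne'
  have hx1 : ∀ s : ℂ, 1 < s.re →
      f1_xi P s = s * (s - 1) * (Gamma s * ((k : ℂ) ^ s)⁻¹ * f1_D a s) := fun s hs => by
    rw [f1_xi_eq P rfl hs, ← f1_mellin ha hκ hs]
  have hx2 : ∀ s : ℂ, 1 < s.re → f1_xi P.symm s =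
      s * (s - 1) * (Gamma s * ((k : ℂ) ^ s)⁻¹ * f1_D (fun x => conj (a x)) s) := fun s hs => by
    rw [f1_xi_eq P.symm rfl hs, ← f1_mellin ha' hκ hs]; rfl
  have hsymm : f1_xi P.symm = fun s => conj (f1_xi P (conj s)) := by
    refine f1_ext (f1_xi_diff _) (fun s => ?_) fun s hs => ?_
    · exact differentiableAt_conj_conj_iff.2 (f1_xi_diff P (conj s))
    · rw [hx2 s hs, hx1 (conj s) (by simpa using hs)]
      simp only [map_mul, map_sub, map_one, map_inv₀, conj_conj, Gamma_conj, f1_conj_cpow hk0.le,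
        f1_D_conj]
  refine ⟨fun s => (1 / 6 : ℂ) * (k : ℂ) ^ s * (Gamma (1 + s))⁻¹ * f1_xi P s, ?_, ?_, ?_, ?_⟩
  · refine (((differentiable_const _).mul ?_).mul ?_).mul (f1_xi_diff P)
    · exact differentiable_id.const_cpow (Or.inl hkC)
    · exact differentiable_one_div_Gamma.comp ((differentiable_const _).add differentiable_id)
  · intro s hs
    have h0 : s ≠ 0 := by rintro rfl; norm_num at hs
    have hG : Gamma s ≠ 0 := Gamma_ne_zero_of_re_pos (by linarith)
    have hks : (k : ℂ) ^ s ≠ 0 := by simp [hkC]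
    simp only [hx1 s hs]
    rw [add_comm 1 s, Gamma_add_one s h0]
    field_simp
  · intro s hs
    have h := f1_xi_FE P rfl (1 - s)
    rw [sub_sub_cancel, hsymm] at h
    have hG : Gamma (2 - s) ≠ 0 := Gamma_ne_zero_of_re_pos (by simp; linarith)
    have e1 : conj (Gamma (1 + conj (1 - s))) = Gamma (2 - s) := by
      rw [← Gamma_conj]; congr 1; simp; ring
    have e2 : (k : ℂ) ^ s = (N : ℂ) ^ (1 / 2 - s) * (c0 : ℂ) ^ (2 * s - 1) * (k : ℂ) ^ (1 - s) := by
      have l1 : Real.log k = Real.log c0 - Real.log N / 2 := by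
        rw [hk, Real.log_mul hc.ne' hκ.ne', hκdef, Real.log_inv, Real.log_sqrt hN.le]; ring
      rw [cpow_def_of_ne_zero hkC, cpow_def_of_ne_zero hkC,
        cpow_def_of_ne_zero (ofReal_ne_zero.2 hN.ne'),
        cpow_def_of_ne_zero (ofReal_ne_zero.2 hc.ne'), ← Complex.exp_add, ← Complex.exp_add,
        ← ofReal_log hk0.le, ← ofReal_log hN.le, ← ofReal_log hc.le, l1]
      congr 1; push_cast; ring
    simp only [map_mul, map_inv₀, e1, f1_conj_cpow hk0.le, h, map_div₀, map_one, map_ofNat]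
    rw [e2]
    change _ * (w * _) = _
    field_simp
  · intro A
    obtain ⟨C₁, hC₁, h₁⟩ := f1_xi_bound P A
    obtain ⟨C₂, hC₂, h₂⟩ := f1_inv_Gamma (A + 1)
    set K := k ^ A + k ^ (-A) with hK
    have hK0 : 0 ≤ K := by positivity
    refine ⟨max (K * C₂ * C₁) (Real.pi + 2), fun s hs => ?_⟩
    obtain ⟨hs1, hs2⟩ := abs_le.1 hs
    have b1 : ‖(k : ℂ) ^ s‖ ≤ K := by
      rw [norm_cpow_eq_rpow_re_of_pos hk0]
      rcases le_total 1 k with h | h
      · exact (Real.rpow_le_rpow_of_exponent_le h hs2).trans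
          (le_add_of_nonneg_right (by positivity))
      · exact (Real.rpow_le_rpow_of_exponent_ge hk0 h hs1).trans
          (le_add_of_nonneg_left (by positivity))
    have b2 := h₂ (1 + s) (by
      rw [add_re, one_re, abs_le]; constructor <;> linarith)
    rw [add_im, one_im, zero_add] at b2
    have b3 := h₁ s hs
    have b0 : ‖(1 / 6 : ℂ)‖ ≤ 1 := by norm_num
    simp only [norm_mul]
    calc _ ≤ 1 * K * (C₂ * Real.exp (Real.pi * |s.im|)) * (C₁ * Real.exp (2 * |s.im|)) := by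
          gcongr
      _ = K * C₂ * C₁ * Real.exp ((Real.pi + 2) * |s.im|) := by
          rw [add_mul Real.pi, Real.exp_add]; ring
      _ ≤ _ := by
          gcongr
          · exact le_max_left _ _
          · exact le_max_right _ _

end Crest.Agent.R017

end
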