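import Crest.Agent.R017.Smooth1

/-! # Row 17: shifting contours against the Gaussian `Wh a` -/

set_option autoImplicit false

noncomputable section

open scoped BigOperators ComplexConjugate Topology
open Complex MeasureTheory Filter

namespace Crest.Agent.R017

/-- The closed vertical strip `σ₁ ≤ Re s ≤ σ₂`. -/
def strip (σ₁ σ₂ : ℝ) : Set ℂ := {s | σ₁ ≤ s.re ∧ s.re ≤ σ₂}

theorem mem_strip {σ₁ σ₂ : ℝ} {s : ℂ} : s ∈ strip σ₁ σ₂ ↔ σ₁ ≤ s.re ∧ s.re ≤ σ₂ := Iff.rfl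

theorem line_mem_strip {σ₁ σ₂ σ : ℝ} (h1 : σ₁ ≤ σ) (h2 : σ ≤ σ₂) (t : ℝ) :
    (σ : ℂ) + t * I ∈ strip σ₁ σ₂ := by
  simp [mem_strip, h1, h2]

theorem strip_mem_nhds {σ₁ σ₂ : ℝ} {s : ℂ} (h1 : σ₁ < s.re) (h2 : s.re < σ₂) :
    strip σ₁ σ₂ ∈ 𝓝 s := by
  have : IsOpen {z : ℂ | σ₁ < z.re ∧ z.re < σ₂} :=
    (isOpen_lt continuous_const continuous_re).inter (isOpen_lt continuous_re continuous_const)
  exact mem_of_superset (this.mem_nhds ⟨h1, h2⟩) fun z hz => ⟨hz.1.le, hz.2.le⟩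

/-- Shifting a vertical line of integration. -/
theorem shift_gen {F : ℂ → ℂ} {σ₁ σ₂ : ℝ} (h12 : σ₁ ≤ σ₂) (hF : DifferentiableOn ℂ F (strip σ₁ σ₂))
    {g : ℝ → ℝ} (hg : Tendsto g atTop (𝓝 0))
    (hb : ∀ s ∈ strip σ₁ σ₂, ‖F s‖ ≤ g |s.im|)
    (h1 : Integrable (fun t : ℝ => F (σ₁ + t * I))) (h2 : Integrable (fun t : ℝ => F (σ₂ + t * I))) :
    ∫ t : ℝ, F (σ₁ + t * I) = ∫ t : ℝ, F (σ₂ + t * I) := by
  have key : ∀ T : ℝ, (∫ x in σ₁..σ₂, F (x + (-T : ℝ) * I)) - (∫ x in σ₁..σ₂, F (x + T * I)) +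
      I • (∫ y in (-T)..T, F (σ₂ + y * I)) - I • (∫ y in (-T)..T, F (σ₁ + y * I)) = 0 := by
    intro T
    have := integral_boundary_rect_eq_zero_of_differentiableOn F ⟨σ₁, -T⟩ ⟨σ₂, T⟩
      (hF.mono fun z hz => by
        have h := (mem_reProdIm.1 hz).1
        rw [Set.uIcc_of_le h12] at h
        exact h)
    exact this
  have hor : ∀ e : ℝ → ℝ, (∀ T, 0 ≤ T → |e T| = T) →
      Tendsto (fun T : ℝ => ∫ x in σ₁..σ₂, F (x + (e T : ℝ) * I)) atTop (𝓝 0) := by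
    intro e he
    have h0 : Tendsto (fun T => g T * |σ₂ - σ₁|) atTop (𝓝 0) := by
      simpa using hg.mul_const |σ₂ - σ₁|
    refine squeeze_zero_norm' ?_ h0
    filter_upwards [eventually_ge_atTop 0] with T hT
    refine intervalIntegral.norm_integral_le_of_norm_le_const fun x hx => ?_
    rw [Set.uIoc_of_le h12] at hx
    have := hb _ (line_mem_strip hx.1.le hx.2 (e T))
    simpa [he T hT] using this
  have t1 := intervalIntegral_tendsto_integral h1 tendsto_neg_atTop_atBot tendsto_id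
  have t2 := intervalIntegral_tendsto_integral h2 tendsto_neg_atTop_atBot tendsto_id
  have lim := (((hor (fun T => -T) fun T hT => by rw [abs_neg, abs_of_nonneg hT]).sub
    (hor id fun T hT => abs_of_nonneg hT)).add (t2.const_smul I)).sub (t1.const_smul I)
  have h0 := tendsto_nhds_unique lim (tendsto_const_nhds.congr fun T => (key T).symm)
  rw [sub_zero, zero_add, ← smul_sub, smul_eq_mul, mul_eq_zero] at h0
  exact (sub_eq_zero.1 (h0.resolve_left I_ne_zero)).symm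

/-- At most exponential growth in a strip, for large imaginary part. -/
def ExpGr (F : ℂ → ℂ) (σ₁ σ₂ : ℝ) : Prop :=
  ∃ C T : ℝ, ∀ s ∈ strip σ₁ σ₂, T ≤ |s.im| → ‖F s‖ ≤ C * Real.exp (C * |s.im|)

theorem rd_exp_mono {C D x : ℝ} (hC : C ≤ D) (hD : 0 ≤ D) (hx : 0 ≤ x) :
    C * Real.exp (C * x) ≤ D * Real.exp (D * x) := by
  calc C * Real.exp (C * x) ≤ D * Real.exp (C * x) :=
        mul_le_mul_of_nonneg_right hC (Real.exp_pos _).le
    _ ≤ D * Real.exp (D * x) :=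
        mul_le_mul_of_nonneg_left (Real.exp_le_exp.2 (mul_le_mul_of_nonneg_right hC hx)) hD

theorem ExpGr.of_two {F : ℂ → ℂ} {σ₁ σ₂ : ℝ} (K C T : ℝ)
    (h : ∀ s ∈ strip σ₁ σ₂, T ≤ |s.im| → ‖F s‖ ≤ K * Real.exp (C * |s.im|)) : ExpGr F σ₁ σ₂ := by
  refine ⟨max (max K C) 0, T, fun s hs hT => (h s hs hT).trans ?_⟩
  calc K * Real.exp (C * |s.im|) ≤ max (max K C) 0 * Real.exp (C * |s.im|) :=
        mul_le_mul_of_nonneg_right ((le_max_left _ _).trans (le_max_left _ _)) (Real.exp_pos _).le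
    _ ≤ _ := mul_le_mul_of_nonneg_left (Real.exp_le_exp.2 (mul_le_mul_of_nonneg_right
        ((le_max_right _ _).trans (le_max_left _ _)) (abs_nonneg _))) (le_max_right _ _)

theorem ExpGr.nonneg {F : ℂ → ℂ} {σ₁ σ₂ : ℝ} (h : ExpGr F σ₁ σ₂) :
    ∃ C T : ℝ, 0 ≤ C ∧ ∀ s ∈ strip σ₁ σ₂, T ≤ |s.im| → ‖F s‖ ≤ C * Real.exp (C * |s.im|) := by
  obtain ⟨C, T, h⟩ := h
  exact ⟨max C 0, T, le_max_right _ _, fun s hs hT => (h s hs hT).trans
    (rd_exp_mono (le_max_left _ _) (le_max_right _ _) (abs_nonneg _))⟩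

theorem ExpGr.of_bdd {F : ℂ → ℂ} {σ₁ σ₂ : ℝ} (K T : ℝ)
    (h : ∀ s ∈ strip σ₁ σ₂, T ≤ |s.im| → ‖F s‖ ≤ K) : ExpGr F σ₁ σ₂ :=
  ExpGr.of_two K 0 T fun s hs hT => by simpa using h s hs hT

theorem rd_one_add_rpow_le {x C : ℝ} (hx : 0 ≤ x) (hC : 0 ≤ C) : (1 + x) ^ C ≤ Real.exp (C * x) := by
  rw [mul_comm, Real.exp_mul]
  exact Real.rpow_le_rpow (by linarith) (by linarith [Real.add_one_le_exp x]) hC

theorem ExpGr.of_poly {F : ℂ → ℂ} {σ₁ σ₂ : ℝ} (K C T : ℝ)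
    (h : ∀ s ∈ strip σ₁ σ₂, T ≤ |s.im| → ‖F s‖ ≤ K * (1 + |s.im|) ^ C) : ExpGr F σ₁ σ₂ := by
  refine ExpGr.of_two (max K 0) (max C 0) T fun s hs hT => (h s hs hT).trans ?_
  have h1 : (1 : ℝ) ≤ 1 + |s.im| := by linarith [abs_nonneg s.im]
  calc K * (1 + |s.im|) ^ C ≤ max K 0 * (1 + |s.im|) ^ C :=
        mul_le_mul_of_nonneg_right (le_max_left _ _) (by positivity)
    _ ≤ max K 0 * (1 + |s.im|) ^ max C 0 := mul_le_mul_of_nonneg_left
        (Real.rpow_le_rpow_of_exponent_le h1 (le_max_left _ _)) (le_max_right _ _)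
    _ ≤ _ := mul_le_mul_of_nonneg_left (rd_one_add_rpow_le (abs_nonneg _) (le_max_right _ _))
        (le_max_right _ _)

theorem ExpGr.const (c : ℂ) (σ₁ σ₂ : ℝ) : ExpGr (fun _ => c) σ₁ σ₂ :=
  ExpGr.of_bdd ‖c‖ 0 fun _ _ _ => le_rfl

theorem ExpGr.mul {F G : ℂ → ℂ} {σ₁ σ₂ : ℝ} (hF : ExpGr F σ₁ σ₂) (hG : ExpGr G σ₁ σ₂) :
    ExpGr (fun s => F s * G s) σ₁ σ₂ := by
  obtain ⟨C, T, hC, hF⟩ := hF.nonneg
  obtain ⟨D, U, hD, hG⟩ := hG.nonneg
  refine ExpGr.of_two (C * D) (C + D) (max T U) fun s hs hT => ?_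
  rw [norm_mul, add_mul, Real.exp_add]
  calc ‖F s‖ * ‖G s‖ ≤ (C * Real.exp (C * |s.im|)) * (D * Real.exp (D * |s.im|)) :=
        mul_le_mul (hF s hs ((le_max_left _ _).trans hT)) (hG s hs ((le_max_right _ _).trans hT))
          (norm_nonneg _) (by positivity)
    _ = _ := by ring

theorem ExpGr.add {F G : ℂ → ℂ} {σ₁ σ₂ : ℝ} (hF : ExpGr F σ₁ σ₂) (hG : ExpGr G σ₁ σ₂) :
    ExpGr (fun s => F s + G s) σ₁ σ₂ := by
  obtain ⟨C, T, hC, hF⟩ := hF.nonneg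
  obtain ⟨D, U, hD, hG⟩ := hG.nonneg
  refine ExpGr.of_two (C + D) (C + D) (max T U) fun s hs hT => (norm_add_le _ _).trans ?_
  have h1 := hF s hs ((le_max_left _ _).trans hT)
  have h2 := hG s hs ((le_max_right _ _).trans hT)
  have h3 : Real.exp (C * |s.im|) ≤ Real.exp ((C + D) * |s.im|) :=
    Real.exp_le_exp.2 (mul_le_mul_of_nonneg_right (by linarith) (abs_nonneg _))
  have h4 : Real.exp (D * |s.im|) ≤ Real.exp ((C + D) * |s.im|) :=
    Real.exp_le_exp.2 (mul_le_mul_of_nonneg_right (by linarith) (abs_nonneg _))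
  nlinarith [mul_le_mul_of_nonneg_left h3 hC, mul_le_mul_of_nonneg_left h4 hD]

theorem ExpGr.of_norm_le {F G : ℂ → ℂ} {σ₁ σ₂ : ℝ} (hG : ExpGr G σ₁ σ₂) (T : ℝ)
    (h : ∀ s ∈ strip σ₁ σ₂, T ≤ |s.im| → ‖F s‖ ≤ ‖G s‖) : ExpGr F σ₁ σ₂ := by
  obtain ⟨D, U, hG⟩ := hG
  exact ⟨D, max T U, fun s hs hT => (h s hs ((le_max_left _ _).trans hT)).trans
    (hG s hs ((le_max_right _ _).trans hT))⟩

theorem ExpGr.congr {F G : ℂ → ℂ} {σ₁ σ₂ : ℝ} (hG : ExpGr G σ₁ σ₂) (T : ℝ)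
    (h : ∀ s ∈ strip σ₁ σ₂, T ≤ |s.im| → F s = G s) : ExpGr F σ₁ σ₂ :=
  hG.of_norm_le T fun s hs hT => (congrArg norm (h s hs hT)).le

theorem ExpGr.neg {F : ℂ → ℂ} {σ₁ σ₂ : ℝ} (hF : ExpGr F σ₁ σ₂) : ExpGr (fun s => -F s) σ₁ σ₂ :=
  hF.of_norm_le 0 fun _ _ _ => (norm_neg _).le

theorem ExpGr.sub {F G : ℂ → ℂ} {σ₁ σ₂ : ℝ} (hF : ExpGr F σ₁ σ₂) (hG : ExpGr G σ₁ σ₂) :
    ExpGr (fun s => F s - G s) σ₁ σ₂ :=
  (hF.add hG.neg).congr 0 fun _ _ _ => sub_eq_add_neg _ _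

theorem ExpGr.prod {ι : Type*} (S : Finset ι) {F : ι → ℂ → ℂ} {σ₁ σ₂ : ℝ}
    (hF : ∀ i ∈ S, ExpGr (F i) σ₁ σ₂) : ExpGr (fun s => ∏ i ∈ S, F i s) σ₁ σ₂ := by
  classical
  induction S using Finset.induction_on with
  | empty => simpa using ExpGr.const 1 σ₁ σ₂
  | insert i S hi ih =>
    simp only [Finset.prod_insert hi]
    exact (hF i (Finset.mem_insert_self _ _)).mul
      (ih fun j hj => hF j (Finset.mem_insert_of_mem hj))

theorem ExpGr.mono {F : ℂ → ℂ} {σ₁ σ₂ σ₁' σ₂' : ℝ} (hF : ExpGr F σ₁ σ₂) (h1 : σ₁ ≤ σ₁')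
    (h2 : σ₂' ≤ σ₂) : ExpGr F σ₁' σ₂' := by
  obtain ⟨C, T, h⟩ := hF
  exact ⟨C, T, fun s hs hT => h s ⟨h1.trans hs.1, hs.2.trans h2⟩ hT⟩

/-- Translating the argument. -/
theorem ExpGr.comp_add {F : ℂ → ℂ} {σ₁ σ₂ : ℝ} (w : ℂ) (hF : ExpGr F (σ₁ + w.re) (σ₂ + w.re)) :
    ExpGr (fun s => F (s + w)) σ₁ σ₂ := by
  obtain ⟨C, T, hC, h⟩ := hF.nonneg
  refine ExpGr.of_two (C * Real.exp (C * |w.im|)) C (T + |w.im|) fun s hs hT => ?_
  have h1 : |(s + w).im| ≤ |w.im| + |s.im| := by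
    rw [add_im, add_comm]; exact abs_add_le _ _
  have h2 : T ≤ |(s + w).im| := by
    have : |s.im| ≤ |(s + w).im| + |w.im| := by
      have := abs_sub (s + w).im w.im
      simpa using this
    linarith
  refine (h (s + w) ⟨by simpa using hs.1, by simpa using hs.2⟩ h2).trans ?_
  rw [mul_assoc, ← Real.exp_add, ← mul_add]
  exact mul_le_mul_of_nonneg_left (Real.exp_le_exp.2 (mul_le_mul_of_nonneg_left h1 hC)) hC

theorem ExpGr.comp_add_I {F : ℂ → ℂ} {σ₁ σ₂ : ℝ} (τ : ℝ) (hF : ExpGr F σ₁ σ₂) :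
    ExpGr (fun s => F (s + τ * I)) σ₁ σ₂ :=
  ExpGr.comp_add _ (by simpa using hF)

theorem expGr_cpow {X : ℝ} (hX : 0 < X) (σ₁ σ₂ : ℝ) : ExpGr (fun s => (X : ℂ) ^ s) σ₁ σ₂ := by
  refine ExpGr.of_bdd (X ^ σ₁ + X ^ σ₂) 0 fun s hs _ => ?_
  rw [norm_cpow_eq_rpow_re_of_pos hX]
  rcases le_total 1 X with h | h
  · linarith [Real.rpow_le_rpow_of_exponent_le h hs.2, Real.rpow_pos_of_pos hX σ₁]
  · linarith [Real.rpow_le_rpow_of_exponent_ge hX h hs.1, Real.rpow_pos_of_pos hX σ₂]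

theorem expGr_cpow_neg {X : ℝ} (hX : 0 < X) (σ₁ σ₂ : ℝ) :
    ExpGr (fun s => (X : ℂ) ^ (-s)) σ₁ σ₂ := by
  refine ExpGr.of_bdd (X ^ (-σ₁) + X ^ (-σ₂)) 0 fun s hs _ => ?_
  rw [norm_cpow_eq_rpow_re_of_pos hX, neg_re]
  rcases le_total 1 X with h | h
  · linarith [Real.rpow_le_rpow_of_exponent_le h (neg_le_neg hs.1),
      Real.rpow_pos_of_pos hX (-σ₂)]
  · linarith [Real.rpow_le_rpow_of_exponent_ge hX h (neg_le_neg hs.2),
      Real.rpow_pos_of_pos hX (-σ₁)]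

theorem expGr_inv_sub (s₀ : ℂ) (σ₁ σ₂ : ℝ) : ExpGr (fun s => (s - s₀)⁻¹) σ₁ σ₂ := by
  refine ExpGr.of_bdd 1 (|s₀.im| + 1) fun s _ hT => ?_
  rw [norm_inv]
  refine inv_le_one_of_one_le₀ ?_
  have h1 := abs_im_le_norm (s - s₀)
  have h2 : |s.im| ≤ |(s - s₀).im| + |s₀.im| := by
    have := abs_add_le (s - s₀).im s₀.im
    simpa using this
  linarith

theorem expGr_id (σ₁ σ₂ : ℝ) : ExpGr (fun s => s) σ₁ σ₂ := by
  refine ExpGr.of_two (|σ₁| + |σ₂| + 1) 1 0 fun s hs _ => ?_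
  have h1 := norm_le_abs_re_add_abs_im s
  have h2 : |s.re| ≤ |σ₁| + |σ₂| := by
    rw [abs_le]
    constructor <;> linarith [hs.1, hs.2, neg_abs_le σ₁, le_abs_self σ₂, abs_nonneg σ₁, abs_nonneg σ₂]
  have h3 := Real.add_one_le_exp |s.im|
  have h4 : 1 ≤ Real.exp |s.im| := Real.one_le_exp (abs_nonneg _)
  rw [one_mul]
  nlinarith [abs_nonneg σ₁, abs_nonneg σ₂]

theorem expGr_exp_mul (c : ℂ) (σ₁ σ₂ : ℝ) : ExpGr (fun s => Complex.exp (c * s)) σ₁ σ₂ := by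
  refine ExpGr.of_two (Real.exp (‖c‖ * (|σ₁| + |σ₂|))) ‖c‖ 0 fun s hs _ => ?_
  rw [← Real.exp_add, ← mul_add]
  refine (norm_exp_le_exp_norm _).trans (Real.exp_le_exp.2 ?_)
  rw [norm_mul]
  refine mul_le_mul_of_nonneg_left ?_ (norm_nonneg _)
  have h1 := norm_le_abs_re_add_abs_im s
  have h2 : |s.re| ≤ |σ₁| + |σ₂| := by
    rw [abs_le]
    constructor <;> linarith [hs.1, hs.2, neg_abs_le σ₁, le_abs_self σ₂, abs_nonneg σ₁, abs_nonneg σ₂]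
  linarith

/-- A continuous function of exponential growth satisfies the bound in the whole strip. -/
theorem ExpGr.global {F : ℂ → ℂ} {σ₁ σ₂ : ℝ} (h : ExpGr F σ₁ σ₂)
    (hc : ContinuousOn F (strip σ₁ σ₂)) :
    ∃ C : ℝ, 0 ≤ C ∧ ∀ s ∈ strip σ₁ σ₂, ‖F s‖ ≤ C * Real.exp (C * |s.im|) := by
  obtain ⟨C, T, hC, h⟩ := h.nonneg
  have hK : IsCompact (Set.Icc σ₁ σ₂ ×ℂ Set.Icc (-T) T) := isCompact_Icc.reProdIm isCompact_Icc
  obtain ⟨M, hM⟩ := hK.exists_bound_of_continuousOn (hc.mono fun z hz => (mem_reProdIm.1 hz).1)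
  refine ⟨max C M, le_max_of_le_left hC, fun s hs => ?_⟩
  rcases le_total T |s.im| with hT | hT
  · exact (h s hs hT).trans (rd_exp_mono (le_max_left _ _) (le_max_of_le_left hC) (abs_nonneg _))
  · refine (hM s (mem_reProdIm.2 ⟨hs, abs_le.1 hT⟩)).trans ((le_max_right C M).trans ?_)
    exact le_mul_of_one_le_right (le_max_of_le_left hC)
      (Real.one_le_exp (mul_nonneg (le_max_of_le_left hC) (abs_nonneg _)))

theorem differentiable_Wh (a : ℝ) : Differentiable ℂ (Wh a) := by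
  unfold Wh; fun_prop

theorem rd_gauss_le {a : ℝ} (ha : 0 < a) (C t : ℝ) :
    Real.exp (C * |t|) * Real.exp (-(a * t ^ 2)) ≤
      Real.exp (C ^ 2 / (2 * a)) * Real.exp (-(a / 2) * t ^ 2) := by
  rw [← Real.exp_add, ← Real.exp_add, Real.exp_le_exp, ← sq_abs t]
  have : 0 ≤ (a * |t| - C) ^ 2 / (2 * a) := by positivity
  have e : (a * |t| - C) ^ 2 / (2 * a) = C ^ 2 / (2 * a) + a / 2 * |t| ^ 2 - C * |t| := by
    field_simp; ring
  linarith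

theorem rd_norm_Wh {a : ℝ} (ha : 0 < a) (σ t : ℝ) : ‖Wh a (σ + t * I)‖ =
    Real.sqrt (4 * Real.pi * a) * Real.exp (a * σ ^ 2) * Real.exp (-(a * t ^ 2)) := by
  rw [norm_Wh ha, mul_assoc (Real.sqrt _), ← Real.exp_add]
  congr 2; ring

theorem integrable_exp_Wh {a : ℝ} (ha : 0 < a) (C σ : ℝ) :
    Integrable (fun t : ℝ => Real.exp (C * |t|) * ‖Wh a (σ + t * I)‖) := by
  refine ((integrable_exp_neg_mul_sq (half_pos ha)).const_mul
    (Real.sqrt (4 * Real.pi * a) * Real.exp (a * σ ^ 2) * Real.exp (C ^ 2 / (2 * a)))).mono'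
    ?_ (Eventually.of_forall fun t => ?_)
  · have := (differentiable_Wh a).continuous
    exact Continuous.aestronglyMeasurable (by fun_prop)
  · rw [Real.norm_of_nonneg (by positivity), rd_norm_Wh ha]
    have := mul_le_mul_of_nonneg_left (rd_gauss_le ha C t)
      (show 0 ≤ Real.sqrt (4 * Real.pi * a) * Real.exp (a * σ ^ 2) by positivity)
    linarith

theorem integrable_mul_Wh {a : ℝ} (ha : 0 < a) {F : ℂ → ℂ} {σ₁ σ₂ σ : ℝ}
    (hc : ContinuousOn F (strip σ₁ σ₂)) (h : ExpGr F σ₁ σ₂) (h1 : σ₁ ≤ σ) (h2 : σ ≤ σ₂) :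
    Integrable (fun t : ℝ => F (σ + t * I) * Wh a (σ + t * I)) := by
  obtain ⟨C, hC, h⟩ := h.global hc
  refine ((integrable_exp_Wh ha C σ).const_mul C).mono' ?_ (Eventually.of_forall fun t => ?_)
  · have h3 := (differentiable_Wh a).continuous
    have h4 : Continuous fun t : ℝ => F (σ + t * I) :=
      hc.comp_continuous (by fun_prop) fun t => line_mem_strip h1 h2 t
    exact Continuous.aestronglyMeasurable (h4.mul (by fun_prop))
  · rw [norm_mul, ← mul_assoc]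
    have := h _ (line_mem_strip h1 h2 t)
    exact mul_le_mul_of_nonneg_right (by simpa using this) (norm_nonneg _)

/-- Bounding an integral against `Wh a` on a vertical line. -/
theorem norm_integral_Wh_le {a : ℝ} (ha : 0 < a) (C σ : ℝ) : ∃ K : ℝ, 0 ≤ K ∧
    ∀ (f : ℝ → ℂ) (M : ℝ), (∀ t, ‖f t‖ ≤ M * Real.exp (C * |t|)) →
      ‖∫ t : ℝ, f t * Wh a (σ + t * I)‖ ≤ K * M := by
  refine ⟨∫ t : ℝ, Real.exp (C * |t|) * ‖Wh a (σ + t * I)‖,
    integral_nonneg fun t => by positivity, fun f M h => ?_⟩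
  rw [mul_comm, ← integral_const_mul]
  refine norm_integral_le_of_norm_le ((integrable_exp_Wh ha C σ).const_mul M)
    (Eventually.of_forall fun t => ?_)
  rw [norm_mul, ← mul_assoc]
  exact mul_le_mul_of_nonneg_right (h t) (norm_nonneg _)

/-- The same with polynomial growth. -/
theorem norm_integral_Wh_le_poly {a : ℝ} (ha : 0 < a) {C : ℝ} (hC : 0 ≤ C) (σ : ℝ) : ∃ K : ℝ, 0 ≤ K ∧
    ∀ (f : ℝ → ℂ) (M : ℝ), (∀ t, ‖f t‖ ≤ M * (1 + |t|) ^ C) →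
      ‖∫ t : ℝ, f t * Wh a (σ + t * I)‖ ≤ K * M := by
  obtain ⟨K, hK, h⟩ := norm_integral_Wh_le ha C σ
  refine ⟨K, hK, fun f M hf => h f M fun t => (hf t).trans ?_⟩
  have hM : 0 ≤ M := by simpa using (norm_nonneg _).trans (hf 0)
  exact mul_le_mul_of_nonneg_left (rd_one_add_rpow_le (abs_nonneg _) hC) hM

/-- **Contour shift** against the Gaussian `Wh a`. -/
theorem shift_Wh {a : ℝ} (ha : 0 < a) {F : ℂ → ℂ} {σ₁ σ₂ : ℝ} (h12 : σ₁ ≤ σ₂)
    (hF : DifferentiableOn ℂ F (strip σ₁ σ₂)) (h : ExpGr F σ₁ σ₂) :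
    ∫ t : ℝ, F (σ₁ + t * I) * Wh a (σ₁ + t * I) = ∫ t : ℝ, F (σ₂ + t * I) * Wh a (σ₂ + t * I) := by
  obtain ⟨C, hC, hb⟩ := h.global hF.continuousOn
  set M := C * (Real.sqrt (4 * Real.pi * a) * Real.exp (a * (σ₁ ^ 2 + σ₂ ^ 2))) *
    Real.exp (C ^ 2 / (2 * a)) with hM
  refine shift_gen (F := fun s => F s * Wh a s) h12
    (hF.mul (differentiable_Wh a).differentiableOn)
    (g := fun t => M * Real.exp (-(a / 2) * t ^ 2)) ?_ (fun s hs => ?_)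
    (integrable_mul_Wh ha hF.continuousOn h le_rfl h12)
    (integrable_mul_Wh ha hF.continuousOn h h12 le_rfl)
  · have h1 : Tendsto (fun t : ℝ => -(a / 2) * t ^ 2) atTop atBot :=
      (tendsto_pow_atTop two_ne_zero).const_mul_atTop_of_neg (by linarith)
    simpa using (Real.tendsto_exp_atBot.comp h1).const_mul M
  · have h1 := rd_norm_Wh ha s.re s.im
    rw [re_add_im] at h1
    have h2 : s.re ^ 2 ≤ σ₁ ^ 2 + σ₂ ^ 2 := by
      rcases le_total 0 s.re with h0 | h0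
      · nlinarith [hs.2, sq_nonneg σ₁]
      · nlinarith [hs.1, sq_nonneg σ₂]
    have h3 : Real.exp (a * s.re ^ 2) ≤ Real.exp (a * (σ₁ ^ 2 + σ₂ ^ 2)) :=
      Real.exp_le_exp.2 (mul_le_mul_of_nonneg_left h2 ha.le)
    rw [norm_mul, h1, sq_abs]
    calc ‖F s‖ * (Real.sqrt (4 * Real.pi * a) * Real.exp (a * s.re ^ 2) * Real.exp (-(a * s.im ^ 2)))
        ≤ (C * Real.exp (C * |s.im|)) * (Real.sqrt (4 * Real.pi * a) *
          Real.exp (a * (σ₁ ^ 2 + σ₂ ^ 2)) * Real.exp (-(a * s.im ^ 2))) := by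
          gcongr; exact hb s hs
      _ = C * (Real.sqrt (4 * Real.pi * a) * Real.exp (a * (σ₁ ^ 2 + σ₂ ^ 2))) *
          (Real.exp (C * |s.im|) * Real.exp (-(a * s.im ^ 2))) := by ring
      _ ≤ C * (Real.sqrt (4 * Real.pi * a) * Real.exp (a * (σ₁ ^ 2 + σ₂ ^ 2))) *
          (Real.exp (C ^ 2 / (2 * a)) * Real.exp (-(a / 2) * s.im ^ 2)) :=
          mul_le_mul_of_nonneg_left (rd_gauss_le ha C s.im) (by positivity)
      _ = _ := by rw [hM]; ring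

theorem rd_pole_pos {a c : ℝ} (ha : 0 < a) (hc : 0 < c) :
    ∫ t : ℝ, ((c : ℂ) + t * I)⁻¹ * Wh a (c + t * I) = Real.pi * Wh a 0 := by
  have h1 : ∀ t : ℝ, ((c : ℂ) + t * I)⁻¹ * Wh a (c + t * I) =
      ∫ u in Set.Ioi (0 : ℝ), Wh a (c + t * I) * Complex.exp (-((c : ℂ) + t * I) * u) := by
    intro t
    rw [integral_const_mul, integral_exp_mul_complex_Ioi (by simpa using hc)]
    simp only [ofReal_zero, mul_zero, Complex.exp_zero, neg_div_neg_eq, one_div]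
    ring
  simp_rw [h1]
  have hW := (differentiable_Wh a).continuous
  rw [integral_integral_swap]
  · have h2 : ∀ u : ℝ, ∫ t : ℝ, Wh a (c + t * I) * Complex.exp (-((c : ℂ) + t * I) * u) =
        2 * Real.pi * ((Real.exp (-(1 / (4 * a)) * u ^ 2) : ℝ) : ℂ) := by
      intro u
      have h3 := W_mellin ha (Real.exp_pos u) c
      have h4 : ∀ s : ℂ, ((Real.exp u : ℝ) : ℂ) ^ s = Complex.exp (s * u) := by
        intro s
        rw [cpow_def_of_ne_zero (ofReal_ne_zero.2 (Real.exp_pos u).ne'), ← ofReal_log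
          (Real.exp_pos u).le, Real.log_exp, mul_comm]
      simp_rw [h4] at h3
      have h5 : W a (Real.exp u) = Real.exp (-(1 / (4 * a)) * u ^ 2) := by
        rw [W, Real.log_exp]; congr 1; ring
      rw [← h5, h3]
      have : (Real.pi : ℂ) ≠ 0 := ofReal_ne_zero.2 Real.pi_ne_zero
      rw [← mul_assoc, mul_one_div_cancel (mul_ne_zero two_ne_zero this), one_mul]
    simp_rw [h2]
    rw [integral_const_mul, integral_complex_ofReal, integral_gaussian_Ioi]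
    have h6 : Real.pi / (1 / (4 * a)) = 4 * Real.pi * a := by field_simp
    rw [h6]
    simp only [Wh]
    push_cast
    simp
    ring
  · have h7 : Integrable (fun t : ℝ => ‖Wh a (c + t * I)‖) := by
      simpa using integrable_exp_Wh ha 0 c
    have h8 : Integrable (fun u : ℝ => Real.exp (-c * u)) (volume.restrict (Set.Ioi 0)) :=
      integrableOn_exp_mul_Ioi (by linarith) 0
    refine (h7.mul_prod h8).mono' ?_ (Eventually.of_forall fun p => ?_)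
    · exact Continuous.aestronglyMeasurable (by unfold Function.uncurry; fun_prop)
    · simp [Function.uncurry, Complex.norm_exp]

theorem rd_pole_neg {a c : ℝ} (ha : 0 < a) (hc : c < 0) :
    ∫ t : ℝ, ((c : ℂ) + t * I)⁻¹ * Wh a (c + t * I) = -(Real.pi * Wh a 0) := by
  rw [← rd_pole_pos ha (neg_pos.2 hc), ← integral_neg,
    ← integral_neg_eq_self (fun t : ℝ => ((c : ℂ) + t * I)⁻¹ * Wh a (c + t * I))]
  congr 1
  funext t
  have e : (c : ℂ) + (-t : ℝ) * I = -(((-c : ℝ) : ℂ) + t * I) := by push_cast; ring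
  rw [e, inv_neg, neg_mul]
  simp only [Wh, neg_sq]

theorem rd_pole_line {a σ : ℝ} (s₀ : ℂ) :
    ∫ t : ℝ, ((σ : ℂ) + t * I - s₀)⁻¹ * Wh a (σ + t * I - s₀) =
      ∫ t : ℝ, (((σ - s₀.re : ℝ) : ℂ) + t * I)⁻¹ * Wh a ((σ - s₀.re : ℝ) + t * I) := by
  rw [← integral_sub_right_eq_self (fun t : ℝ =>
    (((σ - s₀.re : ℝ) : ℂ) + t * I)⁻¹ * Wh a ((σ - s₀.re : ℝ) + t * I)) s₀.im]
  congr 1
  funext t
  have e : (σ : ℂ) + t * I - s₀ = ((σ - s₀.re : ℝ) : ℂ) + (t - s₀.im : ℝ) * I := by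
    apply Complex.ext <;> simp
  rw [e]

/-- **Contour shift across a simple pole** at `s₀`. -/
theorem shift_Wh_pole {a : ℝ} (ha : 0 < a) {H : ℂ → ℂ} {σ₁ σ₂ : ℝ} {s₀ : ℂ} (h1 : σ₁ < s₀.re)
    (h2 : s₀.re < σ₂) (hH : DifferentiableOn ℂ H (strip σ₁ σ₂)) (h : ExpGr H σ₁ σ₂) :
    ∫ t : ℝ, H (σ₂ + t * I) / (σ₂ + t * I - s₀) * Wh a (σ₂ + t * I) =
      2 * Real.pi * (H s₀ * Wh a s₀) +
        ∫ t : ℝ, H (σ₁ + t * I) / (σ₁ + t * I - s₀) * Wh a (σ₁ + t * I) := by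
  have h12 : σ₁ ≤ σ₂ := (h1.trans h2).le
  set E : ℂ → ℂ := fun s => H s₀ * Complex.exp (2 * a * s₀ ^ 2) * Complex.exp (-(2 * a * s₀) * s)
    with hE
  have hE0 : E s₀ = H s₀ := by
    simp only [hE]
    rw [mul_assoc, ← Complex.exp_add, show 2 * a * s₀ ^ 2 + -(2 * a * s₀) * s₀ = 0 by ring,
      Complex.exp_zero, mul_one]
  have hEd : Differentiable ℂ E := by simp only [hE]; fun_prop
  have hEg : ExpGr E σ₁ σ₂ := (ExpGr.const _ _ _).mul (expGr_exp_mul _ _ _)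
  set K : ℂ → ℂ := dslope (fun s => H s - E s) s₀ with hK
  have hKd : DifferentiableOn ℂ K (strip σ₁ σ₂) :=
    (Complex.differentiableOn_dslope (strip_mem_nhds h1 h2)).2 (hH.sub hEd.differentiableOn)
  have hKe : ∀ s, s ≠ s₀ → K s = (H s - E s) * (s - s₀)⁻¹ := by
    intro s hs
    rw [hK, dslope_of_ne _ hs, slope_def_field, hE0, sub_self, sub_zero, div_eq_mul_inv]
  have hKg : ExpGr K σ₁ σ₂ := by
    refine ((h.sub hEg).mul (expGr_inv_sub s₀ σ₁ σ₂)).congr (|s₀.im| + 1) fun s _ hT => hKe s ?_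
    rintro rfl
    linarith
  have hshift := shift_Wh ha h12 hKd hKg
  have hW0 : Wh a 0 ≠ 0 := by
    simp only [Wh]
    refine mul_ne_zero (ofReal_ne_zero.2 (Real.sqrt_pos.2 ?_).ne') (Complex.exp_ne_zero _)
    have := Real.pi_pos
    positivity
  have line : ∀ σ : ℝ, σ₁ ≤ σ → σ ≤ σ₂ → σ ≠ s₀.re →
      ∫ t : ℝ, H (σ + t * I) / (σ + t * I - s₀) * Wh a (σ + t * I) =
        (∫ t : ℝ, K (σ + t * I) * Wh a (σ + t * I)) + H s₀ * Wh a s₀ / Wh a 0 *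
          ∫ t : ℝ, (((σ - s₀.re : ℝ) : ℂ) + t * I)⁻¹ * Wh a ((σ - s₀.re : ℝ) + t * I) := by
    intro σ hσ1 hσ2 hne
    have hne' : ∀ t : ℝ, (σ : ℂ) + t * I ≠ s₀ := fun t h0 => hne (by rw [← h0]; simp)
    have hpt : ∀ s : ℂ, E s * (s - s₀)⁻¹ * Wh a s =
        H s₀ * Wh a s₀ / Wh a 0 * ((s - s₀)⁻¹ * Wh a (s - s₀)) := by
      intro s
      have e1 : Complex.exp (2 * a * s₀ ^ 2) * Complex.exp (-(2 * a * s₀) * s) *
          Complex.exp (a * s ^ 2) = Complex.exp (a * s₀ ^ 2) * Complex.exp (a * (s - s₀) ^ 2) := by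
        rw [← Complex.exp_add, ← Complex.exp_add, ← Complex.exp_add]; congr 1; ring
      rw [div_mul_eq_mul_div, eq_div_iff hW0]
      simp only [hE, Wh]
      simp only [ne_eq, OfNat.ofNat_ne_zero, not_false_eq_true, zero_pow, mul_zero,
        Complex.exp_zero, mul_one]
      linear_combination (H s₀ * (s - s₀)⁻¹ * ((Real.sqrt (4 * Real.pi * a) : ℝ) : ℂ) ^ 2) * e1
    have hi : Integrable (fun t : ℝ => E (σ + t * I) * (σ + t * I - s₀)⁻¹ * Wh a (σ + t * I)) := by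
      refine integrable_mul_Wh ha (F := fun s => E s * (s - s₀)⁻¹) (σ₁ := σ) (σ₂ := σ) ?_
        ((hEg.mono hσ1 hσ2).mul (expGr_inv_sub _ _ _)) le_rfl le_rfl
      refine hEd.continuous.continuousOn.mul (ContinuousOn.inv₀ (by fun_prop) fun s hs h0 => hne ?_)
      rw [sub_eq_zero] at h0
      rw [← h0]
      exact le_antisymm hs.1 hs.2
    rw [← rd_pole_line, ← integral_const_mul,
      ← integral_add (integrable_mul_Wh ha hKd.continuousOn hKg hσ1 hσ2) (by simpa only [hpt] using hi)]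
    congr 1
    funext t
    rw [← hpt, hKe _ (hne' t)]
    ring
  rw [line σ₂ h12 le_rfl h2.ne', line σ₁ le_rfl h12 h1.ne, hshift, rd_pole_pos ha (sub_pos.2 h2),
    rd_pole_neg ha (sub_neg.2 h1)]
  generalize (∫ t : ℝ, K (σ₂ + t * I) * Wh a (σ₂ + t * I)) = J
  field_simp
  ring

end Crest.Agent.R017

end
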