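import Crest.Agent.R017.FE1

/-! # Row 17: functional equation and polynomial growth -/

set_option autoImplicit false

noncomputable section

open scoped BigOperators ComplexConjugate
open Complex MeasureTheory

namespace Crest.Agent.R017

theorem f2_inv_Gamma_le (n : ℕ) (z : ℂ) :
    ‖(Complex.Gamma z)⁻¹‖ ≤ (‖z‖ + n) ^ n * ‖(Complex.Gamma (z + n))⁻¹‖ := by
  induction n generalizing z with
  | zero => simp
  | succ n ih =>
    rw [Complex.one_div_Gamma_eq_self_mul_one_div_Gamma_add_one z, norm_mul]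
    have h1 := ih (z + 1)
    have h2 : ‖z + 1‖ ≤ ‖z‖ + 1 := by simpa using norm_add_le z 1
    have e : z + 1 + (n : ℂ) = z + ((n + 1 : ℕ) : ℂ) := by push_cast; ring
    rw [e] at h1
    calc ‖z‖ * ‖(Complex.Gamma (z + 1))⁻¹‖
        ≤ (‖z‖ + ((n + 1 : ℕ) : ℝ)) *
          ((‖z‖ + ((n + 1 : ℕ) : ℝ)) ^ n * ‖(Complex.Gamma (z + ((n + 1 : ℕ) : ℂ)))⁻¹‖) := by
          refine mul_le_mul (le_add_of_nonneg_right (by positivity)) (h1.trans ?_)
            (norm_nonneg _) (by positivity)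
          refine mul_le_mul_of_nonneg_right (pow_le_pow_left₀ (by positivity) ?_ n) (norm_nonneg _)
          push_cast
          linarith
      _ = _ := by ring

theorem f2_beta_le {α : ℝ} (hα : 0 < α) {u : ℂ} {v : ℝ} (hu : α ≤ u.re) (hv : 1 ≤ v) :
    ‖Complex.betaIntegral u v‖ ≤ 1 / α := by
  have h1 : ∫ x in (0 : ℝ)..1, x ^ (α - 1) = 1 / α := by
    rw [integral_rpow (Or.inl (by linarith))]
    simp [Real.zero_rpow hα.ne']
  rw [← h1, Complex.betaIntegral]
  refine intervalIntegral.norm_integral_le_of_norm_le zero_le_one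
    (Filter.Eventually.of_forall fun x hx => ?_) (intervalIntegral.intervalIntegrable_rpow' (by linarith))
  rw [norm_mul, Complex.norm_cpow_eq_rpow_re_of_pos hx.1]
  have e : (1 : ℂ) - (x : ℂ) = ((1 - x : ℝ) : ℂ) := by push_cast; ring
  have e2 : (v : ℂ) - 1 = ((v - 1 : ℝ) : ℂ) := by push_cast; ring
  rw [e, e2, ← Complex.ofReal_cpow (by linarith [hx.2]), Complex.norm_real,
    Real.norm_of_nonneg (Real.rpow_nonneg (by linarith [hx.2]) _)]
  have h2 : (1 - x) ^ (v - 1) ≤ 1 :=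
    Real.rpow_le_one (by linarith [hx.2]) (by linarith [hx.1]) (by linarith)
  have h3 : x ^ (u - 1).re ≤ x ^ (α - 1) :=
    Real.rpow_le_rpow_of_exponent_ge hx.1 hx.2 (by simpa using hu)
  exact (mul_le_of_le_one_right (Real.rpow_nonneg hx.1.le _) h2).trans h3

theorem f2_ratio_le {α : ℝ} (hα : 0 < α) {u : ℂ} {v : ℝ} (hu : α ≤ u.re) (hv : 2 ≤ v) :
    ‖Complex.Gamma u‖ * ‖(Complex.Gamma (u + v))⁻¹‖ ≤ 1 / α := by
  have h := Complex.Gamma_mul_Gamma_eq_betaIntegral (s := u) (t := v) (hα.trans_le hu)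
    (by simp; linarith)
  have hne : Complex.Gamma (u + v) ≠ 0 :=
    Complex.Gamma_ne_zero_of_re_pos (by simp; linarith)
  have h1 : 1 ≤ ‖Complex.Gamma v‖ := by
    rw [Complex.Gamma_ofReal, Complex.norm_real,
      Real.norm_of_nonneg (Real.Gamma_pos_of_pos (by linarith)).le, ← Real.Gamma_two]
    exact Real.Gamma_strictMonoOn_Ici.monotoneOn (Set.mem_Ici.2 le_rfl) hv hv
  have h2 : ‖Complex.Gamma u‖ * ‖(Complex.Gamma (u + v))⁻¹‖ * ‖Complex.Gamma v‖ =
      ‖Complex.betaIntegral u v‖ := by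
    rw [← norm_mul, ← norm_mul, mul_right_comm, h]
    congr 1
    field_simp
  exact (le_mul_of_one_le_right (by positivity) h1).trans (h2.le.trans (f2_beta_le hα hu (by linarith)))

/-- Ratios of Gamma factors on vertical lines grow polynomially. -/
theorem norm_Gamma_ratio_le (α β : ℝ) (hα : 0 < α) :
    ∃ C : ℝ, ∀ α' β' t : ℝ, α ≤ α' → α' ≤ α + 2 → β - 2 ≤ β' → β' ≤ β →
      ‖Complex.Gamma (α' - t * I) * (Complex.Gamma (β' + t * I))⁻¹‖ ≤ C * (1 + |t|) ^ C := by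
  obtain ⟨n, hn⟩ := exists_nat_ge (α + 6 - β)
  set M : ℝ := |β| + 3 + n with hM
  refine ⟨max (n : ℝ) (M ^ n / α), fun α' β' t h1 h2 h3 h4 => ?_⟩
  have e1 : ‖Complex.Gamma (α' - t * I)‖ = ‖Complex.Gamma (α' + t * I)‖ := by
    rw [← Complex.norm_conj, ← Complex.Gamma_conj]
    simp
  have e2 : (β' : ℂ) + t * I + n = (α' + t * I) + ((β' + n - α' : ℝ) : ℂ) := by
    push_cast; ring
  have h5 := f2_inv_Gamma_le n (β' + t * I)
  rw [e2] at h5
  have h6 := f2_ratio_le hα (u := α' + t * I) (v := β' + n - α') (by simpa using h1) (by linarith)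
  have h7 : ‖(β' : ℂ) + t * I‖ + n ≤ M * (1 + |t|) := by
    have a1 : ‖(β' : ℂ) + t * I‖ ≤ |β'| + |t| := by simpa using norm_add_le (β' : ℂ) (t * I)
    have a2 : |β'| ≤ |β| + 2 := abs_le.2 ⟨by linarith [neg_abs_le β], by linarith [le_abs_self β]⟩
    have a3 : 1 ≤ M := by
      have := abs_nonneg β
      have := Nat.cast_nonneg (α := ℝ) n
      linarith
    nlinarith [abs_nonneg t]
  have ht : 1 ≤ 1 + |t| := le_add_of_nonneg_right (abs_nonneg t)
  rw [norm_mul, e1]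
  calc ‖Complex.Gamma (α' + t * I)‖ * ‖(Complex.Gamma (β' + t * I))⁻¹‖
      ≤ ‖Complex.Gamma (α' + t * I)‖ * ((M * (1 + |t|)) ^ n *
        ‖(Complex.Gamma ((α' + t * I) + ((β' + n - α' : ℝ) : ℂ)))⁻¹‖) := by
        refine mul_le_mul_of_nonneg_left (h5.trans ?_) (norm_nonneg _)
        gcongr
    _ = (M * (1 + |t|)) ^ n * (‖Complex.Gamma (α' + t * I)‖ *
        ‖(Complex.Gamma ((α' + t * I) + ((β' + n - α' : ℝ) : ℂ)))⁻¹‖) := by ring
    _ ≤ (M * (1 + |t|)) ^ n * (1 / α) := mul_le_mul_of_nonneg_left h6 (by positivity)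
    _ = M ^ n / α * (1 + |t|) ^ (n : ℝ) := by rw [Real.rpow_natCast, mul_pow]; ring
    _ ≤ _ := mul_le_mul (le_max_right _ _) (Real.rpow_le_rpow_of_exponent_le ht (le_max_left _ _))
        (by positivity) (le_max_of_le_left (Nat.cast_nonneg n))

end Crest.Agent.R017

end
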