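import Crest.Agent.R017.Poisson

/-! # Row 17: reciprocity laws, the key identity, `τ` and `ϑ` -/

set_option autoImplicit false

noncomputable section

open scoped BigOperators ComplexConjugate
open Complex

namespace Crest.Agent.R017

/-! ### algebraic integers -/

theorem r1_omC_cube : omC ^ 3 = 1 := by rw [← emb_om, ← map_pow, om_cube, map_one]

theorem r1_int_of_pow {z : ℂ} {k : ℕ} (hk : 0 < k) (h : z ^ k = 1) : IsIntegral ℤ z :=
  IsIntegral.of_pow hk (h ▸ isIntegral_one)

theorem r1_int_int (a : ℤ) : IsIntegral ℤ (a : ℂ) := by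
  simpa using (isIntegral_algebraMap (R := ℤ) (A := ℂ) (x := a))

theorem r1_int_emb (x : O) : IsIntegral ℤ (emb x) := by
  have h : emb x = (x.re : ℂ) + (x.im : ℂ) * omC := rfl
  rw [h]
  exact (r1_int_int _).add ((r1_int_int _).mul (r1_int_of_pow (by norm_num) r1_omC_cube))

theorem r1_int_kap (n x : O) : IsIntegral ℤ (kap n x) := by
  by_cases h : kap n x = 0
  · rw [h]; exact isIntegral_zero
  · exact r1_int_of_pow (by norm_num) (kap_cube h)

theorem r1_eO_pow (x n : O) (k : ℕ) : eO x n ^ k = eO (k * x) n := by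
  induction k with
  | zero => simp [eO_of_dvd]
  | succ k ih => rw [pow_succ, ih, ← eO_add]; congr 1; push_cast; ring

theorem r1_nm_cast (n : O) : ((nm n : ℕ) : O) = n * star n := by
  rw [mul_star_self, ← nm_cast]; simp

theorem r1_int_eO {n : O} (hn : n ≠ 0) (x : O) : IsIntegral ℤ (eO x n) := by
  refine r1_int_of_pow (k := nm n) (Nat.pos_of_ne_zero fun h => hn (nm_eq_zero.1 h)) ?_
  rw [r1_eO_pow, eO_of_dvd]
  rw [r1_nm_cast]
  exact (dvd_mul_right n (star n)).mul_right x

theorem r1_frob_ring {R ι : Type*} [CommRing R] {l : ℕ} (hl : l.Prime) (k : ℕ) (s : Finset ι)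
    (f : ι → R) : ∃ r : R, (∑ i ∈ s, f i) ^ l ^ k = ∑ i ∈ s, f i ^ l ^ k + l * r := by
  classical
  induction s using Finset.induction_on with
  | empty => exact ⟨0, by simp [hl.ne_zero]⟩
  | insert a s ha ih =>
    obtain ⟨r, hr⟩ := ih
    obtain ⟨r', hr'⟩ := exists_add_pow_prime_pow_eq hl (f a) (∑ i ∈ s, f i) k
    refine ⟨r + f a * (∑ i ∈ s, f i) * r', ?_⟩
    rw [Finset.sum_insert ha, Finset.sum_insert ha, hr', hr]
    ring

theorem r1_frob {ι : Type*} {l : ℕ} (hl : l.Prime) (k : ℕ) (s : Finset ι)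
    (f : ι → ℂ) (hf : ∀ i, IsIntegral ℤ (f i)) :
    ∃ r : ℂ, IsIntegral ℤ r ∧ (∑ i ∈ s, f i) ^ l ^ k = ∑ i ∈ s, f i ^ l ^ k + l * r := by
  obtain ⟨r, hr⟩ := r1_frob_ring (R := integralClosure ℤ ℂ) hl k s (fun i => ⟨f i, hf i⟩)
  refine ⟨r, r.2, ?_⟩
  have := congrArg (integralClosure ℤ ℂ).val hr
  simpa using this

theorem r1_emb_mul_conj (q : O) : emb q * conj (emb q) = (nm q : ℂ) := by
  rw [← emb_star, ← map_mul, ← r1_nm_cast, map_natCast]

theorem r1_dvd_of_int {q a : O} (hq : Prime q) {r : ℂ} (hr : IsIntegral ℤ r)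
    (h : emb a = emb q * r) : q ∣ a := by
  by_contra hqa
  obtain ⟨x, y, hxy⟩ := (hq.irreducible.coprime_iff_not_dvd).2 hqa
  set w : ℂ := emb x + emb y * r with hw
  have hwi : IsIntegral ℤ w := (r1_int_emb x).add ((r1_int_emb y).mul hr)
  have h1 : emb q * w = 1 := by
    have := congrArg emb hxy
    rw [map_add, map_mul, map_mul, map_one, h] at this
    rw [hw]; linear_combination this
  have h2 : conj (emb q) * conj w = 1 := by rw [← map_mul, h1, map_one]
  have h3 : (nm q : ℂ) * (w * conj w) = 1 := by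
    rw [← r1_emb_mul_conj]
    linear_combination (conj (emb q) * conj w) * h1 + h2
  have hwc : IsIntegral ℤ (w * conj w) := hwi.mul (map_isIntegral_int (starRingEnd ℂ) hwi)
  have hq0 : nm q ≠ 0 := fun h => hq.ne_zero (nm_eq_zero.1 h)
  have h4 : w * conj w = algebraMap ℚ ℂ ((nm q : ℚ)⁻¹) := by
    have : (nm q : ℂ) ≠ 0 := by exact_mod_cast hq0
    simp only [eq_ratCast, Rat.cast_inv, Rat.cast_natCast]
    field_simp
    linear_combination h3
  rw [h4, isIntegral_algebraMap_iff (algebraMap ℚ ℂ).injective,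
    IsIntegrallyClosed.isIntegral_iff] at hwc
  obtain ⟨z, hz⟩ := hwc
  have h5 : (nm q : ℚ) * (z : ℚ) = 1 := by
    have : (nm q : ℚ) ≠ 0 := by exact_mod_cast hq0
    rw [show (z : ℚ) = algebraMap ℤ ℚ z by simp, hz]
    field_simp
  have h6 : (nm q : ℤ) * z = 1 := by exact_mod_cast h5
  have h7 : (nm q : ℤ) = 1 := Int.eq_one_of_mul_eq_one_right (by positivity) h6
  apply hq.not_isUnit
  rw [b1_isUnit_iff_nz, ← nm_cast, h7]

theorem r1_nm_natCast (l : ℕ) : nm (l : O) = l ^ 2 := by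
  have := Nr_natCast l
  unfold Nr at this
  exact_mod_cast this

theorem r1_prime_under {q : O} (hq : Prime q) :
    ∃ l k : ℕ, l.Prime ∧ q ∣ (l : O) ∧ nm q = l ^ k := by
  have hq0 : nm q ≠ 0 := fun h => hq.ne_zero (nm_eq_zero.1 h)
  have h1 : q ∣ ((nm q : ℕ) : O) := by rw [r1_nm_cast]; exact dvd_mul_right _ _
  have h2 : ((nm q : ℕ) : O) = ((nm q).primeFactorsList.map (fun l : ℕ => (l : O))).prod := by
    conv_lhs => rw [← Nat.prod_primeFactorsList hq0]
    rw [Nat.cast_list_prod]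
  rw [h2, Prime.dvd_prod_iff hq] at h1
  obtain ⟨a, ha, hqa⟩ := h1
  obtain ⟨l, hl, rfl⟩ := List.mem_map.1 ha
  have hlp := Nat.prime_of_mem_primeFactorsList hl
  have h3 : nm q ∣ l ^ 2 := by
    obtain ⟨c, hc⟩ := hqa
    rw [← r1_nm_natCast, hc, nm_mul]
    exact dvd_mul_right _ _
  obtain ⟨k, -, hk⟩ := (Nat.dvd_prime_pow hlp).1 h3
  exact ⟨l, k, hlp, hqa, hk⟩

theorem r1_gs_cube {p : O} (hp : Prime p) (h : Prim p) :
    gs (kap p) p 1 ^ 3 = emb (-(p * star p * p)) := by
  have h1 := g3_cube hp h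
  have hs : (0 : ℝ) < Real.sqrt (Nr p) := Real.sqrt_pos.2 (Nr_pos hp.ne_zero)
  have hs' : (Real.sqrt (Nr p) : ℂ) ≠ 0 := by exact_mod_cast hs.ne'
  have hsq : (Real.sqrt (Nr p) : ℂ) ^ 2 = (nm p : ℂ) := by
    rw [← Complex.ofReal_pow, Real.sq_sqrt (Nr_nonneg p)]; simp [Nr]
  rw [g3, ang, norm_emb, div_pow] at h1
  rw [map_neg, map_mul, ← r1_nm_cast, map_natCast, ← hsq]
  field_simp at h1
  linear_combination h1

theorem r1_kap_pow {n x : O} {N : ℕ} (hN : N % 3 = 1) : kap n x ^ N = kap n x := by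
  by_cases h : kap n x = 0
  · rw [h, zero_pow (by omega)]
  · rw [show N = 3 * (N / 3) + 1 by omega, pow_succ, pow_mul, kap_cube h, one_pow, one_mul]

theorem r1_prime_star {p : O} (hp : Prime p) : Prime (star p) :=
  (MulEquiv.prime_iff (starRingAut (R := O)).toMulEquiv).2 hp

theorem r1_star_dvd {a b : O} (h : a ∣ b) : star a ∣ star b := by
  obtain ⟨c, rfl⟩ := h
  rw [star_mul']; exact dvd_mul_right _ _

theorem r1_not_dvd_symm {p q : O} (hp : Prime p) (hq : Prime q) (h : ¬ q ∣ p * star p) :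
    ¬ p ∣ q * star q := by
  intro h'
  apply h
  rcases hp.dvd_or_dvd h' with h1 | h1
  · exact ((hp.associated_of_dvd hq h1).symm.dvd).mul_right _
  · have h2 : star p ∣ q := by simpa using r1_star_dvd h1
    exact (((r1_prime_star hp).associated_of_dvd hq h2).symm.dvd).mul_left _

/-- The Gauss sum congruence. -/
theorem r1_key {p q : O} (hp : Prime p) (hpp : Prim p) (hq : Prime q) (hqp : Prim q)
    (h : ¬ q ∣ p * star p) : kap q (p * star p * p) = kap p (q * star q) ^ 2 := by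
  obtain ⟨l, k, hl, ⟨c, hc⟩, hk⟩ := r1_prime_under hq
  have hN := hqp.nm_mod_three
  obtain ⟨r, hr, hG⟩ := r1_frob hl k (reps p) (fun x => kap p x * eO (1 * x) p)
    (fun x => (r1_int_kap p x).mul (r1_int_eO hp.ne_zero _))
  rw [← hk] at hG
  have hGi : IsIntegral ℤ (gs (kap p) p 1) :=
    IsIntegral.sum _ fun x _ => (r1_int_kap p x).mul (r1_int_eO hp.ne_zero _)
  have h1 : ∑ x ∈ reps p, (kap p x * eO (1 * x) p) ^ nm q
      = conj (kap p (q * star q)) * gs (kap p) p 1 := by
    have := gs_kap_pow hpp.not_lam_dvd hp.squarefree (k := 1) (by norm_num) (q * star q)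
    simp only [pow_one] at this
    rw [← this, gs]
    refine Finset.sum_congr rfl fun x _ => ?_
    rw [mul_pow, r1_kap_pow hN, r1_eO_pow, r1_nm_cast, one_mul]
  obtain ⟨i, -, -, hi⟩ := kap_prime_spec hp hpp.not_lam_dvd (r1_not_dvd_symm hp hq h)
  rw [h1, conj_kap, hi] at hG
  change gs (kap p) p 1 ^ nm q = _ at hG
  set G := gs (kap p) p 1 with hGdef
  set b : O := -(p * star p * p) with hb
  have hG3 : G ^ 3 = emb b := r1_gs_cube hp hpp
  have hqb : ¬ q ∣ b := by
    rw [hb, dvd_neg]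
    intro h'
    rcases hq.dvd_or_dvd h' with h2 | h2
    · exact h h2
    · exact h (h2.mul_right _)
  have h2 : G ^ nm q = emb (b ^ ((nm q - 1) / 3)) * G := by
    conv_lhs => rw [show nm q = 3 * ((nm q - 1) / 3) + 1 by omega]
    rw [pow_succ, pow_mul, hG3, map_pow]
  have hl' : (l : ℂ) = emb q * emb c := by rw [← map_mul, ← hc, map_natCast]
  have h3 : emb ((b ^ ((nm q - 1) / 3) - om ^ (i * 2)) * b) = emb q * (emb c * r * G ^ 2) := by
    rw [map_mul, map_sub, map_pow emb om, emb_om, pow_mul, ← hG3]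
    rw [h2, hl'] at hG
    linear_combination G ^ 2 * hG
  have h4 := r1_dvd_of_int hq (((r1_int_emb c).mul hr).mul (hGi.pow 2)) h3
  have h5 := kap_prime_eq hq hqp.not_lam_dvd ((hq.dvd_or_dvd h4).resolve_right hqb)
  rw [hb, kap_neg_right] at h5
  rw [h5, hi, pow_mul]

theorem r1_recipA {p q : O} (hp : Prime p) (hpp : Prim p) (hq : Prime q) (hqp : Prim q)
    (h : ¬ q ∣ p * star p) : kap p q = kap q p := by
  have h' := r1_not_dvd_symm hp hq h
  have k1 := r1_key (r1_prime_star hp) hpp.star hq hqp (by rwa [star_star, mul_comm])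
  have k2 := r1_key hq hqp hp hpp h'
  have k3 : kap (star p) (q * star q) = kap p (q * star q) ^ 2 := by
    rw [← conj_kap, ← kap_star, star_mul', star_star, mul_comm (star q)]
  have n1 : kap p (q * star q) ≠ 0 := by
    rw [Ne, kap_eq_zero hp.ne_zero, not_or, not_not]
    exact ⟨hpp.not_lam_dvd, (hp.irreducible.coprime_iff_not_dvd).2 h'⟩
  have n2 : kap q (p * star p) ≠ 0 := by
    rw [Ne, kap_eq_zero hq.ne_zero, not_or, not_not]
    exact ⟨hqp.not_lam_dvd, (hq.irreducible.coprime_iff_not_dvd).2 h⟩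
  have c1 := kap_cube n1
  rw [star_star, k3, mul_comm (star p) p, kap_mul_right] at k1
  rw [kap_mul_right] at k2
  have k4 : kap q (p * star p) = kap q p * kap q (star p) := kap_mul_right _ _ _
  apply mul_left_cancel₀ n1
  rw [k2]
  have k5 : kap p (q * star q) = kap q (p * star p) * kap q (star p) := by
    rw [k1]; linear_combination (-kap p (q * star q)) * c1
  rw [k5]
  linear_combination kap q (p * star p) * k4

theorem r1_recipB {p : O} (hp : Prime p) (hpp : Prim p) {n : O} (hn : Prim n) :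
    IsCoprime n (p * star p) → kap p n = kap n p := by
  refine Prim.induction (P := fun n => IsCoprime n (p * star p) → kap p n = kap n p) ?_ ?_ hn
  · intro _
    rw [kap_one_right hpp.not_lam_dvd, kap_unit_left isUnit_one]
  · intro q m hq hqp hm ih hc
    rw [kap_mul_right, kap_mul_left hq.ne_zero hm.ne_zero, ih hc.of_mul_left_right,
      r1_recipA hp hpp hq hqp ((hq.irreducible.coprime_iff_not_dvd).1 hc.of_mul_left_left)]

theorem r1_recipC {p : O} (hp : Prime p) (hpp : Prim p) : kap p (star p) = kap (star p) p := by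
  by_cases he : p = star p
  · rw [← he]
  have hs := r1_prime_star hp
  have hsp := hpp.star
  set T : O := -(p + star p) with hT
  have hTp : Prim T := by
    have h1 := hpp
    have h2 := hsp
    unfold Prim at *
    rw [show T - 1 = -((p - 1) + (star p - 1)) - 3 by rw [hT]; ring]
    exact dvd_sub (dvd_add h1 h2).neg_right dvd_rfl
  have n1 : ¬ p ∣ T := by
    intro h
    have h2 : p ∣ star p := by
      rw [show star p = -T - p by rw [hT]; ring]
      exact dvd_sub h.neg_right dvd_rfl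
    exact he (hpp.eq_of_associated hsp (hp.associated_of_dvd hs h2))
  have n2 : ¬ star p ∣ T := by
    intro h
    have h2 : star p ∣ p := by
      conv_rhs => rw [show p = -T - star p by rw [hT]; ring]
      exact dvd_sub h.neg_right dvd_rfl
    exact he (hsp.eq_of_associated hpp (hs.associated_of_dvd hp h2)).symm
  have hc : IsCoprime T (p * star p) :=
    IsCoprime.mul_right ((hp.irreducible.coprime_iff_not_dvd).2 n1).symm
      ((hs.irreducible.coprime_iff_not_dvd).2 n2).symm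
  have e1 : kap p (star p) = kap T p := by
    rw [← r1_recipB hp hpp hTp hc, ← kap_neg_right p T]
    exact kap_congr' hp.ne_zero ⟨-1, by rw [hT]; ring⟩
  have e2 : kap (star p) p = kap T (star p) := by
    rw [← r1_recipB hs hsp hTp (by rwa [star_star, mul_comm]), ← kap_neg_right (star p) T]
    exact kap_congr' hs.ne_zero ⟨-1, by rw [hT]; ring⟩
  rw [e1, e2, ← kap_neg_right T p]
  exact kap_congr' hTp.ne_zero ⟨1, by rw [hT]; ring⟩

theorem r1_recipD {p q : O} (hp : Prime p) (hpp : Prim p) (hq : Prime q) (hqp : Prim q) :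
    kap p q = kap q p := by
  by_cases h : q ∣ p * star p
  · rcases hq.dvd_or_dvd h with h1 | h1
    · rw [hqp.eq_of_associated hpp (hq.associated_of_dvd hp h1)]
    · rw [hqp.eq_of_associated hpp.star (hq.associated_of_dvd (r1_prime_star hp) h1)]
      exact r1_recipC hp hpp
  · exact r1_recipA hp hpp hq hqp h

theorem r1_recipE {p : O} (hp : Prime p) (hpp : Prim p) {n : O} (hn : Prim n) :
    kap p n = kap n p := by
  refine Prim.induction (P := fun n => kap p n = kap n p) ?_ ?_ hn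
  · rw [kap_one_right hpp.not_lam_dvd, kap_unit_left isUnit_one]
  · intro q m hq hqp hm ih
    rw [kap_mul_right, kap_mul_left hq.ne_zero hm.ne_zero, ih, r1_recipD hp hpp hq hqp]

/-! ### cubic reciprocity -/
theorem cubic_recip {m n : O} (hm : Prim m) (hn : Prim n) : kap m n = kap n m := by
  refine Prim.induction (P := fun m => kap m n = kap n m) ?_ ?_ hm
  · rw [kap_one_right hn.not_lam_dvd, kap_unit_left isUnit_one]
  · intro q k hq hqp hk ih
    rw [kap_mul_right, kap_mul_left hq.ne_zero hk.ne_zero, ih, r1_recipE hq hqp hn]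

theorem r1_lam_dvd_nine : lam ∣ (9 : O) := by
  rw [show (9 : O) = 3 * 3 by norm_num]; exact lam_dvd_three.mul_right _

theorem r1_not_lam {n n' : O} (hn : ¬ lam ∣ n) (h : (9 : O) ∣ n - n') : ¬ lam ∣ n' := by
  intro h'
  apply hn
  rw [show n = (n - n') + n' by ring]
  exact dvd_add (r1_lam_dvd_nine.trans h) h'

theorem r1_kap_om_per {n n' : O} (hn : ¬ lam ∣ n) (h : (9 : O) ∣ n - n') :
    kap n om = kap n' om := by
  have hn' := r1_not_lam hn h
  rw [kap_om hn, kap_om hn']
  have h1 := b1_nz_mod_three hn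
  have h2 := b1_nz_mod_three hn'
  have h3 : (9 : ℤ) ∣ nz n - nz n' := by
    obtain ⟨c, hc⟩ := h
    have hc' : n = n' + 9 * c := by rw [← hc]; ring
    have e1 : (9 : O).re = 9 := rfl
    have e2 : (9 : O).im = 0 := rfl
    rw [hc']
    simp only [nz, QuadraticAlgebra.re_add, QuadraticAlgebra.im_add, QuadraticAlgebra.re_mul,
      QuadraticAlgebra.im_mul, e1, e2]
    exact ⟨2 * n'.re * c.re + 9 * c.re ^ 2 - n'.re * c.im - c.re * n'.im - 9 * c.re * c.im
      + 2 * n'.im * c.im + 9 * c.im ^ 2, by ring⟩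
  have h4 := nm_cast n
  have h5 := nm_cast n'
  rw [pow_eq_pow_mod _ r1_omC_cube, pow_eq_pow_mod ((nm n' - 1) / 3) r1_omC_cube]
  congr 1
  omega

theorem kap_unit_per {n n' u : O} (hu : IsUnit u) (hn : ¬ lam ∣ n) (h : (9 : O) ∣ n - n') :
    kap n u = kap n' u := by
  have hn' := r1_not_lam hn h
  have h1 : kap n 1 = kap n' 1 := by rw [kap_one_right hn, kap_one_right hn']
  have h2 := r1_kap_om_per hn h
  have h3 : kap n (om ^ 2) = kap n' (om ^ 2) := by
    rw [kap_pow_right _ _ two_ne_zero, kap_pow_right _ _ two_ne_zero, h2]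
  rcases isUnit_iff.1 hu with rfl | rfl | rfl | rfl | rfl | rfl
  all_goals first | assumption | (rw [kap_neg_right, kap_neg_right]; assumption)

theorem r1_prim_of_nine {n : O} (h : (9 : O) ∣ n - 1) : Prim n :=
  Dvd.dvd.trans ⟨3, by norm_num⟩ h

theorem r1_kap_lam_ne {n : O} (hn : ¬ lam ∣ n) : kap n lam ≠ 0 := by
  have h0 : n ≠ 0 := by rintro rfl; exact hn (dvd_zero _)
  rw [Ne, kap_eq_zero h0, not_or, not_not]
  exact ⟨hn, ((prime_lam.irreducible.coprime_iff_not_dvd).2 hn).symm⟩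

theorem r1_lam_one_aux {n t : O} (h : n - 1 = 9 * t) (ht : ¬ lam ∣ t) : kap n lam = 1 := by
  have h9 : (9 : O) ∣ n - 1 := ⟨t, h⟩
  have hn := r1_prim_of_nine h9
  obtain ⟨u, hu, hs⟩ := exists_prim ht
  have hun : ∀ v : O, IsUnit v → kap n v = 1 := fun v hv => by
    rw [kap_unit_per hv hn.not_lam_dvd h9, kap_unit_left isUnit_one]
  have h1 : kap n (u * t) = 1 := by
    rw [cubic_recip hn hs, ← kap_one_right hs.not_lam_dvd]
    refine kap_congr' hs.ne_zero ?_
    rw [h]
    exact ((hu.mul_left_dvd).2 dvd_rfl).mul_left _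
  rw [kap_mul_right, hun u hu, one_mul] at h1
  have h2 : kap n (9 * t) = 1 := by
    rw [← kap_one_right hn.not_lam_dvd, ← kap_neg_right n 1]
    exact kap_congr' hn.ne_zero ⟨1, by rw [← h]; ring⟩
  have h3 : (9 : O) = lam ^ 4 * om := by decide
  rw [kap_mul_right, h1, h3, kap_mul_right, hun om (isUnit_iff.2 (by simp)),
    kap_pow_right _ _ (by norm_num), r1_kap_pow (by norm_num)] at h2
  simpa using h2

theorem r1_lam_one {n : O} (h : (9 : O) ∣ n - 1) : kap n lam = 1 := by
  obtain ⟨t, ht⟩ := h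
  by_cases hl : lam ∣ t
  · have hn := r1_prim_of_nine ⟨t, ht⟩
    have h2 : ¬ lam ∣ (-2 : O) := by
      rw [b1_lam_dvd]; decide
    have h2' : (-2 : O) ≠ 0 := by rintro h; exact h2 (h ▸ dvd_zero _)
    have h1 : kap ((-2) ^ 3 * n) lam = 1 := by
      refine r1_lam_one_aux (t := -8 * t - 1) (by linear_combination (-8) * ht) ?_
      intro h'
      apply prime_lam.not_isUnit
      rw [isUnit_iff_dvd_one, show (1 : O) = -8 * t - (-8 * t - 1) by ring]
      exact dvd_sub (hl.mul_left _) h'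
    rw [kap_mul_left (pow_ne_zero _ h2') hn.ne_zero, kap_pow_left h2', kap_cube (r1_kap_lam_ne h2),
      one_mul] at h1
    exact h1
  · exact r1_lam_one_aux ht hl

theorem r1_lam_per_prim {n n' : O} (hn : Prim n) (hn' : Prim n') (h : (9 : O) ∣ n - n') :
    kap n lam = kap n' lam := by
  have h1 : (9 : O) ∣ n * n' ^ 2 - 1 := by
    obtain ⟨c, hc⟩ := hn'
    obtain ⟨d, hd⟩ := h
    have e1 : n' = 1 + 3 * c := by rw [← hc]; ring
    have e2 : n = n' + 9 * d := by rw [← hd]; ring
    refine ⟨d * n' ^ 2 + c + 3 * c ^ 2 + 3 * c ^ 3, ?_⟩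
    rw [e2, e1]; ring
  have h2 := r1_lam_one h1
  rw [kap_mul_left hn.ne_zero (pow_ne_zero _ hn'.ne_zero), kap_pow_left hn'.ne_zero] at h2
  have h3 := kap_cube (r1_kap_lam_ne hn'.not_lam_dvd)
  linear_combination kap n' lam * h2 - kap n lam * h3

theorem r1_kap_unit_mul {u n : O} (hu : IsUnit u) (x : O) : kap (u * n) x = kap n x :=
  kap_associated (associated_unit_mul_left n u hu) x

theorem r1_prim_congr {m m' : O} (hm : Prim m) (h : (9 : O) ∣ m - m') : Prim m' := by
  unfold Prim at *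
  rw [show m' - 1 = (m - 1) - (m - m') by ring]
  exact dvd_sub hm (Dvd.dvd.trans ⟨3, by norm_num⟩ h)

theorem kap_lam_per {n n' : O} (hn : ¬ lam ∣ n) (h : (9 : O) ∣ n - n') : kap n lam = kap n' lam := by
  obtain ⟨u, hu, hp⟩ := exists_prim hn
  have h' : (9 : O) ∣ u * n - u * n' := by rw [← mul_sub]; exact h.mul_left _
  rw [← r1_kap_unit_mul (n := n) hu, ← r1_kap_unit_mul (n := n') hu]
  exact r1_lam_per_prim hp (r1_prim_congr hp h') h'

/-- `n ↦ (r / n)₃` is periodic modulo `9 rad r`. -/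
theorem kap_per {r n n' : O} (hr : r ≠ 0) (hn : n ≠ 0) (hn' : n' ≠ 0) (h : 9 * rad r ∣ n - n') :
    kap n r = kap n' r := by
  have h9 : (9 : O) ∣ n - n' := (dvd_mul_right _ _).trans h
  by_cases hl : lam ∣ n
  · have hl' : lam ∣ n' := by
      rw [show n' = n - (n - n') by ring]
      exact dvd_sub hl (r1_lam_dvd_nine.trans h9)
    rw [(kap_eq_zero hn).2 (Or.inl hl), (kap_eq_zero hn').2 (Or.inl hl')]
  have hl' := r1_not_lam hl h9
  obtain ⟨v, k, s, hv, hs, rfl⟩ := exists_decomp hr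
  have e1 := kap_unit_per hv hl h9
  have e2 : kap n (lam ^ k) = kap n' (lam ^ k) := by
    rcases Nat.eq_zero_or_pos k with rfl | hk
    · rw [pow_zero, kap_one_right hl, kap_one_right hl']
    · rw [kap_pow_right _ _ hk.ne', kap_pow_right _ _ hk.ne', kap_lam_per hl h9]
  have e3 : kap n s = kap n' s := by
    obtain ⟨u, hu, hp⟩ := exists_prim hl
    have h' : (9 : O) ∣ u * n - u * n' := by rw [← mul_sub]; exact h9.mul_left _
    rw [← r1_kap_unit_mul (n := n) hu, ← r1_kap_unit_mul (n := n') hu, cubic_recip hp hs,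
      cubic_recip (r1_prim_congr hp h') hs]
    refine kap_congr hs.ne_zero ?_
    rw [← mul_sub]
    exact (((rad_dvd_rad hr (dvd_mul_left _ _)).trans (dvd_mul_left _ _)).trans h).mul_left _
  rw [kap_mul_right, kap_mul_right, kap_mul_right, kap_mul_right, e1, e2, e3]

end Crest.Agent.R017

end
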