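import Crest.Agent.R017.Poisson1

/-! # Row 17: Gaussian Poisson summation on `O` -/

set_option autoImplicit false

noncomputable section

open scoped BigOperators ComplexConjugate
open Complex

namespace Crest.Agent.R017

theorem p2_norm_Gamma_le_real {s : ℂ} (hs : 0 < s.re) :
    ‖Complex.Gamma s‖ ≤ Real.Gamma s.re := by
  rw [Complex.Gamma_eq_integral hs, Real.Gamma_eq_integral hs, Complex.GammaIntegral]
  refine (MeasureTheory.norm_integral_le_integral_norm _).trans (le_of_eq ?_)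
  refine MeasureTheory.setIntegral_congr_fun measurableSet_Ioi fun x hx => ?_
  have hx' : (0 : ℝ) < x := hx
  rw [norm_mul, Complex.norm_of_nonneg (Real.exp_pos (-x)).le,
    Complex.norm_cpow_eq_rpow_re_of_pos hx' _]
  simp

theorem p2_Gamma_nat (k : ℕ) : ∀ {σ : ℝ}, 0 < σ →
    ∃ C : ℝ, ∀ t : ℝ, ‖Complex.Gamma (σ + t * I)‖ * (1 + |t|) ^ k ≤ C := by
  induction k with
  | zero =>
    intro σ hσ
    refine ⟨Real.Gamma σ, fun t => ?_⟩
    have h := p2_norm_Gamma_le_real (s := σ + t * I) (by simpa using hσ)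
    simpa using h
  | succ k ih =>
    intro σ hσ
    obtain ⟨C, hC⟩ := ih (σ := σ + 1) (by linarith)
    refine ⟨(1 / σ + 1) * C, fun t => ?_⟩
    have hre : (σ + t * I : ℂ).re = σ := by simp
    have him : (σ + t * I : ℂ).im = t := by simp
    have hs0 : (σ + t * I : ℂ) ≠ 0 := by
      intro h
      rw [h] at hre
      simp at hre
      linarith
    have h1 : Complex.Gamma (((σ + 1 : ℝ) : ℂ) + t * I) =
        (σ + t * I) * Complex.Gamma (σ + t * I) := by
      rw [← Complex.Gamma_add_one _ hs0]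
      congr 1
      push_cast
      ring
    have h2 : σ ≤ ‖(σ + t * I : ℂ)‖ := by
      have := Complex.re_le_norm (σ + t * I : ℂ)
      rwa [hre] at this
    have h3 : |t| ≤ ‖(σ + t * I : ℂ)‖ := by
      have := Complex.abs_im_le_norm (σ + t * I : ℂ)
      rwa [him] at this
    have h4 : 1 + |t| ≤ (1 / σ + 1) * ‖(σ + t * I : ℂ)‖ := by
      have : 1 ≤ 1 / σ * ‖(σ + t * I : ℂ)‖ := by
        rw [one_div, inv_mul_eq_div, le_div_iff₀ hσ]
        linarith
      linarith [add_mul (1 / σ) 1 ‖(σ + t * I : ℂ)‖]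
    have h5 := hC t
    rw [h1, norm_mul] at h5
    have h6 : 0 ≤ 1 / σ + 1 := by positivity
    calc ‖Complex.Gamma (σ + t * I)‖ * (1 + |t|) ^ (k + 1)
        = (1 + |t|) * (‖Complex.Gamma (σ + t * I)‖ * (1 + |t|) ^ k) := by ring
      _ ≤ ((1 / σ + 1) * ‖(σ + t * I : ℂ)‖) *
            (‖Complex.Gamma (σ + t * I)‖ * (1 + |t|) ^ k) := by
          gcongr
      _ = (1 / σ + 1) * (‖(σ + t * I : ℂ)‖ * ‖Complex.Gamma (σ + t * I)‖ * (1 + |t|) ^ k) := by
          ring
      _ ≤ (1 / σ + 1) * C := by gcongr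

theorem p2_norm_Gamma_le {σ : ℝ} (hσ : 0 < σ) (A : ℝ) :
    ∃ C : ℝ, ∀ t : ℝ, ‖Complex.Gamma (σ + t * I)‖ ≤ C * (1 + |t|) ^ (-A) := by
  obtain ⟨C, hC⟩ := p2_Gamma_nat ⌈A⌉₊ hσ
  refine ⟨C, fun t => ?_⟩
  have h1 : (1 : ℝ) ≤ 1 + |t| := by linarith [abs_nonneg t]
  have h0 : (0 : ℝ) < 1 + |t| := by linarith
  have h2 : (1 + |t|) ^ A ≤ (1 + |t|) ^ ⌈A⌉₊ := by
    rw [← Real.rpow_natCast]
    exact Real.rpow_le_rpow_of_exponent_le h1 (Nat.le_ceil A)
  rw [Real.rpow_neg h0.le, ← div_eq_mul_inv, le_div_iff₀ (Real.rpow_pos_of_pos h0 A)]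
  exact (mul_le_mul_of_nonneg_left h2 (norm_nonneg _)).trans (hC t)

theorem p2_continuous_Gamma {σ : ℝ} (hσ : 0 < σ) :
    Continuous (fun t : ℝ => Complex.Gamma (σ + t * I)) := by
  refine continuous_iff_continuousAt.2 fun t => ?_
  have h1 : ContinuousAt Complex.Gamma (σ + t * I) := by
    refine (Complex.differentiableAt_Gamma _ fun m hm => ?_).continuousAt
    have := congrArg Complex.re hm
    simp at this
    have h2 : (0 : ℝ) ≤ m := Nat.cast_nonneg m
    linarith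
  exact ContinuousAt.comp (f := fun t : ℝ => (σ + t * I : ℂ)) h1 (by fun_prop)

theorem p2_integrable_Gamma_mul {σ : ℝ} (hσ : 0 < σ) (A : ℝ) :
    MeasureTheory.Integrable (fun t : ℝ => ‖Complex.Gamma (σ + t * I)‖ * (1 + |t|) ^ A) := by
  obtain ⟨C, hC⟩ := p2_norm_Gamma_le hσ (A + 2)
  have hi : MeasureTheory.Integrable (fun t : ℝ => (1 + ‖t‖) ^ (-(2 : ℝ))) :=
    integrable_one_add_norm (by simp)
  refine (hi.const_mul C).mono' ?_ (Filter.Eventually.of_forall fun t => ?_)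
  · refine Continuous.aestronglyMeasurable ?_
    refine (p2_continuous_Gamma hσ).norm.mul ?_
    refine Continuous.rpow_const (by fun_prop) fun t => Or.inl ?_
    positivity
  · have h0 : (0 : ℝ) < 1 + |t| := by positivity
    rw [Real.norm_of_nonneg (by positivity), Real.norm_eq_abs]
    calc ‖Complex.Gamma (σ + t * I)‖ * (1 + |t|) ^ A
        ≤ C * (1 + |t|) ^ (-(A + 2)) * (1 + |t|) ^ A := by
          gcongr
          exact hC t
      _ = C * (1 + |t|) ^ (-(2 : ℝ)) := by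
          rw [mul_assoc, ← Real.rpow_add h0]
          congr 2
          ring

theorem p2_mellin_exp {s : ℂ} (hs : 0 < s.re) :
    mellin (fun x : ℝ => ((Real.exp (-x) : ℝ) : ℂ)) s = Complex.Gamma s := by
  rw [Complex.Gamma_eq_integral hs, Complex.GammaIntegral_eq_mellin]

theorem p2_exp_mellin {σ x : ℝ} (hσ : 0 < σ) (hx : 0 < x) :
    ((Real.exp (-x) : ℝ) : ℂ) = (1 / (2 * Real.pi) : ℂ) *
      ∫ t : ℝ, Complex.Gamma (σ + t * I) * (x : ℂ) ^ (-(σ + t * I)) := by
  have hre : ∀ t : ℝ, 0 < (σ + t * I : ℂ).re := fun t => by simpa using hσ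
  have hconv : MellinConvergent (fun x : ℝ => ((Real.exp (-x) : ℝ) : ℂ)) σ := by
    have := Complex.GammaIntegral_convergent (s := σ) (by simpa using hσ)
    refine this.congr_fun (fun x _ => ?_) measurableSet_Ioi
    simp only [smul_eq_mul]
    ring
  have hvert : VerticalIntegrable (mellin (fun x : ℝ => ((Real.exp (-x) : ℝ) : ℂ))) σ := by
    unfold VerticalIntegrable
    simp_rw [p2_mellin_exp (hre _)]
    have h := p2_integrable_Gamma_mul hσ 0
    simp only [Real.rpow_zero, mul_one] at h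
    exact (MeasureTheory.integrable_norm_iff
      (p2_continuous_Gamma hσ).aestronglyMeasurable).1 h
  have h := mellinInv_mellin_eq σ (fun x : ℝ => ((Real.exp (-x) : ℝ) : ℂ)) hx hconv hvert
    (by fun_prop)
  rw [← h, mellinInv]
  simp_rw [p2_mellin_exp (hre _)]
  rw [Complex.real_smul]
  push_cast
  congr 1
  refine MeasureTheory.integral_congr_ae (Filter.Eventually.of_forall fun t => ?_)
  simp only [smul_eq_mul]
  ring

/-- Mellin–Barnes representation of the Gaussian. -/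
theorem Phi_mellin {σ y : ℝ} (hσ : 0 < σ) (hy : 0 < y) :
    (Phi y : ℂ) = (1 / (2 * Real.pi) : ℂ) *
      ∫ t : ℝ, Complex.Gamma (σ + t * I) * ((c0 * y : ℝ) : ℂ) ^ (-(σ + t * I)) :=
  p2_exp_mellin hσ (mul_pos (by unfold c0; positivity) hy)
theorem norm_Gamma_le {σ : ℝ} (hσ : 0 < σ) (A : ℝ) :
    ∃ C : ℝ, ∀ t : ℝ, ‖Complex.Gamma (σ + t * I)‖ ≤ C * (1 + |t|) ^ (-A) :=
  p2_norm_Gamma_le hσ A
theorem integrable_Gamma_mul {σ : ℝ} (hσ : 0 < σ) (A : ℝ) :
    MeasureTheory.Integrable (fun t : ℝ => ‖Complex.Gamma (σ + t * I)‖ * (1 + |t|) ^ A) :=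
  p2_integrable_Gamma_mul hσ A

end Crest.Agent.R017

end
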