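import Crest.Agent.R017.Reflect1
import Crest.Agent.R017.Shift

/-! # Row 17: reflection, decay and asymptotics of smooth character sums -/

set_option autoImplicit false

noncomputable section

open scoped BigOperators ComplexConjugate
open Complex MeasureTheory

namespace Crest.Agent.R017

theorem rd_Lo_gr {q : O} {η : O → ℂ} (h : IsCh q η) (σ₁ σ₂ : ℝ) : ExpGr (Lo η) σ₁ σ₂ := by
  obtain ⟨f, S, η₁, w, G, -, -, hS, -, -, -, -, -, -, -, -, hLo, -, hgr⟩ := h.exists_FE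
  obtain ⟨C, hC⟩ := hgr (|σ₁| + |σ₂|)
  have hG : ExpGr G σ₁ σ₂ := ⟨C, 0, fun s hs _ => hC s (by
    rw [abs_le]
    constructor <;>
      linarith [hs.1, hs.2, neg_abs_le σ₁, le_abs_self σ₂, abs_nonneg σ₁, abs_nonneg σ₂])⟩
  refine (hG.mul (ExpGr.prod S (F := fun p s => 1 - η₁ p * (Nr p : ℂ) ^ (-s)) fun p hp => ?_)).congr
    0 fun s _ _ => hLo s
  exact (ExpGr.const 1 _ _).sub ((ExpGr.const _ _ _).mul
    (expGr_cpow_neg (Nr_pos (a1_of_mem_pf (hS hp)).1.1.ne_zero) _ _))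

theorem rd_Lf_gr {q : O} {η : O → ℂ} (h : IsCh q η) (σ₁ σ₂ : ℝ) : ExpGr (Lf η) σ₁ σ₂ := by
  refine ((rd_Lo_gr h σ₁ σ₂).mul (expGr_inv_sub 1 σ₁ σ₂)).congr 1 fun s _ hT => ?_
  have hs : s ≠ 1 := by
    rintro rfl
    norm_num at hT
  have hs' : s - 1 ≠ 0 := sub_ne_zero.2 hs
  rw [h.Lo_eq (Or.inl hs)]
  field_simp

theorem rd_two_le {x : ℝ} (hx : 3 ≤ x) : 2 ≤ x ^ (3 / 4 : ℝ) := by
  have h0 : 0 ≤ x := by linarith
  refine le_of_pow_le_pow_left₀ (n := 4) (by norm_num) (by positivity) ?_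
  rw [← Real.rpow_natCast, ← Real.rpow_natCast, ← Real.rpow_mul h0]
  norm_num
  nlinarith [mul_le_mul hx hx (by norm_num) h0]

theorem rd_one_add_abs (u t : ℝ) : 1 + |u + t| ≤ (1 + |t|) * (1 + |u|) := by
  nlinarith [abs_add_le u t, abs_nonneg u, abs_nonneg t, mul_nonneg (abs_nonneg u) (abs_nonneg t)]

theorem rd_poly_mono {D e C x : ℝ} (hD : D ≤ C) (he : e ≤ C) (hC : 0 ≤ C) (hx : 1 ≤ x) :
    D * x ^ e ≤ C * x ^ C :=
  (mul_le_mul_of_nonneg_right hD (by positivity)).trans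
    (mul_le_mul_of_nonneg_left (Real.rpow_le_rpow_of_exponent_le hx he) hC)

/-- The size of `L` on a line to the left of the critical strip. -/
theorem rd_Lf_left {B : ℝ} (hB : 0 < B) : ∃ C : ℝ, 0 ≤ C ∧ ∀ (q : O) (η : O → ℂ), IsCh q η →
    ∀ y : ℝ, ‖Lf η ((-B : ℝ) + y * I)‖ ≤ C * (1 + |y|) ^ C * Nr q ^ (B + 3 / 4) := by
  obtain ⟨C₂, h₂⟩ := norm_Gamma_ratio_le (2 + B) (1 - B) (by linarith)
  have hZ := (summable_Nr_rpow (σ := 1 + B) (by linarith)).hasSum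
  set Z := ∑' x : O, Nr x ^ (-(1 + B)) with hZdef
  have hZ0 : 0 ≤ Z := tsum_nonneg fun x => Real.rpow_nonneg (Nr_nonneg x) _
  set D := c0 ^ (-(2 * B) - 1) * Z with hD
  have hD0 : 0 ≤ D := mul_nonneg (Real.rpow_nonneg c0_pos.le _) hZ0
  refine ⟨max (max (D * C₂) C₂) 0, le_max_right _ _, fun q η h y => ?_⟩
  obtain ⟨f, S, η₁, w, G, hf, hw, hS, hdvd, -, hb, -, -, -, -, hG1, hLo, hFE, -⟩ := h.exists_FE
  set s : ℂ := (-B : ℝ) + y * I with hs
  have hre : s.re = -B := by simp [hs]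
  have him : s.im = y := by simp [hs]
  have hs1 : s ≠ 1 := fun h0 => by
    rw [h0] at hre
    norm_num at hre
    linarith
  have hns : ‖s‖ ≤ ‖s - 1‖ := by
    refine le_of_pow_le_pow_left₀ (n := 2) (by norm_num) (norm_nonneg _) ?_
    rw [Complex.sq_norm, Complex.sq_norm, normSq_apply, normSq_apply]
    simp only [sub_re, sub_im, one_re, one_im, hre, him]
    nlinarith
  have hpos : 0 < ‖s - 1‖ := norm_pos_iff.2 (sub_ne_zero.2 hs1)
  -- the dual series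
  have h1 : ‖G (conj (1 - s))‖ ≤ ‖s - 1‖ * Z := by
    have hre' : (conj (1 - s)).re = 1 + B := by simp [hre]
    rw [hG1 _ (by rw [hre']; linarith), norm_mul, norm_mul]
    have e : conj (1 - s) - 1 = -conj s := by simp
    have h3 : ‖∑' n : O, if n = 0 then 0 else η₁ n * (Nr n : ℂ) ^ (-conj (1 - s))‖ ≤ Z := by
      refine tsum_of_norm_bounded hZ fun n => ?_
      split_ifs with hn
      · rw [norm_zero]; exact Real.rpow_nonneg (Nr_nonneg n) _
      · rw [norm_mul, norm_cpow_eq_rpow_re_of_pos (Nr_pos hn), neg_re, hre']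
        exact mul_le_of_le_one_left (Real.rpow_nonneg (Nr_nonneg n) _) (hb n)
    rw [e, norm_neg, RCLike.norm_conj]
    refine mul_le_mul hns ?_ (by positivity) hpos.le
    refine (mul_le_of_le_one_left (norm_nonneg _) ?_).trans h3
    norm_num
  -- the Gamma factor
  have h2 : ‖Complex.Gamma (2 - s) * (Complex.Gamma (1 + s))⁻¹‖ ≤ C₂ * (1 + |y|) ^ C₂ := by
    have := h₂ (2 + B) (1 - B) y le_rfl (by linarith) (by linarith) le_rfl
    have e1 : 2 - s = ((2 + B : ℝ) : ℂ) - y * I := by rw [hs]; push_cast; ring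
    have e2 : 1 + s = ((1 - B : ℝ) : ℂ) + y * I := by rw [hs]; push_cast; ring
    rwa [e1, e2]
  -- the Euler factors
  have h3 : ‖∏ p ∈ S, (1 - η₁ p * (Nr p : ℂ) ^ (-s))‖ ≤ ∏ p ∈ S, Nr p ^ (B + 3 / 4) := by
    rw [norm_prod]
    refine Finset.prod_le_prod (fun _ _ => norm_nonneg _) fun p hp => ?_
    have hp' := (a1_of_mem_pf (hS hp)).1.1
    have h3p := three_le_Nr_prime hp'
    have h0p : 0 < Nr p := by linarith
    have h4 : 1 ≤ Nr p ^ B := Real.one_le_rpow (by linarith) hB.le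
    have h5 : ‖η₁ p * (Nr p : ℂ) ^ (-s)‖ ≤ Nr p ^ B := by
      rw [norm_mul, norm_cpow_eq_rpow_re_of_pos h0p, neg_re, hre, neg_neg]
      exact mul_le_of_le_one_left (by positivity) (hb p)
    have h6 := norm_sub_le (1 : ℂ) (η₁ p * (Nr p : ℂ) ^ (-s))
    rw [norm_one] at h6
    rw [Real.rpow_add h0p]
    nlinarith [rd_two_le h3p]
  have h4 : Nr f ^ (1 / 2 + B) * ∏ p ∈ S, Nr p ^ (B + 3 / 4) ≤ Nr q ^ (B + 3 / 4) := by
    have h5 : Nr f ^ (1 / 2 + B) ≤ Nr f ^ (B + 3 / 4) :=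
      Real.rpow_le_rpow_of_exponent_le (one_le_Nr hf) (by linarith)
    refine (mul_le_mul_of_nonneg_right h5
      (Finset.prod_nonneg fun p _ => Real.rpow_nonneg (Nr_nonneg p) _)).trans ?_
    rw [Real.finsetProd_rpow _ _ (fun p _ => Nr_nonneg p), ← Real.mul_rpow (Nr_nonneg f)
      (Finset.prod_nonneg fun p _ => Nr_nonneg p), ← Nr_prod, ← Nr_mul]
    exact Real.rpow_le_rpow (Nr_nonneg _) (Nr_le_of_dvd h.ne hdvd) (by linarith)
  have h5 : ‖G s‖ ≤ Nr f ^ (1 / 2 + B) * c0 ^ (-(2 * B) - 1) * (C₂ * (1 + |y|) ^ C₂) *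
      (‖s - 1‖ * Z) := by
    rw [hFE s (by rw [hre]; linarith), mul_assoc _ (Complex.Gamma _), norm_mul, norm_mul, norm_mul,
      norm_mul, hw, one_mul, RCLike.norm_conj, norm_cpow_eq_rpow_re_of_pos (Nr_pos hf),
      norm_cpow_eq_rpow_re_of_pos c0_pos]
    have e1 : (1 / 2 - s).re = 1 / 2 + B := by simp [hre]
    have e2 : (2 * s - 1).re = -(2 * B) - 1 := by simp [hre]
    rw [e1, e2]
    have := c0_pos
    have := Nr_pos hf
    exact mul_le_mul (mul_le_mul_of_nonneg_left h2 (by positivity)) h1 (norm_nonneg _)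
      (mul_nonneg (by positivity) ((norm_nonneg _).trans h2))
  have h6 : 0 ≤ C₂ * (1 + |y|) ^ C₂ := (norm_nonneg _).trans h2
  have h7 : ‖s - 1‖ * ‖Lf η s‖ ≤ ‖s - 1‖ * (D * C₂ * (1 + |y|) ^ C₂ * Nr q ^ (B + 3 / 4)) := by
    rw [← norm_mul, ← h.Lo_eq (Or.inl hs1), hLo, norm_mul]
    refine (mul_le_mul h5 h3 (norm_nonneg _) ((norm_nonneg _).trans h5)).trans ?_
    calc _ = ‖s - 1‖ * (D * (C₂ * (1 + |y|) ^ C₂) *
          (Nr f ^ (1 / 2 + B) * ∏ p ∈ S, Nr p ^ (B + 3 / 4))) := by rw [hD]; ring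
      _ ≤ ‖s - 1‖ * (D * (C₂ * (1 + |y|) ^ C₂) * Nr q ^ (B + 3 / 4)) :=
          mul_le_mul_of_nonneg_left (mul_le_mul_of_nonneg_left h4 (mul_nonneg hD0 h6)) hpos.le
      _ = _ := by ring
  refine (le_of_mul_le_mul_left h7 hpos).trans (mul_le_mul_of_nonneg_right ?_
    (Real.rpow_nonneg (Nr_nonneg q) _))
  exact rd_poly_mono ((le_max_left _ _).trans (le_max_left _ _))
    ((le_max_right _ _).trans (le_max_left _ _)) (le_max_right _ _) (by linarith [abs_nonneg y])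

theorem rd_norm_inv_two_pi : ‖(1 / (2 * Real.pi) : ℂ)‖ ≤ 1 := by
  have h := Real.pi_gt_three
  rw [norm_div, norm_one, norm_mul, Complex.norm_real, Real.norm_of_nonneg Real.pi_pos.le,
    Complex.norm_two, div_le_one (by linarith)]
  linarith

theorem rd_diff_cpow {X : ℝ} (hX : 0 < X) : Differentiable ℂ (fun s : ℂ => (X : ℂ) ^ s) :=
  fun _ => differentiableAt_id.const_cpow (Or.inl (ofReal_ne_zero.2 hX.ne'))

theorem rd_bound {q : O} {η : O → ℂ} (h : IsCh q η) (n : O) (_ : Prim n) :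
    ‖η n‖ ≤ 1 * Nr n ^ (0 : ℝ) := by
  simpa using h.norm_le n

/-- Long sums are negligible. -/
theorem sm_decay {a : ℝ} (ha : 0 < a) (A : ℝ) (hA : 0 ≤ A) : ∃ C : ℝ, 0 ≤ C ∧ ∀ (q : O) (η : O → ℂ),
    IsCh q η → ¬ Princ η → ∀ X t : ℝ, 0 < X →
    ‖sm a η X t‖ ≤ C * (1 + |t|) ^ C * Nr q * (Nr q / X) ^ A := by
  obtain ⟨C₁, h₁⟩ := norm_sm_le ha 1
  obtain ⟨C₂, hC₂, h₂⟩ := rd_Lf_left (B := A + 1 / 4) (by linarith)
  obtain ⟨K, hK, hK'⟩ := norm_integral_Wh_le_poly ha hC₂ (-(A + 1 / 4))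
  set C := max (max C₁ (K * C₂)) C₂ with hC
  have hC0 : 0 ≤ C := hC₂.trans (le_max_right _ _)
  refine ⟨C, hC0, fun q η h hP X t hX => ?_⟩
  have hq := one_le_Nr h.ne
  have ht : 1 ≤ 1 + |t| := by linarith [abs_nonneg t]
  rcases le_total X (Nr q) with hXq | hXq
  · have h1 := h₁ η X t hX (fun n _ => h.norm_le n) (Or.inl le_rfl)
    rw [Real.rpow_one] at h1
    have h2 : C₁ ≤ C * (1 + |t|) ^ C := ((le_max_left _ _).trans (le_max_left _ _)).trans
      (le_mul_of_one_le_right hC0 (Real.one_le_rpow ht hC0))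
    have h3 : 1 ≤ (Nr q / X) ^ A := Real.one_le_rpow ((one_le_div hX).2 hXq) hA
    calc ‖sm a η X t‖ ≤ C₁ * X := h1
      _ ≤ C * (1 + |t|) ^ C * Nr q := mul_le_mul h2 hXq hX.le (by positivity)
      _ ≤ _ := le_mul_of_one_le_right (by positivity) h3
  · have hX1 : 1 ≤ X := hq.trans hXq
    have hF : Differentiable ℂ (fun s : ℂ => Lf η (s + t * I) * (X : ℂ) ^ s) := by
      refine Differentiable.mul (fun s => ?_) (rd_diff_cpow hX)
      exact (h.Lf_differentiableAt (Or.inr hP)).comp s (differentiableAt_id.add_const _)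
    have hsh := shift_Wh ha (σ₁ := -(A + 1 / 4)) (σ₂ := 2) (by linarith) hF.differentiableOn
      (((rd_Lf_gr h _ _).comp_add_I t).mul (expGr_cpow hX _ _))
    have h1 := sm_eq_integral ha hX (σ := 2) (rd_bound h) (by norm_num) t
    have h2 : ∀ u : ℝ, Dser η ((2 : ℝ) + u * I + t * I) * Wh a ((2 : ℝ) + u * I) *
        (X : ℂ) ^ (((2 : ℝ) : ℂ) + u * I) =
        Lf η ((2 : ℝ) + u * I + t * I) * (X : ℂ) ^ (((2 : ℝ) : ℂ) + u * I) *
          Wh a ((2 : ℝ) + u * I) := by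
      intro u
      rw [h.Lf_eq (by simp)]
      ring
    simp_rw [h2] at h1
    rw [← hsh] at h1
    have h3 := hK' (fun u : ℝ => Lf η ((-(A + 1 / 4) : ℝ) + u * I + t * I) *
        (X : ℂ) ^ (((-(A + 1 / 4) : ℝ) : ℂ) + u * I))
      (C₂ * (1 + |t|) ^ C₂ * Nr q ^ (A + 1) * X ^ (-A)) fun u => by
        have h4 := h₂ q η h (u + t)
        have e1 : ((-(A + 1 / 4) : ℝ) : ℂ) + u * I + t * I =
            ((-(A + 1 / 4) : ℝ) : ℂ) + (u + t : ℝ) * I := by push_cast; ring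
        have e2 : A + 1 / 4 + 3 / 4 = A + 1 := by ring
        have e3 : (((-(A + 1 / 4) : ℝ) : ℂ) + u * I).re = -(A + 1 / 4) := by simp
        rw [e2] at h4
        rw [norm_mul, e1, norm_cpow_eq_rpow_re_of_pos hX, e3]
        have h5 : X ^ (-(A + 1 / 4)) ≤ X ^ (-A) :=
          Real.rpow_le_rpow_of_exponent_le hX1 (by linarith)
        have h6 : (1 + |u + t|) ^ C₂ ≤ (1 + |t|) ^ C₂ * (1 + |u|) ^ C₂ := by
          rw [← Real.mul_rpow (by positivity) (by positivity)]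
          exact Real.rpow_le_rpow (by positivity) (rd_one_add_abs u t) hC₂
        calc _ ≤ (C₂ * ((1 + |t|) ^ C₂ * (1 + |u|) ^ C₂) * Nr q ^ (A + 1)) * X ^ (-A) := by
              refine mul_le_mul (h4.trans ?_) h5 (by positivity) (by positivity)
              gcongr
          _ = _ := by ring
    rw [h1, norm_mul]
    refine (mul_le_of_le_one_left (norm_nonneg _) rd_norm_inv_two_pi).trans (h3.trans ?_)
    have h7 : K * C₂ * (1 + |t|) ^ C₂ ≤ C * (1 + |t|) ^ C :=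
      rd_poly_mono ((le_max_right _ _).trans (le_max_left _ _)) (le_max_right _ _) hC0 ht
    have e4 : Nr q ^ (A + 1) * X ^ (-A) = Nr q * (Nr q / X) ^ A := by
      rw [Real.rpow_add_one (by linarith), Real.div_rpow (by linarith) hX.le, Real.rpow_neg hX.le]
      ring
    calc _ = K * C₂ * (1 + |t|) ^ C₂ * (Nr q ^ (A + 1) * X ^ (-A)) := by ring
      _ ≤ C * (1 + |t|) ^ C * (Nr q ^ (A + 1) * X ^ (-A)) :=
          mul_le_mul_of_nonneg_right h7 (by positivity)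
      _ = _ := by rw [e4]; ring

open Classical in
/-- Asymptotics for characters of bounded conductor with extra coprimality. -/
theorem sm_asymp {a ε : ℝ} (ha : 0 < a) (hε : 0 < ε) (q : O) : ∃ C : ℝ, 0 ≤ C ∧ ∀ (η : O → ℂ) (k : O),
    IsCh q η → k ≠ 0 → ∃ ϱ : ℂ, ‖ϱ‖ ≤ C ∧ (¬ Princ η → ϱ = 0) ∧ ∀ X τ : ℝ, 0 < X →
      ‖sm a (fun n => if IsCoprime n k then η n else 0) X τ -
        ϱ * (X : ℂ) ^ (1 - τ * I) * Wh a (1 - τ * I)‖ ≤
        C * Nr k ^ ε * (1 + |τ|) ^ C * X ^ (1 / 2 : ℝ) := by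
  obtain ⟨C₁, hC₁, h₁⟩ := Lo_growth
  obtain ⟨C₂, h₂⟩ := pow_card_pf_le hε (A := 2) (by norm_num)
  obtain ⟨K, hK, hK'⟩ := norm_integral_Wh_le_poly ha hC₁ (1 / 2)
  set C := max (max (C₁ * Nr q ^ C₁) (K * (2 * C₁ * Nr q ^ C₁ * C₂))) C₁ with hC
  have hC0 : 0 ≤ C := hC₁.trans (le_max_right _ _)
  refine ⟨C, hC0, fun η k h hk => ?_⟩
  have hq := one_le_Nr h.ne
  have h' := h.coprime hk
  set η' : O → ℂ := fun n => if IsCoprime n k then η n else 0 with hη'
  have hLo : ∀ s, Lo η' s = Lo η s * ∏ p ∈ pf k, (1 - η p * (Nr p : ℂ) ^ (-s)) :=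
    h.Lo_coprime hk
  have h0 : ¬ Princ η → Lo η' 1 = 0 := fun hP => by rw [hLo, h.Lo_one.2 hP, zero_mul]
  refine ⟨Lo η' 1, ?_, h0, fun X τ hX => ?_⟩
  · by_cases hP : Princ η
    · have h1 := h₁ q η h 1 (by norm_num) (by norm_num)
      simp only [one_im, abs_zero, add_zero, mul_one] at h1
      have h2 : ‖∏ p ∈ pf k, (1 - η p * (Nr p : ℂ) ^ (-(1 : ℂ)))‖ ≤ 1 := by
        rw [norm_prod]
        refine Finset.prod_le_one (fun _ _ => norm_nonneg _) fun p hp => ?_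
        obtain ⟨⟨hp1, hp2⟩, -⟩ := a1_of_mem_pf hp
        by_cases hη : η p = 0
        · simp [hη]
        · have hpp : Prim p := hp2.resolve_right fun e => hη ((h.zero p).2 fun hc =>
            hp1.not_isUnit (hc.isUnit_of_dvd' dvd_rfl (e ▸ lam_dvd_three.trans h.three)))
          have h3 := three_le_Nr_prime hp1
          rw [hP p hpp hη, one_mul, cpow_neg_one, ← ofReal_inv, ← ofReal_one, ← ofReal_sub,
            Complex.norm_real, Real.norm_eq_abs, abs_le]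
          have h4 : (Nr p)⁻¹ ≤ 1 := inv_le_one_of_one_le₀ (by linarith)
          have h5 : 0 ≤ (Nr p)⁻¹ := inv_nonneg.2 (by linarith)
          constructor <;> linarith
      rw [hLo, norm_mul]
      exact (mul_le_of_le_one_right (norm_nonneg _) h2).trans
        (h1.trans ((le_max_left _ _).trans (le_max_left _ _)))
    · rw [h0 hP, norm_zero]; exact hC0
  · have hτ : 1 ≤ 1 + |τ| := by linarith [abs_nonneg τ]
    have hH : Differentiable ℂ (fun s : ℂ => Lo η' (s + τ * I) * (X : ℂ) ^ s) :=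
      (h'.Lo_spec.1.comp (differentiable_id.add_const _)).mul (rd_diff_cpow hX)
    have hsh := shift_Wh_pole ha (σ₁ := 1 / 2) (σ₂ := 2) (s₀ := 1 - τ * I) (by norm_num)
      (by norm_num) hH.differentiableOn (((rd_Lo_gr h' _ _).comp_add_I τ).mul (expGr_cpow hX _ _))
    have h1 := sm_eq_integral ha hX (σ := 2) (rd_bound h') (by norm_num) τ
    have h2 : ∀ u : ℝ, Dser η' ((2 : ℝ) + u * I + τ * I) * Wh a ((2 : ℝ) + u * I) *
        (X : ℂ) ^ (((2 : ℝ) : ℂ) + u * I) =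
        Lo η' ((2 : ℝ) + u * I + τ * I) * (X : ℂ) ^ (((2 : ℝ) : ℂ) + u * I) /
          ((2 : ℝ) + u * I - (1 - τ * I)) * Wh a ((2 : ℝ) + u * I) := by
      intro u
      have e : ((2 : ℝ) : ℂ) + u * I - (1 - τ * I) = (2 : ℝ) + u * I + τ * I - 1 := by ring
      have hne : ((2 : ℝ) : ℂ) + u * I + τ * I - 1 ≠ 0 := fun h0 => by
        have := congrArg Complex.re h0
        norm_num at this
      rw [h'.Lo_spec.2 _ (by simp), e, mul_assoc (_ - 1 : ℂ), mul_div_cancel_left₀ _ hne]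
      ring
    simp_rw [h2] at h1
    rw [hsh, sub_add_cancel] at h1
    have h3 := hK' (fun u : ℝ => Lo η' ((1 / 2 : ℝ) + u * I + τ * I) *
        (X : ℂ) ^ (((1 / 2 : ℝ) : ℂ) + u * I) / ((1 / 2 : ℝ) + u * I - (1 - τ * I)))
      (2 * C₁ * Nr q ^ C₁ * (C₂ * Nr k ^ ε) * (1 + |τ|) ^ C₁ * X ^ (1 / 2 : ℝ)) fun u => by
        set s : ℂ := ((1 / 2 : ℝ) : ℂ) + u * I + τ * I with hs
        have hre : s.re = 1 / 2 := by simp [hs]
        have him : s.im = u + τ := by simp [hs]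
        have h4 := h₁ q η h s (by rw [hre]; norm_num) (by rw [hre]; norm_num)
        rw [him, Real.mul_rpow (by linarith) (by positivity)] at h4
        have h5 : ‖∏ p ∈ pf k, (1 - η p * (Nr p : ℂ) ^ (-s))‖ ≤ C₂ * Nr k ^ ε := by
          refine le_trans ?_ (h₂ k hk)
          rw [norm_prod, ← Finset.prod_const]
          refine Finset.prod_le_prod (fun _ _ => norm_nonneg _) fun p hp => ?_
          have h3p := three_le_Nr_prime (a1_of_mem_pf hp).1.1
          have h6 : ‖η p * (Nr p : ℂ) ^ (-s)‖ ≤ 1 := by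
            rw [norm_mul, norm_cpow_eq_rpow_re_of_pos (by linarith), neg_re, hre]
            exact mul_le_one₀ (h.norm_le p) (Real.rpow_nonneg (Nr_nonneg p) _)
              (Real.rpow_le_one_of_one_le_of_nonpos (by linarith) (by norm_num))
          have h7 := norm_sub_le (1 : ℂ) (η p * (Nr p : ℂ) ^ (-s))
          rw [norm_one] at h7
          linarith
        have h6 : (1 + |u + τ|) ^ C₁ ≤ (1 + |τ|) ^ C₁ * (1 + |u|) ^ C₁ := by
          rw [← Real.mul_rpow (by positivity) (by positivity)]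
          exact Real.rpow_le_rpow (by positivity) (rd_one_add_abs u τ) hC₁
        have h7 : 1 / 2 ≤ ‖((1 / 2 : ℝ) : ℂ) + u * I - (1 - τ * I)‖ := by
          refine le_trans ?_ (abs_re_le_norm _)
          norm_num
        have e3 : (((1 / 2 : ℝ) : ℂ) + u * I).re = 1 / 2 := by simp
        have h8 : 0 ≤ C₂ * Nr k ^ ε := (norm_nonneg _).trans h5
        rw [norm_div, norm_mul, hLo, norm_mul, norm_cpow_eq_rpow_re_of_pos hX, e3,
          div_le_iff₀ (by linarith)]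
        calc _ ≤ (C₁ * (Nr q ^ C₁ * ((1 + |τ|) ^ C₁ * (1 + |u|) ^ C₁))) * (C₂ * Nr k ^ ε) *
              X ^ (1 / 2 : ℝ) := by
              refine mul_le_mul_of_nonneg_right (mul_le_mul (h4.trans ?_) h5 (norm_nonneg _)
                (by positivity)) (by positivity)
              gcongr
          _ = (2 * C₁ * Nr q ^ C₁ * (C₂ * Nr k ^ ε) * (1 + |τ|) ^ C₁ * X ^ (1 / 2 : ℝ) *
              (1 + |u|) ^ C₁) * (1 / 2) := by ring
          _ ≤ _ := mul_le_mul_of_nonneg_left h7 (by positivity)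
    have hπ : (Real.pi : ℂ) ≠ 0 := ofReal_ne_zero.2 Real.pi_ne_zero
    rw [h1, mul_add, ← mul_assoc, one_div_mul_cancel (mul_ne_zero two_ne_zero hπ), one_mul,
      add_sub_cancel_left, norm_mul]
    refine (mul_le_of_le_one_left (norm_nonneg _) rd_norm_inv_two_pi).trans (h3.trans ?_)
    have h9 : K * (2 * C₁ * Nr q ^ C₁ * C₂) * (1 + |τ|) ^ C₁ ≤ C * (1 + |τ|) ^ C :=
      rd_poly_mono ((le_max_right _ _).trans (le_max_left _ _)) (le_max_right _ _) hC0 hτ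
    have h10 : 0 ≤ Nr k ^ ε * X ^ (1 / 2 : ℝ) :=
      mul_nonneg (Real.rpow_nonneg (Nr_nonneg k) _) (by positivity)
    calc _ = K * (2 * C₁ * Nr q ^ C₁ * C₂) * (1 + |τ|) ^ C₁ * (Nr k ^ ε * X ^ (1 / 2 : ℝ)) := by ring
      _ ≤ C * (1 + |τ|) ^ C * (Nr k ^ ε * X ^ (1 / 2 : ℝ)) := mul_le_mul_of_nonneg_right h9 h10
      _ = _ := by ring

end Crest.Agent.R017

end
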