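import Crest.Agent.R017.Chars

/-! # Row 17: primitive characters -/

set_option autoImplicit false

noncomputable section

open scoped BigOperators ComplexConjugate
open Complex

namespace Crest.Agent.R017

theorem f1_lam_not_unit : ¬ IsUnit lam := prime_lam.not_unit

theorem f1_tilde {q : O} {η : O → ℂ} (h : IsCh q η) :
    ∃ θ : O → ℂ, IsCh q θ ∧ (∀ u, IsUnit u → θ u = 1) ∧ ∀ n, Prim n → θ n = η n := by
  classical
  let θ : O → ℂ := fun x => if hx : ¬ lam ∣ x then η ((exists_prim hx).choose * x) else 0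
  have h0 : ∀ x, lam ∣ x → θ x = 0 := fun x hx => dif_neg (not_not.2 hx)
  have h1 : ∀ x u, IsUnit u → Prim (u * x) → θ x = η (u * x) := by
    intro x u hu hp
    have hx : ¬ lam ∣ x := fun hx => hp.not_lam_dvd (hx.mul_left _)
    obtain ⟨hv, hp'⟩ := (exists_prim hx).choose_spec
    simp only [θ, dif_pos hx]
    congr 1
    exact hp'.eq_of_associated hp
      ((associated_unit_mul_left _ _ hv).trans (associated_unit_mul_left _ _ hu).symm)
  have hlq : lam ∣ q := lam_dvd_three.trans h.three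
  have hn : ∀ n, Prim n → θ n = η n := fun n hn => by
    rw [h1 n 1 isUnit_one (by simpa using hn), one_mul]
  refine ⟨θ, ⟨h.ne, h.three, by rw [hn 1 prim_one, h.one], fun x y => ?_, fun x y hxy => ?_,
    fun x => ?_⟩, fun u hu => ?_, hn⟩
  · by_cases hx : lam ∣ x
    · rw [h0 x hx, h0 _ (hx.mul_right _), zero_mul]
    by_cases hy : lam ∣ y
    · rw [h0 y hy, h0 _ (hy.mul_left _), mul_zero]
    obtain ⟨u, hu, hpu⟩ := exists_prim hx
    obtain ⟨v, hv, hpv⟩ := exists_prim hy
    have e : u * v * (x * y) = u * x * (v * y) := by ring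
    rw [h1 x u hu hpu, h1 y v hv hpv, h1 (x * y) (u * v) (hu.mul hv) (e ▸ hpu.mul hpv), e, h.mul]
  · by_cases hx : lam ∣ x
    · have : lam ∣ y := by simpa using hx.sub (hlq.trans hxy)
      rw [h0 x hx, h0 y this]
    obtain ⟨u, hu, hpu⟩ := exists_prim hx
    have hd : q ∣ u * x - u * y := by rw [← mul_sub]; exact hxy.mul_left _
    have hpy : Prim (u * y) := by
      have := Dvd.dvd.sub hpu (h.three.trans hd)
      unfold Prim
      convert this using 1; ring
    rw [h1 x u hu hpu, h1 y u hu hpy, h.per _ _ hd]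
  · by_cases hx : lam ∣ x
    · exact ⟨fun _ hc => f1_lam_not_unit (hc.isUnit_of_dvd' hx hlq), fun _ => h0 x hx⟩
    obtain ⟨u, hu, hpu⟩ := exists_prim hx
    rw [h1 x u hu hpu, h.zero, isCoprime_mul_unit_left_left hu]
  · obtain ⟨v, hv⟩ := hu.exists_left_inv
    rw [h1 u v (IsUnit.of_mul_eq_one _ hv) (hv ▸ prim_one), hv, h.one]

theorem f1_lift {q f x : O} (hq : q ≠ 0) (hx : IsCoprime x f) :
    ∃ y, f ∣ y - x ∧ IsCoprime y q := by
  classical
  refine ⟨x + f * ∏ p ∈ (pf q).filter (fun p => ¬ p ∣ x), p, by simp, ?_⟩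
  refine isCoprime_of_prime_dvd (fun h => hq h.2) fun z hz h1 h2 => ?_
  obtain ⟨p, hp, ha⟩ := exists_PP hz
  have hp1 := ha.symm.dvd.trans h1
  have hp2 : p ∈ pf q := (mem_pf hq).2 ⟨hp, ha.symm.dvd.trans h2⟩
  by_cases hpx : p ∣ x
  · rcases hp.1.dvd_or_dvd ((dvd_add_right hpx).1 hp1) with h | h
    · exact hp.1.not_unit (hx.isUnit_of_dvd' hpx h)
    · obtain ⟨p', hp', hd⟩ := (hp.1.dvd_finset_prod_iff _).1 h
      obtain ⟨hp'1, hp'2⟩ := Finset.mem_filter.1 hp'
      have hP := (a1_of_mem_pf hp'1).1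
      have := hp.eq_of_associated hP (hp.1.associated_of_dvd hP.1 hd)
      exact hp'2 (this ▸ hpx)
  · exact hpx ((dvd_add_left ((Finset.dvd_prod_of_mem _
      (Finset.mem_filter.2 ⟨hp2, hpx⟩)).mul_left f)).1 hp1)

theorem f1_prim {q : O} {θ : O → ℂ} (h : IsCh q θ) :
    ∃ (f : O) (η₁ : O → ℂ), f ≠ 0 ∧ f ∣ q ∧ (∀ x y, η₁ (x * y) = η₁ x * η₁ y) ∧
      (∀ x y, f ∣ x - y → η₁ x = η₁ y) ∧ (∀ x, ¬ IsCoprime x f → η₁ x = 0) ∧
      (∀ x, IsCoprime x f → ‖η₁ x‖ = 1) ∧ (∀ x, IsCoprime x q → η₁ x = θ x) ∧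
      ∀ p, Prime p → p ∣ f → ∃ u, IsCoprime u f ∧ f ∣ p * (u - 1) ∧ η₁ u ≠ 1 := by
  classical
  let T : O → Prop := fun f => f ∣ q ∧ ∀ x, IsCoprime x q → f ∣ x - 1 → θ x = 1
  have hq : T q := ⟨dvd_rfl, fun x _ hx => by rw [h.per x 1 hx, h.one]⟩
  obtain ⟨f, hf, hmin⟩ := (measure nm).wf.has_min {f | T f} ⟨q, hq⟩
  have hf0 : f ≠ 0 := by
    rintro rfl
    exact h.ne (zero_dvd_iff.1 hf.1)
  have hwd : ∀ x y, IsCoprime x q → IsCoprime y q → f ∣ x - y → θ x = θ y := by
    intro x y hx hy hxy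
    obtain ⟨a, b, hab⟩ := hy
    have ha : IsCoprime a q := ⟨y, b, by rw [← hab]; ring⟩
    have hd : q ∣ y * a - 1 := ⟨-b, by rw [← hab]; ring⟩
    have e1 : θ (y * a) = 1 := by rw [h.per _ 1 hd, h.one]
    have e2 : θ (x * a) = 1 := hf.2 _ (hx.mul_left ha) (by
      have := (hxy.mul_right a).add (hf.1.trans hd)
      convert this using 1; ring)
    have ha0 : θ a ≠ 0 := fun h0 => (h.zero a).1 h0 ha
    rw [h.mul] at e1 e2
    exact mul_right_cancel₀ ha0 (e2.trans e1.symm)
  let η₁ : O → ℂ := fun x => if hx : IsCoprime x f then θ (f1_lift h.ne hx).choose else 0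
  have h1 : ∀ x y, IsCoprime y q → f ∣ y - x → η₁ x = θ y := by
    intro x y hy hxy
    have hx : IsCoprime x f := by
      obtain ⟨c, hc⟩ := hxy
      have : x = y + f * (-c) := by linear_combination -hc
      rw [this]
      exact (hy.of_isCoprime_of_dvd_right hf.1).add_mul_left_left _
    obtain ⟨h2, h3⟩ := (f1_lift h.ne hx).choose_spec
    simp only [η₁, dif_pos hx]
    refine hwd _ _ h3 hy ?_
    have := h2.sub hxy
    convert this using 1; ring
  have h0 : ∀ x, ¬ IsCoprime x f → η₁ x = 0 := fun x hx => dif_neg hx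
  refine ⟨f, η₁, hf0, hf.1, fun x y => ?_, fun x y hxy => ?_, h0, fun x hx => ?_,
    fun x hx => h1 x x hx (by simp), fun p hp hpf => ?_⟩
  · by_cases hx : IsCoprime x f
    · by_cases hy : IsCoprime y f
      · obtain ⟨x', hx1, hx2⟩ := f1_lift h.ne hx
        obtain ⟨y', hy1, hy2⟩ := f1_lift h.ne hy
        rw [h1 x x' hx2 hx1, h1 y y' hy2 hy1, h1 (x * y) (x' * y') (hx2.mul_left hy2) (by
          have := (hx1.mul_right y').add (hy1.mul_left x)
          convert this using 1; ring), h.mul]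
      · rw [h0 y hy, h0 _ fun h => hy h.of_mul_left_right, mul_zero]
    · rw [h0 x hx, h0 _ fun h => hx h.of_mul_left_left, zero_mul]
  · by_cases hx : IsCoprime x f
    · obtain ⟨x', hx1, hx2⟩ := f1_lift h.ne hx
      rw [h1 x x' hx2 hx1, h1 y x' hx2 (by
        have := hx1.add hxy
        convert this using 1; ring)]
    · rw [h0 x hx, h0 y fun hy => hx ?_]
      obtain ⟨c, hc⟩ := hxy
      have : x = y + f * c := by linear_combination hc
      rw [this]
      exact hy.add_mul_left_left _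
  · obtain ⟨x', hx1, hx2⟩ := f1_lift h.ne hx
    rw [h1 x x' hx2 hx1]
    exact h.norm_eq fun h0 => (h.zero _).1 h0 hx2
  · obtain ⟨g, rfl⟩ := hpf
    have hg0 : g ≠ 0 := right_ne_zero_of_mul hf0
    have hlt : nm g < nm (p * g) := by
      have h3 := three_le_Nr_prime hp
      have : 3 ≤ nm p := by unfold Nr at h3; exact_mod_cast h3
      have : nm g ≠ 0 := fun h => hg0 (nm_eq_zero.1 h)
      rw [nm_mul]; nlinarith [Nat.pos_of_ne_zero this]
    have hT : ¬ T g := fun hT => hmin g hT hlt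
    simp only [T, not_and, not_forall] at hT
    obtain ⟨u, hu, hd, hne⟩ := hT ((dvd_mul_left g p).trans hf.1)
    exact ⟨u, hu.of_isCoprime_of_dvd_right hf.1, mul_dvd_mul_left p hd, by
      rwa [h1 u u hu (by simp)]⟩

theorem f1_gauss {f : O} {η₁ : O → ℂ} (hf : f ≠ 0) (hmul : ∀ x y, η₁ (x * y) = η₁ x * η₁ y)
    (hper : ∀ x y, f ∣ x - y → η₁ x = η₁ y) (h0 : ∀ x, ¬ IsCoprime x f → η₁ x = 0)
    (h1 : ∀ x, IsCoprime x f → ‖η₁ x‖ = 1)
    (hp : ∀ p, Prime p → p ∣ f → ∃ u, IsCoprime u f ∧ f ∣ p * (u - 1) ∧ η₁ u ≠ 1) :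
    (∀ h, gs η₁ f h = conj (η₁ h) * gs η₁ f 1) ∧ ‖gs η₁ f 1‖ = Real.sqrt (Nr f) := by
  have H : Homog f η₁ η₁ := ⟨hper, fun u x _ => hmul u x, h1⟩
  have key : ∀ h, gs η₁ f h = conj (η₁ h) * gs η₁ f 1 := by
    intro h
    by_cases hc : IsCoprime h f
    · simpa using H.gs_mul hf hc 1
    rw [h0 h hc, map_zero, zero_mul]
    by_contra hne
    refine hc (isCoprime_of_prime_dvd (fun h => hf h.2) fun p hpp hph hpf => ?_)
    obtain ⟨u, hu, hd, hu1⟩ := hp p hpp hpf
    have e1 := H.gs_mul hf hu h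
    have e2 : gs η₁ f (u * h) = gs η₁ f h := gs_congr (by
      obtain ⟨c, rfl⟩ := hph
      have := hd.mul_right c
      convert this using 1; ring)
    rw [e2] at e1
    have : conj (η₁ u) = 1 := mul_right_cancel₀ hne (by rw [← e1, one_mul])
    exact hu1 (by simpa using congrArg conj this)
  refine ⟨key, ?_⟩
  have hpl := gs_plancherel hf η₁
  rw [Finset.sum_congr rfl fun h _ => by rw [key h, norm_mul, norm_conj, mul_pow],
    ← Finset.sum_mul, mul_comm] at hpl
  have hpos : 0 < ∑ x ∈ reps f, ‖η₁ x‖ ^ 2 := by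
    obtain ⟨x, ⟨hx, hd⟩, -⟩ := reps_existsUnique hf 1
    refine Finset.sum_pos' (fun _ _ => by positivity) ⟨x, hx, ?_⟩
    rw [hper x 1 hd, h1 1 isCoprime_one_left]; norm_num
  rw [← mul_right_cancel₀ hpos.ne' hpl, Real.sqrt_sq (norm_nonneg _)]

open Classical in
/-- Removing the multiples of finitely many primes from a multiplicative series. -/
theorem f1_sieve {a : O → ℂ} (hs : Summable a)
    (hmul : ∀ x y, a (x * y) = a x * a y) (S : Finset O) (hS : ∀ p ∈ S, PP p) :
    ∑' n, (if ∀ p ∈ S, ¬ p ∣ n then a n else 0) = (∑' n, a n) * ∏ p ∈ S, (1 - a p) := by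
  classical
  induction S using Finset.induction_on with
  | empty => simp
  | insert p S hpS ih =>
    have ih := ih fun p' hp' => hS p' (Finset.mem_insert_of_mem hp')
    have hp := hS p (Finset.mem_insert_self _ _)
    set b : O → ℂ := fun n => if ∀ p ∈ S, ¬ p ∣ n then a n else 0 with hb
    have hbs : Summable b := by
      refine Summable.of_norm_bounded hs.norm fun n => ?_
      simp only [hb]; split_ifs <;> simp
    have hbp : ∀ m, b (p * m) = a p * b m := by
      intro m
      have : (∀ p' ∈ S, ¬ p' ∣ p * m) ↔ ∀ p' ∈ S, ¬ p' ∣ m := by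
        refine forall₂_congr fun p' hp' => not_congr ⟨fun h => ?_, fun h => h.mul_left _⟩
        have hP := hS p' (Finset.mem_insert_of_mem hp')
        refine (hP.1.dvd_or_dvd h).resolve_left fun hd => hpS ?_
        rwa [← hP.eq_of_associated hp (hP.1.associated_of_dvd hp.1 hd)]
      simp only [hb, this, hmul]
      split_ifs <;> simp
    have e1 : ∑' n, (if p ∣ n then b n else 0) = a p * ∑' n, b n := by
      rw [← tsum_mul_left, ← (mul_right_injective₀ hp.1.ne_zero).tsum_eq
        (f := fun n => if p ∣ n then b n else 0)]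
      · exact tsum_congr fun m => by rw [if_pos (dvd_mul_right p m), hbp]
      · intro n hn
        by_contra hc
        exact hn (if_neg fun ⟨m, hm⟩ => hc ⟨m, hm.symm⟩)
    have hs2 : Summable fun n => if p ∣ n then b n else 0 := by
      refine Summable.of_norm_bounded hbs.norm fun n => ?_
      split_ifs <;> simp
    have e2 : ∀ n, (if ∀ p' ∈ insert p S, ¬ p' ∣ n then a n else 0) =
        b n - if p ∣ n then b n else 0 := by
      intro n
      simp only [Finset.forall_mem_insert, hb]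
      by_cases h1 : p ∣ n <;> simp [h1]
    rw [tsum_congr e2, hbs.tsum_sub hs2, e1, ih, Finset.prod_insert hpS]
    ring

/-- Summing a unit-invariant function over primary elements. -/
theorem f1_six {a : O → ℂ} (hs : Summable a) (hu : ∀ u x, IsUnit u → a (u * x) = a x)
    (h0 : ∀ x, lam ∣ x → a x = 0) : ∑' n, a n = 6 * ∑' n, if Prim n then a n else 0 := by
  classical
  let U : Finset O := {1, -1, om, -om, om ^ 2, -om ^ 2}
  have hU : ∀ u, u ∈ U ↔ IsUnit u := fun u => by simp [U, isUnit_iff]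
  have hcard : U.card = 6 := by decide
  have e1 : ∀ n, a n = ∑ u ∈ U, if Prim (u * n) then a n else 0 := by
    intro n
    by_cases hn : lam ∣ n
    · simp [h0 n hn]
    obtain ⟨u, hu', hp⟩ := exists_prim hn
    rw [Finset.sum_eq_single u, if_pos hp]
    · intro v hv hvu
      refine if_neg fun hp' => hvu ?_
      have := hp'.eq_of_associated hp ((associated_unit_mul_left _ _ ((hU v).1 hv)).trans
        (associated_unit_mul_left _ _ hu').symm)
      exact mul_right_cancel₀ (by rintro rfl; exact hn (dvd_zero _)) this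
    · exact fun h => absurd ((hU u).2 hu') h
  have e2 : ∀ u ∈ U, ∑' n, (if Prim (u * n) then a n else 0) = ∑' n, if Prim n then a n else 0 := by
    intro u hu'
    obtain ⟨v, rfl⟩ := (hU u).1 hu'
    rw [← (Units.mulLeft v).tsum_eq fun n => if Prim n then a n else 0]
    exact tsum_congr fun n => by simp [hu _ _ v.isUnit]
  rw [tsum_congr e1, Summable.tsum_finsetSum, Finset.sum_congr rfl e2, Finset.sum_const, hcard]
  · simp
  · intro u _
    refine Summable.of_norm_bounded hs.norm fun n => ?_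
    split_ifs <;> simp

end Crest.Agent.R017

end
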