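import Crest.Agent.R017.LFun
import Crest.Agent.R017.FE1AuxA
import Crest.Agent.R017.FE1AuxB

/-! # Row 17: functional equation and polynomial growth -/

set_option autoImplicit false

noncomputable section

open scoped BigOperators ComplexConjugate
open Complex MeasureTheory

namespace Crest.Agent.R017

/-- Functional equation through the primitive character inducing `η`. -/
theorem IsCh.exists_FE {q : O} {η : O → ℂ} (h : IsCh q η) :
    ∃ (f : O) (S : Finset O) (η₁ : O → ℂ) (w : ℂ) (G : ℂ → ℂ), f ≠ 0 ∧ ‖w‖ = 1 ∧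
      S ⊆ pf q ∧ f * ∏ p ∈ S, p ∣ q ∧
      (∀ x y, η₁ (x * y) = η₁ x * η₁ y) ∧ (∀ x, ‖η₁ x‖ ≤ 1) ∧ (∀ u, IsUnit u → η₁ u = 1) ∧
      (∀ n, Prim n → IsCoprime n q → η₁ n = η n) ∧
      (∀ p ∈ pf q, p ∉ S → η₁ p = 0) ∧
      Differentiable ℂ G ∧
      (∀ s : ℂ, 1 < s.re → G s = (s - 1) * ((1 / 6 : ℂ) *
        ∑' n : O, if n = 0 then 0 else η₁ n * (Nr n : ℂ) ^ (-s))) ∧
      (∀ s : ℂ, Lo η s = G s * ∏ p ∈ S, (1 - η₁ p * (Nr p : ℂ) ^ (-s))) ∧
      (∀ s : ℂ, s.re < 2 → G s = w * (Nr f : ℂ) ^ (1 / 2 - s) * (c0 : ℂ) ^ (2 * s - 1) *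
        Complex.Gamma (2 - s) * (Complex.Gamma (1 + s))⁻¹ * conj (G (conj (1 - s)))) ∧
      (∀ A : ℝ, ∃ C : ℝ, ∀ s : ℂ, |s.re| ≤ A → ‖G s‖ ≤ C * Real.exp (C * |s.im|)) := by
  classical
  obtain ⟨θ, hθ, hθu, hθp⟩ := f1_tilde h
  obtain ⟨f, η₁, hf0, hfq, hmul, hper, h0, h1, hext, hprim⟩ := f1_prim hθ
  obtain ⟨hg1, hg2⟩ := f1_gauss hf0 hmul hper h0 h1 hprim
  have hN := Nr_pos hf0
  have hsq : (Real.sqrt (Nr f) : ℂ) ≠ 0 := by exact_mod_cast (Real.sqrt_pos.2 hN).ne'
  set w : ℂ := gs η₁ f 1 / (Real.sqrt (Nr f) : ℂ) with hw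
  have hw1 : ‖w‖ = 1 := by
    rw [hw, norm_div, hg2, norm_real, Real.norm_of_nonneg (Real.sqrt_nonneg _),
      div_self (Real.sqrt_pos.2 hN).ne']
  have hw0 : w ≠ 0 := by
    intro h
    rw [h, norm_zero] at hw1
    exact zero_ne_one hw1
  have hle : ∀ x, ‖η₁ x‖ ≤ 1 := fun x => by
    by_cases hx : IsCoprime x f
    · exact (h1 x hx).le
    · rw [h0 x hx, norm_zero]; exact zero_le_one
  obtain ⟨G, hG1, hG2, hG3, hG4⟩ := f1_analytic hle hN hw0 fun R hR => by
    rw [poisson_per hR hf0 η₁ hper, hw, div_mul_cancel₀ _ hsq]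
    simp only [← hg1]
  set S := (pf q).filter (fun p => ¬ p ∣ f) with hS
  have hSP : ∀ p ∈ S, PP p := fun p hp => (a1_of_mem_pf (Finset.mem_filter.1 hp).1).1
  have hcop : ∀ n, IsCoprime n q ↔ IsCoprime n f ∧ ∀ p ∈ S, ¬ p ∣ n := by
    intro n
    refine ⟨fun hn => ⟨hn.of_isCoprime_of_dvd_right hfq, fun p hp hd => ?_⟩, fun hn => ?_⟩
    · have := a1_of_mem_pf (Finset.mem_filter.1 hp).1
      exact this.1.1.not_isUnit (hn.isUnit_of_dvd' hd this.2)
    · refine isCoprime_of_prime_dvd (fun h' => h.ne h'.2) fun z hz hz1 hz2 => ?_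
      obtain ⟨p, hp, ha⟩ := exists_PP hz
      have hp1 := ha.symm.dvd.trans hz1
      have hp2 : p ∈ pf q := (mem_pf h.ne).2 ⟨hp, ha.symm.dvd.trans hz2⟩
      by_cases hpf : p ∣ f
      · exact hp.1.not_isUnit (hn.1.isUnit_of_dvd' hp1 hpf)
      · exact hn.2 p (Finset.mem_filter.2 ⟨hp2, hpf⟩) hp1
  refine ⟨f, S, η₁, w, G, hf0, hw1, Finset.filter_subset _ _, ?_, hmul, hle, fun u hu => ?_,
    fun n hn hc => by rw [hext n hc, hθp n hn], fun p hp hpS => ?_, hG1, hG2, ?_, hG3, hG4⟩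
  · refine IsCoprime.mul_dvd (IsCoprime.prod_right fun p hp => ?_) hfq
      (Finset.prod_dvd_of_coprime (s := fun p : O => p)
        (fun p hp p' hp' hne => a1_coprime (hSP p hp) (hSP p' hp') hne)
        fun p hp => (a1_of_mem_pf (Finset.mem_filter.1 hp).1).2)
    exact ((hSP p hp).1.coprime_iff_not_dvd.2 (Finset.mem_filter.1 hp).2).symm
  · obtain ⟨v, hv⟩ := hu.exists_left_inv
    rw [hext u ⟨v, 0, by rw [hv]; ring⟩, hθu u hu]
  · have hpf : p ∣ f := by
      by_contra hc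
      exact hpS (Finset.mem_filter.2 ⟨hp, hc⟩)
    exact h0 p fun hc => (a1_of_mem_pf hp).1.1.not_isUnit (hc.isUnit_of_dvd' dvd_rfl hpf)
  · refine congrFun (f1_ext h.Lo_spec.1 (hG1.mul (Differentiable.fun_finsetProd fun p hp => ?_))
      fun s hs => ?_)
    · have : (Nr p : ℂ) ≠ 0 := by exact_mod_cast (Nr_pos (hSP p hp).1.ne_zero).ne'
      exact (differentiable_const _).sub
        ((differentiable_id.neg.const_cpow (Or.inl this)).const_mul _)
    · set a : O → ℂ := fun n => if n = 0 then 0 else η₁ n * (Nr n : ℂ) ^ (-s) with ha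
      have has : Summable a := f1_D_summable hle hs
      have hcp : ∀ x y : O, (Nr (x * y) : ℂ) ^ (-s) = (Nr x : ℂ) ^ (-s) * (Nr y : ℂ) ^ (-s) := by
        intro x y
        rw [Nr_mul, ofReal_mul, mul_cpow_ofReal_nonneg (Nr_nonneg x) (Nr_nonneg y)]
      have ham : ∀ x y, a (x * y) = a x * a y := by
        intro x y
        by_cases hx : x = 0
        · simp [ha, hx]
        by_cases hy : y = 0
        · simp [ha, hy]
        simp only [ha, if_neg hx, if_neg hy, if_neg (mul_ne_zero hx hy), hmul, hcp]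
        ring
      have hsv := f1_sieve has ham S hSP
      have hlq : lam ∣ q := lam_dvd_three.trans h.three
      have e1 : ∀ n, (if ∀ p ∈ S, ¬ p ∣ n then a n else 0) = θ n * (Nr n : ℂ) ^ (-s) := by
        intro n
        by_cases hn : IsCoprime n q
        · have hn0 : n ≠ 0 := by
            rintro rfl
            exact f1_lam_not_unit (hn.isUnit_of_dvd' (dvd_zero _) hlq)
          rw [if_pos ((hcop n).1 hn).2, ← hext n hn]
          exact if_neg hn0
        · rw [(hθ.zero n).2 hn, zero_mul]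
          split_ifs with h2
          · simp [ha, h0 n fun hc => hn ((hcop n).2 ⟨hc, h2⟩)]
          · rfl
      have hbs : Summable fun n => θ n * (Nr n : ℂ) ^ (-s) := by
        refine Summable.of_norm_bounded has.norm fun n => ?_
        rw [← e1]
        split_ifs <;> simp
      have e2 := f1_six hbs (fun u x hu => by
        rw [hθ.mul, hθu u hu, one_mul, Nr_mul, isUnit_iff_Nr.1 hu, one_mul]) fun x hx => by
          rw [(hθ.zero x).2 fun hc => f1_lam_not_unit (hc.isUnit_of_dvd' hx hlq), zero_mul]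
      have e3 : (∑' n, if Prim n then θ n * (Nr n : ℂ) ^ (-s) else 0) = Dser η s :=
        tsum_congr fun n => by
          split_ifs with hn
          · rw [hθp n hn]
          · rfl
      have e4 : ∏ p ∈ S, (1 - a p) = ∏ p ∈ S, (1 - η₁ p * (Nr p : ℂ) ^ (-s)) :=
        Finset.prod_congr rfl fun p hp => by simp only [ha, if_neg (hSP p hp).1.ne_zero]
      rw [tsum_congr e1, e2, e3, e4] at hsv
      have e5 : f1_D η₁ s = ∑' n, a n := rfl
      rw [h.Lo_spec.2 s hs, hG2 s hs, e5]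
      linear_combination (s - 1) / 6 * hsv

end Crest.Agent.R017

end
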