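import Crest.Agent.R017.Sieve
import Crest.Prelude.Def_HeckeK3

/-! # Row 17: from `ZF` to Hecke characters on ideals of `ℚ(√-3)` -/

set_option autoImplicit false

namespace Crest.Agent.R017

open Crest.NumberTheoryR.EisensteinField

theorem bk_exists_equiv : Nonempty (O ≃+* O3) := by
  have : IsCyclotomicExtension {3} ℚ K3 := CyclotomicField.isCyclotomicExtension 3 ℚ
  have hζ := IsCyclotomicExtension.zeta_spec 3 ℚ K3
  have hsq : hζ.toInteger ^ 2 = -hζ.toInteger - 1 := IsCyclotomicExtension.Rat.Three.eta_sq hζ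
  have htop := IsCyclotomicExtension.Rat.adjoin_singleton_eq_top hζ
  generalize hζ.toInteger = w at hsq htop
  let f : O →+* O3 :=
    { toFun := fun x => (x.re : O3) + (x.im : O3) * w
      map_one' := by simp [QuadraticAlgebra.re_one, QuadraticAlgebra.im_one]
      map_zero' := by simp
      map_add' := fun x y => by simp; ring
      map_mul' := fun x y => by
        simp only [QuadraticAlgebra.re_mul, QuadraticAlgebra.im_mul]
        push_cast
        linear_combination (-(x.im : O3) * (y.im : O3)) * hsq }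
  refine ⟨RingEquiv.ofBijective f ⟨?_, ?_⟩⟩
  · rw [injective_iff_map_eq_zero]
    intro x hx
    have h1 := congrArg f (mul_star_self x)
    rw [map_mul, hx, zero_mul, map_intCast] at h1
    exact nz_eq_zero.1 (by exact_mod_cast h1.symm)
  · intro y
    have hy : y ∈ Algebra.adjoin ℤ {w} := by rw [htop]; trivial
    have hle : Algebra.adjoin ℤ {w} ≤ f.toIntAlgHom.range := by
      refine Algebra.adjoin_le ?_
      rintro _ rfl
      exact ⟨om, by simp [f, om]⟩
    exact hle hy

theorem bk_map_span (e : O ≃+* O3) (x : O) :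
    Ideal.span {e x} = (Ideal.span {x}).map (e : O →+* O3) := by
  rw [Ideal.map_span, Set.image_singleton]
  rfl

theorem bk_absNorm (e : O ≃+* O3) {x : O} (hx : x ≠ 0) :
    Ideal.absNorm (Ideal.span {e x}) = nm x := by
  rw [Ideal.absNorm_apply, Submodule.cardQuot_apply, ← card_quot hx]
  exact (Nat.card_congr (Ideal.quotientEquiv _ _ e (bk_map_span e x)).toEquiv).symm

theorem bk_exists_gen (e : O ≃+* O3) (I : Ideal O3) : ∃ x : O, I = Ideal.span {e x} := by
  obtain ⟨x, hx⟩ := (IsPrincipalIdealRing.principal (I.comap (e : O →+* O3))).principal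
  refine ⟨x, ?_⟩
  rw [bk_map_span]
  change _ = Ideal.span {x} at hx
  rw [← hx, Ideal.map_comap_of_surjective (e : O →+* O3) e.surjective]

theorem bk_cop (e : O ≃+* O3) (x y : O) :
    Ideal.span {e x} ⊔ Ideal.span {e y} = ⊤ ↔ IsCoprime x y := by
  rw [Ideal.sup_eq_top_iff_isCoprime]
  refine ⟨fun h => ?_, fun h => h.map (e : O →+* O3)⟩
  simpa using h.map (e.symm : O3 →+* O)

theorem bk_LSeries {m : Ideal O3} (ψ : RayClassChar m) {s : ℂ} (hs : s ≠ 0) {A : ℂ}
    (h : HasSum (fun I : Ideal O3 => ψ.toFun I * (Ideal.absNorm I : ℂ) ^ (-s)) A) :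
    LSeries (coeff ψ) s = A := by
  classical
  rw [← (h.tsum_fiberwise Ideal.absNorm).tsum_eq, LSeries]
  refine tsum_congr fun N => ?_
  have h1 : ∑' I : (Ideal.absNorm ⁻¹' {N} : Set (Ideal O3)),
      ψ.toFun I * (Ideal.absNorm (I : Ideal O3) : ℂ) ^ (-s) =
      (∑' I : (Ideal.absNorm ⁻¹' {N} : Set (Ideal O3)), ψ.toFun I) * (N : ℂ) ^ (-s) := by
    rw [← tsum_mul_right]
    refine tsum_congr fun I => ?_
    have : Ideal.absNorm (I : Ideal O3) = N := I.2
    rw [this]
  rw [h1, LSeries.term_def]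
  split_ifs with hN
  · rw [hN, Nat.cast_zero, Complex.zero_cpow (neg_ne_zero.2 hs), mul_zero]
  · rw [Complex.cpow_neg, div_eq_mul_inv, tsum_subtype, tsum_eq_finsum, coeff]
    · congr 2
      funext I
      rw [Set.indicator_apply]
      congr 1
    · exact (Ideal.finite_setOfPred_absNorm_eq N).subset Set.support_indicator_subset

theorem bk_mul {α β : Type} {f : α → ℂ} {g : β → ℂ} {a b : ℂ} (hf : HasSum f a)
    (hg : HasSum g b) : HasSum (fun p : α × β => f p.1 * g p.2) (a * b) :=
  hf.mul hg (summable_mul_of_summable_norm hf.summable.norm hg.summable.norm)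

theorem bk_decomp_inj {k k' : ℕ} {n n' : O} (hn : Prim n) (hn' : Prim n')
    (h : Associated (lam ^ k * n) (lam ^ k' * n')) : k = k' ∧ n = n' := by
  have h1 : lam ^ k ∣ lam ^ k' :=
    prime_lam.pow_dvd_of_dvd_mul_right k hn'.not_lam_dvd ((dvd_mul_right _ _).trans h.dvd)
  have h2 : lam ^ k' ∣ lam ^ k :=
    prime_lam.pow_dvd_of_dvd_mul_right k' hn.not_lam_dvd ((dvd_mul_right _ _).trans h.symm.dvd)
  rw [pow_dvd_pow_iff prime_lam.ne_zero prime_lam.not_isUnit] at h1 h2
  obtain rfl : k = k' := le_antisymm h1 h2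
  exact ⟨rfl, hn.eq_of_associated hn'
    (h.of_mul_left (Associated.refl _) (pow_ne_zero _ prime_lam.ne_zero))⟩

theorem bk_hasSum (e : O ≃+* O3) (a : Ideal O3 → ℂ) (ha : a ⊥ = 0) {A : ℂ}
    (h : HasSum (fun p : ℕ × {n : O // Prim n} => a (Ideal.span {e (lam ^ p.1 * p.2)})) A) :
    HasSum a A := by
  have hinj : Function.Injective
      (fun p : ℕ × {n : O // Prim n} => Ideal.span {e (lam ^ p.1 * p.2)}) := by
    rintro ⟨k, n, hn⟩ ⟨k', n', hn'⟩ hp
    have h1 := (Ideal.span_singleton_eq_span_singleton.1 hp).map (e.symm : O3 →* O)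
    simp only [MonoidHom.coe_coe, RingEquiv.symm_apply_apply] at h1
    obtain ⟨rfl, rfl⟩ := bk_decomp_inj hn hn' h1
    rfl
  refine (hinj.hasSum_iff fun I hI => ?_).1 h
  obtain ⟨x, rfl⟩ := bk_exists_gen e I
  by_cases hx : x = 0
  · rw [hx, map_zero, Ideal.span_singleton_eq_bot.2 rfl, ha]
  · obtain ⟨u, k, n, hu, hn, rfl⟩ := exists_decomp hx
    refine absurd ⟨(k, ⟨n, hn⟩), ?_⟩ hI
    dsimp only
    rw [mul_assoc, map_mul e u, Ideal.span_singleton_mul_left_unit (hu.map e)]

theorem hecke_of_ZF {θ : ℝ} (hθ : 0 ≤ θ) (h : ZF θ) (m : Ideal O3) (hm : m ≠ ⊥) (ψ : RayClassChar m) :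
    ∃ G : ℂ → ℂ, (∀ s : ℂ, 1 < s.re → G s = LSeries (coeff ψ) s) ∧
      ∀ s : ℂ, θ < s.re → (¬ IsPrincipalChar ψ ∨ s ≠ 1) → DifferentiableAt ℂ G s ∧ G s ≠ 0 := by
  classical
  obtain ⟨e⟩ := bk_exists_equiv
  obtain ⟨q, rfl⟩ := bk_exists_gen e m
  have hq : q ≠ 0 := by
    rintro rfl
    exact hm (by rw [map_zero, Ideal.span_singleton_eq_bot.2 rfl])
  set φ : O → ℂ := fun x => ψ.toFun (Ideal.span {e x}) with hφ
  have φmul : ∀ x y, φ (x * y) = φ x * φ y := by
    intro x y
    simp only [hφ]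
    rw [map_mul, ← Ideal.span_singleton_mul_span_singleton, ψ.map_mul]
  have φone' : ∀ x, q ∣ x - 1 → φ x = 1 := by
    intro x hx
    refine ψ.map_span_of_sub_one_mem _ (Ideal.mem_span_singleton.2 ?_)
    simpa using map_dvd e hx
  have φone : φ 1 = 1 := φone' 1 (by simp)
  have φzero : ∀ x, φ x = 0 ↔ ¬ IsCoprime x q := by
    intro x
    rw [← bk_cop e]
    exact ⟨fun h0 hc => ψ.ne_zero_of_coprime _ hc h0, ψ.eq_zero_of_not_coprime _⟩
  have φper : ∀ x y, q ∣ x - y → φ x = φ y := by
    intro x y hxy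
    by_cases hy : IsCoprime y q
    · obtain ⟨u, v, huv⟩ := hy
      have h1 : q ∣ u * y - 1 := ⟨-v, by linear_combination huv⟩
      have h2 : q ∣ u * x - 1 := by
        have := (hxy.mul_left u).add h1
        rwa [show u * (x - y) + (u * y - 1) = u * x - 1 by ring] at this
      have h3 := φone' _ h1
      have h4 := φone' _ h2
      rw [φmul] at h3 h4
      exact mul_left_cancel₀ (left_ne_zero_of_mul_eq_one h3) (h4.trans h3.symm)
    · rw [(φzero y).2 hy, (φzero x).2 (by rwa [ch_cop_congr hxy])]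
  have φpow : ∀ x (k : ℕ), φ (x ^ k) = φ x ^ k := by
    intro x k
    induction k with
    | zero => rw [pow_zero, pow_zero, φone]
    | succ k ih => rw [pow_succ, pow_succ, φmul, ih]
  have φunit : ∀ u x, IsUnit u → φ (u * x) = φ x := by
    intro u x hu
    simp only [hφ]
    rw [map_mul, Ideal.span_singleton_mul_left_unit (hu.map e)]
  have hc : ‖φ lam‖ ≤ 1 := by
    by_cases h0 : φ lam = 0
    · rw [h0, norm_zero]; exact zero_le_one
    · obtain ⟨a, k, hk, hd⟩ := ch_period hq lam
      have h1 := φper _ _ hd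
      rw [φpow, φpow, pow_add] at h1
      have h2 : φ lam ^ k = 1 := mul_left_cancel₀ (pow_ne_zero a h0) (h1.trans (mul_one _).symm)
      exact (Complex.norm_eq_one_of_pow_eq_one h2 hk.ne').le
  set η : O → ℂ := fun n => if IsCoprime n 3 then φ n else 0 with hη
  have hηp : ∀ n, Prim n → η n = φ n := fun n hn => if_pos (coprime_three_iff.2 hn.not_lam_dvd)
  have hch : IsCh (3 * q) η :=
    { ne := mul_ne_zero (by decide) hq
      three := dvd_mul_right _ _
      one := by rw [hηp 1 prim_one, φone]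
      mul := fun x y => by
        simp only [hη, IsCoprime.mul_left_iff, φmul]
        by_cases hx : IsCoprime x 3 <;> by_cases hy : IsCoprime y 3 <;> simp [hx, hy]
      per := fun x y hxy => by
        simp only [hη, ch_cop_congr ((dvd_mul_right 3 q).trans hxy),
          φper x y ((dvd_mul_left q 3).trans hxy)]
      zero := fun x => by
        simp only [hη, IsCoprime.mul_right_iff]
        by_cases hx : IsCoprime x 3 <;> simp [hx, φzero] }
  have hprin : Princ η → IsPrincipalChar ψ := by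
    intro hp I hI
    obtain ⟨x, rfl⟩ := bk_exists_gen e I
    rw [bk_cop] at hI
    obtain ⟨n, hn, hn3⟩ := ch_lift (k := 3) (by decide) hI
    obtain ⟨u, hu, hun⟩ := exists_prim (coprime_three_iff.1 hn3)
    have h1 : η (u * n) = φ x := by rw [hηp _ hun, φunit _ _ hu, φper _ _ hn]
    have h2 := hp _ hun (by rw [h1]; exact fun h0 => (φzero x).1 h0 hI)
    rw [h1] at h2
    exact h2
  have hr : ∀ s : ℂ, 0 < s.re → ‖φ lam * (3 : ℂ) ^ (-s)‖ < 1 := by
    intro s hs
    have h3 : ‖(3 : ℂ) ^ (-s)‖ < 1 := by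
      have := Complex.norm_natCast_cpow_of_pos (n := 3) (by norm_num) (-s)
      rw [Nat.cast_ofNat, Nat.cast_ofNat] at this
      rw [this]
      exact Real.rpow_lt_one_of_one_lt_of_neg (by norm_num) (by simpa using hs)
    rw [norm_mul]
    exact mul_lt_one_of_nonneg_of_lt_one_right hc (norm_nonneg _) h3
  have hne : ∀ s : ℂ, 0 < s.re → 1 - φ lam * (3 : ℂ) ^ (-s) ≠ 0 := by
    intro s hs h0
    have := hr s hs
    rw [← sub_eq_zero.1 h0, norm_one] at this
    exact lt_irrefl _ this
  refine ⟨fun s => (1 - φ lam * (3 : ℂ) ^ (-s))⁻¹ * Lf η s, fun s hs => ?_, fun s hs hor => ?_⟩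
  · have hs0 : 0 < s.re := by linarith
    have hs' : s ≠ 0 := by
      rintro rfl
      simp at hs0
    refine (bk_LSeries ψ hs' (bk_hasSum e _ ?_ ?_)).symm
    · rw [Ideal.absNorm_bot, Nat.cast_zero, Complex.zero_cpow (neg_ne_zero.2 hs'), mul_zero]
    · have g1 := hasSum_geometric_of_norm_lt_one (hr s hs0)
      have g2 : HasSum (fun n : {n : O // Prim n} => φ n * (Nr n : ℂ) ^ (-s)) (Lf η s) := by
        rw [hch.Lf_eq hs, Dser]
        have hi : Function.Injective (Subtype.val : {n : O // Prim n} → O) := Subtype.val_injective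
        have := (hi.hasSum_iff (fun n hn => if_neg fun h' => hn ⟨⟨n, h'⟩, rfl⟩)).2
          (l2_summable (fun n _ => hch.norm_le n) hs).hasSum
        convert this using 1
        funext n
        rw [Function.comp_apply, if_pos n.2, hηp _ n.2]
      have g3 := bk_mul g1 g2
      convert g3 using 2 with p
      obtain ⟨k, n, hn⟩ := p
      dsimp only
      rw [bk_absNorm e (mul_ne_zero (pow_ne_zero _ prime_lam.ne_zero) hn.ne_zero)]
      have h1 : ((nm (lam ^ k * n) : ℕ) : ℂ) = (Nr (lam ^ k * n) : ℂ) := by simp [Nr]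
      have h2 : (Nr (lam ^ k) : ℂ) ^ (-s) = ((3 : ℂ) ^ (-s)) ^ k := by
        clear h1
        induction k with
        | zero => rw [pow_zero, pow_zero, Nr_one, Complex.ofReal_one, Complex.one_cpow]
        | succ k ih => rw [pow_succ, pow_succ, l2_cpow_mul, ih, Nr_lam, Complex.ofReal_ofNat]
      change φ (lam ^ k * n) * _ = _
      rw [h1, l2_cpow_mul, h2, φmul, φpow, mul_pow]
      ring
  · have hs0 : 0 < s.re := lt_of_le_of_lt hθ hs
    have hor' : s ≠ 1 ∨ ¬ Princ η := hor.symm.imp id fun h1 h2 => h1 (hprin h2)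
    refine ⟨DifferentiableAt.mul (DifferentiableAt.inv ?_ (hne s hs0))
      (hch.Lf_differentiableAt hor'), mul_ne_zero (inv_ne_zero (hne s hs0)) (h _ _ hch s hs hor')⟩
    exact (differentiableAt_const _).sub ((differentiableAt_const _).mul
      (differentiableAt_id.neg.const_cpow (Or.inl (by norm_num))))

end Crest.Agent.R017
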