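import Crest.Agent.R017.QLSAux0

/-! # Row 17, quadratic large sieve: duality and reciprocity -/

set_option autoImplicit false

noncomputable section

open scoped BigOperators ComplexConjugate
open Complex MeasureTheory

namespace Crest.Agent.R017

/-- Duality for finite matrices: with `b n = conj (∑ m, c m * a m n)`,
`∑ n ‖·‖² = ∑ m, c m * ∑ n, b n * a m n`, Cauchy–Schwarz. -/
theorem q_duality {ι κ : Type*} (S : Finset ι) (T : Finset κ) (a : ι → κ → ℂ) {B : ℝ} (hB : 0 ≤ B)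
    (h : ∀ b : κ → ℂ, ∑ m ∈ S, ‖∑ n ∈ T, b n * a m n‖ ^ 2 ≤ B * ∑ n ∈ T, ‖b n‖ ^ 2) (c : ι → ℂ) :
    ∑ n ∈ T, ‖∑ m ∈ S, c m * a m n‖ ^ 2 ≤ B * ∑ m ∈ S, ‖c m‖ ^ 2 := by
  set F : κ → ℂ := fun n => ∑ m ∈ S, c m * a m n with hF
  set G : ι → ℂ := fun m => ∑ n ∈ T, conj (F n) * a m n with hG
  set X : ℝ := ∑ n ∈ T, ‖F n‖ ^ 2 with hX
  have hX0 : 0 ≤ X := Finset.sum_nonneg fun _ _ => by positivity
  have hc0 : 0 ≤ ∑ m ∈ S, ‖c m‖ ^ 2 := Finset.sum_nonneg fun _ _ => by positivity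
  have h1 : (X : ℂ) = ∑ m ∈ S, c m * G m := by
    have e1 : (X : ℂ) = ∑ n ∈ T, conj (F n) * F n := by
      rw [hX]; push_cast
      refine Finset.sum_congr rfl fun n _ => ?_
      rw [Complex.conj_mul']
    rw [e1]
    simp only [hG, Finset.mul_sum]
    rw [Finset.sum_comm]
    refine Finset.sum_congr rfl fun n _ => ?_
    conv_lhs => rw [hF]
    simp only [Finset.mul_sum]
    refine Finset.sum_congr rfl fun m _ => ?_
    ring
  have h2 : X ≤ ∑ m ∈ S, ‖c m‖ * ‖G m‖ := by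
    have e : X = ‖(X : ℂ)‖ := by rw [Complex.norm_real, Real.norm_of_nonneg hX0]
    rw [e, h1]
    refine (norm_sum_le _ _).trans (le_of_eq ?_)
    exact Finset.sum_congr rfl fun m _ => norm_mul _ _
  have h3 : ∑ m ∈ S, ‖G m‖ ^ 2 ≤ B * X := by
    have := h (fun n => conj (F n))
    simpa only [Complex.norm_conj] using this
  have h4 : X ^ 2 ≤ (∑ m ∈ S, ‖c m‖ ^ 2) * (B * X) :=
    calc X ^ 2 ≤ (∑ m ∈ S, ‖c m‖ * ‖G m‖) ^ 2 := pow_le_pow_left₀ hX0 h2 2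
      _ ≤ (∑ m ∈ S, ‖c m‖ ^ 2) * ∑ m ∈ S, ‖G m‖ ^ 2 := Finset.sum_mul_sq_le_sq_mul_sq _ _ _
      _ ≤ _ := mul_le_mul_of_nonneg_left h3 hc0
  rcases hX0.eq_or_lt with h0 | h0
  · rw [← h0]; positivity
  · refine le_of_mul_le_mul_right ?_ h0
    nlinarith

/-- `q_duality` turns `q_P ξ` (with `M := N`, `N := H`) into a bound for
`∑_{h ∈ obox H} ‖∑_{n ∈ obox N} β n * rho h n‖²`; then `rho n h = sig n h * rho h n` (`quad_recip`),
`sig n h = sig n c` with `c = b3_r 4 h` (`sig_per`, `b3_r_dvd`; `c` is odd), so that each row is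
bounded by the sum over the odd `c ∈ reps 4` (16 classes) of the rows for `β n = b n * sig n c`
(`sig_cases`). -/
theorem q_P_dual {ξ : ℝ} (h : q_P ξ) {ε : ℝ} (hε : 0 < ε) : ∃ C : ℝ, 0 ≤ C ∧
    ∀ (H N : ℝ) (b : O → ℂ), 1 ≤ H → 1 ≤ N →
      ∑ v ∈ obox H, ‖q_row N b v‖ ^ 2 ≤ C * (H * N) ^ ε * (N + H ^ ξ) * q_l2 N b := by
  classical
  obtain ⟨C, hC0, hC⟩ := h ε hε
  refine ⟨16 * C, by positivity, fun H N b hH hN => ?_⟩
  set B : ℝ := C * (N * H) ^ ε * (N + H ^ ξ) with hB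
  have hB0 : 0 ≤ B := by positivity
  have hdual : ∀ c : O → ℂ, ∑ v ∈ obox H, ‖∑ n ∈ obox N, c n * rho v n‖ ^ 2 ≤ B * q_l2 N c :=
    q_duality (obox N) (obox H) (fun m n => rho n m) hB0 (fun b' => hC N H b' hN hH)
  have h4 : (4 : O) ≠ 0 := by
    intro h0
    have : (4 : O).re = 0 := by rw [h0]; rfl
    exact absurd this (by decide)
  set R : Finset O := (reps 4).filter (fun c => ¬ (2 : O) ∣ c) with hR
  have hRc : (R.card : ℝ) ≤ 16 := by
    have h1 : R.card ≤ (reps 4).card := Finset.card_filter_le _ _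
    have h2 : ((reps (4 : O)).card : ℝ) = 16 := by
      rw [card_reps h4]
      have := Nr_natCast 4
      simp only [Nr, Nat.cast_ofNat] at this
      rw [this]; norm_num
    rw [← h2]; exact_mod_cast h1
  have hrow : ∀ v ∈ obox H, ‖q_row N b v‖ ^ 2 ≤
      ∑ c ∈ R, ‖∑ n ∈ obox N, (b n * sig n c) * rho v n‖ ^ 2 := by
    intro v hv
    have hv2 := (mem_obox.1 hv).2.2.1
    have hd := b3_r_dvd 4 v
    have hmem : b3_r 4 v ∈ R := by
      refine Finset.mem_filter.2 ⟨b3_r_mem h4 v, fun h2 => hv2 ?_⟩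
      have h24 : (2 : O) ∣ 4 := ⟨2, by norm_num⟩
      have := dvd_sub h2 (h24.trans hd)
      simpa using this
    have e : q_row N b v = ∑ n ∈ obox N, (b n * sig n (b3_r 4 v)) * rho v n := by
      refine Finset.sum_congr rfl fun n hn => ?_
      rw [quad_recip (mem_obox.1 hn).2.2.1 hv2,
        sig_per (x := n) (x' := n) (y := b3_r 4 v) (y' := v) (by simp) hd]
      ring
    rw [e]
    exact Finset.single_le_sum
      (f := fun c => ‖∑ n ∈ obox N, (b n * sig n c) * rho v n‖ ^ 2)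
      (fun _ _ => by positivity) hmem
  have hl2 : ∀ c ∈ R, q_l2 N (fun n => b n * sig n c) = q_l2 N b := by
    intro c hc
    refine Finset.sum_congr rfl fun n hn => ?_
    rcases sig_cases (mem_obox.1 hn).2.2.1 (Finset.mem_filter.1 hc).2 with h' | h' <;>
      simp [h']
  have hl := q_l2_nonneg N b
  calc ∑ v ∈ obox H, ‖q_row N b v‖ ^ 2
      ≤ ∑ v ∈ obox H, ∑ c ∈ R, ‖∑ n ∈ obox N, (b n * sig n c) * rho v n‖ ^ 2 :=
        Finset.sum_le_sum hrow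
    _ = ∑ c ∈ R, ∑ v ∈ obox H, ‖∑ n ∈ obox N, (b n * sig n c) * rho v n‖ ^ 2 := Finset.sum_comm
    _ ≤ ∑ c ∈ R, B * q_l2 N b := Finset.sum_le_sum fun c hc => by
        rw [← hl2 c hc]; exact hdual _
    _ = R.card * (B * q_l2 N b) := by rw [Finset.sum_const, nsmul_eq_mul]
    _ ≤ 16 * (B * q_l2 N b) := by gcongr
    _ = _ := by rw [hB, mul_comm N H]; ring

/-- `exists_decomp`: `v = u λ^k n`, `k ≤ 1` and `n` squarefree; if `2 ∣ n` write `n = (-2) n'`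
(`-2` is primary, `Prim.of_mul`); `s = u λ^k (-2)^j` has norm `≤ 12`. -/
theorem q_sqf_decomp {v : O} (hv : Squarefree v) :
    ∃ s ∈ box 12, ∃ v₀ : O, Prim v₀ ∧ Squarefree v₀ ∧ ¬ (2 : O) ∣ v₀ ∧ v = s * v₀ := by
  obtain ⟨u, k, n, hu, hn, rfl⟩ := exists_decomp hv.ne_zero
  have hk : k ≤ 1 := by
    by_contra hk
    have h2 : lam * lam ∣ u * lam ^ k * n := by
      obtain ⟨j, rfl⟩ : ∃ j, k = j + 2 := ⟨k - 2, by omega⟩
      exact ⟨u * lam ^ j * n, by ring⟩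
    exact prime_lam.not_unit (hv _ h2)
  have hu1 : Nr u = 1 := isUnit_iff_Nr.1 hu
  have hs0 : u * lam ^ k ≠ 0 := fun h0 => hv.ne_zero (by rw [h0, zero_mul])
  have hs : Nr (u * lam ^ k) ≤ 3 := by
    rw [Nr_mul, hu1, one_mul]
    interval_cases k
    · rw [pow_zero, isUnit_iff_Nr.1 isUnit_one]; norm_num
    · rw [pow_one, Nr_lam]
  have hns : Squarefree n := hv.squarefree_of_dvd (dvd_mul_left _ _)
  by_cases h2 : (2 : O) ∣ n
  · obtain ⟨n', rfl⟩ := h2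
    have hp : Prim (-2 : O) := ⟨-1, by norm_num⟩
    have hN2 : Nr (-2 : O) = 4 := by
      rw [Nr_neg]
      have := Nr_natCast 2
      simp only [Nat.cast_ofNat] at this
      rw [this]; norm_num
    refine ⟨u * lam ^ k * (-2), mem_box.2 ⟨?_, ?_⟩, -n', ?_, ?_, ?_, by ring⟩
    · exact mul_ne_zero hs0 hp.ne_zero
    · rw [Nr_mul, hN2]; linarith
    · refine hp.of_mul ?_
      rwa [neg_mul_neg]
    · exact hns.squarefree_of_dvd ⟨-2, by ring⟩
    · rintro ⟨w, hw⟩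
      refine prime_two.not_unit (hns 2 ⟨-w, ?_⟩)
      linear_combination (-2 : O) * hw
  · exact ⟨u * lam ^ k, mem_box.2 ⟨hs0, by linarith⟩, n, hn, hns, h2, rfl⟩

/-- `sqb V' ⊆ image (s, v₀) ↦ s v₀` of `box 12 ×ˢ obox V'`; `q_row Y b (s v₀) = q_row Y b' v₀` with
`b' n = b n * rho n s`; `q_P_dual`, `card_box_le`. -/
theorem q_P_hyp {ξ : ℝ} (h : q_P ξ) {ε : ℝ} (hε : 0 < ε) : ∃ C : ℝ, 0 ≤ C ∧
    ∀ V N : ℝ, 1 ≤ V → 1 ≤ N → q_Hyp (C * (V * N) ^ ε) ξ V N := by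
  classical
  obtain ⟨C, hC0, hC⟩ := q_P_dual h hε
  refine ⟨300 * C, by positivity, fun V N hV hN V' Y b h1 h2 h3 h4 => ?_⟩
  have hsub : sqb V' ⊆ (box 12 ×ˢ obox V').image (fun p => p.1 * p.2) := by
    intro v hv
    obtain ⟨hv1, hv2⟩ := mem_sqb.1 hv
    obtain ⟨s, hs, v₀, p1, p2, p3, rfl⟩ := q_sqf_decomp hv1
    refine Finset.mem_image.2 ⟨(s, v₀), Finset.mem_product.2 ⟨hs, mem_obox.2 ⟨p1, p2, p3, ?_⟩⟩, rfl⟩
    exact (Nr_le_of_dvd hv1.ne_zero (dvd_mul_left _ _)).trans hv2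
  have hl := q_l2_nonneg Y b
  have hcard : ((box 12).card : ℝ) ≤ 300 := by
    have := card_box_le (Y := 12) (by norm_num)
    linarith
  have hrow : ∀ s v₀ : O, q_row Y b (s * v₀) = q_row Y (fun n => b n * rho n s) v₀ := by
    intro s v₀
    refine Finset.sum_congr rfl fun n _ => ?_
    rw [rho_mul_right]; ring
  have hpow : (V' * Y) ^ ε ≤ (V * N) ^ ε := by gcongr
  have hV' : 0 ≤ V' ^ ξ := by positivity
  calc ∑ v ∈ sqb V', ‖q_row Y b v‖ ^ 2
      ≤ ∑ v ∈ (box 12 ×ˢ obox V').image (fun p => p.1 * p.2), ‖q_row Y b v‖ ^ 2 :=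
        Finset.sum_le_sum_of_subset_of_nonneg hsub fun _ _ _ => by positivity
    _ ≤ ∑ p ∈ box 12 ×ˢ obox V', ‖q_row Y b (p.1 * p.2)‖ ^ 2 :=
        Finset.sum_image_le_of_nonneg fun _ _ => by positivity
    _ = ∑ s ∈ box 12, ∑ v₀ ∈ obox V', ‖q_row Y (fun n => b n * rho n s) v₀‖ ^ 2 := by
        rw [Finset.sum_product]
        simp only [hrow]
    _ ≤ ∑ s ∈ box 12, C * (V * N) ^ ε * (Y + V' ^ ξ) * q_l2 Y b := by
        refine Finset.sum_le_sum fun s _ => (hC V' Y _ h1 h3).trans ?_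
        have hm : q_l2 Y (fun n => b n * rho n s) ≤ q_l2 Y b := q_l2_mono fun n => by
          rw [norm_mul]
          exact mul_le_of_le_one_right (norm_nonneg _) (norm_rho_le n s)
        have := q_l2_nonneg Y (fun n => b n * rho n s)
        gcongr
    _ = (box 12).card * (C * (V * N) ^ ε * (Y + V' ^ ξ) * q_l2 Y b) := by
        rw [Finset.sum_const, nsmul_eq_mul]
    _ ≤ 300 * (C * (V * N) ^ ε * (Y + V' ^ ξ) * q_l2 Y b) := by gcongr
    _ = _ := by ring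

end Crest.Agent.R017

end
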