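import Crest.Agent.R017.QLSAux9b
import Crest.Agent.R017.QLSAux10

/-! # Row 17, quadratic large sieve: the induction on the exponent -/

set_option autoImplicit false

noncomputable section

open scoped BigOperators ComplexConjugate
open Complex MeasureTheory

namespace Crest.Agent.R017

theorem q_P_mono {ξ ξ' : ℝ} (h : q_P ξ) (hξ : ξ ≤ ξ') : q_P ξ' := by
  intro ε hε
  obtain ⟨C, hC0, hC⟩ := h ε hε
  refine ⟨C, hC0, fun M N b hM hN => (hC M N b hM hN).trans ?_⟩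
  have := q_l2_nonneg N b
  gcongr

/-- Enlarging the rows. -/
theorem q11_rows {M M' N : ℝ} (h : M ≤ M') (b : O → ℂ) :
    ∑ m ∈ obox M, ‖q_row N b m‖ ^ 2 ≤ ∑ m ∈ obox M', ‖q_row N b m‖ ^ 2 :=
  Finset.sum_le_sum_of_subset_of_nonneg (obox_mono h) fun _ _ _ => by positivity

/-- `q_core` with `δ = 1`, `V = 1/2`, `κ = 0`, `ξ = 1` (`q_Hyp` is vacuous) and
`M' = max M (2 N³)` in place of `M` (`obox_mono`). -/
theorem q_base : q_P 3 := by
  intro ε hε
  obtain ⟨C, hC0, hC⟩ := q_core (δ := 1) one_pos hε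
  refine ⟨8 * C, by positivity, fun M N b hM hN => ?_⟩
  set M' := max M (2 * N ^ (3 : ℝ)) with hM'
  have h1 : M ≤ M' := le_max_left _ _
  have h2 : 2 * N ^ (3 : ℝ) ≤ M' := le_max_right _ _
  have h3 : N ≤ N ^ (3 : ℝ) := Real.self_le_rpow_of_one_le hN (by norm_num)
  have h4 : M' ≤ 2 * (M + N ^ (3 : ℝ)) := max_le (by linarith) (by linarith)
  have h5 : 1 ≤ M' := hM.trans h1
  have hy : q_Hyp 0 1 (1 / 2) N := fun V' Y b h1 h2 => absurd (h1.trans h2) (by norm_num)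
  have h6 := hC N M' (1 / 2) 0 1 b hN h5 (by norm_num) (by nlinarith)
    (by rw [show (2 : ℝ) + 1 = 3 by norm_num]; linarith) le_rfl (by norm_num) hy
  refine (q11_rows h1 b).trans (h6.trans ?_)
  have h7 : Real.sqrt M' ≤ M' := by
    rw [Real.sqrt_le_left (by linarith)]; nlinarith
  have h8 : ((1 : ℝ) / 2) ^ ((1 : ℝ) - 1 / 2) ≤ 1 :=
    Real.rpow_le_one (by norm_num) (by norm_num) (by norm_num)
  have h9 : Real.sqrt M' * ((1 : ℝ) / 2) ^ ((1 : ℝ) - 1 / 2) ≤ M' :=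
    (mul_le_of_le_one_right (Real.sqrt_nonneg _) h8).trans h7
  have h10 : M' + N + ((1 : ℝ) / 2) ^ (1 : ℝ) + Real.sqrt M' * ((1 : ℝ) / 2) ^ ((1 : ℝ) - 1 / 2) ≤
      8 * (M + N ^ (3 : ℝ)) := by
    rw [Real.rpow_one]; linarith
  have h11 : N ^ ε ≤ (M * N) ^ ε := by
    gcongr; exact le_mul_of_one_le_left (by linarith) hM
  have := q_l2_nonneg N b
  calc _ ≤ C * (M * N) ^ ε * (1 + 0) * (8 * (M + N ^ (3 : ℝ))) * q_l2 N b := by gcongr
    _ = _ := by ring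

/-- `q_core` with `δ = min (ε/7) 1`, `V = N^(1/ξ + δ)`, `M' = max M (N^(2 - 1/ξ))`,
`κ = C (V N)^δ ≤ C N^(3δ)` from `q_P_hyp`.  Then `N ≤ M'`, `V^ξ = N^(1+δξ) ≤ M' N^(3δ)`,
`√M' V^(ξ-1/2) = √M' N^(1-1/(2ξ)) N^(δ(ξ-1/2)) ≤ M' N^(3δ)`, `M' ≤ M + N^(2-1/ξ)`. -/
theorem q_step {ξ : ℝ} (h1 : 1 ≤ ξ) (h3 : ξ ≤ 3) (h : q_P ξ) : q_P (2 - 1 / ξ) := by
  intro ε hε
  set δ := min (ε / 7) 1 with hδ
  have hδ0 : 0 < δ := lt_min (by positivity) one_pos
  have hδ1 : δ ≤ 1 := min_le_right _ _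
  have hδ7 : 7 * δ ≤ ε := by have := min_le_left (ε / 7) 1; linarith
  obtain ⟨C, hC0, hC⟩ := q_core hδ0 hδ0
  obtain ⟨D, hD0, hD⟩ := q_P_hyp h hδ0
  refine ⟨4 * C * (1 + D), by positivity, fun M N b hM hN => ?_⟩
  have hN0 : 0 < N := by linarith
  have hξ0 : 0 < ξ := by linarith
  have hi1 : 1 / ξ ≤ 1 := by rw [div_le_one hξ0]; exact h1
  have hi0 : 0 < 1 / ξ := by positivity
  set M' := max M (N ^ (2 - 1 / ξ)) with hM'
  set V := N ^ (1 / ξ + δ) with hV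
  have a1 : M ≤ M' := le_max_left _ _
  have a2 : N ^ (2 - 1 / ξ) ≤ M' := le_max_right _ _
  have a3 : N ≤ M' := (Real.self_le_rpow_of_one_le hN (by linarith)).trans a2
  have a4 : M' ≤ M + N ^ (2 - 1 / ξ) :=
    max_le (le_add_of_nonneg_right (by positivity)) (le_add_of_nonneg_left (by linarith))
  have a5 : 1 ≤ M' := hM.trans a1
  have hV1 : 1 ≤ V := Real.one_le_rpow hN (by positivity)
  have hV2 : V ≤ N ^ 2 := by
    rw [← Real.rpow_two]; exact Real.rpow_le_rpow_of_exponent_le hN (by linarith)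
  have hMV : N ^ (2 + δ) ≤ M' * V := by
    have : N ^ (2 + δ) = N ^ (2 - 1 / ξ) * V := by
      rw [hV, ← Real.rpow_add hN0]; congr 1; ring
    rw [this]; gcongr
  have h6 := hC N M' V (D * (V * N) ^ δ) ξ b hN a5 (by linarith) hV2 hMV (by positivity)
    (by linarith) (hD V N hV1 hN)
  refine (q11_rows a1 b).trans (h6.trans ?_)
  set P := N ^ (3 * δ) with hP
  have hP1 : 1 ≤ P := Real.one_le_rpow hN (by positivity)
  have b1 : (V * N) ^ δ ≤ P := by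
    have : V * N ≤ N ^ (3 : ℝ) := by
      rw [show (3 : ℝ) = 2 + 1 by norm_num, Real.rpow_add hN0, Real.rpow_two, Real.rpow_one]
      gcongr
    calc (V * N) ^ δ ≤ (N ^ (3 : ℝ)) ^ δ := by gcongr
      _ = P := by rw [← Real.rpow_mul hN0.le]
  have b2 : V ^ ξ ≤ M' * P := by
    calc V ^ ξ = N ^ ((1 / ξ + δ) * ξ) := by rw [hV, ← Real.rpow_mul hN0.le]
      _ ≤ N ^ (1 + 3 * δ) := by
          refine Real.rpow_le_rpow_of_exponent_le hN ?_
          have : (1 / ξ + δ) * ξ = 1 + δ * ξ := by field_simp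
          rw [this]; nlinarith
      _ = N * P := by rw [Real.rpow_add hN0, Real.rpow_one]
      _ ≤ M' * P := by gcongr
  have b3 : Real.sqrt M' * V ^ (ξ - 1 / 2) ≤ M' * P := by
    have c1 : N ^ ((2 - 1 / ξ) / 2) ≤ Real.sqrt M' := by
      refine Real.le_sqrt_of_sq_le ?_
      rw [← Real.rpow_two, ← Real.rpow_mul hN0.le]
      convert a2 using 2; ring
    have c2 : V ^ (ξ - 1 / 2) ≤ Real.sqrt M' * P := by
      calc V ^ (ξ - 1 / 2) = N ^ ((1 / ξ + δ) * (ξ - 1 / 2)) := by rw [hV, ← Real.rpow_mul hN0.le]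
        _ ≤ N ^ ((2 - 1 / ξ) / 2 + 3 * δ) := by
            refine Real.rpow_le_rpow_of_exponent_le hN ?_
            have : (1 / ξ + δ) * (ξ - 1 / 2) = (2 - 1 / ξ) / 2 + δ * (ξ - 1 / 2) := by
              field_simp
            rw [this]; nlinarith
        _ = N ^ ((2 - 1 / ξ) / 2) * P := by rw [Real.rpow_add hN0]
        _ ≤ Real.sqrt M' * P := by gcongr
    calc Real.sqrt M' * V ^ (ξ - 1 / 2) ≤ Real.sqrt M' * (Real.sqrt M' * P) := by gcongr
      _ = M' * P := by rw [← mul_assoc, Real.mul_self_sqrt (by linarith)]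
  have b4 : M' ≤ M' * P := le_mul_of_one_le_right (by linarith) hP1
  have b5 : M' + N + V ^ ξ + Real.sqrt M' * V ^ (ξ - 1 / 2) ≤ 4 * (M' * P) := by linarith
  have b6 : 1 + D * (V * N) ^ δ ≤ (1 + D) * P := by
    have : D * (V * N) ^ δ ≤ D * P := by gcongr
    linarith
  have b7 : N ^ δ * P * P ≤ (M * N) ^ ε := by
    calc N ^ δ * P * P = N ^ (7 * δ) := by
          rw [hP, ← Real.rpow_add hN0, ← Real.rpow_add hN0]; congr 1; ring
      _ ≤ N ^ ε := Real.rpow_le_rpow_of_exponent_le hN hδ7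
      _ ≤ (M * N) ^ ε := by gcongr; exact le_mul_of_one_le_left hN0.le hM
  have := q_l2_nonneg N b
  calc _ ≤ C * N ^ δ * ((1 + D) * P) * (4 * (M' * P)) * q_l2 N b := by gcongr
    _ = 4 * C * (1 + D) * (N ^ δ * P * P) * M' * q_l2 N b := by ring
    _ ≤ _ := by gcongr

/-- Induction: `q_P (1 + 1/(k + 1/2))` for all `k : ℕ`. -/
theorem q_P_all {ξ : ℝ} (h : 1 < ξ) : q_P ξ := by
  have key : ∀ k : ℕ, q_P (1 + 1 / ((k : ℝ) + 1 / 2)) := by
    intro k
    induction k with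
    | zero => convert q_base using 1; norm_num
    | succ k ih =>
      have hk : (0 : ℝ) ≤ k := Nat.cast_nonneg k
      have h1 : 1 / ((k : ℝ) + 1 / 2) ≤ 2 := by
        rw [div_le_iff₀ (by positivity)]; linarith
      have h2 := q_step (le_add_of_nonneg_right (by positivity)) (by linarith) ih
      convert h2 using 1
      push_cast
      field_simp
      ring
  obtain ⟨k, hk⟩ := exists_nat_gt (1 / (ξ - 1))
  refine q_P_mono (key k) ?_
  have h0 : 0 < ξ - 1 := by linarith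
  have hk0 : (0 : ℝ) ≤ k := Nat.cast_nonneg k
  have : 1 / ((k : ℝ) + 1 / 2) ≤ ξ - 1 := by
    rw [div_lt_iff₀ h0] at hk
    rw [div_le_iff₀ (by positivity)]
    nlinarith
  linarith

/-- `q_P_hyp` for `ξ = 1 + ε/2` (with `V = V' = N`, `N = Y = H`) and `q_duality`;
`H + N^ξ ≤ (HN)^(ε/2) (H + N)`. -/
theorem q_main {ε : ℝ} (hε : 0 < ε) : ∃ C : ℝ, 0 ≤ C ∧ ∀ (H N : ℝ) (β : O → ℂ), 1 ≤ H → 1 ≤ N →
    ∑ h ∈ obox H, ‖∑ v ∈ sqb N, β v * rho h v‖ ^ 2 ≤
      C * (H * N) ^ ε * (H + N) * ∑ v ∈ sqb N, ‖β v‖ ^ 2 := by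
  obtain ⟨C, hC0, hC⟩ := q_P_hyp (q_P_all (ξ := 1 + ε / 2) (by linarith)) (half_pos hε)
  refine ⟨C, hC0, fun H N β hH hN => ?_⟩
  have hN0 : 0 < N := by linarith
  have hH0 : 0 < H := by linarith
  have h1 := q_duality (sqb N) (obox H) (fun v h => rho h v)
    (B := C * (N * H) ^ (ε / 2) * (H + N ^ (1 + ε / 2))) (by positivity)
    (fun b => hC N H hN hH N H b hN le_rfl hH le_rfl) β
  refine h1.trans (mul_le_mul_of_nonneg_right ?_ (Finset.sum_nonneg fun _ _ => by positivity))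
  have h2 : 1 ≤ (H * N) ^ (ε / 2) := Real.one_le_rpow (by nlinarith) (by positivity)
  have h3 : N ^ (ε / 2) ≤ (H * N) ^ (ε / 2) := by
    gcongr; exact le_mul_of_one_le_left hN0.le hH
  have h4 : H + N ^ (1 + ε / 2) ≤ (H * N) ^ (ε / 2) * (H + N) := by
    rw [Real.rpow_add hN0, Real.rpow_one]
    nlinarith
  calc C * (N * H) ^ (ε / 2) * (H + N ^ (1 + ε / 2))
      ≤ C * (H * N) ^ (ε / 2) * ((H * N) ^ (ε / 2) * (H + N)) := by rw [mul_comm N H]; gcongr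
    _ = C * ((H * N) ^ (ε / 2) * (H * N) ^ (ε / 2)) * (H + N) := by ring
    _ = _ := by rw [← Real.rpow_add (by positivity), add_halves]

end Crest.Agent.R017

end
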