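import Crest.Agent.R017.Chars
import Crest.Agent.R017.QLSAux11

/-! # Row 17: the quadratic large sieve -/

set_option autoImplicit false

noncomputable section

open scoped BigOperators ComplexConjugate
open Complex MeasureTheory

namespace Crest.Agent.R017

open Classical in
/-- Primary squarefree elements of norm at most `Y`. -/
def sbox (Y : ℝ) : Finset O := (box Y).filter (fun n => Prim n ∧ Squarefree n)

theorem q_mem_sbox {Y : ℝ} {n : O} : n ∈ sbox Y ↔ Prim n ∧ Squarefree n ∧ Nr n ≤ Y := by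
  classical
  simp only [sbox, Finset.mem_filter, mem_box]
  exact ⟨fun h => ⟨h.2.1, h.2.2, h.1.2⟩, fun h => ⟨⟨h.1.ne_zero, h.2.2⟩, h.1, h.2.1⟩⟩

/-- Even rows vanish. -/
theorem q_rows (H : ℝ) (S : Finset O) (β : O → ℂ) :
    ∑ h ∈ sbox H, ‖∑ n ∈ S, β n * rho h n‖ ^ 2 = ∑ h ∈ obox H, ‖∑ n ∈ S, β n * rho h n‖ ^ 2 := by
  symm
  refine Finset.sum_subset (fun h hh => ?_) (fun h hh hh' => ?_)
  · obtain ⟨h1, h2, -, h4⟩ := mem_obox.1 hh
    exact q_mem_sbox.2 ⟨h1, h2, h4⟩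
  · obtain ⟨h1, h2, h4⟩ := q_mem_sbox.1 hh
    have h3 : (2 : O) ∣ h := by
      by_contra h3
      exact hh' (mem_obox.2 ⟨h1, h2, h3, h4⟩)
    have h5 : ∀ n, rho h n = 0 := fun n => (rho_eq_zero h1.ne_zero).2 (Or.inl h3)
    simp [h5]

/-- Heath-Brown's quadratic large sieve over `ℤ[ω]`. -/
theorem qls {ε : ℝ} (hε : 0 < ε) : ∃ C : ℝ, 0 ≤ C ∧ ∀ (H N : ℝ) (β : O → ℂ), 1 ≤ H → 1 ≤ N →
    ∑ h ∈ sbox H, ‖∑ n ∈ sbox N, β n * rho h n‖ ^ 2 ≤
      C * (H * N) ^ ε * (H + N) * ∑ n ∈ sbox N, ‖β n‖ ^ 2 := by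
  obtain ⟨C, hC0, hC⟩ := q_main hε
  refine ⟨C, hC0, fun H N β hH hN => ?_⟩
  have e : sbox N = (sqb N).filter Prim := by
    ext n
    rw [q_mem_sbox, Finset.mem_filter, mem_sqb]
    tauto
  have h := hC H N (fun n => if Prim n then β n else 0) hH hN
  rw [q_rows, e]
  simp only [Finset.sum_filter]
  convert h using 3 with h _ n _
  · congr 1
    refine Finset.sum_congr rfl fun n _ => ?_
    split_ifs <;> simp
  · split_ifs <;> simp

/-- A choice of square root of the largest square divisor. -/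
theorem q_exists_root : ∃ rt : O → O, ∀ n : O, n ≠ 0 →
    ∃ v : O, Squarefree v ∧ n = v * rt n ^ 2 := by
  have h : ∀ n : O, ∃ w : O, n ≠ 0 → ∃ v : O, Squarefree v ∧ n = v * w ^ 2 := by
    intro n
    by_cases hn : n = 0
    · exact ⟨0, fun h => absurd hn h⟩
    · obtain ⟨a, b, h1, h2⟩ := a1_sq_mul hn
      exact ⟨b, fun _ => ⟨a, h2, by rw [h1, sq]⟩⟩
  choose rt hrt using h
  exact ⟨rt, hrt⟩

open Classical in
theorem q_sum_root {rt : O → O} (hrt : ∀ n : O, n ≠ 0 → ∃ v : O, Squarefree v ∧ n = v * rt n ^ 2)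
    (N : ℝ) (f : O → ℂ) :
    ∑ n ∈ box N, f n = ∑ w ∈ box N, ∑ v ∈ sqb N,
      if v * w ^ 2 ∈ box N ∧ rt (v * w ^ 2) = w then f (v * w ^ 2) else 0 := by
  have h1 : ∀ w v : O, (if v * w ^ 2 ∈ box N ∧ rt (v * w ^ 2) = w then f (v * w ^ 2) else 0) =
      ∑ n ∈ box N, if v * w ^ 2 = n ∧ rt n = w then f n else 0 := by
    intro w v
    simp only [ite_and]
    rw [Finset.sum_ite_eq]
  simp only [h1]
  simp only [Finset.sum_comm (s := sqb N) (t := box N)]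
  rw [Finset.sum_comm]
  refine Finset.sum_congr rfl fun n hn => ?_
  obtain ⟨hn0, hnN⟩ := mem_box.1 hn
  obtain ⟨v, hv, e⟩ := hrt n hn0
  have hw0 : rt n ≠ 0 := by
    intro h; apply hn0; rw [e, h]; simp
  have hwd : rt n ∣ n := ⟨v * rt n, by conv_lhs => rw [e]
                                       ring⟩
  have hvd : v ∣ n := ⟨rt n ^ 2, e⟩
  rw [Finset.sum_eq_single_of_mem (rt n)
    (mem_box.2 ⟨hw0, (Nr_le_of_dvd hn0 hwd).trans hnN⟩),
    Finset.sum_eq_single_of_mem v (mem_sqb.2 ⟨hv, (Nr_le_of_dvd hn0 hvd).trans hnN⟩)]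
  · rw [if_pos ⟨e.symm, rfl⟩]
  · intro v' _ hv'
    rw [if_neg]
    rintro ⟨h, -⟩
    apply hv'
    exact mul_right_cancel₀ (pow_ne_zero 2 hw0) (h.trans e)
  · intro w _ hw
    refine Finset.sum_eq_zero fun v' _ => if_neg ?_
    rintro ⟨-, h⟩
    exact hw h.symm

/-- Arbitrary columns, bounded coefficients. -/
theorem qls_bdd {ε : ℝ} (hε : 0 < ε) : ∃ C : ℝ, 0 ≤ C ∧ ∀ (H N b : ℝ) (β : O → ℂ), 1 ≤ H → 1 ≤ N →
    (∀ n ∈ box N, ‖β n‖ ≤ b) →
    ∑ h ∈ sbox H, ‖∑ n ∈ box N, β n * rho h n‖ ^ 2 ≤ C * (H * N) ^ ε * (H + N) * N * b ^ 2 := by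
  classical
  obtain ⟨C, hC0, hC⟩ := q_main (half_pos hε)
  obtain ⟨L, hL0, hL⟩ := q_sum_inv (half_pos (half_pos hε))
  obtain ⟨rt, hrt⟩ := q_exists_root
  refine ⟨25 * C * L ^ 2, by positivity, fun H N b β hH hN hβ => ?_⟩
  rw [q_rows]
  set γ : O → O → ℂ := fun w v =>
    if v * w ^ 2 ∈ box N ∧ rt (v * w ^ 2) = w then β (v * w ^ 2) else 0 with hγ
  set Λ : ℝ := ∑ w ∈ box N, (Nr w)⁻¹ with hΛ
  have hΛ0 : 0 ≤ Λ := Finset.sum_nonneg fun w _ => inv_nonneg.2 (Nr_nonneg w)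
  have hrow : ∀ h : O, ‖∑ n ∈ box N, β n * rho h n‖ ^ 2 ≤
      Λ * ∑ w ∈ box N, Nr w * ‖∑ v ∈ sqb N, γ w v * rho h v‖ ^ 2 := by
    intro h
    rw [q_sum_root hrt N]
    have h1 : ∀ w : O, ‖∑ v ∈ sqb N, if v * w ^ 2 ∈ box N ∧ rt (v * w ^ 2) = w then
        β (v * w ^ 2) * rho h (v * w ^ 2) else 0‖ ≤ ‖∑ v ∈ sqb N, γ w v * rho h v‖ := by
      intro w
      have h2 : (∑ v ∈ sqb N, if v * w ^ 2 ∈ box N ∧ rt (v * w ^ 2) = w then
          β (v * w ^ 2) * rho h (v * w ^ 2) else 0) =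
          (∑ v ∈ sqb N, γ w v * rho h v) * rho h (w ^ 2) := by
        rw [Finset.sum_mul]
        refine Finset.sum_congr rfl fun v _ => ?_
        simp only [hγ]
        split_ifs
        · rw [rho_mul_right]; ring
        · simp
      rw [h2, norm_mul]
      exact mul_le_of_le_one_right (norm_nonneg _) (norm_rho_le _ _)
    refine (pow_le_pow_left₀ (norm_nonneg _)
      ((norm_sum_le _ _).trans (Finset.sum_le_sum fun w _ => h1 w)) 2).trans ?_
    refine Finset.sum_sq_le_sum_mul_sum_of_sq_le_mul _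
      (fun w _ => inv_nonneg.2 (Nr_nonneg w))
      (fun w _ => mul_nonneg (Nr_nonneg w) (by positivity)) (fun w hw => le_of_eq ?_)
    have := Nr_pos (mem_box.1 hw).1
    field_simp
  have hmass : ∀ w ∈ box N, ∑ v ∈ sqb N, ‖γ w v‖ ^ 2 ≤ 25 * (N / Nr w ^ 2) * b ^ 2 := by
    intro w hw
    have hw0 := Nr_pos (mem_box.1 hw).1
    have h1 : ∑ v ∈ sqb N, ‖γ w v‖ ^ 2 ≤ ∑ v ∈ sqb N, if v ∈ box (N / Nr w ^ 2) then b ^ 2 else 0 := by
      refine Finset.sum_le_sum fun v hv => ?_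
      simp only [hγ]
      by_cases hc : v * w ^ 2 ∈ box N ∧ rt (v * w ^ 2) = w
      · rw [if_pos hc, if_pos]
        · exact pow_le_pow_left₀ (norm_nonneg _) (hβ _ hc.1) 2
        · refine mem_box.2 ⟨(mem_sqb.1 hv).1.ne_zero, ?_⟩
          rw [le_div_iff₀ (by positivity), ← Nr_pow, ← Nr_mul]
          exact (mem_box.1 hc.1).2
      · rw [if_neg hc]
        split_ifs <;> simp [sq_nonneg]
    refine h1.trans ?_
    rw [← Finset.sum_filter, Finset.sum_const, nsmul_eq_mul]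
    refine mul_le_mul_of_nonneg_right ?_ (sq_nonneg b)
    refine le_trans ?_ (card_box_le (Y := N / Nr w ^ 2) (by positivity))
    exact_mod_cast Finset.card_le_card fun v hv => (Finset.mem_filter.1 hv).2
  set K : ℝ := C * (H * N) ^ (ε / 2) * (H + N) with hK
  have hK0 : 0 ≤ K := by positivity
  have hHN : N ≤ H * N := le_mul_of_one_le_left (by linarith) hH
  have hΛ1 : Λ ≤ L * (H * N) ^ (ε / 2 / 2) := (hL N hN).trans (by gcongr)
  calc ∑ h ∈ obox H, ‖∑ n ∈ box N, β n * rho h n‖ ^ 2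
      ≤ ∑ h ∈ obox H, Λ * ∑ w ∈ box N, Nr w * ‖∑ v ∈ sqb N, γ w v * rho h v‖ ^ 2 :=
        Finset.sum_le_sum fun h _ => hrow h
    _ = Λ * ∑ w ∈ box N, Nr w * ∑ h ∈ obox H, ‖∑ v ∈ sqb N, γ w v * rho h v‖ ^ 2 := by
        rw [← Finset.mul_sum, Finset.sum_comm]
        simp only [Finset.mul_sum]
    _ ≤ Λ * ∑ w ∈ box N, (Nr w)⁻¹ * (25 * K * N * b ^ 2) := by
        refine mul_le_mul_of_nonneg_left (Finset.sum_le_sum fun w hw => ?_) hΛ0
        have hw0 := Nr_pos (mem_box.1 hw).1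
        calc Nr w * ∑ h ∈ obox H, ‖∑ v ∈ sqb N, γ w v * rho h v‖ ^ 2
            ≤ Nr w * (K * (25 * (N / Nr w ^ 2) * b ^ 2)) := by
              refine mul_le_mul_of_nonneg_left ((hC H N (γ w) hH hN).trans ?_) hw0.le
              exact mul_le_mul_of_nonneg_left (hmass w hw) hK0
          _ = (Nr w)⁻¹ * (25 * K * N * b ^ 2) := by field_simp
    _ = Λ ^ 2 * (25 * K * N * b ^ 2) := by rw [← Finset.sum_mul]; ring
    _ ≤ (L * (H * N) ^ (ε / 2 / 2)) ^ 2 * (25 * K * N * b ^ 2) := by gcongr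
    _ = 25 * C * L ^ 2 * (H * N) ^ ε * (H + N) * N * b ^ 2 := by
        have h0 : 0 < H * N := by positivity
        have e : (H * N) ^ ε = ((H * N) ^ (ε / 2 / 2)) ^ 2 * (H * N) ^ (ε / 2) := by
          rw [sq, ← Real.rpow_add h0, ← Real.rpow_add h0]; congr 1; ring
        rw [e, hK]; ring

end Crest.Agent.R017

end
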