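import Crest.Agent.R017.Smooth2

/-! # Row 17: log-Gaussian smooth sums -/

set_option autoImplicit false

noncomputable section

open scoped BigOperators ComplexConjugate
open Complex MeasureTheory

namespace Crest.Agent.R017

/-- the coefficient of a smooth sum -/
def w3_k (c : O → ℂ) (τ : ℝ) (n : O) : ℂ := if Prim n then c n * (Nr n : ℂ) ^ (-(τ * I)) else 0

theorem w3_sm (a : ℝ) (c : O → ℂ) (X τ : ℝ) :
    sm a c X τ = ∑' n : O, w3_k c τ n * (W a (Nr n / X) : ℂ) := by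
  unfold sm w3_k
  refine tsum_congr fun n => ?_
  split_ifs <;> simp

theorem w3_cpow {x : ℝ} (hx : 0 < x) (τ : ℝ) :
    (x : ℂ) ^ (-(τ * I)) = Complex.exp (-(τ * I) * (Real.log x : ℝ)) := by
  rw [Complex.cpow_def_of_ne_zero (Complex.ofReal_ne_zero.2 hx.ne'), Complex.ofReal_log hx.le,
    mul_comm]

theorem w3_norm_k {c : O → ℂ} {K A : ℝ} (hc : ∀ n, Prim n → ‖c n‖ ≤ K * Nr n ^ A) (τ : ℝ) (n : O) :
    ‖w3_k c τ n‖ ≤ |K| * (if n = 0 then 0 else Nr n ^ A) := by
  unfold w3_k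
  by_cases hn : Prim n
  · rw [if_pos hn, if_neg hn.ne_zero, norm_mul,
      Complex.norm_cpow_eq_rpow_re_of_pos (Nr_pos hn.ne_zero)]
    simp only [neg_re, mul_re, ofReal_re, I_re, mul_zero, ofReal_im, I_im, mul_one, sub_self,
      neg_zero, Real.rpow_zero]
    exact (hc n hn).trans (mul_le_mul_of_nonneg_right (le_abs_self K)
      (Real.rpow_nonneg (Nr_nonneg n) _))
  · rw [if_neg hn, norm_zero]
    split_ifs
    · simp
    · exact mul_nonneg (abs_nonneg _) (Real.rpow_nonneg (Nr_nonneg n) _)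

theorem w3_gauss_eq {a b : ℝ} (ha : 0 < a) (hb : 0 < b) (L y : ℝ) :
    Real.exp (-y ^ 2 / (4 * b)) * Real.exp (-(L - y) ^ 2 / (4 * a)) =
      Real.exp (-L ^ 2 / (4 * (a + b))) *
        Real.exp (-((a + b) / (4 * a * b)) * (y - b * L / (a + b)) ^ 2) := by
  rw [← Real.exp_add, ← Real.exp_add]
  congr 1
  field_simp
  ring

theorem w3_gauss_int {a b : ℝ} (ha : 0 < a) (hb : 0 < b) (L : ℝ) :
    Integrable fun y : ℝ => Real.exp (-y ^ 2 / (4 * b)) * Real.exp (-(L - y) ^ 2 / (4 * a)) := by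
  simp only [w3_gauss_eq ha hb]
  exact ((integrable_exp_neg_mul_sq (b := (a + b) / (4 * a * b)) (by positivity)).comp_sub_right
    (b * L / (a + b))).const_mul _

theorem w3_gauss {a b : ℝ} (ha : 0 < a) (hb : 0 < b) (L : ℝ) :
    ∫ y : ℝ, Real.exp (-y ^ 2 / (4 * b)) * Real.exp (-(L - y) ^ 2 / (4 * a)) =
      Real.exp (-L ^ 2 / (4 * (a + b))) * Real.sqrt (Real.pi / ((a + b) / (4 * a * b))) := by
  simp only [w3_gauss_eq ha hb]
  rw [integral_const_mul, integral_sub_right_eq_self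
    (fun y : ℝ => Real.exp (-((a + b) / (4 * a * b)) * y ^ 2)), integral_gaussian]

theorem w3_W_exp {x X : ℝ} (hx : 0 < x) (hX : 0 < X) (a y : ℝ) :
    W a (x / (X * Real.exp y)) = Real.exp (-(Real.log (x / X) - y) ^ 2 / (4 * a)) := by
  unfold W
  rw [← div_div x, Real.log_div (div_pos hx hX).ne' (Real.exp_pos y).ne', Real.log_exp]

/-- the terms of the entire function -/
def w3_t (a : ℝ) (c : O → ℂ) (T : ℝ) (n : O) (z : ℂ) : ℂ :=
  w3_k c T n * Complex.exp (-((Real.log (Nr n) : ℝ) - z) ^ 2 / (4 * a))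

/-- the entire function -/
def w3_F (a : ℝ) (c : O → ℂ) (T : ℝ) (z : ℂ) : ℂ := ∑' n : O, w3_t a c T n z

theorem w3_F_eq {a : ℝ} (ha : 0 < a) (c : O → ℂ) (T u v : ℝ) :
    w3_F a c T (u + v * I) = Complex.exp ((v ^ 2 / (4 * a) : ℝ) + (-(u * v / (2 * a)) : ℝ) * I) *
      sm a c (Real.exp u) (T - v / (2 * a)) := by
  rw [w3_sm, ← tsum_mul_left]
  refine tsum_congr fun n => ?_
  unfold w3_t w3_k
  split_ifs with hn
  · have hN := Nr_pos hn.ne_zero
    have hW := w3_W_exp hN one_pos a u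
    rw [one_mul, div_one] at hW
    rw [hW, w3_cpow hN, w3_cpow hN, Complex.ofReal_exp, mul_assoc, mul_assoc,
      mul_left_comm (Complex.exp _), ← Complex.exp_add, ← Complex.exp_add, ← Complex.exp_add]
    congr 2
    have ha' : (a : ℂ) ≠ 0 := Complex.ofReal_ne_zero.2 ha.ne'
    push_cast
    field_simp
    linear_combination (-2 * (v : ℂ) ^ 2) * Complex.I_sq
  · simp

theorem w3_norm_F {a : ℝ} (ha : 0 < a) (c : O → ℂ) (T u v : ℝ) :
    ‖w3_F a c T (u + v * I)‖ = Real.exp (v ^ 2 / (4 * a)) * ‖sm a c (Real.exp u) (T - v / (2 * a))‖ := by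
  rw [w3_F_eq ha, norm_mul, Complex.norm_exp]
  congr 2
  simp only [add_re, ofReal_re, mul_re, I_re, mul_zero, ofReal_im, I_im, mul_one, sub_self, add_zero]

theorem w3_t_diff (a : ℝ) (c : O → ℂ) (T : ℝ) (n : O) : Differentiable ℂ (w3_t a c T n) := by
  unfold w3_t
  fun_prop

theorem w3_t_bound {a : ℝ} (ha : 0 < a) {c : O → ℂ} {K A : ℝ}
    (hc : ∀ n, Prim n → ‖c n‖ ≤ K * Nr n ^ A) (T ρ : ℝ) : ∃ M : O → ℝ, Summable M ∧
      ∀ n, ∀ z ∈ Metric.ball (0 : ℂ) ρ, ‖w3_t a c T n z‖ ≤ M n := by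
  refine ⟨fun n => (|K| * Real.exp (ρ ^ 2 / (4 * a))) *
    (if n = 0 then 0 else Nr n ^ A * W (2 * a) (Nr n / 1)),
    (summable_W (by positivity) one_pos A).mul_left _, fun n z hz => ?_⟩
  have h1 := w3_norm_k hc T n
  have hz' : ‖z‖ < ρ := by simpa using hz
  have hz2 : z.re ^ 2 + z.im ^ 2 ≤ ρ ^ 2 := by
    have := Complex.sq_norm z
    rw [Complex.normSq_apply] at this
    nlinarith [norm_nonneg z]
  have h2 : ‖Complex.exp (-((Real.log (Nr n) : ℝ) - z) ^ 2 / (4 * a))‖ ≤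
      Real.exp (ρ ^ 2 / (4 * a)) * W (2 * a) (Nr n / 1) := by
    rw [Complex.norm_exp, W, ← Real.exp_add, div_one]
    refine Real.exp_le_exp.2 ?_
    rw [show (4 * (a : ℂ)) = ((4 * a : ℝ) : ℂ) by push_cast; ring, Complex.div_ofReal_re]
    set L := Real.log (Nr n)
    have e : (-((L : ℂ) - z) ^ 2).re = -(L - z.re) ^ 2 + z.im ^ 2 := by
      simp only [sq, neg_re, mul_re, sub_re, ofReal_re, sub_im, ofReal_im]
      ring
    rw [e, show ρ ^ 2 / (4 * a) + -L ^ 2 / (4 * (2 * a)) = (ρ ^ 2 - L ^ 2 / 2) / (4 * a) by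
      field_simp; ring]
    refine div_le_div_of_nonneg_right ?_ (by positivity)
    nlinarith [sq_nonneg (L - 2 * z.re)]
  unfold w3_t
  rw [norm_mul]
  refine (mul_le_mul h1 h2 (norm_nonneg _) ((norm_nonneg _).trans h1)).trans (le_of_eq ?_)
  beta_reduce
  split_ifs <;> ring

theorem w3_F_diff {a : ℝ} (ha : 0 < a) {c : O → ℂ} {K A : ℝ}
    (hc : ∀ n, Prim n → ‖c n‖ ≤ K * Nr n ^ A) (T : ℝ) : Differentiable ℂ (w3_F a c T) := by
  intro z
  obtain ⟨M, hM, hb⟩ := w3_t_bound ha hc T (‖z‖ + 1)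
  exact (Complex.differentiableOn_tsum_of_summable_norm hM
    (fun n => (w3_t_diff a c T n).differentiableOn) Metric.isOpen_ball hb).differentiableAt
    (Metric.isOpen_ball.mem_nhds (by simp))

theorem w3_deriv_F {a : ℝ} (ha : 0 < a) {c : O → ℂ} {K A : ℝ}
    (hc : ∀ n, Prim n → ‖c n‖ ≤ K * Nr n ^ A) (T u : ℝ) :
    sm a (fun n => c n * (Real.log (Nr n) - u : ℝ)) (Real.exp u) T =
      (2 * a : ℝ) * deriv (w3_F a c T) u := by
  obtain ⟨M, hM, hb⟩ := w3_t_bound ha hc T (‖(u : ℂ)‖ + 1)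
  have h := Complex.hasSum_deriv_of_summable_norm hM
    (fun n => (w3_t_diff a c T n).differentiableOn) Metric.isOpen_ball hb
    (z := (u : ℂ)) (by simp)
  change _ = _ * deriv (fun w => ∑' n, w3_t a c T n w) u
  rw [← h.tsum_eq, ← tsum_mul_left, w3_sm]
  refine tsum_congr fun n => ?_
  have ha' : (a : ℂ) ≠ 0 := Complex.ofReal_ne_zero.2 ha.ne'
  have hd : HasDerivAt (w3_t a c T n) (w3_k c T n *
      (Complex.exp (-((Real.log (Nr n) : ℝ) - (u : ℂ)) ^ 2 / (4 * a)) *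
        (-((2 : ℕ) * ((Real.log (Nr n) : ℝ) - (u : ℂ)) ^ (2 - 1) * (-1)) / (4 * a)))) u :=
    (((((hasDerivAt_id (u : ℂ)).const_sub _).fun_pow 2).fun_neg.div_const _).cexp).const_mul _
  rw [hd.deriv]
  unfold w3_k
  split_ifs with hn
  · have hN := Nr_pos hn.ne_zero
    have hW := w3_W_exp hN one_pos a u
    rw [one_mul, div_one] at hW
    rw [hW, Complex.ofReal_exp]
    push_cast
    field_simp
    ring
  · simp

/-- bounding a circle integral of `g F` by the smooth sums on the circle -/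
theorem w3_circle {a : ℝ} (ha : 0 < a) {c : O → ℂ} {K A : ℝ}
    (hc : ∀ n, Prim n → ‖c n‖ ≤ K * Nr n ^ A) (T U : ℝ) {R B : ℝ} (hR : 0 < R) (g : ℂ → ℂ)
    (hg : ∀ θ, ‖g (circleMap U R θ)‖ ≤ B) :
    ‖∮ z in C(U, R), g z • w3_F a c T z‖ ≤ R * B * Real.exp (R ^ 2 / (4 * a)) *
      ∫ θ in (0 : ℝ)..(2 * Real.pi),
        ‖sm a c (Real.exp (U + R * Real.cos θ)) (T - R * Real.sin θ / (2 * a))‖ := by
  rw [← intervalIntegral.integral_const_mul]
  refine intervalIntegral.norm_integral_le_of_norm_le (by positivity)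
    (Filter.Eventually.of_forall fun θ _ => ?_) ?_
  · have e : circleMap U R θ = ((U + R * Real.cos θ : ℝ) : ℂ) + ((R * Real.sin θ : ℝ) : ℂ) * I := by
      rw [circleMap, Complex.exp_mul_I]; push_cast; ring
    have hB : 0 ≤ B := (norm_nonneg _).trans (hg θ)
    rw [norm_smul, norm_smul, deriv_circleMap, norm_mul, norm_circleMap_zero, Complex.norm_I,
      mul_one, abs_of_pos hR, mul_assoc, mul_assoc]
    refine mul_le_mul_of_nonneg_left (mul_le_mul (hg θ) ?_ (norm_nonneg _) hB) hR.le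
    rw [e, w3_norm_F ha]
    refine mul_le_mul_of_nonneg_right (Real.exp_le_exp.2 (div_le_div_of_nonneg_right ?_
      (by positivity))) (norm_nonneg _)
    rw [mul_pow]
    exact mul_le_of_le_one_right (sq_nonneg _) (Real.sin_sq_le_one θ)
  · refine Continuous.intervalIntegrable (continuous_const.mul (Continuous.norm ?_)) _ _
    exact (continuous_sm ha hc).comp
      (f := fun θ : ℝ => (U + R * Real.cos θ, T - R * Real.sin θ / (2 * a))) (by fun_prop)

theorem w3_norm_two_pi : ‖(2 * Real.pi * I : ℂ)‖ = 2 * Real.pi := by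
  simp [Real.pi_pos.le]

/-- Mixture: a wide weight is an average of narrow ones. -/
theorem sm_mix {a b X : ℝ} (ha : 0 < a) (hb : 0 < b) (hX : 0 < X) {c : O → ℂ} {K A : ℝ}
    (hc : ∀ n, Prim n → ‖c n‖ ≤ K * Nr n ^ A) (τ : ℝ) :
    sm (a + b) c X τ = ((Real.sqrt ((a + b) / (4 * Real.pi * a * b)) : ℝ) : ℂ) *
      ∫ y : ℝ, (Real.exp (-y ^ 2 / (4 * b)) : ℂ) * sm a c (X * Real.exp y) τ := by
  let g : O → ℝ → ℂ := fun n y => w3_k c τ n * ((Real.exp (-y ^ 2 / (4 * b)) *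
    Real.exp (-(Real.log (Nr n / X) - y) ^ 2 / (4 * a)) : ℝ) : ℂ)
  have h1 : ∀ y : ℝ, (Real.exp (-y ^ 2 / (4 * b)) : ℂ) * sm a c (X * Real.exp y) τ = ∑' n, g n y := by
    intro y
    rw [w3_sm, ← tsum_mul_left]
    refine tsum_congr fun n => ?_
    by_cases hn : Prim n
    · simp only [g]
      rw [w3_W_exp (Nr_pos hn.ne_zero) hX]
      push_cast; ring
    · simp [g, w3_k, hn]
  have hs : Summable fun n => w3_k c τ n * (W (a + b) (Nr n / X) : ℂ) := by
    refine (summable_sm (add_pos ha hb) hX hc τ).congr fun n => ?_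
    unfold w3_k
    split_ifs <;> simp
  set s := Real.sqrt (Real.pi / ((a + b) / (4 * a * b))) with hs'
  have h2 : ∀ n, Integrable (g n) := fun n => (w3_gauss_int ha hb _).ofReal.const_mul _
  have h3 : ∀ n, ∫ y, g n y = w3_k c τ n * (W (a + b) (Nr n / X) : ℂ) * s := fun n => by
    simp only [g]
    rw [integral_const_mul, integral_complex_ofReal, w3_gauss ha hb, W]
    push_cast; ring
  have h4 : ∀ n, ∫ y, ‖g n y‖ = ‖w3_k c τ n * (W (a + b) (Nr n / X) : ℂ)‖ * s := fun n => by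
    have : ∀ y, ‖g n y‖ = ‖w3_k c τ n‖ * (Real.exp (-y ^ 2 / (4 * b)) *
        Real.exp (-(Real.log (Nr n / X) - y) ^ 2 / (4 * a))) := fun y => by
      simp only [g]
      rw [norm_mul, Complex.norm_real, Real.norm_of_nonneg (by positivity)]
    simp only [this]
    rw [integral_const_mul, w3_gauss ha hb, norm_mul, Complex.norm_real,
      Real.norm_of_nonneg (W_pos _ _).le, W]
    ring
  have h5 : Summable fun n => ∫ y, ‖g n y‖ := by
    simp only [h4]
    exact (summable_norm_iff.2 hs).mul_right _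
  simp only [h1]
  rw [← integral_tsum_of_summable_integral_norm h2 h5]
  simp only [h3]
  rw [tsum_mul_right, ← w3_sm, mul_left_comm, ← Complex.ofReal_mul, hs', ← Real.sqrt_mul (by positivity)]
  have : (a + b) / (4 * Real.pi * a * b) * (Real.pi / ((a + b) / (4 * a * b))) = 1 := by
    have := Real.pi_pos
    field_simp
  rw [this]
  simp

/-- Cauchy: a value is dominated by an average over a fixed circle. -/
theorem norm_sm_le_circle {a : ℝ} (ha : 0 < a) : ∃ C : ℝ, ∀ (c : O → ℂ) (K A U T u τ : ℝ),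
    (∀ n, Prim n → ‖c n‖ ≤ K * Nr n ^ A) → |u - U| ≤ 1 → |τ - T| ≤ 1 →
    ‖sm a c (Real.exp u) τ‖ ≤ C * ∫ θ in (0 : ℝ)..(2 * Real.pi),
      ‖sm a c (Real.exp (U + (2 + 4 * a) * Real.cos θ)) (T - (2 + 4 * a) * Real.sin θ / (2 * a))‖ := by
  refine ⟨(2 + 4 * a) * (1 + 2 * a)⁻¹ * Real.exp ((2 + 4 * a) ^ 2 / (4 * a)) / (2 * Real.pi),
    fun c K A U T u τ hc hu hτ => ?_⟩
  set w : ℂ := u + ((2 * a * (T - τ) : ℝ) : ℂ) * I with hw
  have hw1 : ‖w - U‖ ≤ 1 + 2 * a := by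
    have : w - U = ((u - U : ℝ) : ℂ) + ((2 * a * (T - τ) : ℝ) : ℂ) * I := by
      rw [hw]; push_cast; ring
    rw [this]
    refine (norm_add_le _ _).trans (add_le_add ?_ ?_)
    · rwa [Complex.norm_real, Real.norm_eq_abs]
    · rw [norm_mul, Complex.norm_I, mul_one, Complex.norm_real, Real.norm_eq_abs, abs_mul,
        abs_of_pos (by positivity : 0 < 2 * a), abs_sub_comm]
      exact mul_le_of_le_one_right (by positivity) hτ
  have hF := w3_F_diff ha hc T
  have h1 := Complex.circleIntegral_sub_inv_smul_of_differentiable_on_off_countable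
    (R := 2 + 4 * a) (c := (U : ℂ)) (w := w) (f := w3_F a c T) Set.countable_empty
    (by rw [Metric.mem_ball, dist_eq_norm]; linarith) hF.continuous.continuousOn
    fun z _ => hF z
  have h2 := w3_circle ha hc T U (R := 2 + 4 * a) (B := (1 + 2 * a)⁻¹) (by positivity)
    (fun z => (z - w)⁻¹) fun θ => by
      rw [norm_inv]
      refine inv_anti₀ (by positivity) ?_
      have e1 : ‖circleMap U (2 + 4 * a) θ - U‖ = 2 + 4 * a := by
        rw [circleMap_sub_center, norm_circleMap_zero, abs_of_pos (by positivity)]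
      have e2 := norm_sub_le_norm_sub_add_norm_sub (circleMap U (2 + 4 * a) θ) w U
      linarith
  rw [h1, norm_smul, w3_norm_two_pi, hw, w3_norm_F ha,
    show T - 2 * a * (T - τ) / (2 * a) = τ by field_simp; ring] at h2
  have h3 : ‖sm a c (Real.exp u) τ‖ ≤
      Real.exp ((2 * a * (T - τ)) ^ 2 / (4 * a)) * ‖sm a c (Real.exp u) τ‖ :=
    le_mul_of_one_le_left (norm_nonneg _) (Real.one_le_exp (by positivity))
  have hpi := Real.pi_pos
  rw [div_mul_eq_mul_div, le_div_iff₀ (by positivity)]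
  nlinarith

/-- The same for the weight `log (N n / X) W(N n / X)`. -/
theorem norm_sm_log_le_circle {a : ℝ} (ha : 0 < a) : ∃ C : ℝ, ∀ (c : O → ℂ) (K A u τ : ℝ),
    (∀ n, Prim n → ‖c n‖ ≤ K * Nr n ^ A) →
    ‖sm a (fun n => c n * (Real.log (Nr n) - u : ℝ)) (Real.exp u) τ‖ ≤ C * ∫ θ in (0 : ℝ)..(2 * Real.pi),
      ‖sm a c (Real.exp (u + Real.cos θ)) (τ - Real.sin θ / (2 * a))‖ := by
  refine ⟨2 * a * (1 * 1 * Real.exp (1 ^ 2 / (4 * a))) / (2 * Real.pi), fun c K A u τ hc => ?_⟩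
  have hF := w3_F_diff ha hc τ
  have h1 := (hF.differentiableOn (s := Metric.closedBall (u : ℂ) 1)).deriv_eq_smul_circleIntegral
    one_pos
  have h2 := w3_circle ha hc τ u (R := 1) (B := 1) one_pos (fun z => 1 / (z - u) ^ 2) fun θ => by
    rw [circleMap_sub_center, norm_div, norm_pow, norm_circleMap_zero]
    simp
  rw [h1, norm_smul, w3_norm_two_pi] at h2
  simp only [one_mul] at h2 ⊢
  rw [w3_deriv_F ha hc, norm_mul, Complex.norm_real, Real.norm_of_nonneg (by positivity)]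
  have hpi := Real.pi_pos
  rw [div_mul_eq_mul_div, le_div_iff₀ (by positivity)]
  nlinarith

/-- Extracting a primary divisor. -/
theorem sm_dvd {a X : ℝ} {c : O → ℂ} {d : O} (hd : Prim d) (τ : ℝ) [DecidablePred (fun n : O => d ∣ n)] :
    sm a (fun n => if d ∣ n then c n else 0) X τ =
      (Nr d : ℂ) ^ (-(τ * I)) * sm a (fun n => c (d * n)) (X / Nr d) τ := by
  unfold sm
  beta_reduce
  rw [← tsum_mul_left, ← (mul_right_injective₀ hd.ne_zero).tsum_eq]
  · refine tsum_congr fun n => ?_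
    by_cases hn : Prim n
    · rw [if_pos (hd.mul hn), if_pos hn, if_pos (dvd_mul_right d n), Nr_mul, Complex.ofReal_mul,
        Complex.mul_cpow_ofReal_nonneg (Nr_nonneg d) (Nr_nonneg n), div_div_eq_mul_div,
        mul_comm (Nr n) (Nr d)]
      ring
    · rw [if_neg hn, if_neg fun h => hn (hd.of_mul h), mul_zero]
  · intro n hn
    by_contra hcon
    have : ¬ d ∣ n := fun ⟨m, hm⟩ => hcon ⟨m, hm.symm⟩
    simp [this] at hn


end Crest.Agent.R017

end
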