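import Crest.Agent.R017.Kernel
import Crest.Agent.R017.QLS
import Crest.Agent.R017.Smooth

/-! # Row 17: Poisson steps for general coefficients -/

set_option autoImplicit false

noncomputable section

open scoped BigOperators ComplexConjugate
open Complex MeasureTheory

namespace Crest.Agent.R017

/-- `∑ γ(n) (r / n)₆`. -/
def rowF (γ : O → ℂ) (r : O) : ℂ := ∑' n : O, γ n * chi n r
/-- `∑ γ(n) conj (h / n)₆`. -/
def colF (γ : O → ℂ) (h : O) : ℂ := ∑' n : O, γ n * conj (chi n h)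
/-- Sum of squares over the non-zero rows of norm at most `R`. -/
def NS (R : ℝ) (f : O → ℂ) : ℝ := ∑ r ∈ box R, ‖f r‖ ^ 2
/-- Supported on admissible elements. -/
def Supp (Q : O) (γ : O → ℂ) : Prop := ∀ n, γ n ≠ 0 → Adm Q n
/-- Rapidly decreasing. -/
def Rap (γ : O → ℂ) : Prop := ∀ A : ℝ, Summable (fun n => ‖γ n‖ * Nr n ^ A)
/-- Supported in one class modulo `4`. -/
def Cls (γ : O → ℂ) : Prop := ∃ c : O, ∀ n, γ n ≠ 0 → (4 : O) ∣ n - c

theorem ls_sum_zero {n u : O} (hn : n ≠ 0) (f : O → ℂ) (hf : ∀ x y, n ∣ x - y → f x = f y)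
    (hm : ∀ x y, f (x * y) = f x * f y) (hu : IsCoprime u n) (h1 : f u ≠ 1) :
    ∑ x ∈ reps n, f x = 0 := by
  have h := sum_reps_affine hn f hf hu 0
  simp only [add_zero, hm, ← Finset.mul_sum] at h
  have : (f u - 1) * ∑ x ∈ reps n, f x = 0 := by rw [sub_mul, h, one_mul, sub_self]
  exact (mul_eq_zero.1 this).resolve_left (sub_ne_zero.2 h1)

/-- The properties of a residue symbol that are used. -/
structure ls_Sym (k : O → O → ℂ) : Prop where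
  mulL : ∀ m n x, m ≠ 0 → n ≠ 0 → k (m * n) x = k m x * k n x
  mulR : ∀ n x y, k n (x * y) = k n x * k n y
  per : ∀ n x y, n ≠ 0 → n ∣ x - y → k n x = k n y
  cop : ∀ n x, n ≠ 0 → k n x ≠ 0 → IsCoprime n x
  nontriv : ∀ p, Prime p → k p 1 ≠ 0 → ∃ x, k p x ≠ 0 ∧ k p x ≠ 1
  bdd : ∀ n x, ‖k n x‖ ≤ 1

theorem ls_Sym.one {k : O → O → ℂ} (h : ls_Sym k) {n : O} (h1 : k n 1 ≠ 0) : k n 1 = 1 := by
  have := h.mulR n 1 1
  rw [mul_one] at this
  exact (mul_left_cancel₀ h1 (this.symm.trans (mul_one _).symm))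

theorem ls_Sym.per2 {k : O → O → ℂ} (h : ls_Sym k) {b₁ b₂ : O} (h₁ : b₁ ≠ 0) (h₂ : b₂ ≠ 0)
    (x y : O) (hxy : b₁ * b₂ ∣ x - y) :
    k b₁ x * conj (k b₂ x) = k b₁ y * conj (k b₂ y) := by
  rw [h.per b₁ x y h₁ ((dvd_mul_right _ _).trans hxy), h.per b₂ x y h₂ ((dvd_mul_left _ _).trans hxy)]

theorem ls_Sym.orth_aux {k : O → O → ℂ} (h : ls_Sym k) {b₁ b₂ p : O} (h₂ : b₂ ≠ 0)
    (s₁ : Squarefree b₁) (hp : Prime p) (hp₁ : p ∣ b₁) (hp₂ : ¬ p ∣ b₂) :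
    ∑ x ∈ reps (b₁ * b₂), k b₁ x * conj (k b₂ x) = 0 := by
  have h₁ : b₁ ≠ 0 := s₁.ne_zero
  by_cases e₁ : k b₁ 1 = 0
  · refine Finset.sum_eq_zero fun x _ => ?_
    rw [← mul_one x, h.mulR b₁, e₁, mul_zero, zero_mul]
  by_cases e₂ : k b₂ 1 = 0
  · refine Finset.sum_eq_zero fun x _ => ?_
    rw [← mul_one x, h.mulR b₂, e₂, mul_zero, map_zero, mul_zero]
  obtain ⟨m, rfl⟩ := hp₁
  have hm : m ≠ 0 := right_ne_zero_of_mul h₁
  have hpm : ¬ p ∣ m := fun hd => hp.not_isUnit (s₁ p (mul_dvd_mul_left p hd))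
  rw [h.mulL p m 1 hp.ne_zero hm] at e₁
  obtain ⟨x₀, hx0, hx1⟩ := h.nontriv p hp (left_ne_zero_of_mul e₁)
  have hc : IsCoprime p (m * b₂) :=
    (hp.irreducible.coprime_iff_not_dvd).2 fun hd => (hp.dvd_or_dvd hd).elim hpm hp₂
  obtain ⟨s, t, hst⟩ := hc
  set u := s * p + t * (m * b₂) * x₀ with hu
  have u1 : p ∣ u - x₀ := ⟨s * (1 - x₀), by rw [hu]; linear_combination x₀ * hst⟩
  have u2 : m * b₂ ∣ u - 1 := ⟨t * (x₀ - 1), by rw [hu]; linear_combination hst⟩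
  have k1 : k (p * m) u = k p x₀ := by
    rw [h.mulL p m u hp.ne_zero hm, h.per p u x₀ hp.ne_zero u1,
      h.per m u 1 hm ((dvd_mul_right _ _).trans u2), h.one (right_ne_zero_of_mul e₁), mul_one]
  have k2 : k b₂ u = 1 := by
    rw [h.per b₂ u 1 h₂ ((dvd_mul_left _ _).trans u2), h.one e₂]
  refine ls_sum_zero (u := u) (mul_ne_zero h₁ h₂) _ (h.per2 h₁ h₂) (fun x y => ?_) ?_ ?_
  · rw [h.mulR, h.mulR b₂, map_mul]; ring
  · exact ((h.cop _ u h₁ (by rw [k1]; exact hx0)).mul_left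
      (h.cop _ u h₂ (by rw [k2]; exact one_ne_zero))).symm
  · rw [k1, k2, map_one, mul_one]; exact hx1

theorem ls_Sym.orth {k : O → O → ℂ} (h : ls_Sym k) {b₁ b₂ : O} (p₁ : Prim b₁) (p₂ : Prim b₂)
    (s₁ : Squarefree b₁) (s₂ : Squarefree b₂) (hne : b₁ ≠ b₂) :
    ∑ x ∈ reps (b₁ * b₂), k b₁ x * conj (k b₂ x) = 0 := by
  by_cases e₁ : ∃ p, Prime p ∧ p ∣ b₁ ∧ ¬ p ∣ b₂
  · obtain ⟨p, hp, a, b⟩ := e₁
    exact h.orth_aux p₂.ne_zero s₁ hp a b
  by_cases e₂ : ∃ p, Prime p ∧ p ∣ b₂ ∧ ¬ p ∣ b₁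
  · obtain ⟨p, hp, a, b⟩ := e₂
    have := congrArg conj (h.orth_aux p₁.ne_zero s₂ hp a b)
    rw [map_sum, map_zero, mul_comm b₂ b₁] at this
    rw [← this]
    refine Finset.sum_congr rfl fun x _ => ?_
    rw [map_mul, Complex.conj_conj, mul_comm]
  push Not at e₁ e₂
  exfalso
  refine hne (p₁.eq_of_associated p₂ (associated_of_dvd_dvd ?_ ?_))
  · rw [← rad_eq_self p₁ s₁]; exact a1_rad_dvd_of e₁
  · rw [← rad_eq_self p₂ s₂]; exact a1_rad_dvd_of e₂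

theorem ls_mem_sbox {Y : ℝ} {b : O} : b ∈ sbox Y ↔ (b ≠ 0 ∧ Nr b ≤ Y) ∧ Prim b ∧ Squarefree b := by
  classical
  unfold sbox
  rw [Finset.mem_filter, mem_box]

/-- Off-diagonal terms. -/
theorem ls_off {ε : ℝ} (hε : 0 < ε) : ∃ C : ℝ, 0 ≤ C ∧ ∀ (T B : ℝ) (n : O) (f : O → ℂ),
    1 ≤ B → B ^ (2 + ε) ≤ T → n ≠ 0 → Nr n ≤ B ^ 2 → (∀ x y, n ∣ x - y → f x = f y) →
    (∀ x, ‖f x‖ ≤ 1) → ∑ x ∈ reps n, f x = 0 →
    ‖∑' x : O, (Phi (Nr x / T) : ℂ) * f x‖ ≤ C * T / B := by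
  have hA : (1 : ℝ) < 2 + 1 / ε := by have := one_div_pos.2 hε; linarith
  set A : ℝ := 2 + 1 / ε with hAdef
  obtain ⟨C, hC⟩ := Phi_le_rpow (A := A) (by linarith)
  have hC0 : 0 ≤ C := by
    have := hC 1 one_pos
    rw [Real.one_rpow, mul_one] at this
    exact (Phi_pos 1).le.trans this
  have hZ := summable_Nr_rpow hA
  have hZ0 : 0 ≤ ∑' x : O, Nr x ^ (-A) := tsum_nonneg fun x => Real.rpow_nonneg (Nr_nonneg x) _
  refine ⟨C * ∑' x : O, Nr x ^ (-A), mul_nonneg hC0 hZ0, fun T B n f hB hT hn hnB hf hf1 h0 => ?_⟩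
  have hB0 : 0 < B := by linarith
  have hT0 : 0 < T := (Real.rpow_pos_of_pos hB0 _).trans_le hT
  have hN := Nr_pos hn
  have hq : B ^ ε ≤ T / Nr n := by
    rw [le_div_iff₀ hN]
    calc B ^ ε * Nr n ≤ B ^ ε * B ^ 2 := by gcongr
      _ = B ^ (2 + ε) := by rw [Real.rpow_add hB0, mul_comm, Real.rpow_two]
      _ ≤ T := hT
  have hq2 : (T / Nr n) ^ (-A) ≤ B⁻¹ := by
    calc (T / Nr n) ^ (-A) ≤ (B ^ ε) ^ (-A) :=
          Real.rpow_le_rpow_of_nonpos (Real.rpow_pos_of_pos hB0 _) hq (by linarith)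
      _ = B ^ (-(2 * ε + 1)) := by
          rw [← Real.rpow_mul hB0.le]; congr 1; rw [hAdef]; field_simp
      _ ≤ B ^ (-1 : ℝ) := Real.rpow_le_rpow_of_exponent_le hB (by linarith)
      _ = B⁻¹ := Real.rpow_neg_one B
  rw [poisson_per hT0 hn f hf, norm_mul, Complex.norm_real, Real.norm_of_nonneg (by positivity)]
  have hb : ‖∑' h : O, gs f n h * (Phi (T * Nr h / Nr n) : ℂ)‖ ≤
      Nr n * C * B⁻¹ * ∑' x : O, Nr x ^ (-A) := by
    refine tsum_of_norm_bounded (hZ.hasSum.mul_left _) fun h => ?_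
    by_cases hh : h = 0
    · subst hh
      have : gs f n 0 = 0 := by
        rw [gs, ← h0]
        refine Finset.sum_congr rfl fun x _ => ?_
        rw [eO_of_dvd (by simp), mul_one]
      rw [this, zero_mul, norm_zero]
      have := Real.rpow_nonneg (Nr_nonneg 0) (-A)
      positivity
    · have hh0 := Nr_pos hh
      rw [norm_mul, Complex.norm_real, Real.norm_of_nonneg (Phi_pos _).le]
      have h1 := hC (T * Nr h / Nr n) (by positivity)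
      rw [mul_div_right_comm, Real.mul_rpow (by positivity) hh0.le] at h1
      have h2 : 0 ≤ Nr h ^ (-A) := by positivity
      calc ‖gs f n h‖ * Phi (T * Nr h / Nr n)
          ≤ Nr n * (C * ((T / Nr n) ^ (-A) * Nr h ^ (-A))) := by
            rw [mul_div_right_comm]
            exact mul_le_mul (norm_gs_le hn hf1 h) h1 (Phi_pos _).le hN.le
        _ ≤ Nr n * (C * (B⁻¹ * Nr h ^ (-A))) := by gcongr
        _ = _ := by ring
  calc T / Nr n * ‖∑' h : O, gs f n h * (Phi (T * Nr h / Nr n) : ℂ)‖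
      ≤ T / Nr n * (Nr n * C * B⁻¹ * ∑' x : O, Nr x ^ (-A)) := by gcongr
    _ = _ := by field_simp

theorem ls_Sym.main {k : O → O → ℂ} (h : ls_Sym k) {ε : ℝ} (hε : 0 < ε) :
    ∃ C : ℝ, 0 ≤ C ∧ ∀ (R B : ℝ) (a : O → ℂ), 1 ≤ R → 1 ≤ B →
    ∑ r ∈ box R, ‖∑ b ∈ sbox B, a b * k b r‖ ^ 2 ≤
      C * B ^ ε * (R + B ^ 2) * ∑ b ∈ sbox B, ‖a b‖ ^ 2 := by
  obtain ⟨C₁, hC₁, H₁⟩ := ls_off hε
  obtain ⟨C₂, H₂⟩ := tsum_Phi_le
  have hC₂ : 0 ≤ C₂ := by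
    have h1 := H₂ 1 one_pos
    have h2 : 0 ≤ ∑' x : O, Phi (Nr x / 1) := tsum_nonneg fun x => (Phi_pos _).le
    linarith
  have hP := Phi_pos 1
  refine ⟨(2 * C₂ + 25 * C₁) / Phi 1, by positivity, fun R B a hR hB => ?_⟩
  have hB0 : 0 < B := by linarith
  set T := R + B ^ (2 + ε) with hT
  have hBp : 0 < B ^ (2 + ε) := Real.rpow_pos_of_pos hB0 _
  have hT1 : 1 ≤ T := by linarith
  have hT0 : 0 < T := by linarith
  set S := sbox B with hS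
  set F : O → ℂ := fun r => ∑ b ∈ S, a b * k b r with hF
  have hsum := p1_summable0 hT0
  have hsf : ∀ f : O → ℂ, (∀ x, ‖f x‖ ≤ 1) → Summable fun x : O => (Phi (Nr x / T) : ℂ) * f x := by
    intro f hf
    refine Summable.of_norm_bounded hsum fun x => ?_
    rw [norm_mul, Complex.norm_real, Real.norm_of_nonneg (Phi_pos _).le]
    exact mul_le_of_le_one_right (Phi_pos _).le (hf x)
  have hkk : ∀ b₁ b₂ x, ‖k b₁ x * conj (k b₂ x)‖ ≤ 1 := fun b₁ b₂ x => by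
    rw [norm_mul, Complex.norm_conj]
    exact mul_le_one₀ (h.bdd _ _) (norm_nonneg _) (h.bdd _ _)
  -- expansion
  have hexp : ∀ x, ((Phi (Nr x / T) * ‖F x‖ ^ 2 : ℝ) : ℂ) =
      ∑ b₁ ∈ S, ∑ b₂ ∈ S, a b₁ * conj (a b₂) *
        ((Phi (Nr x / T) : ℂ) * (k b₁ x * conj (k b₂ x))) := by
    intro x
    rw [Complex.ofReal_mul, ← Complex.normSq_eq_norm_sq, ← Complex.mul_conj, hF]
    simp only [map_sum, map_mul]
    rw [Finset.sum_mul_sum]
    simp only [Finset.mul_sum]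
    refine Finset.sum_congr rfl fun b₁ _ => Finset.sum_congr rfl fun b₂ _ => by ring
  have hs2 : HasSum (fun x => ((Phi (Nr x / T) * ‖F x‖ ^ 2 : ℝ) : ℂ))
      (∑ b₁ ∈ S, ∑ b₂ ∈ S, a b₁ * conj (a b₂) *
        ∑' x, (Phi (Nr x / T) : ℂ) * (k b₁ x * conj (k b₂ x))) := by
    simp only [hexp]
    exact hasSum_sum fun b₁ _ => hasSum_sum fun b₂ _ =>
      (hsf _ (hkk b₁ b₂)).hasSum.mul_left _
  have hs3 : HasSum (fun x => Phi (Nr x / T) * ‖F x‖ ^ 2)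
      (∑ b₁ ∈ S, ∑ b₂ ∈ S, a b₁ * conj (a b₂) *
        ∑' x, (Phi (Nr x / T) : ℂ) * (k b₁ x * conj (k b₂ x))).re := by
    simpa only [Complex.ofReal_re] using Complex.hasSum_re hs2
  have hE : ∀ b₁ ∈ S, ∀ b₂ ∈ S, ‖∑' x, (Phi (Nr x / T) : ℂ) * (k b₁ x * conj (k b₂ x))‖ ≤
      (if b₁ = b₂ then 2 * C₂ * T else 0) + C₁ * T / B := by
    intro b₁ h₁ b₂ h₂
    obtain ⟨⟨n₁, l₁⟩, p₁, s₁⟩ := ls_mem_sbox.1 h₁
    obtain ⟨⟨n₂, l₂⟩, p₂, s₂⟩ := ls_mem_sbox.1 h₂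
    split_ifs with he
    · have h1 : ‖∑' x, (Phi (Nr x / T) : ℂ) * (k b₁ x * conj (k b₂ x))‖ ≤
          ∑' x : O, Phi (Nr x / T) := by
        refine tsum_of_norm_bounded hsum.hasSum fun x => ?_
        rw [norm_mul, Complex.norm_real, Real.norm_of_nonneg (Phi_pos _).le]
        exact mul_le_of_le_one_right (Phi_pos _).le (hkk _ _ x)
      have h2 := H₂ T hT0
      have h3 : 0 ≤ C₁ * T / B := by positivity
      nlinarith
    · rw [zero_add]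
      refine H₁ T B (b₁ * b₂) _ hB (by linarith) (mul_ne_zero n₁ n₂) ?_ (h.per2 n₁ n₂) (hkk _ _)
        (h.orth p₁ p₂ s₁ s₂ he)
      rw [Nr_mul, sq]
      exact mul_le_mul l₁ l₂ (Nr_nonneg _) hB0.le
  have hcard : (S.card : ℝ) ≤ 25 * B :=
    le_trans (by exact_mod_cast Finset.card_le_card fun b hb => mem_box.2 (ls_mem_sbox.1 hb).1)
      (card_box_le hB0.le)
  set N := ∑ b ∈ S, ‖a b‖ ^ 2 with hN
  have hN0 : 0 ≤ N := Finset.sum_nonneg fun _ _ => by positivity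
  have hbig : (∑ b₁ ∈ S, ∑ b₂ ∈ S, a b₁ * conj (a b₂) *
        ∑' x, (Phi (Nr x / T) : ℂ) * (k b₁ x * conj (k b₂ x))).re ≤
      (2 * C₂ + 25 * C₁) * T * N := by
    refine (Complex.re_le_norm _).trans ?_
    calc _ ≤ ∑ b₁ ∈ S, ∑ b₂ ∈ S, ‖a b₁‖ * ‖a b₂‖ *
            ((if b₁ = b₂ then 2 * C₂ * T else 0) + C₁ * T / B) := by
          refine norm_sum_le_of_le _ fun b₁ h₁ => norm_sum_le_of_le _ fun b₂ h₂ => ?_
          rw [norm_mul, norm_mul, Complex.norm_conj]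
          exact mul_le_mul_of_nonneg_left (hE b₁ h₁ b₂ h₂) (by positivity)
      _ = 2 * C₂ * T * N + C₁ * T / B * (∑ b ∈ S, ‖a b‖) ^ 2 := by
          simp only [mul_add, Finset.sum_add_distrib, mul_ite, mul_zero]
          congr 1
          · rw [hN, Finset.mul_sum]
            refine Finset.sum_congr rfl fun b hb => ?_
            rw [Finset.sum_ite_eq, if_pos hb]; ring
          · rw [sq, Finset.sum_mul_sum, Finset.mul_sum]
            refine Finset.sum_congr rfl fun b _ => ?_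
            rw [Finset.mul_sum]
            exact Finset.sum_congr rfl fun b' _ => by ring
      _ ≤ 2 * C₂ * T * N + C₁ * T / B * (25 * B * N) := by
          gcongr
          exact sq_sum_le_card_mul_sum_sq.trans (by gcongr)
      _ = _ := by field_simp
  have hlow : Phi 1 * ∑ r ∈ box R, ‖F r‖ ^ 2 ≤ (2 * C₂ + 25 * C₁) * T * N := by
    refine le_trans ?_ hbig
    rw [Finset.mul_sum]
    refine le_trans (Finset.sum_le_sum fun r hr => ?_)
      (sum_le_hasSum (box R) (fun x _ => mul_nonneg (Phi_pos _).le (by positivity)) hs3)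
    refine mul_le_mul_of_nonneg_right (p1_anti ?_) (by positivity)
    rw [div_le_one hT0]
    have := (mem_box.1 hr).2
    linarith
  have hTle : T ≤ B ^ ε * (R + B ^ 2) := by
    have h1 : 1 ≤ B ^ ε := Real.one_le_rpow hB hε.le
    rw [hT, Real.rpow_add hB0, Real.rpow_two]
    nlinarith
  rw [← le_div_iff₀' hP] at hlow
  refine hlow.trans ?_
  calc (2 * C₂ + 25 * C₁) * T * N / Phi 1
      ≤ (2 * C₂ + 25 * C₁) * (B ^ ε * (R + B ^ 2)) * N / Phi 1 := by gcongr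
    _ = _ := by ring

theorem ls_sym_kap : ls_Sym kap where
  mulL _ _ x hm hn := kap_mul_left hm hn x
  mulR := kap_mul_right
  per _ _ _ hn h := kap_congr' hn h
  cop n x hn h := by
    by_contra hc
    exact h ((kap_eq_zero hn).2 (Or.inr hc))
  nontriv p hp h := by
    obtain ⟨x, hx⟩ := kap_nontrivial hp fun h3 => h ((kap_eq_zero hp.ne_zero).2 (Or.inl h3))
    exact ⟨x, by rw [hx]; exact g3_omC_ne.1, by rw [hx]; exact g3_omC_ne.2.1⟩
  bdd := norm_kap_le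

theorem ls_sym_chi : ls_Sym chi where
  mulL _ _ x hm hn := chi_mul_left hm hn x
  mulR := chi_mul_right
  per _ _ _ hn h := chi_congr' hn h
  cop n x hn h := by
    by_contra hc
    exact h ((chi_eq_zero hn).2 fun h6 => hc h6.of_mul_right_right)
  nontriv p hp h := by
    have h6 : IsCoprime p 6 := by
      by_contra hc
      exact h ((chi_eq_zero hp.ne_zero).2 (by rwa [mul_one]))
    simpa only [pow_one] using chi_order hp h6 (k := 1) (by norm_num)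
  bdd := norm_chi_le

/-- Trivial large sieve, cubic symbol. -/
theorem ls_kap {ε : ℝ} (hε : 0 < ε) : ∃ C : ℝ, 0 ≤ C ∧ ∀ (R B : ℝ) (a : O → ℂ), 1 ≤ R → 1 ≤ B →
    ∑ r ∈ box R, ‖∑ b ∈ sbox B, a b * kap b r‖ ^ 2 ≤
      C * B ^ ε * (R + B ^ 2) * ∑ b ∈ sbox B, ‖a b‖ ^ 2 :=
  ls_sym_kap.main hε
/-- Trivial large sieve, sextic symbol. -/
theorem ls_chi {ε : ℝ} (hε : 0 < ε) : ∃ C : ℝ, 0 ≤ C ∧ ∀ (R B : ℝ) (a : O → ℂ), 1 ≤ R → 1 ≤ B →
    ∑ r ∈ box R, ‖∑ b ∈ sbox B, a b * chi b r‖ ^ 2 ≤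
      C * B ^ ε * (R + B ^ 2) * ∑ b ∈ sbox B, ‖a b‖ ^ 2 :=
  ls_sym_chi.main hε

end Crest.Agent.R017

end
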