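import Crest.Agent.R017.LS2Aux1

/-! # Row 17: separation of variables and the dual sum -/

set_option autoImplicit false

noncomputable section

open scoped BigOperators ComplexConjugate
open Complex MeasureTheory Filter Topology

namespace Crest.Agent.R017

theorem l3_int_Gamma {σ : ℝ} (hσ : 0 < σ) : Integrable fun t : ℝ => ‖Complex.Gamma (σ + t * I)‖ := by
  simpa using integrable_Gamma_mul hσ 0

theorem l3_re (σ t : ℝ) : ((σ : ℂ) + t * I).re = σ := by simp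

theorem l3_norm_cpow {σ : ℝ} (hσ : 0 < σ) {x : ℝ} (hx : 0 ≤ x) (t : ℝ) :
    ‖(x : ℂ) ^ ((σ : ℂ) + t * I)‖ = x ^ σ := by
  rw [Complex.norm_cpow_eq_rpow_re_of_nonneg hx (by rw [l3_re]; exact hσ.ne'), l3_re]

theorem l3_cont_cpow {σ : ℝ} (hσ : 0 < σ) (x : ℂ) :
    Continuous fun t : ℝ => x ^ ((σ : ℂ) + t * I) := by
  refine Continuous.const_cpow (by fun_prop) (Or.inr fun t h => ?_)
  have := congrArg Complex.re h
  rw [l3_re] at this
  exact hσ.ne' this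

theorem l3_conj_cpow {x : ℝ} (hx : 0 ≤ x) (σ t : ℝ) :
    conj ((x : ℂ) ^ ((σ : ℂ) + (-t : ℝ) * I)) = (x : ℂ) ^ ((σ : ℂ) + t * I) := by
  have h : (x : ℂ).arg ≠ Real.pi := by
    rw [Complex.arg_ofReal_of_nonneg hx]
    exact Real.pi_pos.ne
  have := Complex.cpow_conj (x : ℂ) ((σ : ℂ) + (-t : ℝ) * I) h
  rw [Complex.conj_ofReal] at this
  rw [← this]
  congr 1
  simp

theorem l3_norm_Gamma_neg (σ t : ℝ) :
    ‖Complex.Gamma (σ + (-t : ℝ) * I)‖ = ‖Complex.Gamma (σ + t * I)‖ := by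
  rw [← Complex.norm_conj, ← Complex.Gamma_conj]
  congr 2
  simp

theorem l3_sep {σ y : ℝ} (hσ : 0 < σ) (hy : 0 < y) (u : O × O → ℂ)
    (h0 : ∀ p, u p ≠ 0 → p.1 ≠ 0 ∧ p.2 ≠ 0)
    (hu : Summable (fun p : O × O => ‖u p‖ * (Nr p.1 * Nr p.2) ^ σ)) :
    ∑' p : O × O, u p * (Phi (y / (Nr p.1 * Nr p.2)) : ℂ) = (1 / (2 * Real.pi) : ℂ) *
      ∫ t : ℝ, Complex.Gamma (σ + t * I) * ((c0 * y : ℝ) : ℂ) ^ (-(σ + t * I)) *
        ∑' p : O × O, u p * ((Nr p.1 : ℂ) ^ ((σ : ℂ) + t * I) * (Nr p.2 : ℂ) ^ ((σ : ℂ) + t * I)) := by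
  have hcy : 0 < c0 * y := mul_pos c0_pos hy
  set F : O × O → ℝ → ℂ := fun p t => Complex.Gamma (σ + t * I) * ((c0 * y : ℝ) : ℂ) ^ (-(σ + t * I)) *
    (u p * ((Nr p.1 : ℂ) ^ ((σ : ℂ) + t * I) * (Nr p.2 : ℂ) ^ ((σ : ℂ) + t * I))) with hF
  have hn : ∀ p t, ‖F p t‖ =
      ‖Complex.Gamma (σ + t * I)‖ * ((c0 * y) ^ (-σ) * (‖u p‖ * (Nr p.1 * Nr p.2) ^ σ)) := by
    intro p t
    simp only [hF, norm_mul]
    rw [l3_norm_cpow hσ (Nr_nonneg _), l3_norm_cpow hσ (Nr_nonneg _),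
      Complex.norm_cpow_eq_rpow_re_of_pos hcy, neg_re, l3_re,
      Real.mul_rpow (Nr_nonneg _) (Nr_nonneg _)]
    ring
  have hint : ∀ p, Integrable (F p) := by
    intro p
    refine ((l3_int_Gamma hσ).mul_const _).mono' ?_ (Eventually.of_forall fun t => (hn p t).le)
    refine Continuous.aestronglyMeasurable ?_
    refine ((p2_continuous_Gamma hσ).mul ?_).mul
      (continuous_const.mul ((l3_cont_cpow hσ _).mul (l3_cont_cpow hσ _)))
    exact Continuous.const_cpow (by fun_prop) (Or.inl (by exact_mod_cast hcy.ne'))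
  have hsum : Summable fun p => ∫ t, ‖F p t‖ := by
    simp only [hn, integral_mul_const]
    exact (hu.mul_left _).mul_left _
  have h1 := integral_tsum_of_summable_integral_norm hint hsum
  simp only [hF, tsum_mul_left] at h1
  rw [← h1, ← tsum_mul_left]
  refine tsum_congr fun p => ?_
  by_cases hp : u p = 0
  · simp [hp]
  obtain ⟨a1, a2⟩ := h0 p hp
  have b1 := Nr_pos a1
  have b2 := Nr_pos a2
  rw [Phi_mellin hσ (div_pos hy (mul_pos b1 b2)), mul_left_comm, ← integral_const_mul]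
  congr 1
  refine integral_congr_ae (Eventually.of_forall fun t => ?_)
  have e : c0 * y = c0 * (y / (Nr p.1 * Nr p.2)) * Nr p.1 * Nr p.2 := by field_simp
  have hp0 : 0 < c0 * (y / (Nr p.1 * Nr p.2)) := mul_pos c0_pos (div_pos hy (mul_pos b1 b2))
  have n1 : (Nr p.1 : ℂ) ^ ((σ : ℂ) + t * I) ≠ 0 := by
    rw [Ne, cpow_eq_zero_iff, not_and_or]
    exact Or.inl (by exact_mod_cast b1.ne')
  have n2 : (Nr p.2 : ℂ) ^ ((σ : ℂ) + t * I) ≠ 0 := by
    rw [Ne, cpow_eq_zero_iff, not_and_or]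
    exact Or.inl (by exact_mod_cast b2.ne')
  simp only
  rw [e, ofReal_mul _ (Nr p.2), mul_cpow_ofReal_nonneg (mul_pos hp0 b1).le b2.le,
    ofReal_mul _ (Nr p.1), mul_cpow_ofReal_nonneg hp0.le b1.le, cpow_neg (Nr p.1 : ℂ),
    cpow_neg (Nr p.2 : ℂ)]
  field_simp

/-- a term of the dual sum -/
def l3_term (a : O → ℂ) (R : ℝ) (p : O × O) (h : O) : ℂ :=
  a p.1 * conj (chi p.1 h) * conj (a p.2 * conj (chi p.2 h)) *
    (Phi (R * Nr h / (Nr p.1 * Nr p.2)) : ℂ)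

theorem l3_norm_b (a : O → ℂ) (n h : O) : ‖a n * conj (chi n h)‖ ≤ ‖a n‖ := by
  rw [norm_mul, Complex.norm_conj]
  exact mul_le_of_le_one_right (norm_nonneg _) (norm_chi_le _ _)

theorem l3_term_le (a : O → ℂ) (R : ℝ) (p : O × O) (h : O) :
    ‖l3_term a R p h‖ ≤ ‖a p.1‖ * ‖a p.2‖ * Phi (R * Nr h / (Nr p.1 * Nr p.2)) := by
  rw [l3_term, norm_mul, norm_mul, Complex.norm_conj, norm_real,
    Real.norm_of_nonneg (Phi_pos _).le]
  exact mul_le_mul_of_nonneg_right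
    (mul_le_mul (l3_norm_b a _ _) (l3_norm_b a _ _) (norm_nonneg _) (norm_nonneg _)) (Phi_pos _).le

theorem l3_term_tail {a : O → ℂ} (ha : ∀ n, a n ≠ 0 → Prim n) {R A C : ℝ} (hR : 0 < R)
    (hC : ∀ y : ℝ, 0 < y → Phi y ≤ C * y ^ (-A)) (p : O × O) {h : O} (hh : h ≠ 0) :
    ‖l3_term a R p h‖ ≤
      C * R ^ (-A) * Nr h ^ (-A) * (‖a p.1‖ * Nr p.1 ^ A * (‖a p.2‖ * Nr p.2 ^ A)) := by
  have b0 := Nr_pos hh
  refine (l3_term_le a R p h).trans ?_
  by_cases h1 : a p.1 = 0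
  · simp [h1]
  by_cases h2 : a p.2 = 0
  · simp [h2]
  have b1 := Nr_pos (ha _ h1).ne_zero
  have b2 := Nr_pos (ha _ h2).ne_zero
  refine (mul_le_mul_of_nonneg_left (hC _ (by positivity)) (by positivity)).trans (le_of_eq ?_)
  rw [Real.div_rpow (by positivity) (by positivity), Real.mul_rpow hR.le b0.le,
    Real.mul_rpow b1.le b2.le, Real.rpow_neg b1.le, Real.rpow_neg b2.le]
  field_simp

theorem l3_sum_zero {a : O → ℂ} (ha : ∀ n, a n ≠ 0 → Prim n) (R : ℝ) :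
    ‖∑' p, l3_term a R p 0‖ = ‖a 1‖ ^ 2 := by
  have hb : ∀ n, n ≠ 1 → a n * conj (chi n 0) = 0 := by
    intro n hn
    by_cases h : a n = 0
    · rw [h, zero_mul]
    have : chi n 0 = 0 := (chi_eq_zero (ha n h).ne_zero).2 fun hc => hn
      ((ha n h).eq_one_of_isUnit (isCoprime_zero_right.1 (by simpa using hc)))
    rw [this, map_zero, mul_zero]
  rw [tsum_eq_single (1, 1)]
  · simp [l3_term, chi_unit_left isUnit_one, Nr_zero, Phi, sq]
  · rintro ⟨n, m⟩ hp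
    by_cases hn : n = 1
    · have hm : m ≠ 1 := by rintro rfl; exact hp (by rw [hn])
      rw [l3_term, hb m hm]
      simp
    · rw [l3_term, hb n hn]
      simp

/-- the twisted column sum -/
def l3_X (a : O → ℂ) (σ : ℝ) (h : O) (t : ℝ) : ℂ :=
  colF (fun n => a n * (Nr n : ℂ) ^ ((σ : ℂ) + t * I)) h

theorem l3_X_term {σ : ℝ} (hσ : 0 < σ) (a : O → ℂ) (h n : O) (t : ℝ) :
    ‖a n * (Nr n : ℂ) ^ ((σ : ℂ) + t * I) * conj (chi n h)‖ ≤ ‖a n‖ * Nr n ^ σ := by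
  refine (l3_norm_b (fun n => a n * (Nr n : ℂ) ^ ((σ : ℂ) + t * I)) n h).trans ?_
  rw [norm_mul, l3_norm_cpow hσ (Nr_nonneg _)]

theorem l3_X_int {σ : ℝ} (hσ : 0 < σ) {a : O → ℂ} (hr : Rap a) (h : O) :
    Integrable fun t : ℝ => ‖Complex.Gamma (σ + t * I)‖ * ‖l3_X a σ h t‖ ^ 2 := by
  have hc : Continuous (l3_X a σ h) :=
    continuous_tsum (fun n => (continuous_const.mul (l3_cont_cpow hσ _)).mul continuous_const)
      (hr σ) fun n t => l3_X_term hσ a h n t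
  refine (l3_int_Gamma hσ).mul_bdd (c := (∑' n, ‖a n‖ * Nr n ^ σ) ^ 2)
    (hc.norm.pow 2).aestronglyMeasurable (Eventually.of_forall fun t => ?_)
  rw [Real.norm_of_nonneg (sq_nonneg _)]
  exact pow_le_pow_left₀ (norm_nonneg _)
    (tsum_of_norm_bounded (hr σ).hasSum fun n => l3_X_term hσ a h n t) 2

theorem l3_sum_mid {σ : ℝ} (hσ : 0 < σ) {a : O → ℂ} (ha : ∀ n, a n ≠ 0 → Prim n) (hr : Rap a)
    {R : ℝ} (hR : 0 < R) {h : O} (hh : h ≠ 0) :
    ‖∑' p, l3_term a R p h‖ ≤ (c0 ^ (-σ) * R ^ (-σ)) *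
      ∫ t : ℝ, ‖Complex.Gamma (σ + t * I)‖ * ‖l3_X a σ h t‖ ^ 2 := by
  have b0 := Nr_pos hh
  have hc := c0_pos
  have hnn : ∀ n : O, 0 ≤ ‖a n‖ * Nr n ^ σ := fun n =>
    mul_nonneg (norm_nonneg _) (Real.rpow_nonneg (Nr_nonneg _) _)
  have h1 := l3_sep hσ (mul_pos hR b0)
    (fun p : O × O => a p.1 * conj (chi p.1 h) * conj (a p.2 * conj (chi p.2 h)))
    (fun p hp => ⟨(ha _ fun h0 => hp (by simp [h0])).ne_zero,
      (ha _ fun h0 => hp (by simp [h0])).ne_zero⟩)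
    (Summable.of_nonneg_of_le
      (fun p => mul_nonneg (norm_nonneg _)
        (Real.rpow_nonneg (mul_nonneg (Nr_nonneg _) (Nr_nonneg _)) _))
      (fun p => by
        rw [norm_mul, Complex.norm_conj, Real.mul_rpow (Nr_nonneg _) (Nr_nonneg _),
          mul_mul_mul_comm]
        exact mul_le_mul
          (mul_le_mul_of_nonneg_right (l3_norm_b a _ _) (Real.rpow_nonneg (Nr_nonneg _) _))
          (mul_le_mul_of_nonneg_right (l3_norm_b a _ _) (Real.rpow_nonneg (Nr_nonneg _) _))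
          (mul_nonneg (norm_nonneg _) (Real.rpow_nonneg (Nr_nonneg _) _)) (hnn _))
      ((hr σ).mul_of_nonneg (hr σ) hnn hnn))
  have h2 : ∀ t : ℝ, ∑' p : O × O, a p.1 * conj (chi p.1 h) * conj (a p.2 * conj (chi p.2 h)) *
      ((Nr p.1 : ℂ) ^ ((σ : ℂ) + t * I) * (Nr p.2 : ℂ) ^ ((σ : ℂ) + t * I)) =
      l3_X a σ h t * conj (l3_X a σ h (-t)) := by
    intro t
    have s1 : ∀ t : ℝ, Summable fun n => ‖a n * (Nr n : ℂ) ^ ((σ : ℂ) + t * I) * conj (chi n h)‖ :=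
      fun t => Summable.of_nonneg_of_le (fun _ => norm_nonneg _) (fun n => l3_X_term hσ a h n t)
        (hr σ)
    have s2 : Summable fun n =>
        ‖conj (a n * (Nr n : ℂ) ^ ((σ : ℂ) + (-t : ℝ) * I) * conj (chi n h))‖ := by
      simpa only [Complex.norm_conj] using s1 (-t)
    rw [l3_X, l3_X, colF, colF, Complex.conj_tsum, tsum_mul_tsum_of_summable_norm (s1 t) s2]
    refine tsum_congr fun p => ?_
    simp only [map_mul]
    rw [l3_conj_cpow (Nr_nonneg _)]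
    ring
  simp only [h2] at h1
  set g : ℝ → ℝ := fun t => ‖Complex.Gamma (σ + t * I)‖ * ‖l3_X a σ h t‖ ^ 2 with hg
  have gi : Integrable g := l3_X_int hσ hr h
  have hI : 0 ≤ ∫ t, g t := integral_nonneg fun t => by positivity
  have h3 : ‖∫ t : ℝ, Complex.Gamma (σ + t * I) * ((c0 * (R * Nr h) : ℝ) : ℂ) ^ (-(σ + t * I)) *
      (l3_X a σ h t * conj (l3_X a σ h (-t)))‖ ≤
      ∫ t : ℝ, (c0 ^ (-σ) * R ^ (-σ) / 2) * (g t + g (-t)) := by
    refine norm_integral_le_of_norm_le ((gi.add gi.comp_neg).const_mul _)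
      (Eventually.of_forall fun t => ?_)
    rw [norm_mul, norm_mul, norm_mul, Complex.norm_conj,
      Complex.norm_cpow_eq_rpow_re_of_pos (by positivity), neg_re, l3_re,
      Real.mul_rpow hc.le (by positivity), Real.mul_rpow hR.le b0.le]
    simp only [hg]
    rw [l3_norm_Gamma_neg]
    have e1 : Nr h ^ (-σ) ≤ 1 :=
      Real.rpow_le_one_of_one_le_of_nonpos (one_le_Nr hh) (by linarith)
    have e2 : ‖l3_X a σ h t‖ * ‖l3_X a σ h (-t)‖ ≤
        (‖l3_X a σ h t‖ ^ 2 + ‖l3_X a σ h (-t)‖ ^ 2) / 2 := by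
      nlinarith [sq_nonneg (‖l3_X a σ h t‖ - ‖l3_X a σ h (-t)‖)]
    calc _ ≤ ‖Complex.Gamma (σ + t * I)‖ * (c0 ^ (-σ) * (R ^ (-σ) * 1)) *
          ((‖l3_X a σ h t‖ ^ 2 + ‖l3_X a σ h (-t)‖ ^ 2) / 2) := by gcongr
      _ = _ := by ring
  rw [integral_const_mul, integral_add gi gi.comp_neg, integral_neg_eq_self] at h3
  have h4 : ‖(1 / (2 * Real.pi) : ℂ)‖ ≤ 1 := by
    rw [norm_div, norm_one, norm_mul, norm_real, Real.norm_of_nonneg Real.pi_pos.le,
      Complex.norm_two, div_le_one (by positivity)]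
    linarith [Real.two_le_pi]
  unfold l3_term
  rw [h1, norm_mul]
  refine (mul_le_of_le_one_left (norm_nonneg _) h4).trans (h3.trans (le_of_eq ?_))
  ring

theorem l3_dual {σ A : ℝ} (hσ : 0 < σ) (hA : 2 ≤ A) : ∃ C : ℝ, 0 ≤ C ∧
    ∀ (a : O → ℂ) (R H : ℝ), (∀ n, a n ≠ 0 → Prim n) → Rap a → 0 < R → 0 < H →
      ‖∑' p, ∑' h, l3_term a R p h‖ ≤ ‖a 1‖ ^ 2 + C *
        (R ^ (-σ) * (∫ t : ℝ, ‖Complex.Gamma (σ + t * I)‖ *
          NS H (colF fun n => a n * (Nr n : ℂ) ^ ((σ : ℂ) + t * I))) +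
        R ^ (-A) * H ^ (1 - A) * (∑' n : O, ‖a n‖ * Nr n ^ A) ^ 2) := by
  classical
  obtain ⟨C₁, hC₁⟩ := Phi_le_rpow (A := A) (by linarith)
  have hC₁0 : 0 ≤ C₁ := by simpa using (Phi_pos 1).le.trans (hC₁ 1 one_pos)
  obtain ⟨C₂, hC₂⟩ := tsum_tail_rpow_le (σ := A) (by linarith)
  have hc := c0_pos
  refine ⟨c0 ^ (-σ) + C₁ * |C₂|, by positivity, fun a R H ha hr hR hH => ?_⟩
  have hnn : ∀ n : O, 0 ≤ ‖a n‖ * Nr n ^ A := fun n =>
    mul_nonneg (norm_nonneg _) (Real.rpow_nonneg (Nr_nonneg _) _)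
  have hNA : ∀ n : O, 0 ≤ Nr n ^ (-A) := fun n => Real.rpow_nonneg (Nr_nonneg _) _
  have sA : Summable fun h : O => Nr h ^ (-A) := summable_Nr_rpow (by linarith)
  have s2 := (hr A).mul_of_nonneg (hr A) hnn hnn
  have hle : ∀ n, ‖a n‖ ≤ ‖a n‖ * Nr n ^ A := fun n => by
    by_cases h : a n = 0
    · simp [h]
    · exact le_mul_of_one_le_right (norm_nonneg _)
        (Real.one_le_rpow (one_le_Nr (ha n h).ne_zero) (by linarith))
  have hsum : Summable (Function.uncurry (l3_term a R)) := by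
    have sβ : Summable fun h : O => (if h = 0 then 1 else 0) + C₁ * R ^ (-A) * Nr h ^ (-A) :=
      (hasSum_ite_eq (0 : O) (1 : ℝ)).summable.add (sA.mul_left _)
    refine Summable.of_norm_bounded (s2.mul_of_nonneg sβ (fun p => mul_nonneg (hnn _) (hnn _))
      fun h => add_nonneg (by split_ifs <;> norm_num) (mul_nonneg (by positivity) (hNA _)))
      fun ⟨p, h⟩ => ?_
    simp only [Function.uncurry_apply_pair]
    by_cases hh : h = 0
    · subst hh
      refine (l3_term_le a R p 0).trans ?_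
      rw [if_pos rfl]
      refine mul_le_mul (mul_le_mul (hle _) (hle _) (norm_nonneg _) (hnn _)) ?_ (Phi_pos _).le
        (mul_nonneg (hnn _) (hnn _))
      refine (Phi_le_one (by simp [Nr_zero])).trans (le_add_of_nonneg_right ?_)
      exact mul_nonneg (by positivity) (hNA _)
    · rw [if_neg hh, zero_add, mul_comm]
      exact l3_term_tail ha hR hC₁ p hh
  rw [← hsum.tsum_comm]
  set S := ∑' n : O, ‖a n‖ * Nr n ^ A with hS
  set J : O → ℝ := fun h => ∫ t : ℝ, ‖Complex.Gamma (σ + t * I)‖ * ‖l3_X a σ h t‖ ^ 2 with hJ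
  have hJ0 : ∀ h, 0 ≤ J h := fun h => integral_nonneg fun t => by positivity
  have f0 := hasSum_ite_eq (0 : O) (‖a 1‖ ^ 2)
  have f1 : HasSum (fun h => if h ∈ box H then c0 ^ (-σ) * R ^ (-σ) * J h else 0)
      (∑ h ∈ box H, c0 ^ (-σ) * R ^ (-σ) * J h) := by
    have := hasSum_sum_of_ne_finset_zero (L := SummationFilter.unconditional O)
      (f := fun h => if h ∈ box H then c0 ^ (-σ) * R ^ (-σ) * J h else 0) (s := box H)
      fun b hb => if_neg hb
    rwa [Finset.sum_congr rfl fun x hx => if_pos hx] at this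
  have st : Summable fun h : O => if H < Nr h then Nr h ^ (-A) else 0 :=
    Summable.of_nonneg_of_le (fun h => by split_ifs; exacts [hNA h, le_rfl])
      (fun h => by split_ifs; exacts [le_rfl, hNA h]) sA
  have f2 := st.hasSum.mul_left (C₁ * R ^ (-A) * S ^ 2)
  refine (tsum_of_norm_bounded ((f0.add f1).add f2) fun h => ?_).trans ?_
  · have p1 : 0 ≤ if h = 0 then ‖a 1‖ ^ 2 else 0 := by split_ifs; exacts [sq_nonneg _, le_rfl]
    have p2 : 0 ≤ if h ∈ box H then c0 ^ (-σ) * R ^ (-σ) * J h else 0 := by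
      split_ifs; exacts [mul_nonneg (by positivity) (hJ0 h), le_rfl]
    have p3 : 0 ≤ C₁ * R ^ (-A) * S ^ 2 * if H < Nr h then Nr h ^ (-A) else 0 :=
      mul_nonneg (by positivity) (by split_ifs; exacts [hNA h, le_rfl])
    by_cases hh : h = 0
    · subst hh
      rw [l3_sum_zero ha, if_pos rfl]
      linarith
    by_cases hb : h ∈ box H
    · have := l3_sum_mid hσ ha hr hR hh
      rw [if_pos hb]
      linarith
    · have hlt : H < Nr h := by
        by_contra hle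
        exact hb (mem_box.2 ⟨hh, not_lt.1 hle⟩)
      have h1 := tsum_of_norm_bounded (s2.hasSum.mul_left (C₁ * R ^ (-A) * Nr h ^ (-A)))
        fun p => l3_term_tail ha hR hC₁ p hh
      rw [← (hr A).tsum_mul_tsum (hr A) s2, ← hS] at h1
      rw [if_pos hlt]
      calc _ ≤ _ := h1
        _ = C₁ * R ^ (-A) * S ^ 2 * Nr h ^ (-A) := by ring
        _ ≤ _ := by linarith
  · have e : ∫ t : ℝ, ‖Complex.Gamma (σ + t * I)‖ *
        NS H (colF fun n => a n * (Nr n : ℂ) ^ ((σ : ℂ) + t * I)) = ∑ h ∈ box H, J h := by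
      rw [hJ, ← integral_finsetSum _ fun h _ => l3_X_int hσ hr h]
      simp only [NS, Finset.mul_sum, l3_X]
    rw [e, ← Finset.mul_sum]
    have hJs : 0 ≤ ∑ h ∈ box H, J h := Finset.sum_nonneg fun h _ => hJ0 h
    have h1 : ∑' h : O, (if H < Nr h then Nr h ^ (-A) else 0) ≤ |C₂| * H ^ (1 - A) :=
      (hC₂ H hH).trans (mul_le_mul_of_nonneg_right (le_abs_self _) (by positivity))
    have h2 := mul_le_mul_of_nonneg_left h1 (by positivity : 0 ≤ C₁ * R ^ (-A) * S ^ 2)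
    have q1 : 0 ≤ C₁ * |C₂| * (R ^ (-σ) * ∑ h ∈ box H, J h) := by positivity
    have q2 : 0 ≤ c0 ^ (-σ) * (R ^ (-A) * H ^ (1 - A) * S ^ 2) := by positivity
    nlinarith

end Crest.Agent.R017

end
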