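import Crest.Agent.R017.LS1
import Crest.Agent.R017.LS2Aux2

/-! # Row 17: Poisson steps for general coefficients -/

set_option autoImplicit false

noncomputable section

open scoped BigOperators ComplexConjugate
open Complex MeasureTheory

namespace Crest.Agent.R017

/-- Separation of variables in the Gaussian kernel. -/
theorem sep {σ y : ℝ} (hσ : 0 < σ) (hy : 0 < y) (u : O × O → ℂ) (h0 : ∀ p, u p ≠ 0 → p.1 ≠ 0 ∧ p.2 ≠ 0)
    (hu : Summable (fun p : O × O => ‖u p‖ * (Nr p.1 * Nr p.2) ^ σ)) :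
    ∑' p : O × O, u p * (Phi (y / (Nr p.1 * Nr p.2)) : ℂ) = (1 / (2 * Real.pi) : ℂ) *
      ∫ t : ℝ, Complex.Gamma (σ + t * I) * ((c0 * y : ℝ) : ℂ) ^ (-(σ + t * I)) *
        ∑' p : O × O, u p * ((Nr p.1 : ℂ) ^ ((σ : ℂ) + t * I) * (Nr p.2 : ℂ) ^ ((σ : ℂ) + t * I)) := by
  exact l3_sep hσ hy u h0 hu

open Classical in
/-- The positivity inequality, row by row. -/
theorem psd_row {Q : O} (h6 : (6 : O) ∣ Q) {γ : O → ℂ} (hs : Supp Q γ) (hr : Rap γ) (r : O) :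
    ‖rowF γ r‖ ^ 2 ≤ (∑' d : O, if Adm Q d then
      ∑' p : O × O, γ (d * p.1) * conj (γ (d * p.2)) * (g6 p.1 * conj (g6 p.2) * KG p.1 p.2 r) else 0).re := by
  obtain ⟨M, hM, hG⟩ := l3_G_bound h6 hs hr
  have h := l3_psd_row h6 hs hr r
  rw [(Summable.of_norm_bounded hM (hG r)).tsum_prod] at h
  refine h.trans (le_of_eq (congrArg re (tsum_congr fun d => ?_)))
  by_cases hd : Adm Q d <;> simp [l3_G, hd]

/-- normalised coefficients -/
def l3_a (γ : O → ℂ) (d n : O) : ℂ := γ (d * n) * g6 n * ((Nr n ^ (-(1 / 2) : ℝ) : ℝ) : ℂ)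

theorem l3_norm_a {Q d : O} (h6 : (6 : O) ∣ Q) {γ : O → ℂ} (hs : Supp Q γ) (hd : Prim d) (n : O)
    (B : ℝ) : ‖l3_a γ d n‖ * Nr n ^ B = ‖γ (d * n)‖ * Nr n ^ (B - 1 / 2) := by
  by_cases h : γ (d * n) = 0
  · simp [l3_a, h]
  obtain ⟨pn, sn, cn⟩ := l3_adm h6 (hs _ h) hd
  have h0 := Nr_pos pn.ne_zero
  rw [l3_a, norm_mul, norm_mul, norm_g6 cn sn, mul_one, norm_real,
    Real.norm_of_nonneg (by positivity), mul_assoc, ← Real.rpow_add h0]
  congr 2
  ring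

theorem l3_poisson {Q d : O} (h6 : (6 : O) ∣ Q) {γ : O → ℂ} (hs : Supp Q γ) (hc : Cls γ)
    (hd : Adm Q d) {R : ℝ} (hR : 0 < R) (p : O × O) :
    ∑' r : O, (Phi (Nr r / R) : ℂ) * l3_G Q γ r (d, p) = R * ∑' h, l3_term (l3_a γ d) R p h := by
  obtain ⟨n, m⟩ := p
  simp only [l3_G, if_pos hd]
  by_cases h1 : γ (d * n) = 0
  · simp [h1, l3_term, l3_a]
  by_cases h2 : γ (d * m) = 0
  · simp [h2, l3_term, l3_a]
  obtain ⟨pn, -, cn⟩ := l3_adm h6 (hs _ h1) hd.1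
  obtain ⟨pm, -, cm⟩ := l3_adm h6 (hs _ h2) hd.1
  have b1 := Nr_pos pn.ne_zero
  have b2 := Nr_pos pm.ne_zero
  have h4 : (4 : O) ∣ n - m := by
    obtain ⟨c, hc⟩ := hc
    have h3 : (4 : O) ∣ d * (n - m) := by
      have := dvd_sub (hc _ h1) (hc _ h2)
      rwa [show d * n - c - (d * m - c) = d * (n - m) by ring] at this
    have h5 : IsCoprime d 2 :=
      hd.2.2.of_isCoprime_of_dvd_right ((show (2 : O) ∣ 6 from ⟨3, by norm_num⟩).trans h6)
    have h7 : IsCoprime (4 : O) d := by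
      have := (h5.mul_right h5).symm
      norm_num at this
      exact this
    exact h7.dvd_of_dvd_mul_left h3
  have hP := poisson_KG cn cm (H := Nr (n * m) / R) (by rw [Nr_mul]; positivity)
  rw [ks_eq_one (coprime_six_iff.1 cn).2 h4, one_mul] at hP
  have e1 : ∀ r : O, Nr (n * m) / R * Nr r / Nr (n * m) = Nr r / R := fun r => by
    rw [Nr_mul]; field_simp
  have e2 : ∀ h : O, Nr h / (Nr (n * m) / R) = R * Nr h / (Nr n * Nr m) := fun h => by
    rw [Nr_mul]; field_simp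
  simp only [e1, e2] at hP
  have e3 : R * (Nr n ^ (-(1 / 2) : ℝ) * Nr m ^ (-(1 / 2) : ℝ)) *
      (Nr (n * m) / R / Real.sqrt (Nr (n * m))) = 1 := by
    rw [← Real.mul_rpow b1.le b2.le, ← Nr_mul, Real.rpow_neg (Nr_nonneg _), ← Real.sqrt_eq_rpow]
    have h0 : 0 < Nr (n * m) := by rw [Nr_mul]; positivity
    have h1 := Real.sqrt_pos.2 h0
    have h2 := Real.mul_self_sqrt h0.le
    field_simp
    linarith
  have e4 := congrArg (fun x : ℝ => (x : ℂ)) e3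
  simp only [ofReal_mul, ofReal_one] at e4
  have L : ∑' r : O, (Phi (Nr r / R) : ℂ) *
      (γ (d * n) * conj (γ (d * m)) * (g6 n * conj (g6 m) * KG n m r)) =
      γ (d * n) * conj (γ (d * m)) * (g6 n * conj (g6 m)) *
        ∑' r : O, KG n m r * (Phi (Nr r / R) : ℂ) := by
    rw [← tsum_mul_left]
    exact tsum_congr fun r => by ring
  have L' : ∑' h, l3_term (l3_a γ d) R (n, m) h =
      γ (d * n) * conj (γ (d * m)) * (g6 n * conj (g6 m)) *
        (((Nr n ^ (-(1 / 2) : ℝ) : ℝ) : ℂ) * ((Nr m ^ (-(1 / 2) : ℝ) : ℝ) : ℂ)) *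
        ∑' h : O, (Phi (R * Nr h / (Nr n * Nr m)) : ℂ) * (conj (chi n h) * chi m h) := by
    rw [← tsum_mul_left]
    refine tsum_congr fun h => ?_
    simp only [l3_term, l3_a, map_mul, Complex.conj_conj, Complex.conj_ofReal]
    ring
  rw [L, L', hP]
  linear_combination (-(γ (d * n) * conj (γ (d * m)) * (g6 n * conj (g6 m)) *
    ∑' r : O, KG n m r * (Phi (Nr r / R) : ℂ))) * e4

theorem l3_summable_sq {γ : O → ℂ} (hr : Rap γ) : Summable fun n => ‖γ n‖ ^ 2 := by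
  have h0 : Summable fun n => ‖γ n‖ := by simpa using hr 0
  refine Summable.of_nonneg_of_le (fun _ => sq_nonneg _) (fun n => ?_)
    (h0.mul_left (∑' n, ‖γ n‖))
  rw [sq]
  exact mul_le_mul_of_nonneg_right (h0.le_tsum n fun _ _ => norm_nonneg _) (norm_nonneg _)

theorem l3_NS_le {Q : O} (h6 : (6 : O) ∣ Q) {γ : O → ℂ} (hs : Supp Q γ) (hr : Rap γ) {R : ℝ}
    (hR : 0 < R) : NS R (rowF γ) ≤ Real.exp c0 *
      ‖∑' d : O, ∑' p : O × O, ∑' r : O, (Phi (Nr r / R) : ℂ) * l3_G Q γ r (d, p)‖ := by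
  obtain ⟨M, hM, hG⟩ := l3_G_bound h6 hs hr
  have sP : Summable fun r : O => Phi (Nr r / R) := by
    have := summable_Phi hR 0 0
    simpa [norm_emb_sq] using this
  have hsum : Summable (Function.uncurry fun (r : O) (x : O × O × O) =>
      (Phi (Nr r / R) : ℂ) * l3_G Q γ r x) := by
    refine Summable.of_norm_bounded (sP.mul_of_nonneg hM (fun _ => (Phi_pos _).le)
      fun x => (norm_nonneg _).trans (hG 0 x)) fun ⟨r, x⟩ => ?_
    simp only [Function.uncurry_apply_pair]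
    rw [norm_mul, norm_real, Real.norm_of_nonneg (Phi_pos _).le]
    exact mul_le_mul_of_nonneg_left (hG r x) (Phi_pos _).le
  have s1 : Summable fun r : O => ∑' x, (Phi (Nr r / R) : ℂ) * l3_G Q γ r x := hsum.prod
  have s2 : Summable fun x : O × O × O => ∑' r : O, (Phi (Nr r / R) : ℂ) * l3_G Q γ r x :=
    hsum.prod_symm.prod
  rw [← s2.tsum_prod, hsum.tsum_comm]
  refine le_trans ?_ (mul_le_mul_of_nonneg_left (re_le_norm _) (Real.exp_pos _).le)
  have hre := (Complex.hasSum_re s1.hasSum)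
  simp only [tsum_mul_left, re_ofReal_mul] at hre ⊢
  rw [← hre.tsum_eq, ← tsum_mul_left]
  have hP : ∀ r, 0 ≤ (∑' x, l3_G Q γ r x).re := fun r =>
    (sq_nonneg _).trans (l3_psd_row h6 hs hr r)
  refine le_trans (Finset.sum_le_sum fun r hr' => ?_) ((hre.summable.mul_left _).sum_le_tsum (box R)
    fun r _ => mul_nonneg (Real.exp_pos _).le (mul_nonneg (Phi_pos _).le (hP r)))
  refine (l3_psd_row h6 hs hr r).trans ?_
  rw [← mul_assoc]
  refine le_mul_of_one_le_left (hP r) ?_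
  rw [Phi, ← Real.exp_add]
  refine Real.one_le_exp ?_
  have h1 : Nr r / R ≤ 1 := (div_le_one hR).2 (mem_box.1 hr').2
  nlinarith [c0_pos]

open Classical in
/-- Poisson step: from rows `χ_n(r)` to dual rows. -/
theorem pstep {σ A : ℝ} (hσ : 0 < σ) (hA : 2 ≤ A) : ∃ C : ℝ, 0 ≤ C ∧
    ∀ (Q : O) (R : ℝ) (H : O → ℝ) (γ : O → ℂ), (6 : O) ∣ Q → 0 < R → (∀ d, 0 < H d) →
    Supp Q γ → Rap γ → Cls γ → ∀ B : O → ℝ, Summable B → (∀ d, 0 ≤ B d) →
    (∀ d, Adm Q d →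
      R ^ (1 - σ) * (∫ t : ℝ, ‖Complex.Gamma (σ + t * I)‖ *
        NS (H d) (colF (fun n => γ (d * n) * g6 n * (Nr n : ℂ) ^ (((σ - 1 / 2 : ℝ) : ℂ) + t * I)))) +
      R ^ (1 - A) * H d ^ (1 - A) * (∑' n : O, ‖γ (d * n)‖ * Nr n ^ (A - 1 / 2)) ^ 2 ≤ B d) →
    NS R (rowF γ) ≤ C * (R * (∑' n : O, ‖γ n‖ ^ 2) + ∑' d : O, B d) := by
  obtain ⟨C, hC0, hC⟩ := l3_dual hσ hA
  refine ⟨Real.exp c0 * (1 + C), by positivity,
    fun Q R H γ h6 hR hH hs hr hc B hB hB0 hBd => ?_⟩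
  have s2 := l3_summable_sq hr
  have key : ∀ d : O, ‖∑' p : O × O, ∑' r : O, (Phi (Nr r / R) : ℂ) * l3_G Q γ r (d, p)‖ ≤
      R * ‖γ d‖ ^ 2 + C * B d := by
    intro d
    by_cases hd : Adm Q d
    swap
    · have := hB0 d
      simp only [l3_G, if_neg hd, mul_zero, tsum_zero, norm_zero]
      positivity
    simp only [l3_poisson h6 hs hc hd hR, tsum_mul_left]
    have ha : ∀ n, l3_a γ d n ≠ 0 → Prim n := fun n hn =>
      (l3_adm h6 (hs _ fun h0 => hn (by simp [l3_a, h0])) hd.1).1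
    have hra : Rap (l3_a γ d) := fun B => by
      simp only [l3_norm_a h6 hs hd.1]
      exact l3_summable_dn hs hr _ d
    have h1 := hC (l3_a γ d) R (H d) ha hra hR (hH d)
    have e1 : ‖l3_a γ d 1‖ = ‖γ d‖ := by simp [l3_a, g6_one, Nr_one]
    have e2 : ∀ t : ℝ, (fun n => l3_a γ d n * (Nr n : ℂ) ^ ((σ : ℂ) + t * I)) =
        fun n => γ (d * n) * g6 n * (Nr n : ℂ) ^ (((σ - 1 / 2 : ℝ) : ℂ) + t * I) := by
      intro t
      funext n
      by_cases h : γ (d * n) = 0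
      · simp [l3_a, h]
      have h0 := Nr_pos (l3_adm h6 (hs _ h) hd.1).1.ne_zero
      rw [l3_a, ofReal_cpow h0.le, mul_assoc, ← cpow_add _ _ (by exact_mod_cast h0.ne')]
      congr 2
      push_cast
      ring
    simp only [e1, e2, l3_norm_a h6 hs hd.1] at h1
    have h2 := mul_le_mul_of_nonneg_left (hBd d hd) hC0
    rw [norm_mul, norm_real, Real.norm_of_nonneg hR.le]
    refine (mul_le_mul_of_nonneg_left h1 hR.le).trans ?_
    rw [sub_eq_add_neg 1 σ, Real.rpow_add hR, sub_eq_add_neg 1 A, Real.rpow_add hR,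
      Real.rpow_one, ← sub_eq_add_neg 1 A] at h2
    linarith
  have h1 := tsum_of_norm_bounded ((s2.hasSum.mul_left R).add (hB.hasSum.mul_left C)) key
  refine (l3_NS_le h6 hs hr hR).trans ?_
  rw [mul_assoc]
  refine mul_le_mul_of_nonneg_left (h1.trans ?_) (Real.exp_pos _).le
  have p1 : 0 ≤ R * ∑' n, ‖γ n‖ ^ 2 := mul_nonneg hR.le (tsum_nonneg fun _ => sq_nonneg _)
  have p2 : 0 ≤ ∑' d, B d := tsum_nonneg hB0
  nlinarith [mul_nonneg hC0 p1]

open Classical in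
/-- The same step from dual rows back to rows `χ_n(r)`. -/
theorem dstep {σ A : ℝ} (hσ : 0 < σ) (hA : 2 ≤ A) : ∃ C : ℝ, 0 ≤ C ∧
    ∀ (Q : O) (R : ℝ) (H : O → ℝ) (γ : O → ℂ), (6 : O) ∣ Q → 0 < R → (∀ d, 0 < H d) →
    Supp Q γ → Rap γ → Cls γ → ∀ B : O → ℝ, Summable B → (∀ d, 0 ≤ B d) →
    (∀ d, Adm Q d →
      R ^ (1 - σ) * (∫ t : ℝ, ‖Complex.Gamma (σ + t * I)‖ *
        NS (H d) (rowF (fun n => γ (d * n) * conj (g6 n) * (Nr n : ℂ) ^ (((σ - 1 / 2 : ℝ) : ℂ) + t * I)))) +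
      R ^ (1 - A) * H d ^ (1 - A) * (∑' n : O, ‖γ (d * n)‖ * Nr n ^ (A - 1 / 2)) ^ 2 ≤ B d) →
    NS R (colF γ) ≤ C * (R * (∑' n : O, ‖γ n‖ ^ 2) + ∑' d : O, B d) := by
  obtain ⟨C, hC0, hC⟩ := pstep hσ hA
  refine ⟨C, hC0, fun Q R H γ h6 hR hH hs hr hc B hB hB0 hBd => ?_⟩
  have h := hC Q R H (fun n => conj (γ n)) h6 hR hH (fun n hn => hs n (by simpa using hn))
    (fun B => by simpa only [Complex.norm_conj] using hr B)
    (hc.imp fun c hc n hn => hc n (by simpa using hn)) B hB hB0 fun d hd => ?_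
  · simp only [Complex.norm_conj] at h
    convert h using 1
    refine Finset.sum_congr rfl fun r _ => ?_
    rw [← Complex.norm_conj, colF, rowF, Complex.conj_tsum]
    simp
  · simp only [Complex.norm_conj]
    convert hBd d hd using 3
    rw [← integral_neg_eq_self]
    refine integral_congr_ae (Filter.Eventually.of_forall fun t => ?_)
    simp only
    rw [l3_norm_Gamma_neg]
    congr 1
    refine Finset.sum_congr rfl fun r _ => ?_
    rw [← Complex.norm_conj, colF, rowF, Complex.conj_tsum]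
    simp only [map_mul, Complex.conj_conj, l3_conj_cpow (Nr_nonneg _)]

end Crest.Agent.R017

end
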