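import Crest.Agent.R017.Recip

/-! # Row 17: characters -/

set_option autoImplicit false

noncomputable section

open scoped BigOperators ComplexConjugate
open Complex MeasureTheory

namespace Crest.Agent.R017

theorem ch_cop_congr {q x y : O} (h : q ∣ x - y) : IsCoprime x q ↔ IsCoprime y q := by
  obtain ⟨c, hc⟩ := h
  have : x = y + q * c := by rw [← hc]; ring
  rw [this, IsCoprime.add_mul_left_left_iff]

theorem ch_not_cop_zero {q : O} (h3 : (3 : O) ∣ q) : ¬ IsCoprime 0 q := by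
  rw [isCoprime_zero_left]
  intro hu
  exact prime_lam.not_unit (isUnit_of_dvd_unit (lam_dvd_three.trans h3) hu)

theorem ch_pow {q : O} {η : O → ℂ} (h : IsCh q η) (n : O) (k : ℕ) : η (n ^ k) = η n ^ k := by
  induction k with
  | zero => simp [h.one]
  | succ k ih => rw [pow_succ, h.mul, ih, pow_succ]

theorem ch_period {q : O} (hq : q ≠ 0) (n : O) :
    ∃ a k : ℕ, 0 < k ∧ q ∣ n ^ (a + k) - n ^ a := by
  haveI := s1_finite hq
  obtain ⟨a, b, hab, h⟩ := Finite.exists_ne_map_eq_of_infinite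
    (fun k : ℕ => Ideal.Quotient.mk (Ideal.span {q}) (n ^ k))
  rcases lt_or_gt_of_ne hab with hl | hl
  · refine ⟨a, b - a, by omega, ?_⟩
    rw [show a + (b - a) = b by omega]
    exact b3_mk_eq.1 h.symm
  · refine ⟨b, a - b, by omega, ?_⟩
    rw [show b + (a - b) = a by omega]
    exact b3_mk_eq.1 h

theorem ch_root {q : O} (hq : q ≠ 0) (n : O) :
    ∃ k : ℕ, 0 < k ∧ ∀ η : O → ℂ, IsCh q η → η n = 0 ∨ η n ^ k = 1 := by
  obtain ⟨a, k, hk, h⟩ := ch_period hq n
  refine ⟨k, hk, fun η hη => ?_⟩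
  by_cases h0 : η n = 0
  · exact Or.inl h0
  · right
    have := hη.per _ _ h
    rw [ch_pow hη, ch_pow hη, pow_add] at this
    exact mul_left_cancel₀ (pow_ne_zero a h0) (by rw [this, mul_one])

theorem ch_norm_eq {q : O} {η : O → ℂ} (h : IsCh q η) {n : O} (hn : η n ≠ 0) : ‖η n‖ = 1 := by
  obtain ⟨k, hk, h1⟩ := ch_root h.ne n
  rcases h1 η h with h0 | h0
  · exact absurd h0 hn
  · have := congrArg norm h0
    rw [norm_pow, norm_one] at this
    exact (pow_eq_one_iff_of_nonneg (norm_nonneg _) hk.ne').1 this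

theorem ch_cop {q : O} {η : O → ℂ} (h : IsCh q η) {n : O} (hn : η n ≠ 0) : IsCoprime n q := by
  by_contra hc
  exact hn ((h.zero n).2 hc)

theorem ch_lift {q : O} : ∀ {k : O}, k ≠ 0 → ∀ {n : O}, IsCoprime n q →
    ∃ n', q ∣ n' - n ∧ IsCoprime n' k := by
  intro k
  induction k using UniqueFactorizationMonoid.induction_on_prime with
  | h₁ => intro h; exact absurd rfl h
  | h₂ u hu =>
    intro _ n _
    exact ⟨n, by simp, (isCoprime_one_right).of_isCoprime_of_dvd_right (isUnit_iff_dvd_one.1 hu)⟩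
  | h₃ k p hk hp ih =>
    intro _ n hn
    obtain ⟨n', h1, h2⟩ := ih hk hn
    by_cases hpn : p ∣ n'
    · have hq : IsCoprime n' q := (ch_cop_congr h1).2 hn
      refine ⟨n' + q * k, by rw [add_sub_right_comm]; exact dvd_add h1 (dvd_mul_right _ _), ?_⟩
      refine IsCoprime.mul_right ?_ ?_
      · refine ((Prime.coprime_iff_not_dvd hp).2 fun hd => ?_).symm
        have : p ∣ q * k := (dvd_add_right hpn).1 hd
        rcases hp.dvd_or_dvd this with h | h
        · exact hp.not_unit (hq.isUnit_of_dvd' hpn h)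
        · exact hp.not_unit (h2.isUnit_of_dvd' hpn h)
      · exact IsCoprime.add_mul_right_left_iff.2 h2
    · exact ⟨n', h1, IsCoprime.mul_right ((Prime.coprime_iff_not_dvd hp).2 hpn).symm h2⟩

theorem ch_prim_congr {q x y : O} (h3 : (3 : O) ∣ q) (h : q ∣ x - y) (hy : Prim y) : Prim x := by
  unfold Prim at *
  have := dvd_add (h3.trans h) hy
  rwa [sub_add_sub_cancel] at this

theorem ch_enlarge {q q' : O} {η : O → ℂ} (h : IsCh q η) (hq' : q' ≠ 0) (hd : q ∣ q')
    (hc : ∀ x, IsCoprime x q → IsCoprime x q') : IsCh q' η where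
  ne := hq'
  three := h.three.trans hd
  one := h.one
  mul := h.mul
  per := fun x y hxy => h.per x y (hd.trans hxy)
  zero := fun x => by
    rw [h.zero]
    exact not_congr ⟨hc x, fun hx => hx.of_isCoprime_of_dvd_right hd⟩

theorem ch_odd {Q n : O} (h2 : (2 : O) ∣ Q) (h : IsCoprime n Q) : ¬ (2 : O) ∣ n := fun hn =>
  prime_two.not_unit (h.isUnit_of_dvd' hn h2)

/-- The ring `O / 4`. -/
abbrev ch_R4 : Type := QuadraticAlgebra (ZMod 4) (-1) (-1)

instance : DecidableEq ch_R4 := fun x y =>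
  decidable_of_iff (x.re = y.re ∧ x.im = y.im) ⟨fun h => QuadraticAlgebra.ext h.1 h.2, fun h => by
    subst h; exact ⟨rfl, rfl⟩⟩

instance : Fintype ch_R4 := Fintype.ofEquiv _ (QuadraticAlgebra.equivProd (-1 : ZMod 4) (-1)).symm

theorem ch_card_R4 : Fintype.card ch_R4ˣ = 12 := by decide +kernel

/-- Reduction modulo `4`. -/
def ch_red : O →+* ch_R4 where
  toFun x := ⟨(x.re : ZMod 4), (x.im : ZMod 4)⟩
  map_one' := by ext <;> simp [QuadraticAlgebra.re_one, QuadraticAlgebra.im_one]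
  map_zero' := by ext <;> simp
  map_add' x y := by ext <;> simp
  map_mul' x y := by ext <;> simp

theorem ch_red_eq {x y : O} : ch_red x = ch_red y ↔ (4 : O) ∣ x - y := by
  have h := r2_dvd_iff 4 (x - y)
  rw [show ((4 : ℤ) : O) = 4 by norm_num] at h
  rw [h, QuadraticAlgebra.re_sub, QuadraticAlgebra.im_sub, QuadraticAlgebra.ext_iff]
  have e : ∀ a b : ℤ, ((a : ZMod 4) = (b : ZMod 4)) ↔ (4 : ℤ) ∣ a - b := fun a b => by
    rw [eq_comm, ZMod.intCast_eq_intCast_iff_dvd_sub]; norm_num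
  exact and_congr (e _ _) (e _ _)

theorem ch_red_surj : Function.Surjective ch_red := fun z => by
  obtain ⟨a, ha⟩ := ZMod.intCast_surjective z.re
  obtain ⟨b, hb⟩ := ZMod.intCast_surjective z.im
  exact ⟨⟨a, b⟩, QuadraticAlgebra.ext ha hb⟩

theorem ch_red_unit {x : O} : IsUnit (ch_red x) ↔ IsCoprime x 4 := by
  constructor
  · intro h
    obtain ⟨y, hy⟩ := h.exists_right_inv
    obtain ⟨y, rfl⟩ := ch_red_surj y
    rw [← map_mul, ← map_one ch_red, ch_red_eq] at hy
    obtain ⟨c, hc⟩ := hy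
    exact ⟨y, -c, by linear_combination hc⟩
  · rintro ⟨a, b, h⟩
    refine IsUnit.of_mul_eq_one (ch_red a) ?_
    rw [← map_mul, ← map_one ch_red, ch_red_eq]
    exact ⟨-b, by linear_combination h⟩

theorem IsCh.norm_le {q : O} {η : O → ℂ} (h : IsCh q η) (n : O) : ‖η n‖ ≤ 1 := by
  by_cases hn : η n = 0
  · simp [hn]
  · exact (ch_norm_eq h hn).le
theorem IsCh.norm_eq {q : O} {η : O → ℂ} (h : IsCh q η) {n : O} (hn : η n ≠ 0) : ‖η n‖ = 1 :=
  ch_norm_eq h hn
theorem IsCh.map_zero {q : O} {η : O → ℂ} (h : IsCh q η) : η 0 = 0 :=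
  (h.zero 0).2 (ch_not_cop_zero h.three)
theorem IsCh.map_pow {q : O} {η : O → ℂ} (h : IsCh q η) (n : O) (k : ℕ) : η (n ^ k) = η n ^ k :=
  ch_pow h n k
theorem IsCh.conj {q : O} {η : O → ℂ} (h : IsCh q η) : IsCh q (fun n => conj (η n)) where
  ne := h.ne
  three := h.three
  one := by simp [h.one]
  mul := fun x y => by simp [h.mul]
  per := fun x y hxy => by simp [h.per x y hxy]
  zero := fun x => by rw [← h.zero, map_eq_zero]
theorem IsCh.mul' {q q' : O} {η η' : O → ℂ} (h : IsCh q η) (h' : IsCh q' η') :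
    IsCh (q * q') (fun n => η n * η' n) where
  ne := mul_ne_zero h.ne h'.ne
  three := h.three.mul_right _
  one := by simp [h.one, h'.one]
  mul := fun x y => by simp only [h.mul, h'.mul]; ring
  per := fun x y hxy => by
    simp only [h.per x y ((dvd_mul_right _ _).trans hxy), h'.per x y ((dvd_mul_left _ _).trans hxy)]
  zero := fun x => by
    rw [mul_eq_zero, h.zero, h'.zero, IsCoprime.mul_right_iff, not_and_or]
theorem IsCh.mul_same {q : O} {η η' : O → ℂ} (h : IsCh q η) (h' : IsCh q η') :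
    IsCh q (fun n => η n * η' n) where
  ne := h.ne
  three := h.three
  one := by simp [h.one, h'.one]
  mul := fun x y => by simp only [h.mul, h'.mul]; ring
  per := fun x y hxy => by simp only [h.per x y hxy, h'.per x y hxy]
  zero := fun x => by rw [mul_eq_zero, h.zero, h'.zero, or_self]
open Classical in
theorem isCh_triv {q : O} (hq : q ≠ 0) (h3 : (3 : O) ∣ q) :
    IsCh q (fun n => if IsCoprime n q then 1 else 0) where
  ne := hq
  three := h3
  one := by simp [isCoprime_one_left]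
  mul := fun x y => by
    simp only [IsCoprime.mul_left_iff]
    by_cases hx : IsCoprime x q <;> by_cases hy : IsCoprime y q <;> simp [hx, hy]
  per := fun x y hxy => by simp only [ch_cop_congr hxy]
  zero := fun x => by simp
open Classical in
theorem IsCh.coprime {q k : O} {η : O → ℂ} (h : IsCh q η) (hk : k ≠ 0) :
    IsCh (q * rad k) (fun n => if IsCoprime n k then η n else 0) where
  ne := mul_ne_zero h.ne (rad_ne_zero k)
  three := h.three.mul_right _
  one := by simp [isCoprime_one_left, h.one]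
  mul := fun x y => by
    simp only [IsCoprime.mul_left_iff, h.mul]
    by_cases hx : IsCoprime x k <;> by_cases hy : IsCoprime y k <;> simp [hx, hy]
  per := fun x y hxy => by
    have h1 : IsCoprime x k ↔ IsCoprime y k := by
      rw [← coprime_rad_iff hk, ← coprime_rad_iff hk, ch_cop_congr ((dvd_mul_left _ _).trans hxy)]
    simp only [h1, h.per x y ((dvd_mul_right _ _).trans hxy)]
  zero := fun x => by
    rw [IsCoprime.mul_right_iff, coprime_rad_iff hk, not_and_or, ← h.zero]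
    by_cases hx : IsCoprime x k <;> simp [hx]
theorem IsCh.mul_sig {Q j : O} {ψ : O → ℂ} (h : IsCh Q ψ) (h4 : (4 : O) ∣ Q) (hj : ¬ (2 : O) ∣ j) :
    IsCh Q (fun n => ψ n * sig n j) := by
  have h2 : (2 : O) ∣ Q := (Dvd.intro 2 (by norm_num) : (2 : O) ∣ 4).trans h4
  refine ⟨h.ne, h.three, by simp [h.one, sig_one hj], fun x y => ?_, fun x y hxy => ?_, fun x => ?_⟩
  · by_cases hx : ψ x = 0
    · simp [h.mul, hx]
    by_cases hy : ψ y = 0
    · simp [h.mul, hy]
    simp only [h.mul, sig_mul_left (ch_odd h2 (ch_cop h hx)) (ch_odd h2 (ch_cop h hy)) hj]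
    ring
  · simp only [h.per x y hxy, sig_per (h4.trans hxy) (show (4 : O) ∣ j - j by simp)]
  · rw [← h.zero]
    by_cases hx : ψ x = 0
    · simp [hx]
    rcases sig_cases (ch_odd h2 (ch_cop h hx)) hj with h1 | h1 <;> simp [h1]
theorem IsCh.mul_chi {Q r : O} {ψ : O → ℂ} (h : IsCh Q ψ) (h72 : (72 : O) ∣ Q) (hr : r ≠ 0) :
    IsCh (Q * rad r) (fun n => ψ n * chi n r) := by
  have h6 : (6 : O) ∣ Q := (Dvd.intro 12 (by norm_num) : (6 : O) ∣ 72).trans h72
  refine ⟨mul_ne_zero h.ne (rad_ne_zero r), h.three.mul_right _,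
    by simp [h.one, chi_unit_left isUnit_one], fun x y => ?_, fun x y hxy => ?_, fun x => ?_⟩
  · by_cases hx : x = 0
    · simp [hx, h.map_zero]
    by_cases hy : y = 0
    · simp [hy, h.map_zero]
    simp only [h.mul, chi_mul_left hx hy]
    ring
  · have h1 := h.per x y ((dvd_mul_right _ _).trans hxy)
    by_cases hx : x = 0
    · rw [← h1, hx, h.map_zero]; simp
    by_cases hy : y = 0
    · rw [h1, hy, h.map_zero]; simp
    simp only [h1, chi_per hr hx hy ((mul_dvd_mul_right h72 _).trans hxy)]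
  · rw [IsCoprime.mul_right_iff, coprime_rad_iff hr, not_and_or, ← h.zero, mul_eq_zero]
    by_cases hx : ψ x = 0
    · simp [hx]
    have hx0 : x ≠ 0 := fun h0 => hx (by rw [h0, h.map_zero])
    have h1 : IsCoprime x 6 := (ch_cop h hx).of_isCoprime_of_dvd_right h6
    rw [chi_eq_zero hx0, IsCoprime.mul_right_iff]
    simp [h1]
theorem princ_conj {η : O → ℂ} : Princ (fun n => conj (η n)) ↔ Princ η := by
  refine forall_congr' fun n => imp_congr_right fun _ => ?_
  simp only [ne_eq, map_eq_zero]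
  refine imp_congr_right fun _ => ⟨fun h => ?_, fun h => by simp [h]⟩
  have := congrArg conj h
  simpa using this
open Classical in
theorem IsCh.princ_coprime {q k : O} {η : O → ℂ} (h : IsCh q η) (hk : k ≠ 0) :
    Princ (fun n => if IsCoprime n k then η n else 0) ↔ Princ η := by
  constructor
  · intro hp n hn h0
    obtain ⟨n', h1, h2⟩ := ch_lift hk (ch_cop h h0)
    have := hp n' (ch_prim_congr h.three h1 hn)
    simp only [h2, if_true, h.per _ _ h1] at this
    exact this h0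
  · intro hp n hn h0
    by_cases hc : IsCoprime n k
    · simp only [hc, if_true] at h0 ⊢
      exact hp n hn h0
    · simp [hc] at h0
theorem not_princ_of_not_exc {Q t r : O} {ψ : O → ℂ} (h : IsCh Q ψ) (h72 : (72 : O) ∣ Q)
    (hrt : r * t ≠ 0) (he : ¬ Exc Q t r) : ¬ Princ (fun n => ψ n * chi n (r * t)) := by
  have h6 : (6 : O) ∣ Q := (Dvd.intro 12 (by norm_num) : (6 : O) ∣ 72).trans h72
  have h4 : (4 : O) ∣ Q := (Dvd.intro 18 (by norm_num) : (4 : O) ∣ 72).trans h72
  have h2 : (2 : O) ∣ Q := (Dvd.intro 36 (by norm_num) : (2 : O) ∣ 72).trans h72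
  unfold Exc at he
  push Not at he
  obtain ⟨p₀, hp₀, hQ₀, hv₀⟩ := he
  obtain ⟨p, hp, hass⟩ := exists_PP hp₀
  have hQ : ¬ p ∣ Q := fun hd => hQ₀ (hass.dvd.trans hd)
  have hv : ¬ 6 ∣ multiplicity p (r * t) := by
    rwa [multiplicity_eq_of_associated_left hass]
  have hpp : Prim p := hp.2.resolve_right fun hl => hQ (hl ▸ lam_dvd_three.trans h.three)
  have hpQ : IsCoprime p Q := (Prime.coprime_iff_not_dvd hp.1).2 hQ
  have hfin : FiniteMultiplicity p (r * t) :=
    FiniteMultiplicity.of_prime_left hp.1 hrt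
  obtain ⟨w, hw, hpw⟩ := hfin.exists_eq_pow_mul_and_not_dvd
  set v := multiplicity p (r * t) with hvdef
  have hw0 : w ≠ 0 := fun h0 => hpw (by simp [h0])
  have hv0 : v ≠ 0 := fun h0 => hv (by simp [h0])
  obtain ⟨x, hx0, hx1⟩ := chi_order hp.1 (hpQ.of_isCoprime_of_dvd_right h6) hv
  have hc : IsCoprime p (Q * rad w) :=
    hpQ.mul_right ((coprime_rad_iff hw0).2 ((Prime.coprime_iff_not_dvd hp.1).2 hpw))
  obtain ⟨a, b, hab⟩ := hc
  set n := x * (b * (Q * rad w)) + a * p with hn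
  have hn1 : Q * rad w ∣ n - 1 := ⟨x * b - b, by rw [hn]; linear_combination hab⟩
  have hnx : p ∣ n - x := ⟨a - x * a, by rw [hn]; linear_combination x * hab⟩
  have hnQ : Q ∣ n - 1 := (dvd_mul_right _ _).trans hn1
  have hnp : Prim n := ch_prim_congr h.three hnQ prim_one
  have hp2 : ¬ (2 : O) ∣ p := ch_odd h2 hpQ
  have hn2 : ¬ (2 : O) ∣ n := ch_odd h2 ((ch_cop_congr hnQ).2 isCoprime_one_left)
  have e1 : ψ n = 1 := by rw [h.per _ _ hnQ, h.one]
  have e2 : chi n w = 1 := by
    rw [chi_per hw0 hnp.ne_zero one_ne_zero ((mul_dvd_mul_right h72 _).trans hn1),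
      chi_unit_left isUnit_one]
  have e3 : chi n p = chi p x := by
    rw [chi_recip hnp hpp hn2 hp2, sig_per (h4.trans hnQ) (show (4 : O) ∣ p - p by simp),
      sig_one hp2, one_mul, chi_congr' hp.1.ne_zero hnx]
  have e : ψ n * chi n (r * t) = chi p x ^ v := by
    rw [hw, chi_mul_right, chi_pow_right _ _ hv0, e1, e2, e3, one_mul, mul_one]
  intro hP
  have := hP n hnp
  simp only [e] at this
  exact hx1 (this hx0)
open Classical in
theorem exists_of_exc {Q t r : O} {ψ : O → ℂ} (h : IsCh Q ψ) (h72 : (72 : O) ∣ Q)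
    (hrt : r * t ≠ 0) (he : Exc Q t r) :
    ∃ η₀ : O → ℂ, IsCh (Q * Q) η₀ ∧
      ∀ n, ψ n * chi n (r * t) = if IsCoprime n (r * t) then η₀ n else 0 := by
  have h6 : (6 : O) ∣ Q := (Dvd.intro 12 (by norm_num) : (6 : O) ∣ 72).trans h72
  obtain ⟨w, k, hw, hk, hwQ, e⟩ := a4_six (Q := Q) _ (r * t) rfl hrt he
  have hr : rad w ∣ Q := a4_rad_dvd h.ne hw hwQ
  refine ⟨fun n => ψ n * chi n w, ch_enlarge (h.mul_chi h72 hw) (mul_ne_zero h.ne h.ne)
    (mul_dvd_mul_left _ hr) fun x hx => ?_, fun n => ?_⟩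
  · exact hx.of_mul_right_left.mul_right hx.of_mul_right_left
  · by_cases h0 : ψ n = 0
    · simp [h0]
    have hn0 : n ≠ 0 := fun h1 => h0 (by rw [h1, h.map_zero])
    have hc := ch_cop h h0
    have h1 : IsCoprime n 6 := hc.of_isCoprime_of_dvd_right h6
    have h2 : IsCoprime n w := (coprime_rad_iff hw).1 (hc.of_isCoprime_of_dvd_right hr)
    rw [e, chi_mul_right, chi_pow_right _ _ (by norm_num), chi_pow_six hn0,
      IsCoprime.mul_right_iff, IsCoprime.mul_right_iff, IsCoprime.pow_right_iff (by norm_num)]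
    by_cases h3 : IsCoprime n k <;> simp [h1, h2, h3]
/-- There are finitely many characters to a fixed modulus. -/
theorem finite_isCh (q : O) : {η : O → ℂ | IsCh q η}.Finite := by
  by_cases hq : q = 0
  · convert Set.finite_empty
    ext η
    simp only [Set.mem_setOf_eq, Set.mem_empty_iff_false, iff_false]
    exact fun h => h.ne hq
  choose k hk hk' using ch_root hq
  have hfin : ∀ n : O, {z : ℂ | z = 0 ∨ z ^ k n = 1}.Finite := fun n => by
    have h1 : {z : ℂ | z ^ k n = 1}.Finite := by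
      refine (Polynomial.nthRoots (k n) (1 : ℂ)).toFinset.finite_toSet.subset fun z hz => ?_
      simpa [Polynomial.mem_nthRoots (hk n)] using hz
    exact ((Set.finite_singleton 0).union h1).subset fun z hz => hz
  have hpi := Set.Finite.pi' (fun n : reps q => hfin n)
  refine Set.Finite.of_finite_image (f := fun (η : O → ℂ) (n : reps q) => η n)
    (hpi.subset ?_) ?_
  · rintro _ ⟨η, hη, rfl⟩ n
    exact hk' n η hη
  · intro η hη η' hη' e
    funext x
    have h1 := congrFun e ⟨b3_r q x, b3_r_mem hq x⟩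
    simp only at h1
    rwa [hη.per _ _ (b3_r_dvd q x), hη'.per _ _ (b3_r_dvd q x)] at h1
open Classical in
/-- Detecting a residue class modulo `4` on elements prime to `Q` by characters modulo `Q`. -/
theorem class_four {Q : O} (hQ : Q ≠ 0) (h12 : (12 : O) ∣ Q) :
    ∃ S : Finset (O → ℂ), S.card = 12 ∧ (∀ ξ ∈ S, IsCh Q ξ) ∧
      (∀ ξ ∈ S, ∀ x y, IsCoprime x Q → IsCoprime y Q → (4 : O) ∣ x - y → ξ x = ξ y) ∧
      ∀ x y, IsCoprime x Q → IsCoprime y Q →
        ∑ ξ ∈ S, ξ x * conj (ξ y) = if (4 : O) ∣ x - y then 12 else 0 := by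
  have h4 : (4 : O) ∣ Q := (Dvd.intro 3 (by norm_num) : (4 : O) ∣ 12).trans h12
  have h3 : (3 : O) ∣ Q := (Dvd.intro 4 (by norm_num) : (3 : O) ∣ 12).trans h12
  haveI : NeZero ((Monoid.exponent ch_R4ˣ : ℕ) : ℂ) :=
    ⟨Nat.cast_ne_zero.2 Monoid.exponent_ne_zero_of_finite⟩
  haveI : Fintype (MulChar ch_R4 ℂ) := Fintype.ofFinite _
  have hcard : Fintype.card (MulChar ch_R4 ℂ) = 12 := by
    rw [← Nat.card_eq_fintype_card, MulChar.card_eq_card_units_of_hasEnoughRootsOfUnity,
      Nat.card_eq_fintype_card, ch_card_R4]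
  let F : MulChar ch_R4 ℂ → O → ℂ := fun χ n => if IsCoprime n Q then χ (ch_red n) else 0
  have hF : ∀ χ n, IsCoprime n Q → F χ n = χ (ch_red n) := fun χ n hn => if_pos hn
  have hu : ∀ n, IsCoprime n Q → IsUnit (ch_red n) := fun n hn =>
    ch_red_unit.2 (hn.of_isCoprime_of_dvd_right h4)
  have hinj : Function.Injective F := by
    intro χ χ' e
    refine MulChar.ext fun a => ?_
    obtain ⟨x, hx⟩ := ch_red_surj a
    obtain ⟨n, h1, h2⟩ := ch_lift hQ (ch_red_unit.1 (hx ▸ a.isUnit))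
    have := congrFun e n
    rwa [hF _ _ h2, hF _ _ h2, ch_red_eq.2 h1, hx] at this
  have hch : ∀ χ, IsCh Q (F χ) := fun χ => by
    refine ⟨hQ, h3, by simp [F, isCoprime_one_left], fun x y => ?_, fun x y hxy => ?_, fun x => ?_⟩
    · simp only [F, IsCoprime.mul_left_iff]
      by_cases hx : IsCoprime x Q <;> by_cases hy : IsCoprime y Q <;> simp [hx, hy]
    · simp only [F, ch_cop_congr hxy, ch_red_eq.2 (h4.trans hxy)]
    · by_cases hx : IsCoprime x Q
      · simp only [F, hx, if_true, not_true, iff_false]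
        exact ((hu x hx).map χ).ne_zero
      · simp [F, hx]
  refine ⟨Finset.univ.image F, by rw [Finset.card_image_of_injective _ hinj, Finset.card_univ, hcard],
    fun ξ hξ => ?_, fun ξ hξ x y hx hy hxy => ?_, fun x y hx hy => ?_⟩
  · obtain ⟨χ, -, rfl⟩ := Finset.mem_image.1 hξ
    exact hch χ
  · obtain ⟨χ, -, rfl⟩ := Finset.mem_image.1 hξ
    rw [hF _ _ hx, hF _ _ hy, ch_red_eq.2 hxy]
  · rw [Finset.sum_image fun a _ b _ e => hinj e]
    obtain ⟨u, hu'⟩ := hu y hy
    have hconj : ∀ χ : MulChar ch_R4 ℂ, conj (F χ y) = χ ((u⁻¹ : ch_R4ˣ) : ch_R4) := fun χ => by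
      have hne : F χ y ≠ 0 := fun h0 => ((hch χ).zero y).1 h0 hy
      have h1 : F χ y * conj (F χ y) = 1 := by
        rw [Complex.mul_conj, Complex.normSq_eq_norm_sq, (hch χ).norm_eq hne]; simp
      have h2 : F χ y * χ ((u⁻¹ : ch_R4ˣ) : ch_R4) = 1 := by
        rw [hF _ _ hy, ← hu', ← map_mul, Units.mul_inv, map_one]
      exact mul_left_cancel₀ hne (h1.trans h2.symm)
    simp only [hconj, hF _ _ hx, ← map_mul]
    have hiff : ch_red x * ((u⁻¹ : ch_R4ˣ) : ch_R4) = 1 ↔ (4 : O) ∣ x - y := by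
      rw [← ch_red_eq, ← hu', Units.mul_inv_eq_one]
    split_ifs with hxy
    · rw [hiff.2 hxy]
      simp [hcard]
    · obtain ⟨χ, hχ⟩ := MulChar.exists_apply_ne_one_of_hasEnoughRootsOfUnity ch_R4 ℂ
        (fun e => hxy (hiff.1 e))
      refine eq_zero_of_mul_eq_self_left hχ ?_
      simp only [Finset.mul_sum, ← MulChar.mul_apply]
      exact Fintype.sum_bijective _ (Group.mulLeft_bijective χ) _ _ fun χ' ↦ rfl

end Crest.Agent.R017

end
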