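import Mathlib

/-! # Row 17: contour shift and elementary Gaussian bounds (Mathlib only) -/

set_option autoImplicit false

noncomputable section

open scoped BigOperators ComplexConjugate Topology
open Complex MeasureTheory Filter

namespace Crest.Agent.R017

/-- A Gaussian bound away from the real axis extends to the whole strip. -/
theorem pe_strip_bound {F : ℂ → ℂ} {a b c K : ℝ} (hc : 0 < c)
    (hF : ContinuousOn F {s | a ≤ s.re ∧ s.re ≤ b})
    (hb : ∀ s : ℂ, a ≤ s.re → s.re ≤ b → 1 ≤ |s.im| → ‖F s‖ ≤ K * Real.exp (-c * s.im ^ 2)) :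
    ∃ K' : ℝ, 0 ≤ K' ∧ ∀ s : ℂ, a ≤ s.re → s.re ≤ b → ‖F s‖ ≤ K' * Real.exp (-c * s.im ^ 2) := by
  have hcomp : IsCompact (Set.Icc a b ×ℂ Set.Icc (-1 : ℝ) 1) := isCompact_Icc.reProdIm isCompact_Icc
  obtain ⟨M, hM⟩ := hcomp.exists_bound_of_continuousOn
    (hF.mono (fun s hs => ⟨hs.1.1, hs.1.2⟩))
  refine ⟨max (max K 0) (max M 0 * Real.exp c), le_max_of_le_left (le_max_right _ _),
    fun s h1 h2 => ?_⟩
  by_cases h : 1 ≤ |s.im|
  · exact (hb s h1 h2 h).trans (mul_le_mul_of_nonneg_right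
      (le_max_of_le_left (le_max_left _ _)) (Real.exp_pos _).le)
  · push Not at h
    have h3 := abs_lt.1 h
    have h4 : ‖F s‖ ≤ M := hM s ⟨⟨h1, h2⟩, ⟨h3.1.le, h3.2.le⟩⟩
    have h5 : s.im ^ 2 ≤ 1 := by nlinarith
    have h6 : 1 ≤ Real.exp c * Real.exp (-c * s.im ^ 2) := by
      rw [← Real.exp_add]; exact Real.one_le_exp (by nlinarith)
    calc ‖F s‖ ≤ max M 0 * 1 := by rw [mul_one]; exact h4.trans (le_max_left _ _)
      _ ≤ max M 0 * (Real.exp c * Real.exp (-c * s.im ^ 2)) :=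
          mul_le_mul_of_nonneg_left h6 (le_max_right _ _)
      _ = (max M 0 * Real.exp c) * Real.exp (-c * s.im ^ 2) := by ring
      _ ≤ _ := mul_le_mul_of_nonneg_right (le_max_right _ _) (Real.exp_pos _).le

theorem pe_line_integrable {F : ℂ → ℂ} {a b c K σ : ℝ} (hc : 0 < c)
    (hF : ContinuousOn F {s | a ≤ s.re ∧ s.re ≤ b})
    (hb : ∀ s : ℂ, a ≤ s.re → s.re ≤ b → ‖F s‖ ≤ K * Real.exp (-c * s.im ^ 2))
    (h1 : a ≤ σ) (h2 : σ ≤ b) : Integrable (fun t : ℝ => F (σ + t * I)) := by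
  have hcont : Continuous (fun t : ℝ => F (σ + t * I)) :=
    hF.comp_continuous (by fun_prop) (fun t => by simp [h1, h2])
  refine Integrable.mono' ((integrable_exp_neg_mul_sq hc).const_mul K)
    hcont.aestronglyMeasurable (Eventually.of_forall fun t => ?_)
  simpa using hb (σ + t * I) (by simpa using h1) (by simpa using h2)

/-- Shifting a vertical line of integration across a strip with Gaussian decay. -/
theorem pe_shift {F : ℂ → ℂ} {a b c K : ℝ} (hab : a ≤ b) (hc : 0 < c)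
    (hF : DifferentiableOn ℂ F {s | a ≤ s.re ∧ s.re ≤ b})
    (hb : ∀ s : ℂ, a ≤ s.re → s.re ≤ b → 1 ≤ |s.im| → ‖F s‖ ≤ K * Real.exp (-c * s.im ^ 2)) :
    ∫ t : ℝ, F (a + t * I) = ∫ t : ℝ, F (b + t * I) := by
  obtain ⟨K', hK', hb'⟩ := pe_strip_bound hc hF.continuousOn hb
  have ia := pe_line_integrable hc hF.continuousOn hb' le_rfl hab
  have ib := pe_line_integrable hc hF.continuousOn hb' hab le_rfl
  have ta := intervalIntegral_tendsto_integral ia tendsto_neg_atTop_atBot tendsto_id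
  have tb := intervalIntegral_tendsto_integral ib tendsto_neg_atTop_atBot tendsto_id
  have hg : Tendsto (fun R : ℝ => K' * Real.exp (-c * R ^ 2) * |b - a|) atTop (𝓝 0) := by
    have h1 : Tendsto (fun R : ℝ => -c * R ^ 2) atTop atBot :=
      Tendsto.const_mul_atTop_of_neg (by linarith) (tendsto_pow_atTop (by norm_num))
    have := ((Real.tendsto_exp_atBot.comp h1).const_mul K').mul_const |b - a|
    simpa using this
  have hh : ∀ e : ℝ, e ^ 2 = 1 →
      Tendsto (fun R : ℝ => ∫ x in a..b, F (x + ((e * R : ℝ) : ℂ) * I)) atTop (𝓝 0) := by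
    intro e he
    refine squeeze_zero_norm (fun R => ?_) hg
    refine intervalIntegral.norm_integral_le_of_norm_le_const (fun x hx => ?_)
    rw [Set.uIoc_of_le hab] at hx
    have := hb' (x + ((e * R : ℝ) : ℂ) * I) (by simpa using hx.1.le) (by simpa using hx.2)
    have e1 : ((x : ℂ) + ((e * R : ℝ) : ℂ) * I).im ^ 2 = R ^ 2 := by
      simp only [add_im, ofReal_im, mul_im, ofReal_re, I_im, I_re]
      linear_combination R ^ 2 * he
    rwa [e1] at this
  have key : ∀ R : ℝ, (∫ x in a..b, F (x + ((-1 * R : ℝ) : ℂ) * I)) -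
      (∫ x in a..b, F (x + ((1 * R : ℝ) : ℂ) * I)) + I • (∫ y in (-R)..R, F (b + y * I)) -
      I • (∫ y in (-R)..R, F (a + y * I)) = 0 := by
    intro R
    have := integral_boundary_rect_eq_zero_of_differentiableOn F ⟨a, -R⟩ ⟨b, R⟩
      (hF.mono (fun s hs => by
        have := hs.1
        simp only [Set.mem_preimage, Set.uIcc_of_le hab] at this
        exact this))
    simpa using this
  have lim := (((hh (-1) (by norm_num)).sub (hh 1 (by norm_num))).add (tb.const_smul I)).sub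
    (ta.const_smul I)
  have lim2 : Tendsto (fun _ : ℝ => (0 : ℂ)) atTop
      (𝓝 (0 - 0 + I • (∫ t : ℝ, F (b + t * I)) - I • ∫ t : ℝ, F (a + t * I))) :=
    lim.congr (fun R => key R)
  have h0 := tendsto_nhds_unique lim2 tendsto_const_nhds
  simp only [sub_self, zero_add, smul_eq_mul, ← mul_sub, mul_eq_zero, I_ne_zero, false_or,
    sub_eq_zero] at h0
  exact h0.symm

theorem pe_poly_gauss {c A : ℝ} (hc : 0 < c) (hA : 0 ≤ A) (t : ℝ) :
    (1 + |t|) ^ A * Real.exp (-c * t ^ 2) ≤ Real.exp (A ^ 2 / (4 * c)) := by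
  have h1 : (1 + |t|) ^ A ≤ Real.exp (A * |t|) := by
    rw [mul_comm, Real.exp_mul]
    exact Real.rpow_le_rpow (by positivity) (by linarith [Real.add_one_le_exp |t|]) hA
  refine (mul_le_mul_of_nonneg_right h1 (Real.exp_pos _).le).trans ?_
  rw [← Real.exp_add, Real.exp_le_exp, le_div_iff₀ (by positivity), ← sq_abs t]
  nlinarith [sq_nonneg (2 * c * |t| - A)]

theorem pe_rpow_gauss {c A x t : ℝ} (hc : 0 < c) (hA : 0 ≤ A) (hx : 1 ≤ x) (ht : Real.log x ≤ |t|) :
    x ^ A * Real.exp (-c * t ^ 2) ≤ Real.exp (A ^ 2 / (4 * c)) := by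
  rw [Real.rpow_def_of_pos (by linarith), ← Real.exp_add, Real.exp_le_exp,
    le_div_iff₀ (by positivity), ← sq_abs t]
  have := mul_le_mul_of_nonneg_right ht hA
  nlinarith [sq_nonneg (2 * c * |t| - A)]

theorem pe_mellin_eq (f : ℝ → ℂ) (s : ℂ) :
    mellin f (-s) = ∫ u : ℝ, f (Real.exp u) * Complex.exp (-(s * u)) := by
  have h1 : Set.Ioi (0 : ℝ) = Real.exp '' Set.univ := by
    rw [Set.image_univ, Real.range_exp]
  rw [mellin, h1, integral_image_eq_integral_abs_deriv_smul MeasurableSet.univ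
    (fun x _ => (Real.hasDerivAt_exp x).hasDerivWithinAt) Real.exp_injective.injOn,
    Measure.restrict_univ]
  refine integral_congr_ae (Eventually.of_forall fun u => ?_)
  have h2 : ((Real.exp u : ℝ) : ℂ) ^ (-s - 1) = Complex.exp (-(s * u)) * Complex.exp (-u) := by
    rw [Complex.cpow_def_of_ne_zero (by exact_mod_cast (Real.exp_pos u).ne'),
      ← Complex.ofReal_log (Real.exp_pos u).le, Real.log_exp, ← Complex.exp_add]
    congr 1; ring
  have h3 : Complex.exp (u : ℂ) * Complex.exp (-u) = 1 := by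
    rw [← Complex.exp_add]; simp
  simp only [h2]
  simp only [abs_of_pos (Real.exp_pos u), smul_eq_mul, real_smul, ofReal_exp]
  linear_combination (f (Real.exp u) * Complex.exp (-(s * u))) * h3

end Crest.Agent.R017

end
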