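import Crest.Agent.R017.Pointwise2
import Crest.Agent.R017.PointwiseAux

/-! # Row 17: pointwise bounds from zero-free regions -/

set_option autoImplicit false

noncomputable section

open scoped BigOperators ComplexConjugate
open Complex MeasureTheory

namespace Crest.Agent.R017

theorem pe_Wh_diff (a : ℝ) : Differentiable ℂ (Wh a) := by
  unfold Wh; fun_prop

theorem pe_one_le_c0 : 1 ≤ c0 := by
  unfold c0
  have h1 : Real.sqrt 3 ≤ 2 := Real.sqrt_le_iff.2 ⟨by norm_num, by norm_num⟩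
  rw [le_div_iff₀ (by positivity)]
  linarith [Real.pi_gt_three]

theorem pe_euler_le {p : O} (hp : Prime p) {z s : ℂ} (hz : ‖z‖ ≤ 1) {δ : ℝ} (hδ : 0 ≤ δ)
    (hs : -δ ≤ s.re) : ‖1 - z * (Nr p : ℂ) ^ (-s)‖ ≤ 2 * Nr p ^ δ := by
  have h3 := three_le_Nr_prime hp
  have h1 : ‖z * (Nr p : ℂ) ^ (-s)‖ ≤ Nr p ^ δ := by
    rw [norm_mul, Complex.norm_cpow_eq_rpow_re_of_pos (by linarith)]
    refine (mul_le_of_le_one_left (Real.rpow_nonneg (by linarith) _) hz).trans ?_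
    exact Real.rpow_le_rpow_of_exponent_le (by linarith) (by simp; linarith)
  have h2 : 1 ≤ Nr p ^ δ := Real.one_le_rpow (by linarith) hδ
  have := norm_sub_le (1 : ℂ) (z * (Nr p : ℂ) ^ (-s))
  rw [norm_one] at this
  linarith

theorem pe_euler_ge {p : O} (hp : Prime p) {z s : ℂ} (hz : ‖z‖ ≤ 1)
    (hs : 1 / 2 ≤ s.re) : 1 / 3 ≤ ‖1 - z * (Nr p : ℂ) ^ (-s)‖ := by
  have h3 := three_le_Nr_prime hp
  have h1 : ‖z * (Nr p : ℂ) ^ (-s)‖ ≤ 2 / 3 := by
    rw [norm_mul, Complex.norm_cpow_eq_rpow_re_of_pos (by linarith)]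
    refine (mul_le_of_le_one_left (Real.rpow_nonneg (by linarith) _) hz).trans ?_
    have h4 : Nr p ^ (-s).re ≤ Nr p ^ (-(1 / 2 : ℝ)) :=
      Real.rpow_le_rpow_of_exponent_le (by linarith) (by simp only [neg_re]; linarith)
    refine h4.trans ?_
    rw [Real.rpow_neg (by linarith), ← Real.sqrt_eq_rpow]
    have h5 : 3 / 2 ≤ Real.sqrt (Nr p) := Real.le_sqrt_of_sq_le (by linarith)
    rw [inv_le_comm₀ (by linarith) (by norm_num)]
    linarith
  have := norm_sub_norm_le (1 : ℂ) (z * (Nr p : ℂ) ^ (-s))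
  rw [norm_one] at this
  linarith

/-- The bound for `L` on the reflected line. -/
theorem pe_line {δ : ℝ} (hδ : 0 < δ) (hδ1 : δ ≤ 1 / 2) : ∃ C : ℝ, 0 ≤ C ∧
    ∀ (x : ℝ) (q : O) (η : O → ℂ) (σ T t : ℝ),
    1 ≤ x → IsCh q η → ¬ Princ η → Nr q ≤ x → 1 / 2 ≤ σ → σ ≤ 1 → ZFl η σ T →
    |t| + 3 ≤ T → |t| ≤ x →
      ‖Lf η (((1 - σ - δ : ℝ) : ℂ) + t * I)‖ ≤
        C * x ^ (4 * δ) * Nr q ^ (σ - 1 / 2) * (1 + |t|) ^ C := by
  obtain ⟨CL, hCL, hL⟩ := Lf_bounds hδ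
  obtain ⟨CG, hG⟩ := norm_Gamma_ratio_le 1 2 one_pos
  have hCG : 0 ≤ CG := by
    have := (norm_nonneg _).trans (hG 1 2 0 le_rfl (by norm_num) (by norm_num) le_rfl)
    simpa using this
  obtain ⟨C6, h6⟩ := pow_card_pf_le hδ (A := 6) (by norm_num)
  have hC6 : 0 ≤ C6 := by
    have := h6 1 one_ne_zero
    rw [Nr_one, Real.one_rpow, mul_one] at this
    exact le_trans (by positivity) this
  refine ⟨max (2 * CG * CL * C6) (CG + 1), le_max_of_le_right (by linarith),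
    fun x q η σ T t hx h hη hq hσ hσ1 hZ ht htx => ?_⟩
  obtain ⟨f, S, η₁, w, G, hf, hw, hS, hdvd, -, hη₁, -, -, -, -, -, hLo, hFE, -⟩ := h.exists_FE
  set s : ℂ := ((1 - σ - δ : ℝ) : ℂ) + t * I with hs
  set s' : ℂ := ((σ + δ : ℝ) : ℂ) + t * I with hs'
  have hss : conj (1 - s) = s' := by
    apply Complex.ext <;> simp [hs, hs']
    ring
  have hprime : ∀ p ∈ S, Prime p := fun p hp => (a1_of_mem_pf (hS hp)).1.1
  have hq0 := h.ne
  have hq1 := one_le_Nr hq0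
  have hxδ : Nr q ^ δ ≤ x ^ δ := Real.rpow_le_rpow (by linarith) hq hδ.le
  have hx0 : 0 ≤ x ^ δ := Real.rpow_nonneg (by linarith) _
  -- the Euler factors on the reflected line
  have hP : ‖∏ p ∈ S, (1 - η₁ p * (Nr p : ℂ) ^ (-s))‖ ≤ 2 ^ S.card * x ^ δ := by
    rw [norm_prod]
    calc ∏ p ∈ S, ‖1 - η₁ p * (Nr p : ℂ) ^ (-s)‖ ≤ ∏ p ∈ S, 2 * Nr p ^ δ :=
          Finset.prod_le_prod (fun _ _ => norm_nonneg _)
            (fun p hp => pe_euler_le (hprime p hp) (hη₁ p) hδ.le (by simp [hs]; linarith))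
      _ = 2 ^ S.card * Nr (∏ p ∈ S, p) ^ δ := by
          rw [Finset.prod_mul_distrib, Finset.prod_const, Nr_prod,
            Real.finsetProd_rpow _ _ (fun p _ => Nr_nonneg p)]
      _ ≤ 2 ^ S.card * x ^ δ := by
          refine mul_le_mul_of_nonneg_left (Real.rpow_le_rpow (Nr_nonneg _) ?_ hδ.le) (by positivity)
          exact (Nr_le_of_dvd hq0 (dvd_of_mul_left_dvd hdvd)).trans hq
  -- the Euler factors on the right line
  have hP' : (1 / 3 : ℝ) ^ S.card ≤ ‖∏ p ∈ S, (1 - η₁ p * (Nr p : ℂ) ^ (-s'))‖ := by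
    rw [norm_prod, ← Finset.prod_const]
    exact Finset.prod_le_prod (fun _ _ => by norm_num)
      (fun p hp => pe_euler_ge (hprime p hp) (hη₁ p) (by simp [hs']; linarith))
  have hLs' : ‖Lf η s'‖ ≤ CL * x ^ δ :=
    (hL x q η σ T hx h hη hq hσ hσ1 hZ s' (by simp [hs']) (by simp [hs']; linarith)
      (by simpa [hs'] using ht) (by simpa [hs'] using htx)).1
  have hs'1 : ‖s' - 1‖ ≤ 1 + |t| := by
    refine (Complex.norm_le_abs_re_add_abs_im _).trans ?_
    have e1 : (s' - 1).re = σ + δ - 1 := by simp [hs']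
    have e2 : (s' - 1).im = t := by simp [hs']
    rw [e1, e2]
    have : |σ + δ - 1| ≤ 1 := abs_le.2 ⟨by linarith, by linarith⟩
    linarith
  have hGs' : ‖G s'‖ ≤ 3 ^ S.card * ((1 + |t|) * (CL * x ^ δ)) := by
    have e1 : ‖G s'‖ * ‖∏ p ∈ S, (1 - η₁ p * (Nr p : ℂ) ^ (-s'))‖ = ‖s' - 1‖ * ‖Lf η s'‖ := by
      rw [← norm_mul, ← hLo, h.Lo_eq (Or.inr hη), norm_mul]
    have e2 : ‖G s'‖ * (1 / 3 : ℝ) ^ S.card ≤ (1 + |t|) * (CL * x ^ δ) :=
      (mul_le_mul_of_nonneg_left hP' (norm_nonneg _)).trans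
        (e1 ▸ mul_le_mul hs'1 hLs' (norm_nonneg _) (by positivity))
    have e3 : (3 : ℝ) ^ S.card * (1 / 3 : ℝ) ^ S.card = 1 := by rw [← mul_pow]; norm_num
    calc ‖G s'‖ = 3 ^ S.card * (‖G s'‖ * (1 / 3 : ℝ) ^ S.card) := by
          rw [mul_left_comm, e3, mul_one]
      _ ≤ _ := mul_le_mul_of_nonneg_left e2 (by positivity)
  have hf1 := one_le_Nr hf
  have hfq : Nr f ≤ Nr q := Nr_le_of_dvd hq0 (dvd_of_mul_right_dvd hdvd)
  have hF : ‖(Nr f : ℂ) ^ (1 / 2 - s)‖ ≤ Nr q ^ (σ - 1 / 2) * x ^ δ := by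
    rw [Complex.norm_cpow_eq_rpow_re_of_pos (by linarith)]
    have e1 : (1 / 2 - s).re = (σ - 1 / 2) + δ := by simp [hs]; ring
    rw [e1, Real.rpow_add (by linarith)]
    exact mul_le_mul (Real.rpow_le_rpow (by linarith) hfq (by linarith))
      ((Real.rpow_le_rpow (by linarith) hfq hδ.le).trans hxδ) (Real.rpow_nonneg (by linarith) _)
      (Real.rpow_nonneg (by linarith) _)
  have hc : ‖(c0 : ℂ) ^ (2 * s - 1)‖ ≤ 1 := by
    rw [Complex.norm_cpow_eq_rpow_re_of_pos c0_pos]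
    exact Real.rpow_le_one_of_one_le_of_nonpos pe_one_le_c0 (by simp [hs]; linarith)
  have hΓ : ‖Complex.Gamma (2 - s) * (Complex.Gamma (1 + s))⁻¹‖ ≤ CG * (1 + |t|) ^ CG := by
    have e1 : 2 - s = ((1 + σ + δ : ℝ) : ℂ) - t * I := by simp only [hs]; push_cast; ring
    have e2 : 1 + s = ((2 - σ - δ : ℝ) : ℂ) + t * I := by simp only [hs]; push_cast; ring
    rw [e1, e2]
    exact hG _ _ t (by linarith) (by linarith) (by linarith) (by linarith)
  have hqσ : 0 ≤ Nr q ^ (σ - 1 / 2) := Real.rpow_nonneg (by linarith) _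
  have hGs : ‖G s‖ ≤ (Nr q ^ (σ - 1 / 2) * x ^ δ) * (CG * (1 + |t|) ^ CG) *
      (3 ^ S.card * ((1 + |t|) * (CL * x ^ δ))) := by
    rw [hFE s (by simp [hs]; linarith), hss]
    have e1 : w * (Nr f : ℂ) ^ (1 / 2 - s) * (c0 : ℂ) ^ (2 * s - 1) * Complex.Gamma (2 - s) *
        (Complex.Gamma (1 + s))⁻¹ * conj (G s') = (w * (c0 : ℂ) ^ (2 * s - 1)) *
          ((Nr f : ℂ) ^ (1 / 2 - s) * (Complex.Gamma (2 - s) * (Complex.Gamma (1 + s))⁻¹) *
            conj (G s')) := by ring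
    rw [e1, norm_mul, norm_mul w, hw, one_mul]
    refine (mul_le_of_le_one_left (norm_nonneg _) hc).trans ?_
    rw [norm_mul, norm_mul, Complex.norm_conj]
    exact mul_le_mul (mul_le_mul hF hΓ (norm_nonneg _) (by positivity)) hGs' (norm_nonneg _)
      (by positivity)
  have hs1 : 1 / 2 ≤ ‖s - 1‖ := by
    refine le_trans ?_ (Complex.abs_re_le_norm _)
    have e1 : (s - 1).re = -(σ + δ) := by simp [hs]; ring
    rw [e1, abs_neg]
    exact le_trans (by linarith) (le_abs_self _)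
  have h6' : (2 : ℝ) ^ S.card * 3 ^ S.card ≤ C6 * x ^ δ := by
    rw [← mul_pow]
    refine le_trans ?_ ((h6 q hq0).trans (mul_le_mul_of_nonneg_left hxδ hC6))
    norm_num
    exact pow_le_pow_right₀ (by norm_num) (Finset.card_le_card hS)
  have hmain : ‖Lf η s‖ ≤ 2 * (‖G s‖ * ‖∏ p ∈ S, (1 - η₁ p * (Nr p : ℂ) ^ (-s))‖) := by
    rw [← norm_mul, ← hLo, h.Lo_eq (Or.inr hη), norm_mul]
    nlinarith [norm_nonneg (Lf η s)]
  have ht1 : 1 ≤ 1 + |t| := by linarith [abs_nonneg t]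
  have e4 : x ^ (4 * δ) = x ^ δ * x ^ δ * x ^ δ * x ^ δ := by
    rw [← Real.rpow_add (by linarith), ← Real.rpow_add (by linarith),
      ← Real.rpow_add (by linarith)]
    congr 1; ring
  have e5 : (1 + |t|) ^ CG * (1 + |t|) ≤ (1 + |t|) ^ (max (2 * CG * CL * C6) (CG + 1)) := by
    rw [← Real.rpow_add_one (by linarith)]
    exact Real.rpow_le_rpow_of_exponent_le ht1 (le_max_right _ _)
  calc ‖Lf η s‖ ≤ 2 * (((Nr q ^ (σ - 1 / 2) * x ^ δ) * (CG * (1 + |t|) ^ CG) *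
        (3 ^ S.card * ((1 + |t|) * (CL * x ^ δ)))) * (2 ^ S.card * x ^ δ)) :=
        hmain.trans (mul_le_mul_of_nonneg_left
          (mul_le_mul hGs hP (norm_nonneg _) (by positivity)) (by norm_num))
    _ = (2 * CG * CL) * (2 ^ S.card * 3 ^ S.card) * (x ^ δ * x ^ δ * x ^ δ) * Nr q ^ (σ - 1 / 2) *
          ((1 + |t|) ^ CG * (1 + |t|)) := by ring
    _ ≤ (2 * CG * CL) * (C6 * x ^ δ) * (x ^ δ * x ^ δ * x ^ δ) * Nr q ^ (σ - 1 / 2) *
          ((1 + |t|) ^ (max (2 * CG * CL * C6) (CG + 1))) := by gcongr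
    _ = (2 * CG * CL * C6) * x ^ (4 * δ) * Nr q ^ (σ - 1 / 2) *
          ((1 + |t|) ^ (max (2 * CG * CL * C6) (CG + 1))) := by rw [e4]; ring
    _ ≤ _ := by gcongr; exact le_max_left _ _

/-- Polynomial growth of `L` away from `s = 1`. -/
theorem pe_Lf_growth : ∃ C : ℝ, 0 ≤ C ∧ ∀ (q : O) (η : O → ℂ), IsCh q η → ¬ Princ η →
    ∀ s : ℂ, -1 ≤ s.re → s.re ≤ 3 → 1 ≤ |s.im| → ‖Lf η s‖ ≤ C * (Nr q ^ C * (1 + |s.im|) ^ C) := by
  obtain ⟨C, hC, hg⟩ := Lo_growth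
  refine ⟨C, hC, fun q η h hη s h1 h2 h3 => ?_⟩
  have h4 := hg q η h s h1 h2
  rw [h.Lo_eq (Or.inr hη), norm_mul, Real.mul_rpow (Nr_nonneg q) (by positivity)] at h4
  have h5 : 1 ≤ ‖s - 1‖ := by
    refine le_trans ?_ (Complex.abs_im_le_norm _)
    simpa using h3
  nlinarith [norm_nonneg (Lf η s)]

/-- The Gaussian-weighted bound on the whole reflected line. -/
theorem pe_line_gauss {a δ : ℝ} (ha : 0 < a) (hδ : 0 < δ) (hδ1 : δ ≤ 1 / 2) : ∃ C : ℝ, 0 ≤ C ∧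
    ∀ (x : ℝ) (q : O) (η : O → ℂ) (σ T t : ℝ),
    1 ≤ x → IsCh q η → ¬ Princ η → Nr q ≤ x → 1 / 2 ≤ σ → σ ≤ 1 → ZFl η σ T →
    Real.log x + 4 ≤ T →
      ‖Lf η (((1 - σ - δ : ℝ) : ℂ) + t * I)‖ * Real.exp (-(a / 2) * t ^ 2) ≤
        C * x ^ (4 * δ) * Nr q ^ (σ - 1 / 2) := by
  obtain ⟨C1, hC1, h1⟩ := pe_line hδ hδ1
  obtain ⟨C2, hC2, h2⟩ := pe_Lf_growth
  set K1 := Real.exp (C1 ^ 2 / (4 * (a / 2))) with hK1
  set K2 := Real.exp (C2 ^ 2 / (4 * (a / 4))) with hK2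
  refine ⟨max (C1 * K1) (C2 * (K2 * K2)), le_max_of_le_left (by positivity),
    fun x q η σ T t hx h hη hq hσ hσ1 hZ hT => ?_⟩
  have hq1 := one_le_Nr h.ne
  have hx1 : 1 ≤ x ^ (4 * δ) := Real.one_le_rpow hx (by linarith)
  have hq2 : 1 ≤ Nr q ^ (σ - 1 / 2) := Real.one_le_rpow hq1 (by linarith)
  have hlog : 0 ≤ Real.log x := Real.log_nonneg hx
  by_cases ht : |t| ≤ Real.log x + 1
  · have h3 := h1 x q η σ T t hx h hη hq hσ hσ1 hZ (by linarith)
      (by linarith [Real.log_le_sub_one_of_pos (by linarith : 0 < x)])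
    have h4 := pe_poly_gauss (c := a / 2) (by positivity) hC1 t
    calc _ ≤ C1 * x ^ (4 * δ) * Nr q ^ (σ - 1 / 2) * (1 + |t|) ^ C1 *
          Real.exp (-(a / 2) * t ^ 2) := mul_le_mul_of_nonneg_right h3 (Real.exp_pos _).le
      _ = C1 * ((1 + |t|) ^ C1 * Real.exp (-(a / 2) * t ^ 2)) * x ^ (4 * δ) *
          Nr q ^ (σ - 1 / 2) := by ring
      _ ≤ C1 * K1 * x ^ (4 * δ) * Nr q ^ (σ - 1 / 2) := by gcongr
      _ ≤ _ := by gcongr; exact le_max_left _ _
  · push Not at ht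
    have h3 := h2 q η h hη (((1 - σ - δ : ℝ) : ℂ) + t * I) (by simp; linarith) (by simp; linarith)
      (by simp; linarith)
    have e0 : (((1 - σ - δ : ℝ) : ℂ) + t * I).im = t := by simp
    rw [e0] at h3
    have h4 := pe_poly_gauss (c := a / 4) (by positivity) hC2 t
    have h5 := pe_rpow_gauss (c := a / 4) (t := t) (by positivity) hC2 hx (by linarith)
    have h6 : Nr q ^ C2 ≤ x ^ C2 := Real.rpow_le_rpow (by linarith) hq hC2
    have e1 : Real.exp (-(a / 2) * t ^ 2) =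
        Real.exp (-(a / 4) * t ^ 2) * Real.exp (-(a / 4) * t ^ 2) := by
      rw [← Real.exp_add]; congr 1; ring
    calc _ ≤ C2 * (x ^ C2 * (1 + |t|) ^ C2) * Real.exp (-(a / 2) * t ^ 2) := by
          refine mul_le_mul_of_nonneg_right (h3.trans ?_) (Real.exp_pos _).le
          gcongr
      _ = C2 * ((x ^ C2 * Real.exp (-(a / 4) * t ^ 2)) *
          ((1 + |t|) ^ C2 * Real.exp (-(a / 4) * t ^ 2))) * 1 * 1 := by rw [e1]; ring
      _ ≤ C2 * (K2 * K2) * x ^ (4 * δ) * Nr q ^ (σ - 1 / 2) := by gcongr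
      _ ≤ _ := by gcongr; exact le_max_right _ _

/-- The smooth sum as an integral on any line in the strip. -/
theorem pe_sm_shift {a X b : ℝ} (ha : 0 < a) (hX : 1 ≤ X) {q : O} {η : O → ℂ} (h : IsCh q η)
    (hη : ¬ Princ η) (hb : -1 ≤ b) (hb2 : b ≤ 2) :
    sm a η X 0 = (1 / (2 * Real.pi) : ℂ) *
      ∫ t : ℝ, Lf η (b + t * I) * Wh a (b + t * I) * (X : ℂ) ^ ((b : ℂ) + t * I) := by
  obtain ⟨C, hC, hg⟩ := pe_Lf_growth
  have hX0 : 0 < X := by linarith
  rw [sm_eq_integral ha hX0 (K := 1) (A := 0) (σ := 2) (fun n _ => by simpa using h.norm_le n)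
    (by norm_num) 0]
  congr 1
  have key := pe_shift (F := fun s => Lf η s * Wh a s * (X : ℂ) ^ s) (a := b) (b := 2)
    (c := a / 2) (K := C * Nr q ^ C * Real.exp (C ^ 2 / (4 * (a / 2))) *
      (Real.sqrt (4 * Real.pi * a) * Real.exp (4 * a)) * X ^ (2 : ℝ)) hb2 (by positivity)
    (fun s _ => (((h.Lf_differentiableAt (Or.inr hη)).mul (pe_Wh_diff a s)).mul
      (differentiableAt_id.const_cpow (Or.inl (by exact_mod_cast hX0.ne')))).differentiableWithinAt)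
    (fun s h1 h2 h3 => by
      have e1 := hg q η h hη s (by linarith) (by linarith) h3
      have e2 : ‖Wh a s‖ ≤ Real.sqrt (4 * Real.pi * a) * Real.exp (4 * a) *
          (Real.exp (-(a / 2) * s.im ^ 2) * Real.exp (-(a / 2) * s.im ^ 2)) := by
        have := norm_Wh ha s.re s.im
        rw [Complex.re_add_im] at this
        rw [this, mul_assoc (Real.sqrt _), ← Real.exp_add, ← Real.exp_add]
        refine mul_le_mul_of_nonneg_left (Real.exp_le_exp.2 ?_) (Real.sqrt_nonneg _)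
        have : s.re ^ 2 ≤ 4 := by nlinarith
        nlinarith
      have e3 : ‖(X : ℂ) ^ s‖ ≤ X ^ (2 : ℝ) := by
        rw [Complex.norm_cpow_eq_rpow_re_of_pos hX0]
        exact Real.rpow_le_rpow_of_exponent_le hX h2
      have e4 := pe_poly_gauss (c := a / 2) (by positivity) hC s.im
      have hq0 : 0 ≤ Nr q ^ C := Real.rpow_nonneg (Nr_nonneg q) _
      rw [norm_mul, norm_mul]
      calc _ ≤ (C * (Nr q ^ C * (1 + |s.im|) ^ C)) * (Real.sqrt (4 * Real.pi * a) * Real.exp (4 * a) *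
            (Real.exp (-(a / 2) * s.im ^ 2) * Real.exp (-(a / 2) * s.im ^ 2))) * X ^ (2 : ℝ) := by
            gcongr
        _ = C * Nr q ^ C * ((1 + |s.im|) ^ C * Real.exp (-(a / 2) * s.im ^ 2)) *
            (Real.sqrt (4 * Real.pi * a) * Real.exp (4 * a)) * X ^ (2 : ℝ) *
              Real.exp (-(a / 2) * s.im ^ 2) := by ring
        _ ≤ _ := by gcongr)
  rw [key]
  refine integral_congr_ae (Filter.Eventually.of_forall fun t => ?_)
  simp only [ofReal_zero, zero_mul, add_zero]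
  rw [h.Lf_eq (by simp)]

/-- The reflected pointwise bound. -/
theorem pw_E {a ε : ℝ} (ha : 0 < a) (hε : 0 < ε) : ∃ C : ℝ, 0 ≤ C ∧
    ∀ (x : ℝ) (q : O) (η : O → ℂ) (σ T X : ℝ),
    1 ≤ x → IsCh q η → ¬ Princ η → Nr q ≤ x → 1 / 2 ≤ σ → σ ≤ 1 → ZFl η σ T →
    0 < X → X ≤ x → Real.log x + 4 ≤ T →
      ‖sm a η X 0‖ ≤ C * x ^ ε * X ^ (1 - σ) * Nr q ^ (σ - 1 / 2) := by
  set δ := min ε 1 / 4 with hδdef
  have hδ : 0 < δ := by have := lt_min hε one_pos; positivity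
  have hδ1 : δ ≤ 1 / 4 := by have := min_le_right ε 1; linarith
  have hδε : 4 * δ ≤ ε := by have := min_le_left ε 1; linarith
  obtain ⟨C1, hC1, h1⟩ := pe_line_gauss ha hδ (by linarith)
  obtain ⟨C2, h2⟩ := norm_sm_le ha (1 / 2)
  set J := ∫ t : ℝ, Real.exp (-(a / 2) * t ^ 2) with hJ
  have hJ0 : 0 ≤ J := integral_nonneg fun t => (Real.exp_pos _).le
  set K := C1 * (Real.sqrt (4 * Real.pi * a) * Real.exp a) * J with hK
  have hK0 : 0 ≤ K := by positivity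
  refine ⟨max K C2, le_max_of_le_left hK0, fun x q η σ T X hx h hη hq hσ hσ1 hZ hX hXx hT => ?_⟩
  have hq1 := one_le_Nr h.ne
  have hx1 : 1 ≤ x ^ ε := Real.one_le_rpow hx hε.le
  have hq2 : 1 ≤ Nr q ^ (σ - 1 / 2) := Real.one_le_rpow hq1 (by linarith)
  have hm : 0 ≤ max K C2 := le_max_of_le_left hK0
  by_cases hX1 : X ≤ 1
  · have h3 := h2 η X 0 hX (fun n _ => h.norm_le n) (Or.inr hX1)
    have h4 : X ^ (1 / 2 : ℝ) ≤ X ^ (1 - σ) :=
      Real.rpow_le_rpow_of_exponent_ge hX hX1 (by linarith)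
    calc _ ≤ C2 * X ^ (1 / 2 : ℝ) := h3
      _ ≤ max K C2 * X ^ (1 / 2 : ℝ) := by gcongr; exact le_max_right _ _
      _ = max K C2 * 1 * X ^ (1 / 2 : ℝ) * 1 := by ring
      _ ≤ _ := by gcongr
  · push Not at hX1
    rw [pe_sm_shift (b := 1 - σ - δ) ha hX1.le h hη (by linarith) (by linarith), norm_mul]
    have e1 : ‖(1 / (2 * Real.pi) : ℂ)‖ ≤ 1 := by
      have := Real.pi_gt_three
      rw [norm_div, norm_one, norm_mul, Complex.norm_real, Real.norm_of_nonneg (by linarith),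
        div_le_one (by simp; linarith)]
      simp; linarith
    refine (mul_le_of_le_one_left (norm_nonneg _) e1).trans ?_
    have hb : ∀ t : ℝ, ‖Lf η (((1 - σ - δ : ℝ) : ℂ) + t * I) * Wh a (((1 - σ - δ : ℝ) : ℂ) + t * I) *
        (X : ℂ) ^ (((1 - σ - δ : ℝ) : ℂ) + t * I)‖ ≤
        (C1 * x ^ ε * Nr q ^ (σ - 1 / 2) * (Real.sqrt (4 * Real.pi * a) * Real.exp a) *
          X ^ (1 - σ)) * Real.exp (-(a / 2) * t ^ 2) := by
      intro t
      have e2 := h1 x q η σ T t hx h hη hq hσ hσ1 hZ hT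
      have e3 : ‖Wh a (((1 - σ - δ : ℝ) : ℂ) + t * I)‖ ≤ Real.sqrt (4 * Real.pi * a) * Real.exp a *
          (Real.exp (-(a / 2) * t ^ 2) * Real.exp (-(a / 2) * t ^ 2)) := by
        rw [norm_Wh ha, mul_assoc (Real.sqrt _), ← Real.exp_add, ← Real.exp_add]
        refine mul_le_mul_of_nonneg_left (Real.exp_le_exp.2 ?_) (Real.sqrt_nonneg _)
        have : (1 - σ - δ) ^ 2 ≤ 1 := by nlinarith
        nlinarith
      have e4 : ‖(X : ℂ) ^ (((1 - σ - δ : ℝ) : ℂ) + t * I)‖ ≤ X ^ (1 - σ) := by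
        rw [Complex.norm_cpow_eq_rpow_re_of_pos hX]
        exact Real.rpow_le_rpow_of_exponent_le hX1.le (by simp; linarith)
      have e5 : x ^ (4 * δ) ≤ x ^ ε := Real.rpow_le_rpow_of_exponent_le hx hδε
      rw [norm_mul, norm_mul]
      calc _ ≤ ‖Lf η (((1 - σ - δ : ℝ) : ℂ) + t * I)‖ * (Real.sqrt (4 * Real.pi * a) * Real.exp a *
            (Real.exp (-(a / 2) * t ^ 2) * Real.exp (-(a / 2) * t ^ 2))) * X ^ (1 - σ) := by gcongr
        _ = (‖Lf η (((1 - σ - δ : ℝ) : ℂ) + t * I)‖ * Real.exp (-(a / 2) * t ^ 2)) *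
            (Real.sqrt (4 * Real.pi * a) * Real.exp a) * X ^ (1 - σ) *
              Real.exp (-(a / 2) * t ^ 2) := by ring
        _ ≤ (C1 * x ^ (4 * δ) * Nr q ^ (σ - 1 / 2)) *
            (Real.sqrt (4 * Real.pi * a) * Real.exp a) * X ^ (1 - σ) *
              Real.exp (-(a / 2) * t ^ 2) := by gcongr
        _ ≤ _ := by gcongr
    refine (norm_integral_le_of_norm_le
      ((integrable_exp_neg_mul_sq (by positivity : 0 < a / 2)).const_mul _)
      (Filter.Eventually.of_forall hb)).trans ?_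
    rw [integral_const_mul, ← hJ]
    calc _ = K * x ^ ε * X ^ (1 - σ) * Nr q ^ (σ - 1 / 2) := by rw [hK]; ring
      _ ≤ _ := by gcongr; exact le_max_left _ _

theorem pe_Wh_ne {a : ℝ} (ha : 0 < a) (s : ℂ) : Wh a s ≠ 0 := by
  unfold Wh
  refine mul_ne_zero ?_ (Complex.exp_ne_zero _)
  have := Real.pi_pos
  exact_mod_cast (Real.sqrt_pos.2 (by positivity)).ne'

theorem pe_integral_W {a N : ℝ} (ha : 0 < a) (hN : 0 < N) (s : ℂ) :
    ∫ u : ℝ, (W a (N / Real.exp u) : ℂ) * Complex.exp (-(s * u)) = (N : ℂ) ^ (-s) * Wh a s := by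
  rw [← integral_add_right_eq_self _ (Real.log N), ← integral_W ha s, ← integral_const_mul]
  refine integral_congr_ae (Filter.Eventually.of_forall fun u => ?_)
  have h1 : N / Real.exp (u + Real.log N) = Real.exp (-u) := by
    rw [Real.exp_add, Real.exp_log hN, Real.exp_neg]; field_simp
  have h2 : (N : ℂ) ^ (-s) = Complex.exp (-(s * (Real.log N : ℝ))) := by
    rw [Complex.cpow_def_of_ne_zero (by exact_mod_cast hN.ne'), ← Complex.ofReal_log hN.le]
    congr 1; ring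
  simp only [h1, h2]
  rw [mul_left_comm, ← Complex.exp_add]
  congr 2; push_cast; ring

theorem pe_integrable_W {a N : ℝ} (ha : 0 < a) (hN : 0 < N) (s : ℂ) :
    Integrable (fun u : ℝ => (W a (N / Real.exp u) : ℂ) * Complex.exp (-(s * u))) := by
  refine Integrable.of_integral_ne_zero ?_
  rw [pe_integral_W ha hN]
  refine mul_ne_zero ?_ (pe_Wh_ne ha s)
  rw [Ne, Complex.cpow_eq_zero_iff]
  exact fun h => hN.ne' (by exact_mod_cast h.1)

theorem pe_integral_norm_W {a N : ℝ} (ha : 0 < a) (hN : 0 < N) (s : ℂ) :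
    ∫ u : ℝ, ‖(W a (N / Real.exp u) : ℂ) * Complex.exp (-(s * u))‖ ≤
      N ^ (-s.re) * ‖Wh a s.re‖ := by
  have h1 : ∀ u : ℝ, ((‖(W a (N / Real.exp u) : ℂ) * Complex.exp (-(s * u))‖ : ℝ) : ℂ) =
      (W a (N / Real.exp u) : ℂ) * Complex.exp (-((s.re : ℂ) * u)) := by
    intro u
    rw [norm_mul, Complex.norm_real, Real.norm_of_nonneg (W_pos _ _).le, Complex.norm_exp]
    push_cast
    congr 2
    simp
  have h2 : ((∫ u : ℝ, ‖(W a (N / Real.exp u) : ℂ) * Complex.exp (-(s * u))‖ : ℝ) : ℂ) =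
      (N : ℂ) ^ (-(s.re : ℂ)) * Wh a s.re := by
    rw [← pe_integral_W ha hN, ← integral_complex_ofReal]
    simp only [h1]
  refine (le_abs_self _).trans ?_
  rw [← Real.norm_eq_abs, ← Complex.norm_real, h2, norm_mul,
    Complex.norm_cpow_eq_rpow_re_of_pos hN]
  simp

theorem pe_mellin_sm {a : ℝ} (ha : 0 < a) {c : O → ℂ} (hc : ∀ n, Prim n → ‖c n‖ ≤ 1) {s : ℂ}
    (hs : 1 < s.re) : mellin (fun X => sm a c X 0) (-s) = Wh a s * Dser c s := by
  rw [pe_mellin_eq]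
  set F : O → ℝ → ℂ := fun n u =>
    if Prim n then c n * ((W a (Nr n / Real.exp u) : ℂ) * Complex.exp (-(s * u))) else 0 with hF
  have h1 : ∀ u : ℝ, sm a c (Real.exp u) 0 * Complex.exp (-(s * u)) = ∑' n, F n u := by
    intro u
    rw [sm, ← tsum_mul_right]
    refine tsum_congr fun n => ?_
    simp only [hF]
    split_ifs <;> simp [mul_assoc]
  simp only [h1]
  have hint : ∀ n, Integrable (F n) := by
    intro n
    by_cases hn : Prim n
    · simp only [hF, hn, if_true]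
      exact (pe_integrable_W ha (Nr_pos hn.ne_zero) s).const_mul _
    · simp only [hF, hn, if_false]
      exact integrable_zero _ _ _
  have hsum : Summable fun n => ∫ u, ‖F n u‖ := by
    refine Summable.of_nonneg_of_le (fun n => integral_nonneg fun u => norm_nonneg _) (fun n => ?_)
      ((summable_Nr_rpow hs).mul_right ‖Wh a s.re‖)
    by_cases hn : Prim n
    · simp only [hF, hn, if_true]
      refine le_trans ?_ (pe_integral_norm_W ha (Nr_pos hn.ne_zero) s)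
      simp only [norm_mul (c n)]
      rw [integral_const_mul]
      exact mul_le_of_le_one_left (integral_nonneg fun u => norm_nonneg _) (hc n hn)
    · simp only [hF, hn, if_false, norm_zero, integral_zero]
      exact mul_nonneg (Real.rpow_nonneg (Nr_nonneg n) _) (norm_nonneg _)
  rw [← integral_tsum_of_summable_integral_norm hint hsum, Dser, ← tsum_mul_left]
  refine tsum_congr fun n => ?_
  by_cases hn : Prim n
  · simp only [hF, hn, if_true]
    rw [integral_const_mul, pe_integral_W ha (Nr_pos hn.ne_zero)]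
    ring
  · simp [hF, hn]

theorem pe_mellin_diff {a θ K : ℝ} (ha : 0 < a) {c : O → ℂ} (hc : ∀ n, Prim n → ‖c n‖ ≤ 1)
    (hS : ∀ X : ℝ, 1 ≤ X → ‖sm a c X 0‖ ≤ K * X ^ θ) {s : ℂ} (hs : θ < s.re) :
    DifferentiableAt ℂ (fun s => mellin (fun X => sm a c X 0) (-s)) s := by
  have hcont : ContinuousOn (fun X : ℝ => sm a c X 0) (Set.Ioi 0) := by
    have h1 := continuous_sm ha (c := c) (K := 1) (A := 0) (fun n hn => by simpa using hc n hn)
    have h2 : ContinuousOn (fun X : ℝ => ((Real.log X, 0) : ℝ × ℝ)) (Set.Ioi 0) :=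
      (Real.continuousOn_log.mono (fun x hx => ne_of_gt hx)).prodMk continuousOn_const
    refine (h1.comp_continuousOn h2).congr (fun X hX => ?_)
    simp [Real.exp_log hX]
  obtain ⟨C, hC⟩ := norm_sm_le ha (s.re + 1)
  have hd : DifferentiableAt ℂ (mellin (fun X => sm a c X 0)) (-s) := by
    refine mellin_differentiableAt_of_isBigO_rpow (a := -θ) (b := -(s.re + 1))
      (hcont.locallyIntegrableOn measurableSet_Ioi) ?_ (by simp [hs]) ?_ (by simp)
    · refine Asymptotics.IsBigO.of_bound K ?_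
      filter_upwards [Filter.eventually_ge_atTop (1 : ℝ)] with X hX
      rw [neg_neg, Real.norm_of_nonneg (Real.rpow_nonneg (by linarith) _)]
      exact hS X hX
    · refine Asymptotics.IsBigO.of_bound C ?_
      filter_upwards [Ioc_mem_nhdsGT (zero_lt_one : (0 : ℝ) < 1)] with X hX
      rw [neg_neg, Real.norm_of_nonneg (Real.rpow_nonneg hX.1.le _)]
      exact hC c X 0 hX.1 hc (Or.inr hX.2)
  exact hd.comp s differentiableAt_id.neg

theorem pe_identity {a θ K : ℝ} (ha : 0 < a) {q : O} {η : O → ℂ} (h : IsCh q η)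
    (hS : ∀ X : ℝ, 1 ≤ X → ‖sm a (fun n => mu n * η n) X 0‖ ≤ K * X ^ θ)
    {L E : ℂ → ℂ} (hL : Differentiable ℂ L) (hE : Differentiable ℂ E)
    (hLE : ∀ s : ℂ, 1 < s.re → L s = E s * Dser η s) {s : ℂ} (hs : θ < s.re) :
    mellin (fun X => sm a (fun n => mu n * η n) X 0) (-s) * L s = Wh a s * E s := by
  have hc : ∀ n, Prim n → ‖mu n * η n‖ ≤ 1 := fun n _ => by
    rw [norm_mul]; exact mul_le_one₀ (norm_mu_le n) (norm_nonneg _) (h.norm_le n)
  have hU : IsOpen {s : ℂ | θ < s.re} := isOpen_lt continuous_const Complex.continuous_re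
  have h1 : AnalyticOnNhd ℂ
      (fun s => mellin (fun X => sm a (fun n => mu n * η n) X 0) (-s) * L s) {s : ℂ | θ < s.re} :=
    DifferentiableOn.analyticOnNhd (fun s hs =>
      ((pe_mellin_diff ha hc hS hs).mul (hL s)).differentiableWithinAt) hU
  have h2 : AnalyticOnNhd ℂ (fun s => Wh a s * E s) {s : ℂ | θ < s.re} :=
    DifferentiableOn.analyticOnNhd ((pe_Wh_diff a).mul hE).differentiableOn hU
  have h3 : ((max θ 1 + 1 : ℝ) : ℂ) ∈ {s : ℂ | θ < s.re} := by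
    simp only [Set.mem_ofPred_eq, ofReal_re]; linarith [le_max_left θ 1]
  have h4 : {s : ℂ | 1 < s.re} ∈ nhds ((max θ 1 + 1 : ℝ) : ℂ) :=
    (isOpen_lt continuous_const Complex.continuous_re).mem_nhds (by
      simp only [Set.mem_ofPred_eq, ofReal_re]; linarith [le_max_right θ 1])
  refine h1.eqOn_of_preconnected_of_eventuallyEq h2 (convex_halfSpace_re_gt θ).isPreconnected h3
    ?_ hs
  filter_upwards [h4] with z hz
  rw [pe_mellin_sm ha hc hz, hLE z hz]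
  linear_combination (Wh a z * E z) * h.Dser_mul_mu hz

/-- A power saving for the Möbius sum gives a zero-free half-plane. -/
theorem Lf_ne_zero_of_sm {a θ K : ℝ} (ha : 0 < a) {q : O} {η : O → ℂ} (h : IsCh q η)
    (hS : ∀ X : ℝ, 1 ≤ X → ‖sm a (fun n => mu n * η n) X 0‖ ≤ K * X ^ θ)
    {s : ℂ} (hs : θ < s.re) (hs1 : s ≠ 1 ∨ ¬ Princ η) : Lf η s ≠ 0 := by
  intro h0
  rcases hs1 with hs1 | hs1
  · have := pe_identity ha h hS (E := fun s => s - 1) h.Lo_spec.1 (by fun_prop) h.Lo_spec.2 hs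
    rw [h.Lo_eq (Or.inl hs1), h0, mul_zero, mul_zero] at this
    exact mul_ne_zero (pe_Wh_ne ha s) (sub_ne_zero.2 hs1) this.symm
  · have := pe_identity ha h hS (L := Lf η) (E := fun _ => 1)
      (fun z => h.Lf_differentiableAt (Or.inr hs1)) (by fun_prop)
      (fun z hz => by rw [one_mul, h.Lf_eq hz]) hs
    rw [h0, mul_zero, mul_one] at this
    exact pe_Wh_ne ha s this.symm

end Crest.Agent.R017

end
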