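import Crest.Agent.R017.Reflect
import Crest.Agent.R017.Pointwise

/-! # Row 17: Möbius identities for smooth sums -/

set_option autoImplicit false

noncomputable section

open scoped BigOperators ComplexConjugate
open Complex MeasureTheory

namespace Crest.Agent.R017

theorem sv_congr {a X τ : ℝ} {c c' : O → ℂ} (h : ∀ n, Prim n → c n = c' n) :
    sm a c X τ = sm a c' X τ := by
  unfold sm
  refine tsum_congr fun n => ?_
  split_ifs with hn
  · rw [h n hn]
  · rfl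

theorem sv_mul (a X τ : ℝ) (z : ℂ) (c : O → ℂ) : sm a (fun n => z * c n) X τ = z * sm a c X τ := by
  unfold sm
  rw [← tsum_mul_left]
  refine tsum_congr fun n => ?_
  split_ifs <;> ring

theorem sv_zero (a X τ : ℝ) : sm a (fun _ => 0) X τ = 0 := by simp [sm]

theorem sv_norm_cpow {n : O} (hn : n ≠ 0) (τ : ℝ) : ‖(Nr n : ℂ) ^ (-(τ * I))‖ = 1 := by
  rw [Complex.norm_cpow_eq_rpow_re_of_pos (Nr_pos hn)]
  simp

theorem sv_norm_le {F : O → ℂ} {S : ℂ} {B : ℝ} (h : HasSum F S)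
    (hB : ∀ s : Finset O, ∑ x ∈ s, ‖F x‖ ≤ B) : ‖S‖ ≤ B :=
  le_of_tendsto' (Filter.Tendsto.norm h) fun s => (norm_sum_le _ _).trans (hB s)

theorem sv_swap {a X : ℝ} (ha : 0 < a) (hX : 0 < X) {g : O → O → ℂ} {K A : ℝ}
    (hg : ∀ j n, Prim n → ‖g j n‖ ≤ K * Nr n ^ A) (hs : ∀ j n, Prim n → j ∉ pdiv n → g j n = 0)
    (τ : ℝ) :
    HasSum (fun j => sm a (g j) X τ) (sm a (fun n => ∑ j ∈ pdiv n, g j n) X τ) := by
  classical
  set F : O × O → ℂ := fun p => if Prim p.1 then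
    g p.2 p.1 * (Nr p.1 : ℂ) ^ (-(τ * I)) * (W a (Nr p.1 / X) : ℂ) else 0 with hF
  have h0 : ∀ n j, j ∉ pdiv n → F (n, j) = 0 := by
    intro n j hj
    simp only [hF]
    split_ifs with hn
    · rw [hs j n hn hj, zero_mul, zero_mul]
    · rfl
  have h1 : Summable F := by
    refine Summable.of_norm ((summable_prod_of_nonneg fun _ => norm_nonneg _).2 ⟨fun n => ?_, ?_⟩)
    · exact (hasSum_sum_of_ne_finset_zero (s := pdiv n) fun j hj => by rw [h0 n j hj, norm_zero]).summable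
    · refine Summable.of_nonneg_of_le (fun n => tsum_nonneg fun _ => norm_nonneg _) (fun n => ?_)
        ((summable_W ha hX (A + 1)).mul_left (25 * |K|))
      rw [tsum_eq_sum (s := pdiv n) fun j hj => by rw [h0 n j hj, norm_zero]]
      refine (Finset.sum_le_card_nsmul _ _ _ fun j _ => w2_term_le (a := a) (X := X) (hg j) τ n).trans ?_
      rw [nsmul_eq_mul]
      have hc : ((pdiv n).card : ℝ) ≤ 25 * Nr n :=
        le_trans (by exact_mod_cast Finset.card_le_card (Finset.filter_subset _ _))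
          (card_box_le (Nr_nonneg n))
      split_ifs with hn
      · simp
      · have := Nr_pos hn
        have := W_pos a (Nr n / X)
        rw [Real.rpow_add_one (Nr_pos hn).ne']
        calc _ ≤ 25 * Nr n * (|K| * (Nr n ^ A * W a (Nr n / X))) := by gcongr
          _ = _ := by ring
  have h2 : HasSum (fun n => if Prim n then (∑ j ∈ pdiv n, g j n) * (Nr n : ℂ) ^ (-(τ * I)) *
      (W a (Nr n / X) : ℂ) else 0) (∑' p, F p) := by
    refine h1.hasSum.prod_fiberwise fun n => ?_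
    convert hasSum_sum_of_ne_finset_zero (L := SummationFilter.unconditional O) (s := pdiv n) (h0 n)
      using 1
    simp only [hF]
    split_ifs
    · rw [Finset.sum_mul, Finset.sum_mul]
    · simp
  have h3 : HasSum (F ∘ Equiv.prodComm O O) (∑' p, F p) := (Equiv.prodComm O O).hasSum_iff.2 h1.hasSum
  rw [sm, h2.tsum_eq]
  exact h3.prod_fiberwise fun j => (summable_sm ha hX (hg j) τ).hasSum

theorem sv_bound {c : O → ℂ} {K A : ℝ} (hc : ∀ n, Prim n → ‖c n‖ ≤ K * Nr n ^ A) (P : Prop)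
    [Decidable P] (j n : O) (hn : Prim n) : ‖if P then mu j * c n else 0‖ ≤ K * Nr n ^ A := by
  have h := hc n hn
  split_ifs
  · rw [norm_mul]
    exact (mul_le_of_le_one_left (norm_nonneg _) (norm_mu_le j)).trans h
  · rw [norm_zero]
    exact (norm_nonneg _).trans h

theorem sv_flip {N : O} (hN : Prim N) (F : O → ℂ) :
    ∑ f ∈ pdiv N, F (N / f) = ∑ d ∈ pdiv N, F d := by
  have h : ∀ f ∈ pdiv N, N / f ∈ pdiv N ∧ N / (N / f) = f := by
    intro f hf
    obtain ⟨h1, m, rfl⟩ := (mem_pdiv hN.ne_zero).1 hf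
    have hm := h1.of_mul hN
    rw [mul_div_cancel_left₀ m h1.ne_zero, mul_div_cancel_right₀ f hm.ne_zero]
    exact ⟨(mem_pdiv hN.ne_zero).2 ⟨hm, dvd_mul_left _ _⟩, rfl⟩
  exact Finset.sum_nbij' (fun f => N / f) (fun f => N / f) (fun f hf => (h f hf).1)
    (fun f hf => (h f hf).1) (fun f hf => (h f hf).2) (fun f hf => (h f hf).2) (fun _ _ => rfl)

open Classical in
theorem sv_mu_sum {N k : O} (hN : Prim N) (hk : k ≠ 0) :
    ∑ f ∈ pdiv N, (if rad f ∣ k then mu (N / f) else 0) = if IsCoprime N k then mu N else 0 := by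
  obtain ⟨⟨N₁, N₂⟩, ⟨h1, h2, h3, h4, rfl⟩, -⟩ := exists_part hN hk
  simp only at h1 h2 h3 h4 hN ⊢
  have hc : ∀ f : O, f ≠ 0 → rad f ∣ k → IsCoprime f N₂ := fun f hf h =>
    ((coprime_rad_iff hf).1 (h4.of_isCoprime_of_dvd_right h)).symm
  have e1 : (pdiv (N₁ * N₂)).filter (fun f => rad f ∣ k) = pdiv N₁ := by
    ext f
    rw [Finset.mem_filter, mem_pdiv hN.ne_zero, mem_pdiv h1.ne_zero]
    constructor
    · rintro ⟨⟨f1, f2⟩, f3⟩
      exact ⟨f1, (hc f f1.ne_zero f3).dvd_of_dvd_mul_right f2⟩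
    · rintro ⟨f1, f2⟩
      exact ⟨⟨f1, f2.mul_right _⟩, (rad_dvd_rad h1.ne_zero f2).trans h3⟩
  rw [← Finset.sum_filter, e1]
  have e2 : ∑ f ∈ pdiv N₁, mu (N₁ * N₂ / f) = ∑ f ∈ pdiv N₁, mu (N₁ / f) * mu N₂ := by
    refine Finset.sum_congr rfl fun f hf => ?_
    obtain ⟨f1, m, rfl⟩ := (mem_pdiv h1.ne_zero).1 hf
    rw [mul_assoc, mul_div_cancel_left₀ _ f1.ne_zero, mul_div_cancel_left₀ _ f1.ne_zero,
      mu_mul (hc _ h1.ne_zero h3).of_mul_left_right]
  rw [e2, ← Finset.sum_mul, sv_flip h1 mu, sum_pdiv_mu h1]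
  by_cases h : N₁ = 1
  · subst h
    rw [if_pos rfl, one_mul, one_mul, if_pos h4]
  · rw [if_neg h, zero_mul, if_neg]
    intro h'
    exact h (h1.eq_one_of_isUnit (isCoprime_self.1 ((coprime_rad_iff h1.ne_zero).1
      (h'.of_mul_left_left.of_isCoprime_of_dvd_right h3))))

open Classical in
/-- Removing a coprimality condition. -/
theorem sm_coprime {a X : ℝ} (ha : 0 < a) (hX : 0 < X) {c : O → ℂ} {K A : ℝ}
    (hc : ∀ n, Prim n → ‖c n‖ ≤ K * Nr n ^ A) {k : O} (hk : k ≠ 0) (τ : ℝ) :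
    sm a (fun n => if IsCoprime n k then c n else 0) X τ =
      ∑ d ∈ pdiv k, mu d * (Nr d : ℂ) ^ (-(τ * I)) * sm a (fun n => c (d * n)) (X / Nr d) τ := by
  have h := sv_swap ha hX (g := fun d n => if Prim d ∧ d ∣ k ∧ d ∣ n then mu d * c n else 0)
    (fun j n hn => sv_bound hc _ j n hn)
    (fun j n hn hj => if_neg fun h => hj ((mem_pdiv hn.ne_zero).2 ⟨h.1, h.2.2⟩)) τ
  have h2 := hasSum_sum_of_ne_finset_zero (L := SummationFilter.unconditional O) (s := pdiv k)
    (f := fun d => sm a (fun n => if Prim d ∧ d ∣ k ∧ d ∣ n then mu d * c n else 0) X τ)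
    (fun d hd => (sv_congr fun n _ => if_neg fun h => hd ((mem_pdiv hk).2 ⟨h.1, h.2.1⟩)).trans
      (sv_zero a X τ))
  refine (Eq.trans (sv_congr fun n hn => ?_) (h.unique h2)).trans (Finset.sum_congr rfl fun d hd => ?_)
  · have e := sum_pdiv_mu_dvd hn k
    have : ∑ d ∈ pdiv n, (if Prim d ∧ d ∣ k ∧ d ∣ n then mu d * c n else 0) =
        (∑ d ∈ pdiv n, if d ∣ k then mu d else 0) * c n := by
      rw [Finset.sum_mul]
      refine Finset.sum_congr rfl fun d hd => ?_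
      obtain ⟨d1, d2⟩ := (mem_pdiv hn.ne_zero).1 hd
      by_cases h' : d ∣ k <;> simp [d1, d2, h']
    rw [this, e]
    split_ifs <;> simp
  · obtain ⟨d1, d2⟩ := (mem_pdiv hk).1 hd
    simp only [d1, d2, true_and]
    rw [sm_dvd (c := fun n => mu d * c n) d1, sv_mul a _ τ (mu d) (fun n => c (d * n))]
    ring

open Classical in
/-- Removing squarefreeness. -/
theorem sm_sqf {a X : ℝ} (ha : 0 < a) (hX : 0 < X) {c : O → ℂ} {K A : ℝ}
    (hc : ∀ n, Prim n → ‖c n‖ ≤ K * Nr n ^ A) (τ : ℝ) :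
    HasSum (fun j : O => if Prim j then
        mu j * (Nr (j ^ 2) : ℂ) ^ (-(τ * I)) * sm a (fun n => c (j ^ 2 * n)) (X / Nr (j ^ 2)) τ else 0)
      (sm a (fun n => if Squarefree n then c n else 0) X τ) := by
  have h := sv_swap ha hX (g := fun j n => if Prim j ∧ j ^ 2 ∣ n then mu j * c n else 0)
    (fun j n hn => sv_bound hc _ j n hn)
    (fun j n hn hj => if_neg fun h => hj ((mem_pdiv hn.ne_zero).2
      ⟨h.1, (dvd_pow_self j two_ne_zero).trans h.2⟩)) τ
  convert h using 1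
  · funext j
    by_cases hj : Prim j
    · simp only [hj, true_and, if_true]
      rw [sm_dvd (c := fun n => mu j * c n) (hj.pow 2), sv_mul a _ τ (mu j) (fun n => c (j ^ 2 * n))]
      ring
    · simp only [hj, false_and, if_false, sv_zero]
  · refine sv_congr fun n hn => ?_
    have e := sum_pdiv_mu_sq hn
    have : ∑ d ∈ pdiv n, (if Prim d ∧ d ^ 2 ∣ n then mu d * c n else 0) =
        (∑ d ∈ pdiv n, if d ^ 2 ∣ n then mu d else 0) * c n := by
      rw [Finset.sum_mul]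
      refine Finset.sum_congr rfl fun d hd => ?_
      obtain ⟨d1, -⟩ := (mem_pdiv hn.ne_zero).1 hd
      by_cases h' : d ^ 2 ∣ n <;> simp [d1, h']
    rw [this, e]
    split_ifs <;> simp

open Classical in
/-- Removing a coprimality condition from an inverse sum. -/
theorem sm_mu_coprime {a X : ℝ} (ha : 0 < a) (hX : 0 < X) {η : O → ℂ} (hη : ∀ n, ‖η n‖ ≤ 1)
    (hm : ∀ x y, Prim x → Prim y → η (x * y) = η x * η y) (e : O) {k : O} (hk : k ≠ 0) (τ : ℝ) :
    HasSum (fun f : O => if Prim f ∧ rad f ∣ k ∧ IsCoprime f e then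
        η f * (Nr f : ℂ) ^ (-(τ * I)) *
          sm a (fun n => if IsCoprime n e then mu n * η n else 0) (X / Nr f) τ else 0)
      (sm a (fun n => if IsCoprime n (e * k) then mu n * η n else 0) X τ) := by
  have h := sv_swap ha hX (K := 1) (A := 0)
    (g := fun f n => if (Prim f ∧ rad f ∣ k ∧ IsCoprime f e) ∧ f ∣ n then
      η f * (if IsCoprime (n / f) e then mu (n / f) * η (n / f) else 0) else 0)
    (fun j n _ => by
      rw [Real.rpow_zero, mul_one]
      split_ifs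
      · rw [norm_mul, norm_mul]
        exact mul_le_one₀ (hη _) (by positivity) (mul_le_one₀ (norm_mu_le _) (norm_nonneg _) (hη _))
      · simp
      · simp)
    (fun j n hn hj => if_neg fun h => hj ((mem_pdiv hn.ne_zero).2 ⟨h.1.1, h.2⟩)) τ
  convert h using 1
  · funext f
    by_cases hf : Prim f ∧ rad f ∣ k ∧ IsCoprime f e
    · simp only [hf, true_and, and_self, if_true]
      rw [sm_dvd (c := fun n => η f * (if IsCoprime (n / f) e then mu (n / f) * η (n / f) else 0)) hf.1]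
      simp only [mul_div_cancel_left₀ _ hf.1.ne_zero]
      rw [sv_mul a _ τ (η f) (fun n => if IsCoprime n e then mu n * η n else 0)]
      ring
    · simp only [hf, false_and, if_false, sv_zero]
  · refine sv_congr fun n hn => ?_
    have e1 := sv_mu_sum hn hk
    have : ∑ f ∈ pdiv n, (if (Prim f ∧ rad f ∣ k ∧ IsCoprime f e) ∧ f ∣ n then
        η f * (if IsCoprime (n / f) e then mu (n / f) * η (n / f) else 0) else 0) =
        (∑ f ∈ pdiv n, if rad f ∣ k then mu (n / f) else 0) * (if IsCoprime n e then η n else 0) := by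
      rw [Finset.sum_mul]
      refine Finset.sum_congr rfl fun f hf => ?_
      obtain ⟨d1, m, rfl⟩ := (mem_pdiv hn.ne_zero).1 hf
      rw [mul_div_cancel_left₀ _ d1.ne_zero, hm f m d1 (d1.of_mul hn)]
      simp only [IsCoprime.mul_left_iff, d1, true_and, dvd_mul_right, and_true]
      by_cases h1 : rad f ∣ k <;> by_cases h2 : IsCoprime f e <;> by_cases h3 : IsCoprime m e <;>
        simp [h1, h2, h3]
      ring
    rw [this, e1]
    simp only [IsCoprime.mul_right_iff]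
    by_cases h1 : IsCoprime n e <;> by_cases h2 : IsCoprime n k <;> simp [h1, h2]

open Classical in
theorem norm_sm_mu_coprime_le {a ε : ℝ} (ha : 0 < a) (hε : 0 < ε) : ∃ C : ℝ, 0 ≤ C ∧
    ∀ (η : O → ℂ) (k : O) (K Y₀ α τ : ℝ), (∀ n, ‖η n‖ ≤ 1) →
    (∀ x y, Prim x → Prim y → η (x * y) = η x * η y) → k ≠ 0 → 1 / 2 ≤ α →
    (∀ Y, 0 < Y → Y ≤ Y₀ → ‖sm a (fun n => mu n * η n) Y τ‖ ≤ K * Y ^ α) →
    ∀ Y, 0 < Y → Y ≤ Y₀ →
      ‖sm a (fun n => if IsCoprime n k then mu n * η n else 0) Y τ‖ ≤ C * Nr k ^ ε * K * Y ^ α := by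
  obtain ⟨C, hC⟩ := smooth_sum_le hε (σ := 1 / 2) (by norm_num)
  refine ⟨|C|, abs_nonneg _, fun η k K Y₀ α τ hη hm hk hα hS Y hY hY0 => ?_⟩
  have hYα : 0 < Y ^ α := Real.rpow_pos_of_pos hY α
  have hK : 0 ≤ K := nonneg_of_mul_nonneg_left ((norm_nonneg _).trans (hS Y hY hY0)) hYα
  have h := sm_mu_coprime ha hY hη hm 1 hk τ
  simp only [one_mul, isCoprime_one_right, if_true, and_true] at h
  refine sv_norm_le h fun s => ?_
  have h1 : ∀ f ∈ s, ‖(if Prim f ∧ rad f ∣ k then η f * (Nr f : ℂ) ^ (-(τ * I)) *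
      sm a (fun n => mu n * η n) (Y / Nr f) τ else 0)‖ ≤
      if Prim f ∧ rad f ∣ k then K * Y ^ α * Nr f ^ (-(1 / 2 : ℝ)) else 0 := by
    intro f _
    split_ifs with hf
    · have f0 := Nr_pos hf.1.ne_zero
      have f1 := one_le_Nr hf.1.ne_zero
      rw [norm_mul, norm_mul, sv_norm_cpow hf.1.ne_zero, mul_one]
      refine (mul_le_of_le_one_left (norm_nonneg _) (hη f)).trans
        ((hS _ (by positivity) ((div_le_self hY.le f1).trans hY0)).trans ?_)
      rw [Real.div_rpow hY.le f0.le, div_eq_mul_inv, ← Real.rpow_neg f0.le, ← mul_assoc]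
      exact mul_le_mul_of_nonneg_left (Real.rpow_le_rpow_of_exponent_le f1 (by linarith))
        (by positivity)
    · simp
  refine (Finset.sum_le_sum h1).trans ?_
  rw [← Finset.sum_filter, ← Finset.mul_sum]
  have h2 := hC k hk (s.filter fun f => Prim f ∧ rad f ∣ k) fun x hx =>
    ⟨(Finset.mem_filter.1 hx).2.1.ne_zero, (Finset.mem_filter.1 hx).2.2⟩
  have h3 : C * Nr k ^ ε ≤ |C| * Nr k ^ ε :=
    mul_le_mul_of_nonneg_right (le_abs_self C) (Real.rpow_nonneg (Nr_nonneg k) _)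
  calc _ ≤ K * Y ^ α * (|C| * Nr k ^ ε) := mul_le_mul_of_nonneg_left (h2.trans h3) (by positivity)
    _ = _ := by ring

open Classical in
theorem norm_sm_coprime_le {a ε : ℝ} (ha : 0 < a) (hε : 0 < ε) : ∃ C : ℝ, 0 ≤ C ∧
    ∀ (η : O → ℂ) (k : O) (K Y₀ α τ : ℝ), (∀ n, ‖η n‖ ≤ 1) →
    (∀ x y, Prim x → Prim y → η (x * y) = η x * η y) → k ≠ 0 → 0 ≤ α →
    (∀ Y, 0 < Y → Y ≤ Y₀ → ‖sm a η Y τ‖ ≤ K * Y ^ α) →
    ∀ Y, 0 < Y → Y ≤ Y₀ →
      ‖sm a (fun n => if IsCoprime n k then η n else 0) Y τ‖ ≤ C * Nr k ^ ε * K * Y ^ α := by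
  obtain ⟨C, hC⟩ := card_pdiv_le hε
  refine ⟨|C|, abs_nonneg _, fun η k K Y₀ α τ hη hm hk hα hS Y hY hY0 => ?_⟩
  have hYα : 0 < Y ^ α := Real.rpow_pos_of_pos hY α
  have hK : 0 ≤ K := nonneg_of_mul_nonneg_left ((norm_nonneg _).trans (hS Y hY hY0)) hYα
  rw [sm_coprime ha hY (K := 1) (A := 0) (fun n _ => by simpa using hη n) hk]
  refine (norm_sum_le _ _).trans ((Finset.sum_le_card_nsmul _ _ (K * Y ^ α) fun d hd => ?_).trans ?_)
  · obtain ⟨d1, -⟩ := (mem_pdiv hk).1 hd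
    have f0 := Nr_pos d1.ne_zero
    have f1 := one_le_Nr d1.ne_zero
    rw [sv_congr (c' := fun n => η d * η n) (fun n hn => hm d n d1 hn), sv_mul, norm_mul, norm_mul,
      norm_mul, sv_norm_cpow d1.ne_zero, mul_one]
    refine (mul_le_of_le_one_left (by positivity) (norm_mu_le d)).trans
      ((mul_le_of_le_one_left (norm_nonneg _) (hη d)).trans
        ((hS _ (by positivity) ((div_le_self hY.le f1).trans hY0)).trans ?_))
    exact mul_le_mul_of_nonneg_left (Real.rpow_le_rpow (by positivity) (div_le_self hY.le f1) hα) hK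
  · rw [nsmul_eq_mul]
    have h3 : C * Nr k ^ ε ≤ |C| * Nr k ^ ε :=
      mul_le_mul_of_nonneg_right (le_abs_self C) (Real.rpow_nonneg (Nr_nonneg k) _)
    calc _ ≤ |C| * Nr k ^ ε * (K * Y ^ α) :=
          mul_le_mul_of_nonneg_right ((hC k hk).trans h3) (by positivity)
      _ = _ := by ring

open Classical in
/-- Squarefree character sums beyond the conductor. -/
theorem norm_sm_sqf_le {a ε : ℝ} (ha : 0 < a) (hε : 0 < ε) : ∃ C : ℝ, 0 ≤ C ∧
    ∀ (q : O) (η : O → ℂ) (Y τ : ℝ), IsCh q η → ¬ Princ η → 0 < Y →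
      ‖sm a (fun n => if Squarefree n then η n else 0) Y τ‖ ≤
        C * (1 + |τ|) ^ C * Nr q ^ ε * Real.sqrt (Y * Nr q) := by
  obtain ⟨C₁, h₁⟩ := norm_sm_le ha 1
  obtain ⟨C₂, hC₂, h₂⟩ := b2_tail (σ := 2) (by norm_num)
  obtain ⟨C₃, hC₃, h₃⟩ := sm_decay ha (1 / (2 * ε)) (by positivity)
  refine ⟨25 * C₃ + |C₁| * C₂, by positivity, fun q η Y τ hq hp hY => ?_⟩
  have hQ0 := Nr_pos hq.ne
  have hQ1 := one_le_Nr hq.ne
  set Q := Nr q with hQ
  set S := Real.sqrt (Y * Q) with hS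
  have hS0 : 0 < S := Real.sqrt_pos.2 (by positivity)
  have hS2 : S ^ 2 = Y * Q := Real.sq_sqrt (by positivity)
  have hE1 : 1 ≤ Q ^ ε := Real.one_le_rpow hQ1 hε.le
  have hE0 : 0 < Q ^ ε := by positivity
  set J := S / (Q * Q ^ ε) with hJ
  have hJ0 : 0 < J := by positivity
  have hT1 : 1 ≤ 1 + |τ| := by linarith [abs_nonneg τ]
  have h := sm_sqf ha hY (c := η) (K := 1) (A := 0) (fun n _ => by simpa using hq.norm_le n) τ
  refine sv_norm_le h fun s => ?_
  have h1 : ∀ j ∈ s, ‖(if Prim j then mu j * (Nr (j ^ 2) : ℂ) ^ (-(τ * I)) *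
      sm a (fun n => η (j ^ 2 * n)) (Y / Nr (j ^ 2)) τ else 0)‖ ≤
      (if j ∈ box J then C₃ * (1 + |τ|) ^ C₃ else 0) +
        |C₁| * Y * (if J < Nr j then Nr j ^ (-(2 : ℝ)) else 0) := by
    intro j _
    have p1 : 0 ≤ (if j ∈ box J then C₃ * (1 + |τ|) ^ C₃ else 0) := by split_ifs <;> positivity
    have p2 : 0 ≤ |C₁| * Y * (if J < Nr j then Nr j ^ (-(2 : ℝ)) else 0) :=
      mul_nonneg (by positivity) (b2_ite_nonneg _ _ _)
    by_cases hj : Prim j
    swap
    · rw [if_neg hj, norm_zero]; exact add_nonneg p1 p2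
    have j0 := Nr_pos hj.ne_zero
    rw [if_pos hj, sv_congr (c' := fun n => η (j ^ 2) * η n) (fun n _ => hq.mul _ _), sv_mul, norm_mul,
      norm_mul, norm_mul, sv_norm_cpow (hj.pow 2).ne_zero, mul_one, Nr_pow]
    refine (mul_le_of_le_one_left (by positivity) (norm_mu_le j)).trans
      ((mul_le_of_le_one_left (norm_nonneg _) (hq.norm_le _)).trans ?_)
    by_cases hc : J < Nr j
    · refine le_trans ?_ (le_add_of_nonneg_left p1)
      rw [if_pos hc, Real.rpow_neg j0.le, Real.rpow_two]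
      refine (h₁ η _ τ (by positivity) (fun n _ => hq.norm_le n) (Or.inl le_rfl)).trans ?_
      rw [Real.rpow_one, mul_assoc, ← div_eq_mul_inv]
      exact mul_le_mul_of_nonneg_right (le_abs_self _) (by positivity)
    · refine le_trans ?_ (le_add_of_nonneg_right p2)
      have hc' := not_lt.1 hc
      rw [if_pos (mem_box.2 ⟨hj.ne_zero, hc'⟩)]
      refine (h₃ q η hq hp _ τ (by positivity)).trans ?_
      have e1 : Q / (Y / Nr j ^ 2) ≤ Q ^ (-(2 * ε)) := by
        have e2 : Q ^ (-(2 * ε)) = Q / (Y / J ^ 2) := by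
          rw [Real.rpow_neg hQ0.le, mul_comm, Real.rpow_mul hQ0.le, Real.rpow_two, hJ, div_pow, hS2]
          field_simp
        rw [e2]
        gcongr
      have e3 : (Q / (Y / Nr j ^ 2)) ^ (1 / (2 * ε)) ≤ Q⁻¹ := by
        refine (Real.rpow_le_rpow (by positivity) e1 (by positivity)).trans (le_of_eq ?_)
        rw [← Real.rpow_mul hQ0.le, ← Real.rpow_neg_one]
        congr 1
        field_simp
      calc _ ≤ C₃ * (1 + |τ|) ^ C₃ * Q * Q⁻¹ := by gcongr
        _ = _ := by field_simp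
  refine (Finset.sum_le_sum h1).trans ?_
  rw [Finset.sum_add_distrib, ← Finset.mul_sum]
  have h2 : ∑ j ∈ s, (if j ∈ box J then C₃ * (1 + |τ|) ^ C₃ else 0) ≤ 25 * J * (C₃ * (1 + |τ|) ^ C₃) := by
    rw [← Finset.sum_filter, Finset.sum_const, nsmul_eq_mul]
    refine mul_le_mul_of_nonneg_right (le_trans ?_ (card_box_le hJ0.le)) (by positivity)
    exact_mod_cast Finset.card_le_card fun x hx => (Finset.mem_filter.1 hx).2
  have h3 : |C₁| * Y * ∑ j ∈ s, (if J < Nr j then Nr j ^ (-(2 : ℝ)) else 0) ≤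
      |C₁| * C₂ * (Q ^ ε * S) := by
    refine (mul_le_mul_of_nonneg_left (h₂ J hJ0 s) (by positivity)).trans (le_of_eq ?_)
    rw [show (1 - 2 : ℝ) = -1 by norm_num, Real.rpow_neg_one, hJ]
    field_simp
    rw [hS2]
    ring
  have h4 : J ≤ Q ^ ε * S :=
    (div_le_self hS0.le (one_le_mul_of_one_le_of_one_le hQ1 hE1)).trans (le_mul_of_one_le_left hS0.le hE1)
  have h5 : (1 + |τ|) ^ C₃ ≤ (1 + |τ|) ^ (25 * C₃ + |C₁| * C₂) :=
    Real.rpow_le_rpow_of_exponent_le hT1 (by linarith [mul_nonneg (abs_nonneg C₁) hC₂])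
  have h6 : 1 ≤ (1 + |τ|) ^ (25 * C₃ + |C₁| * C₂) := Real.one_le_rpow hT1 (by positivity)
  set T := (1 + |τ|) ^ (25 * C₃ + |C₁| * C₂)
  calc _ ≤ 25 * (Q ^ ε * S) * (C₃ * T) + |C₁| * C₂ * (Q ^ ε * S) * T := by
        refine add_le_add (h2.trans ?_) (h3.trans (le_mul_of_one_le_right (by positivity) h6))
        gcongr
    _ = _ := by ring

/-- No zeros to the right of `1`. -/
theorem IsCh.zfl_one {q : O} {η : O → ℂ} (h : IsCh q η) (T : ℝ) : ZFl η 1 T := fun s hs _ =>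
  zf_one q η h s hs (Or.inl fun e => by rw [e] at hs; simp at hs)
theorem ZF.zfl {θ : ℝ} (h : ZF θ) {q : O} {η : O → ℂ} (hη : IsCh q η) (hp : ¬ Princ η) (T : ℝ) :
    ZFl η θ T := fun s hs _ => h q η hη s hs (Or.inr hp)
theorem ZFl.mono {η : O → ℂ} {σ σ' T T' : ℝ} (h : ZFl η σ T) (hσ : σ ≤ σ') (hT : T' ≤ T) :
    ZFl η σ' T' := fun s hs ht => h s (hσ.trans_lt hs) (ht.trans hT)

open Classical in
/-- Extra Euler factors do not change the zeros in `Re s > 0`. -/
theorem IsCh.Lf_coprime_eq_zero {q k : O} {η : O → ℂ} (h : IsCh q η) (hk : k ≠ 0) {s : ℂ}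
    (hs : 0 < s.re) (hs1 : s ≠ 1 ∨ ¬ Princ η) :
    Lf (fun n => if IsCoprime n k then η n else 0) s = 0 ↔ Lf η s = 0 := by
  have h' := h.coprime hk
  set E : ℂ → ℂ := fun s => ∏ p ∈ pf k, (1 - η p * (Nr p : ℂ) ^ (-s)) with hE
  have key : ∀ z : ℂ, z ≠ 1 → Lf (fun n => if IsCoprime n k then η n else 0) z = Lf η z * E z := by
    intro z hz
    have e := h.Lo_coprime hk z
    rw [h'.Lo_eq (Or.inl hz), h.Lo_eq (Or.inl hz), mul_assoc] at e
    exact mul_left_cancel₀ (sub_ne_zero.2 hz) e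
  have hp0 : ∀ p ∈ pf k, 3 ≤ Nr p := fun p hp => three_le_Nr_prime (a1_of_mem_pf hp).1.1
  have h1 : Lf (fun n => if IsCoprime n k then η n else 0) s = Lf η s * E s := by
    by_cases hs' : s = 1
    swap
    · exact key s hs'
    have hp : ¬ Princ η := hs1.resolve_left (not_not.2 hs')
    have c1 := (h'.Lf_differentiableAt (s := s) (Or.inr (mt (h.princ_coprime hk).1 hp))).continuousAt
    have c2 := (h.Lf_differentiableAt (s := s) (Or.inr hp)).continuousAt
    have c3 : Continuous E := continuous_finsetProd _ fun p hp =>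
      continuous_const.sub (continuous_const.mul (continuous_neg.const_cpow (Or.inl (by
        have := hp0 p hp
        exact_mod_cast (by linarith : Nr p ≠ 0)))))
    refine tendsto_nhds_unique_of_eventuallyEq (l := nhdsWithin s {s}ᶜ)
      (c1.tendsto.mono_left nhdsWithin_le_nhds)
      ((c2.mul c3.continuousAt).tendsto.mono_left nhdsWithin_le_nhds) ?_
    filter_upwards [self_mem_nhdsWithin] with z hz
    exact key z (hs' ▸ hz)
  have h2 : E s ≠ 0 := by
    refine Finset.prod_ne_zero_iff.2 fun p hp e => ?_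
    have e1 : ‖η p * (Nr p : ℂ) ^ (-s)‖ = 1 := by rw [← sub_eq_zero.1 e, norm_one]
    have := hp0 p hp
    rw [norm_mul, Complex.norm_cpow_eq_rpow_re_of_pos (by linarith)] at e1
    have e2 : Nr p ^ (-s).re < 1 := Real.rpow_lt_one_of_one_lt_of_neg (by linarith) (by simpa using hs)
    have e3 := mul_le_of_le_one_left (Real.rpow_nonneg (Nr_nonneg p) (-s).re) (h.norm_le p)
    linarith
  rw [h1, mul_eq_zero, or_iff_left h2]

open Classical in
/-- The principal character. -/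
def psi0 (Q n : O) : ℂ := if IsCoprime n Q then 1 else 0

theorem isCh_psi0 {Q : O} (hQ : Q ≠ 0) (h3 : (3 : O) ∣ Q) : IsCh Q (psi0 Q) := isCh_triv hQ h3

/-- The smooth count of elements prime to `Q`. -/
theorem sm_psi0 {Q : O} (hQ : Q ≠ 0) (h3 : (3 : O) ∣ Q) {a : ℝ} (ha : 0 < a) :
    ∃ κ C : ℝ, 0 < κ ∧ 0 ≤ C ∧ ∀ Y : ℝ, 0 < Y →
      ‖sm a (psi0 Q) Y 0 - ((κ * Y : ℝ) : ℂ)‖ ≤ C * Real.sqrt Y := by
  classical
  obtain ⟨C, hC, h⟩ := sm_asymp ha one_pos Q
  obtain ⟨ϱ, -, -, h1⟩ := h (psi0 Q) 1 (isCh_psi0 hQ h3) one_ne_zero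
  set u : ℝ → O → ℝ := fun Y n => if Prim n ∧ IsCoprime n Q then W a (Nr n / Y) else 0 with hu
  have hterm : ∀ (Y : ℝ) (n : O), (if Prim n then psi0 Q n * (Nr n : ℂ) ^ (-(((0:ℝ) : ℂ) * I)) *
      (W a (Nr n / Y) : ℂ) else 0) = (u Y n : ℂ) := by
    intro Y n
    by_cases e1 : Prim n <;> by_cases e2 : IsCoprime n Q <;> simp [hu, psi0, e1, e2]
  have hreal : ∀ Y : ℝ, sm a (psi0 Q) Y 0 = ((∑' n, u Y n : ℝ) : ℂ) := by
    intro Y
    rw [sm, Complex.ofReal_tsum]
    exact tsum_congr (hterm Y)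
  have h2 : ∀ Y : ℝ, 0 < Y → |∑' n, u Y n - (ϱ * Wh a 1).re * Y| ≤ C * Real.sqrt Y := by
    intro Y hY
    have e := h1 Y 0 hY
    simp only [isCoprime_one_right, if_true, ofReal_zero, zero_mul, sub_zero, cpow_one, Nr_one,
      Real.one_rpow, abs_zero, add_zero, mul_one] at e
    rw [← Real.sqrt_eq_rpow] at e
    refine le_trans (le_of_eq ?_) ((Complex.abs_re_le_norm _).trans e)
    congr 1
    rw [show (fun n => psi0 Q n) = psi0 Q from rfl, hreal, mul_right_comm, sub_re, ofReal_re,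
      re_mul_ofReal]
  refine ⟨(ϱ * Wh a 1).re, C, ?_, hC, fun Y hY => ?_⟩
  swap
  · rw [hreal, ← ofReal_sub, Complex.norm_real]
    exact h2 Y hY
  have hQ0 := Nr_pos hQ
  have hQ1 := one_le_Nr hQ
  set δ : ℝ := 1 / (400 * Nr Q) with hδ
  have hδ0 : 0 < δ := by positivity
  have hw := W_pos a δ
  have hlow : ∀ Y : ℝ, 16 * Nr Q ≤ Y → Y / (16 * Nr Q) * W a δ ≤ ∑' n, u Y n := by
    intro Y hY
    have hY0 : 0 < Y := by linarith
    have hsum : Summable (u Y) := by
      have := summable_sm ha hY0 (c := psi0 Q) (K := 1) (A := 0)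
        (fun n _ => by simpa using (isCh_psi0 hQ h3).norm_le n) 0
      simp only [hterm] at this
      exact Complex.summable_ofReal.1 this
    set T := ((box Y).filter (fun x => Q ∣ x - 1)) \ box (δ * Y) with hT
    have hcard : Y / (16 * Nr Q) ≤ (T.card : ℝ) := by
      have e1 := le_card_box_class hQ 1 hY
      have e2 := card_box_le (Y := δ * Y) (by positivity)
      have e3 : ((((box Y).filter (fun x => Q ∣ x - 1)).card : ℕ) : ℝ) ≤ T.card + (box (δ * Y)).card := by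
        exact_mod_cast Finset.card_le_card_sdiff_add_card
      have e4 : Y / (8 * Nr Q) = Y / (16 * Nr Q) + 25 * (δ * Y) := by rw [hδ]; field_simp; ring
      linarith
    refine le_trans ?_ (hsum.sum_le_tsum T fun n _ => ?_)
    · refine (mul_le_mul_of_nonneg_right hcard hw.le).trans ?_
      rw [← nsmul_eq_mul]
      refine Finset.card_nsmul_le_sum _ _ _ fun n hn => ?_
      obtain ⟨n1, n2⟩ := Finset.mem_sdiff.1 hn
      obtain ⟨n3, n4⟩ := Finset.mem_filter.1 n1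
      obtain ⟨n5, n6⟩ := mem_box.1 n3
      have n7 : δ * Y < Nr n := not_le.1 fun e => n2 (mem_box.2 ⟨n5, e⟩)
      simp only [hu]
      rw [if_pos ⟨h3.trans n4, (ch_cop_congr n4).2 isCoprime_one_left⟩]
      have n8 : δ ≤ Nr n / Y := by rw [le_div_iff₀ hY0]; exact n7.le
      have n9 : Nr n / Y ≤ 1 := (div_le_one hY0).2 n6
      have l1 := Real.log_le_log hδ0 n8
      have l2 := Real.log_nonpos (hδ0.le.trans n8) n9
      unfold W
      refine Real.exp_le_exp.2 (div_le_div_of_nonneg_right ?_ (by positivity))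
      nlinarith
    · simp only [hu]
      split_ifs
      · exact (W_pos _ _).le
      · rfl
  set c : ℝ := W a δ / (16 * Nr Q) with hc
  have hc0 : 0 < c := by positivity
  set R : ℝ := 16 * Nr Q + 2 * C / c with hR
  have hR1 : 16 * Nr Q ≤ R := le_add_of_nonneg_right (by positivity)
  have hR0 : 0 < R := by linarith
  have e1 := hlow (R ^ 2) (by nlinarith)
  have e2 := (abs_le.1 (h2 (R ^ 2) (by positivity))).2
  rw [Real.sqrt_sq hR0.le] at e2
  have e3 : R ^ 2 / (16 * Nr Q) * W a δ = c * R ^ 2 := by rw [hc]; ring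
  have e4 : 2 * C ≤ c * R := by
    have : c * R = c * (16 * Nr Q) + 2 * C := by rw [hR]; field_simp
    have : 0 ≤ c * (16 * Nr Q) := by positivity
    linarith
  by_contra hneg
  have e5 : (ϱ * Wh a 1).re * R ^ 2 ≤ 0 := mul_nonpos_of_nonpos_of_nonneg (not_lt.1 hneg) (by positivity)
  nlinarith [mul_pos hc0 (mul_pos hR0 hR0)]

end Crest.Agent.R017

end
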