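import Crest.Agent.R017.ThDefs
import Crest.Agent.R017.FE2

/-! # Row 17, cubic theta: the dual weight -/

set_option autoImplicit false

noncomputable section

open scoped BigOperators ComplexConjugate Topology ENNReal
open Complex MeasureTheory Filter Set

namespace Crest.Agent.R017.Theta

theorem v1t_comp_sub {F : ℂ → ℂ} {σ₁ σ₂ : ℝ} (c : ℂ) (hF : ExpGr F (c.re - σ₂) (c.re - σ₁)) :
    ExpGr (fun s => F (c - s)) σ₁ σ₂ := by
  have h1 : ExpGr (fun s => F (s + c)) (-σ₂) (-σ₁) :=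
    ExpGr.comp_add c (hF.mono (by linarith) (by linarith))
  obtain ⟨C, T, h⟩ := h1
  refine ⟨C, T, fun s hs hT => ?_⟩
  have := h (-s) ⟨by rw [neg_re]; linarith [hs.2], by rw [neg_re]; linarith [hs.1]⟩
    (by rwa [neg_im, abs_neg])
  rw [neg_im, abs_neg] at this
  have e : c - s = -s + c := by ring
  simpa only [e] using this

/-- Reflection formula (`Complex.Gamma_mul_Gamma_one_sub`), recurrence, `|Γ(s)| ≤ Γ(Re s)`. -/
theorem expGr_inv_Gamma (σ₁ σ₂ : ℝ) : ExpGr (fun s => (Complex.Gamma s)⁻¹) σ₁ σ₂ := by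
  obtain ⟨C, _, h⟩ := f1_inv_Gamma (|σ₁| + |σ₂|)
  refine ExpGr.of_two C Real.pi 0 fun s hs _ => h s ?_
  rw [abs_le]
  constructor <;> linarith [hs.1, hs.2, neg_abs_le σ₁, le_abs_self σ₂, abs_nonneg σ₁, abs_nonneg σ₂]
theorem expGr_Gamma {σ₁ σ₂ : ℝ} (h : 0 < σ₁) : ExpGr Complex.Gamma σ₁ σ₂ := by
  have hc : ContinuousOn Real.Gamma (Icc σ₁ σ₂) := fun x hx =>
    (Real.differentiableAt_Gamma fun m => by
      have : (0 : ℝ) ≤ m := m.cast_nonneg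
      linarith [hx.1]).continuousAt.continuousWithinAt
  obtain ⟨M, hM⟩ := isCompact_Icc.exists_bound_of_continuousOn hc
  refine ExpGr.of_bdd M 0 fun s hs _ => (p2_norm_Gamma_le_real (h.trans_le hs.1)).trans ?_
  exact (le_abs_self _).trans (hM s.re ⟨hs.1, hs.2⟩)
theorem v1t_c_pos : (0 : ℝ) < 9 / c0 := div_pos (by norm_num) c0_pos
theorem v1t_diff_Gamma {w : ℂ} (hw : 0 < w.re) : DifferentiableAt ℂ Complex.Gamma w :=
  Complex.differentiableAt_Gamma _ fun m hm => by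
    have : (0 : ℝ) ≤ m := m.cast_nonneg
    rw [hm] at hw
    simp at hw
    linarith
theorem differentiableOn_gam : DifferentiableOn ℂ gam {w | -(1 / 3 : ℝ) < w.re} := by
  intro w hw
  have hw' : -(1 / 3 : ℝ) < w.re := hw
  refine DifferentiableAt.differentiableWithinAt ?_
  have h0 : ((9 / c0 : ℝ) : ℂ) ≠ 0 := ofReal_ne_zero.2 v1t_c_pos.ne'
  have h1 : DifferentiableAt ℂ (fun w : ℂ => ((9 / c0 : ℝ) : ℂ) ^ (4 * w - 2)) w :=
    DifferentiableAt.const_cpow (by fun_prop) (Or.inl h0)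
  have h2 : DifferentiableAt ℂ (fun w : ℂ => Complex.Gamma (w + 2 / 3)) w :=
    (v1t_diff_Gamma (w := w + 2 / 3) (by simp; linarith)).comp w (f := fun w : ℂ => w + 2 / 3)
      (by fun_prop)
  have h3 : DifferentiableAt ℂ (fun w : ℂ => Complex.Gamma (w + 1 / 3)) w :=
    (v1t_diff_Gamma (w := w + 1 / 3) (by simp; linarith)).comp w (f := fun w : ℂ => w + 1 / 3)
      (by fun_prop)
  have h4 : DifferentiableAt ℂ (fun w : ℂ => (Complex.Gamma (5 / 3 - w))⁻¹) w :=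
    (Complex.differentiable_one_div_Gamma (5 / 3 - w)).comp w (f := fun w : ℂ => 5 / 3 - w)
      (by fun_prop)
  have h5 : DifferentiableAt ℂ (fun w : ℂ => (Complex.Gamma (4 / 3 - w))⁻¹) w :=
    (Complex.differentiable_one_div_Gamma (4 / 3 - w)).comp w (f := fun w : ℂ => 4 / 3 - w)
      (by fun_prop)
  exact (h1.mul (h2.mul h3)).mul (h4.mul h5)
theorem expGr_gam {σ₁ σ₂ : ℝ} (h : -(1 / 3 : ℝ) < σ₁) : ExpGr gam σ₁ σ₂ := by
  have h1 : ExpGr (fun w : ℂ => ((9 / c0 : ℝ) : ℂ) ^ (4 * w - 2)) σ₁ σ₂ := by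
    refine ExpGr.of_bdd ((9 / c0) ^ (4 * σ₁ - 2) + (9 / c0) ^ (4 * σ₂ - 2)) 0 fun s hs _ => ?_
    rw [norm_cpow_eq_rpow_re_of_pos v1t_c_pos]
    have e : (4 * s - 2).re = 4 * s.re - 2 := by simp
    rw [e]
    rcases le_total 1 (9 / c0) with h | h
    · linarith [Real.rpow_le_rpow_of_exponent_le h (show 4 * s.re - 2 ≤ 4 * σ₂ - 2 by
        linarith [hs.2]), Real.rpow_pos_of_pos v1t_c_pos (4 * σ₁ - 2)]
    · linarith [Real.rpow_le_rpow_of_exponent_ge v1t_c_pos h (show 4 * σ₁ - 2 ≤ 4 * s.re - 2 by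
        linarith [hs.1]), Real.rpow_pos_of_pos v1t_c_pos (4 * σ₂ - 2)]
  have h2 : ExpGr (fun w : ℂ => Complex.Gamma (w + 2 / 3)) σ₁ σ₂ :=
    ExpGr.comp_add _ (expGr_Gamma (by simp; linarith))
  have h3 : ExpGr (fun w : ℂ => Complex.Gamma (w + 1 / 3)) σ₁ σ₂ :=
    ExpGr.comp_add _ (expGr_Gamma (by simp; linarith))
  have h4 : ExpGr (fun w : ℂ => (Complex.Gamma (5 / 3 - w))⁻¹) σ₁ σ₂ :=
    v1t_comp_sub (F := fun s => (Complex.Gamma s)⁻¹) _ (expGr_inv_Gamma _ _)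
  have h5 : ExpGr (fun w : ℂ => (Complex.Gamma (4 / 3 - w))⁻¹) σ₁ σ₂ :=
    v1t_comp_sub (F := fun s => (Complex.Gamma s)⁻¹) _ (expGr_inv_Gamma _ _)
  exact (h1.mul (h2.mul h3)).mul (h4.mul h5)
theorem v1t_ratio (u z : ℂ) (n : ℕ) (h : z + n = conj u) :
    ‖Complex.Gamma u‖ * ‖(Complex.Gamma z)⁻¹‖ ≤ (‖z‖ + n) ^ n := by
  have h1 := f2_inv_Gamma_le n z
  rw [h, Complex.Gamma_conj, norm_inv, norm_inv, Complex.norm_conj] at h1
  rw [norm_inv]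
  calc ‖Complex.Gamma u‖ * ‖Complex.Gamma z‖⁻¹
      ≤ ‖Complex.Gamma u‖ * ((‖z‖ + n) ^ n * ‖Complex.Gamma u‖⁻¹) :=
        mul_le_mul_of_nonneg_left h1 (norm_nonneg _)
    _ = (‖z‖ + n) ^ n * (‖Complex.Gamma u‖ * ‖Complex.Gamma u‖⁻¹) := by ring
    _ ≤ (‖z‖ + n) ^ n * 1 := mul_le_mul_of_nonneg_left mul_inv_le_one (by positivity)
    _ = _ := mul_one _
theorem v1t_norm_le (a : ℝ) (ha : |a| ≤ 2) (k : ℕ) (t : ℝ) :
    ‖((a - k : ℝ) : ℂ) - t * I‖ + ((2 * k : ℕ) : ℝ) ≤ (2 + 3 * k) * (1 + |t|) := by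
  have h1 : ‖((a - k : ℝ) : ℂ) - t * I‖ ≤ |a - k| + |t| := by
    refine (norm_sub_le _ _).trans (le_of_eq ?_)
    rw [norm_mul, norm_I, mul_one, norm_real, norm_real, Real.norm_eq_abs, Real.norm_eq_abs]
  have h2 : |a - k| ≤ |a| + k := by
    refine (abs_sub _ _).trans (le_of_eq ?_)
    rw [Nat.abs_cast]
  have hk : (0 : ℝ) ≤ k := k.cast_nonneg
  have ht := abs_nonneg t
  have e : ((2 * k : ℕ) : ℝ) = 2 * k := by push_cast; ring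
  rw [e]
  nlinarith [mul_nonneg hk ht]
/-- On `Re w = 1/2 + k` the ratio is unimodular times a polynomial of degree `4 k` (recurrence and
`Complex.Gamma_conj`). -/
theorem norm_gam_le (k : ℕ) : ∃ C : ℝ, 0 ≤ C ∧ ∀ t : ℝ,
    ‖gam (((1 / 2 + k : ℝ) : ℂ) + t * I)‖ ≤ C * (1 + |t|) ^ (4 * k) := by
  refine ⟨(9 / c0) ^ (4 * (k : ℝ)) * (2 + 3 * k) ^ (4 * k), by have := v1t_c_pos; positivity,
    fun t => ?_⟩
  set w : ℂ := ((1 / 2 + k : ℝ) : ℂ) + t * I with hw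
  have e0 : ‖((9 / c0 : ℝ) : ℂ) ^ (4 * w - 2)‖ = (9 / c0) ^ (4 * (k : ℝ)) := by
    rw [norm_cpow_eq_rpow_re_of_pos v1t_c_pos]
    congr 1
    simp [hw]
    ring
  have e1 : 5 / 3 - w = ((7 / 6 - k : ℝ) : ℂ) - t * I := by rw [hw]; push_cast; ring
  have e2 : 4 / 3 - w = ((5 / 6 - k : ℝ) : ℂ) - t * I := by rw [hw]; push_cast; ring
  have r1 := v1t_ratio (w + 2 / 3) (5 / 3 - w) (2 * k) (by
    apply Complex.ext
    · rw [conj_re]; simp [hw]; ring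
    · rw [conj_im]; simp [hw])
  have r2 := v1t_ratio (w + 1 / 3) (4 / 3 - w) (2 * k) (by
    apply Complex.ext
    · rw [conj_re]; simp [hw]; ring
    · rw [conj_im]; simp [hw])
  have b1 : (‖5 / 3 - w‖ + ((2 * k : ℕ) : ℝ)) ^ (2 * k) ≤ ((2 + 3 * k) * (1 + |t|)) ^ (2 * k) := by
    refine pow_le_pow_left₀ (by positivity) ?_ _
    rw [e1]
    exact v1t_norm_le _ (by rw [abs_of_pos] <;> norm_num) k t
  have b2 : (‖4 / 3 - w‖ + ((2 * k : ℕ) : ℝ)) ^ (2 * k) ≤ ((2 + 3 * k) * (1 + |t|)) ^ (2 * k) := by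
    refine pow_le_pow_left₀ (by positivity) ?_ _
    rw [e2]
    exact v1t_norm_le _ (by rw [abs_of_pos] <;> norm_num) k t
  have hc := Real.rpow_pos_of_pos v1t_c_pos (4 * (k : ℝ))
  calc ‖gam w‖ = (9 / c0) ^ (4 * (k : ℝ)) *
        ((‖Complex.Gamma (w + 2 / 3)‖ * ‖(Complex.Gamma (5 / 3 - w))⁻¹‖) *
          (‖Complex.Gamma (w + 1 / 3)‖ * ‖(Complex.Gamma (4 / 3 - w))⁻¹‖)) := by
        rw [gam, norm_mul, norm_mul, norm_mul, norm_mul, e0]; ring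
    _ ≤ (9 / c0) ^ (4 * (k : ℝ)) *
        (((2 + 3 * k) * (1 + |t|)) ^ (2 * k) * ((2 + 3 * k) * (1 + |t|)) ^ (2 * k)) := by
        refine mul_le_mul_of_nonneg_left ?_ hc.le
        exact mul_le_mul (r1.trans b1) (r2.trans b2) (by positivity) (by positivity)
    _ = _ := by
        rw [← pow_add, mul_pow, show 2 * k + 2 * k = 4 * k by ring]; ring
theorem v1t_bd {A : ℝ} (k : ℕ) {C : ℝ} (hC : 0 ≤ C)
    (h : ∀ t : ℝ, ‖gam (((1 / 2 + k : ℝ) : ℂ) + t * I)‖ ≤ C * (1 + |t|) ^ (4 * k)) (τ t : ℝ) :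
    ‖gam (((1 / 2 + k : ℝ) : ℂ) + t * I) * Wh A (1 - (((1 / 2 + k : ℝ) : ℂ) + t * I) - τ * I)‖ ≤
      C * (1 + |τ|) ^ (4 * k) * (Real.exp ((4 * k : ℕ) * |(-τ - t)|) *
        ‖Wh A (((1 / 2 - k : ℝ) : ℂ) + ((-τ - t : ℝ) : ℂ) * I)‖) := by
  have e : 1 - (((1 / 2 + k : ℝ) : ℂ) + t * I) - τ * I =
      ((1 / 2 - k : ℝ) : ℂ) + ((-τ - t : ℝ) : ℂ) * I := by push_cast; ring
  rw [norm_mul, e, ← mul_assoc]
  refine mul_le_mul_of_nonneg_right ((h t).trans ?_) (norm_nonneg _)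
  rw [mul_assoc]
  refine mul_le_mul_of_nonneg_left ?_ hC
  have h1 : 1 + |t| ≤ (1 + |τ|) * Real.exp |(-τ - t)| := by
    have h2 : |t| ≤ |τ| + |(-τ - t)| := by
      have := abs_add_le τ (-τ - t)
      rwa [show τ + (-τ - t) = -t by ring, abs_neg] at this
    have h3 := Real.add_one_le_exp |(-τ - t)|
    nlinarith [abs_nonneg τ, abs_nonneg (-τ - t), mul_nonneg (abs_nonneg τ) (abs_nonneg (-τ - t)),
      mul_le_mul_of_nonneg_left h3 (show (0 : ℝ) ≤ 1 + |τ| by positivity)]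
  rw [Real.exp_nat_mul, ← mul_pow]
  exact pow_le_pow_left₀ (by positivity) h1 _
theorem v1t_cont_gam (k : ℕ) : Continuous fun t : ℝ => gam (((1 / 2 + k : ℝ) : ℂ) + t * I) := by
  refine differentiableOn_gam.continuousOn.comp_continuous (by fun_prop) fun t => ?_
  have hk : (0 : ℝ) ≤ k := k.cast_nonneg
  simp only [mem_ofPred_eq, add_re, ofReal_re, mul_re, I_re, mul_zero, ofReal_im, I_im, mul_one,
    sub_self, add_zero]
  linarith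
theorem v1t_int {A : ℝ} (hA : 0 < A) (c σ τ : ℝ) : Integrable (fun t : ℝ =>
    Real.exp (c * |(-τ - t)|) * ‖Wh A ((σ : ℂ) + ((-τ - t : ℝ) : ℂ) * I)‖) :=
  (integrable_exp_Wh hA c σ).comp_sub_left (-τ)
theorem integrable_gam_Wh {A : ℝ} (hA : 0 < A) (k : ℕ) (τ : ℝ) :
    Integrable (fun t : ℝ => gam (((1 / 2 + k : ℝ) : ℂ) + t * I) *
      Wh A (1 - (((1 / 2 + k : ℝ) : ℂ) + t * I) - τ * I)) := by
  obtain ⟨C, hC, h⟩ := norm_gam_le k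
  refine ((v1t_int hA (4 * k : ℕ) (1 / 2 - k) τ).const_mul (C * (1 + |τ|) ^ (4 * k))).mono' ?_
    (Eventually.of_forall fun t => v1t_bd k hC h τ t)
  have h1 := v1t_cont_gam k
  have h2 := (differentiable_Wh A).continuous
  exact Continuous.aestronglyMeasurable (h1.mul (h2.comp (by fun_prop)))
theorem integral_gam_Wh_le {A : ℝ} (hA : 0 < A) (k : ℕ) : ∃ C : ℝ, ∀ τ : ℝ,
    ∫ t : ℝ, ‖gam (((1 / 2 + k : ℝ) : ℂ) + t * I) *
      Wh A (1 - (((1 / 2 + k : ℝ) : ℂ) + t * I) - τ * I)‖ ≤ C * (1 + |τ|) ^ (4 * k) := by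
  obtain ⟨C, hC, h⟩ := norm_gam_le k
  refine ⟨C * ∫ t : ℝ, Real.exp ((4 * k : ℕ) * |t|) * ‖Wh A (((1 / 2 - k : ℝ) : ℂ) + t * I)‖,
    fun τ => ?_⟩
  refine (integral_mono (integrable_gam_Wh hA k τ).norm
    ((v1t_int hA (4 * k : ℕ) (1 / 2 - k) τ).const_mul (C * (1 + |τ|) ^ (4 * k)))
    fun t => v1t_bd k hC h τ t).trans (le_of_eq ?_)
  rw [integral_const_mul, integral_sub_left_eq_self (fun t : ℝ =>
    Real.exp ((4 * k : ℕ) * |t|) * ‖Wh A (((1 / 2 - k : ℝ) : ℂ) + t * I)‖) volume (-τ)]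
  ring
theorem v1t_mV (A τ t : ℝ) : mV A τ t = (1 / (2 * Real.pi) : ℂ) *
    (gam (((1 / 2 + (0 : ℕ) : ℝ) : ℂ) + t * I) *
      Wh A (1 - (((1 / 2 + (0 : ℕ) : ℝ) : ℂ) + t * I) - τ * I)) := by
  have e : ((1 / 2 + (0 : ℕ) : ℝ) : ℂ) = 1 / 2 := by push_cast; ring
  rw [e, mV, mul_assoc]
theorem integrable_mV {A : ℝ} (hA : 0 < A) (τ : ℝ) : Integrable (mV A τ) :=
  ((integrable_gam_Wh hA 0 τ).const_mul (1 / (2 * Real.pi) : ℂ)).congr
    (Eventually.of_forall fun t => (v1t_mV A τ t).symm)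
theorem integral_mV_le {A : ℝ} (hA : 0 < A) : ∃ C : ℝ, ∀ τ, ∫ t, ‖mV A τ t‖ ≤ C := by
  obtain ⟨C, h⟩ := integral_gam_Wh_le hA 0
  refine ⟨‖(1 / (2 * Real.pi) : ℂ)‖ * C, fun τ => ?_⟩
  have h1 := h τ
  rw [mul_zero, pow_zero, mul_one] at h1
  have e : (fun t => ‖mV A τ t‖) = fun t : ℝ => ‖(1 / (2 * Real.pi) : ℂ)‖ *
      ‖gam (((1 / 2 + (0 : ℕ) : ℝ) : ℂ) + t * I) *
        Wh A (1 - (((1 / 2 + (0 : ℕ) : ℝ) : ℂ) + t * I) - τ * I)‖ := by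
    funext t
    rw [v1t_mV, norm_mul]
  rw [e, integral_const_mul]
  exact mul_le_mul_of_nonneg_left h1 (norm_nonneg _)
theorem v1t_line (A τ y : ℝ) (k : ℕ) :
    ∫ t : ℝ, gam (((1 / 2 + k : ℝ) : ℂ) + t * I) *
      Wh A (1 - (((1 / 2 + k : ℝ) : ℂ) + t * I) - τ * I) *
        (y : ℂ) ^ (-(((1 / 2 + k : ℝ) : ℂ) + t * I)) =
    ∫ t : ℝ, (gam ((1 - τ * I) - (((1 / 2 - k : ℝ) : ℂ) + t * I)) *
      (y : ℂ) ^ (-((1 - τ * I) - (((1 / 2 - k : ℝ) : ℂ) + t * I)))) *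
        Wh A (((1 / 2 - k : ℝ) : ℂ) + t * I) := by
  rw [← integral_sub_left_eq_self (fun t : ℝ =>
    (gam ((1 - τ * I) - (((1 / 2 - k : ℝ) : ℂ) + t * I)) *
      (y : ℂ) ^ (-((1 - τ * I) - (((1 / 2 - k : ℝ) : ℂ) + t * I)))) *
        Wh A (((1 / 2 - k : ℝ) : ℂ) + t * I)) volume (-τ)]
  congr 1
  funext t
  have e1 : (1 - τ * I) - (((1 / 2 - k : ℝ) : ℂ) + ((-τ - t : ℝ) : ℂ) * I) =
      ((1 / 2 + k : ℝ) : ℂ) + t * I := by push_cast; ring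
  have e2 : 1 - (((1 / 2 + k : ℝ) : ℂ) + t * I) - τ * I =
      ((1 / 2 - k : ℝ) : ℂ) + ((-τ - t : ℝ) : ℂ) * I := by push_cast; ring
  rw [e1, e2]
  ring
/-- `shift_Wh` in the variable `s = 1 - w - i τ`. -/
theorem VV_eq {A : ℝ} (hA : 0 < A) (k : ℕ) (τ : ℝ) {y : ℝ} (hy : 0 < y) :
    VV A τ y = (1 / (2 * Real.pi) : ℂ) * ∫ t : ℝ, gam (((1 / 2 + k : ℝ) : ℂ) + t * I) *
      Wh A (1 - (((1 / 2 + k : ℝ) : ℂ) + t * I) - τ * I) *
        (y : ℂ) ^ (-(((1 / 2 + k : ℝ) : ℂ) + t * I)) := by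
  have hk : (0 : ℝ) ≤ k := k.cast_nonneg
  have e0 : VV A τ y = (1 / (2 * Real.pi) : ℂ) *
      ∫ t : ℝ, gam (((1 / 2 + (0 : ℕ) : ℝ) : ℂ) + t * I) *
      Wh A (1 - (((1 / 2 + (0 : ℕ) : ℝ) : ℂ) + t * I) - τ * I) *
        (y : ℂ) ^ (-(((1 / 2 + (0 : ℕ) : ℝ) : ℂ) + t * I)) := by
    rw [← integral_const_mul, VV]
    congr 1
    funext t
    have e : ((1 / 2 + (0 : ℕ) : ℝ) : ℂ) = 1 / 2 := by push_cast; ring
    rw [v1t_mV, e, mul_assoc]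
  rw [e0, v1t_line, v1t_line]
  congr 1
  symm
  have hre : (1 - τ * I : ℂ).re = 1 := by simp
  have hy' : (y : ℂ) ≠ 0 := ofReal_ne_zero.2 hy.ne'
  refine shift_Wh hA (F := fun s => gam ((1 - τ * I) - s) * (y : ℂ) ^ (-((1 - τ * I) - s)))
    (σ₁ := 1 / 2 - k) (σ₂ := 1 / 2 - (0 : ℕ)) (by simp) ?_ ?_
  · refine DifferentiableOn.mul ?_ ?_
    · refine differentiableOn_gam.comp (f := fun s : ℂ => (1 - τ * I) - s) (by fun_prop)
        fun s hs => ?_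
      have := hs.2
      simp only [mem_ofPred_eq, sub_re, hre]
      simp only [Nat.cast_zero] at this
      linarith
    · exact fun s _ => (DifferentiableAt.const_cpow (by fun_prop)
        (Or.inl hy')).differentiableWithinAt
  · refine ExpGr.mul (v1t_comp_sub (F := gam) _ (expGr_gam ?_))
      (v1t_comp_sub (F := fun s => (y : ℂ) ^ (-s)) _ (expGr_cpow_neg hy _ _))
    rw [hre]
    norm_num
theorem norm_VV_le {A : ℝ} (hA : 0 < A) (k : ℕ) : ∃ C : ℝ, ∀ τ y, 0 < y →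
    ‖VV A τ y‖ ≤ C * (1 + |τ|) ^ (4 * k) * y ^ (-(1 / 2 + k : ℝ)) := by
  obtain ⟨C, h⟩ := integral_gam_Wh_le hA k
  refine ⟨‖(1 / (2 * Real.pi) : ℂ)‖ * C, fun τ y hy => ?_⟩
  rw [VV_eq hA k τ hy, norm_mul, mul_assoc, mul_assoc]
  refine mul_le_mul_of_nonneg_left ?_ (norm_nonneg _)
  refine (norm_integral_le_integral_norm _).trans ?_
  have e : (fun t : ℝ => ‖gam (((1 / 2 + k : ℝ) : ℂ) + t * I) *
      Wh A (1 - (((1 / 2 + k : ℝ) : ℂ) + t * I) - τ * I) *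
        (y : ℂ) ^ (-(((1 / 2 + k : ℝ) : ℂ) + t * I))‖) = fun t : ℝ =>
      ‖gam (((1 / 2 + k : ℝ) : ℂ) + t * I) *
        Wh A (1 - (((1 / 2 + k : ℝ) : ℂ) + t * I) - τ * I)‖ * y ^ (-(1 / 2 + k : ℝ)) := by
    funext t
    rw [norm_mul, norm_cpow_eq_rpow_re_of_pos hy]
    congr 2
    simp
  rw [e, integral_mul_const, ← mul_assoc]
  exact mul_le_mul_of_nonneg_right (h τ) (Real.rpow_pos_of_pos hy _).le

end Crest.Agent.R017.Theta

end
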