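import Crest.Agent.R017.GnormAux

/-! # Row 17, `step4`: definitions, regrouping and Minkowski -/

set_option autoImplicit false

noncomputable section

open scoped BigOperators ComplexConjugate
open Complex MeasureTheory

namespace Crest.Agent.R017

/-- Triples. -/
abbrev O3 : Type := O × O × O

/-- All three entries are primary. -/
def s4_P (m : O3) : Prop := Prim m.1 ∧ Prim m.2.1 ∧ Prim m.2.2

instance (m : O3) : Decidable (s4_P m) := Classical.propDecidable _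

/-- The product of the entries. -/
def s4_pr (m : O3) : O := m.1 * m.2.1 * m.2.2

/-- The primary triples with product `n`. -/
def s4_dv (n : O) : Finset O3 := (pdiv n ×ˢ pdiv n ×ˢ pdiv n).filter (fun m => s4_pr m = n)

/-- The primary triples dividing `m` entry by entry. -/
def s4_D (m : O3) : Finset O3 := pdiv m.1 ×ˢ pdiv m.2.1 ×ˢ pdiv m.2.2

/-- The coefficient obtained by grouping triples according to their product. -/
def s4_G {E : Type} [AddCommMonoid E] (T : O3 → E) (n : O) : E := ∑ m ∈ s4_dv n, T m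

/-- Rapid decay. -/
def s4_Dec (T : O3 → ℂ) : Prop :=
  ∀ A : ℝ, ∃ K : ℝ, ∀ m, s4_P m → ‖T m‖ ≤ K * Nr (s4_pr m) ^ (-A)

open Classical in
/-- The squarefree slices of a coefficient. -/
def s4_ga (G : O → ℂ) (k c n : O) : ℂ :=
  if Prim n ∧ Squarefree n ∧ IsCoprime n k ∧ (4 : O) ∣ n - c then G (k * n) else 0

open Classical in
/-- The indicator that is removed by Möbius inversion. -/
def s4_phi (k : O) (m : O3) : ℂ := if Squarefree (s4_pr m) ∧ IsCoprime (s4_pr m) k then 1 else 0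

/-- The bracket. -/
def s4_br (a₁ a₂ l : ℝ) (c : ℂ) (η : O → ℂ) (X₁ X₂ τ : ℝ) : ℂ :=
  sm a₁ η X₁ τ * sm a₂ η X₂ τ - c * (sm a₁ η (X₁ / l) τ * sm a₂ η (X₂ * l) τ)

/-- The third factor. -/
def s4_A (α : O → ℂ) (Z : ℝ) (f : O) (η : O → ℂ) (s : ℂ) : ℂ :=
  ∑ b ∈ (box Z).filter Prim, α (f * b) * η b * (Nr b : ℂ) ^ s

/-- The trilinear coefficient. -/
def s4_T (a₁ a₂ N₁ N₂ l τ : ℝ) (c : ℂ) (ψ α : O → ℂ) (t : O) (m : O3) : ℂ :=
  ψ m.1 * ψ m.2.1 * α m.2.2 * chi (s4_pr m) t * ((Nr m.1 : ℂ) ^ (-(τ * I)) * (Nr m.2.1 : ℂ) ^ (-(τ * I))) *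
    ((W a₁ (Nr m.1 / N₁) : ℂ) * (W a₂ (Nr m.2.1 / N₂) : ℂ) -
      c * ((W a₁ (Nr m.1 / (N₁ / l)) : ℂ) * (W a₂ (Nr m.2.1 / (N₂ * l)) : ℂ)))

open Classical in
/-- The hypotheses of `step4`. -/
structure s4_Hyp (Q : O) (a₁ a₂ C₀ x R K N₁ N₂ l Z θ Ξ P : ℝ) (c : ℂ) (ψ α : O → ℂ) (t : O) :
    Prop where
  hx : 1 ≤ x
  hψ : IsCh Q ψ
  ht : t ≠ 0
  hR : 1 ≤ R
  hRx : R ≤ x
  hK : 1 ≤ K
  hKx : K ≤ x
  hN₁ : x⁻¹ ≤ N₁
  hN₁x : N₁ ≤ x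
  hN₂ : x⁻¹ ≤ N₂
  hN₂x : N₂ ≤ x
  hl : 1 ≤ l
  hlx : l ≤ x
  hZ : 1 ≤ Z
  hZx : Z ≤ x
  htx : Nr (rad t) ≤ x
  hθ : 1 / 2 ≤ θ
  hθ1 : θ ≤ 1
  hΞ : 0 ≤ Ξ
  hP : 0 ≤ P
  hc : c = 0 ∨ c = 1
  hα : ∀ b, ‖α b‖ ≤ 1
  hαs : ∀ b, α b ≠ 0 → Adm Q b ∧ Nr b ≤ Z
  IH : ∀ a : ℝ, a = a₁ ∨ a = a₂ → ∀ (ψ' : O → ℂ) (d : O) (N' τ' : ℝ), IsCh Q ψ' → d ≠ 0 → 0 < N' →
      ∑ r ∈ (box (R / (K * Nr d ^ 2))).filter (fun r => ¬ Exc Q (t * d ^ 2) r),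
        ‖sm a (fun n => ψ' n * chi n (r * (t * d ^ 2))) N' τ'‖ ^ 4 ≤
        Ξ * (1 + |τ'|) ^ C₀ * (R / (K * Nr d ^ 2) * Nr (rad (t * d ^ 2))) * N' ^ 2
  PW : ∀ (ψ' : O → ℂ) (d r f : O) (σ' τ' : ℝ), IsCh Q ψ' → d ≠ 0 → r ∈ box (R / (K * Nr d ^ 2)) →
      ¬ Exc Q (t * d ^ 2) r → Prim f → -1 ≤ σ' → σ' ≤ 0 →
      ‖∑ b ∈ (box Z).filter Prim,
          α (f * b) * (ψ' b * chi b (r * (t * d ^ 2))) * (Nr b : ℂ) ^ ((σ' : ℂ) + τ' * I)‖ ≤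
        P * (1 + |τ'|) * (Z / Nr f) ^ (θ + σ')

open Classical in
/-- The size of the leaves. -/
def s4_Dd (R K N₁ N₂ l Z θ Ξ P : ℝ) (c : ℂ) (t : O) : ℝ :=
  K⁻¹ * Ξ * P ^ 2 * (R * Nr (rad t)) * Z ^ (2 * θ - 1) +
    (R / K) ^ (1 / 6 : ℝ) * (if c = 0 then N₁ * N₂ else 1 + N₁ + N₂ * l) * Z + N₁ * N₂ * Z

/-- The hypotheses of the abstract double Poisson step. -/
structure s4_Abs (Q t : O) (CA : ℝ → ℝ) (M C₁ e x R K Λ Y : ℝ) (G : O → ℂ) : Prop where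
  hx : 1 ≤ x
  hR : 1 ≤ R
  hRx : R ≤ x
  hK : 1 ≤ K
  hKx : K ≤ x
  hΛ : 0 < Λ
  hΛx : Λ ≤ x ^ 3
  hY : 0 ≤ Y
  supp : ∀ n, Prim n → G n ≠ 0 → IsCoprime n (Q * t)
  summ : ∀ (A : ℝ) (k c : O), Prim k → Summable (fun n => ‖s4_ga G k c n‖ * Nr n ^ A)
  mom : ∀ (A : ℝ) (k c : O), -1 < A → Prim k →
    ∑' n, ‖s4_ga G k c n‖ * Nr n ^ A ≤ CA A * Nr k ^ e * (Λ / Nr k) ^ (1 + A)
  pt : ∀ n, Prim n → ‖G n‖ ≤ M * Nr n ^ e
  dec : ∃ K₀ : ℝ, ∀ n, Prim n → ‖G n‖ ≤ K₀ * Nr n ^ (-2 : ℝ)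
  child : ∀ (k c d : O) (u : ℝ), Prim k → Adm Q d → IsCoprime d t →
    NS (R / (K * Nr d ^ 2)) (rowF (fun n => s4_ga G k c n * (sig n d * chi n (d ^ 2)) *
      (Nr n : ℂ) ^ (((2 * e - 1 : ℝ) : ℂ) + u * I))) ≤
      Y * (1 + |u|) ^ C₁ * Nr k ^ (1 - 4 * e) / Nr d

theorem s4_pr_mul (m m' : O3) : s4_pr (m * m') = s4_pr m * s4_pr m' := by
  simp only [s4_pr, Prod.fst_mul, Prod.snd_mul]; ring

theorem s4_P.mul {m m' : O3} (h : s4_P m) (h' : s4_P m') : s4_P (m * m') :=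
  ⟨h.1.mul h'.1, h.2.1.mul h'.2.1, h.2.2.mul h'.2.2⟩

theorem s4_P.of_mul {m m' : O3} (h : s4_P m) (h' : s4_P (m * m')) : s4_P m' :=
  ⟨h.1.of_mul h'.1, h.2.1.of_mul h'.2.1, h.2.2.of_mul h'.2.2⟩

theorem s4_P.pr {m : O3} (h : s4_P m) : Prim (s4_pr m) := (h.1.mul h.2.1).mul h.2.2

theorem s4_mem_dv {n : O} (hn : n ≠ 0) {m : O3} : m ∈ s4_dv n ↔ s4_P m ∧ s4_pr m = n := by
  simp only [s4_dv, Finset.mem_filter, Finset.mem_product, mem_pdiv hn, s4_P]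
  constructor
  · rintro ⟨⟨h1, h2, h3⟩, h⟩
    exact ⟨⟨h1.1, h2.1, h3.1⟩, h⟩
  · rintro ⟨⟨h1, h2, h3⟩, rfl⟩
    exact ⟨⟨⟨h1, (dvd_mul_right _ _).mul_right _⟩, ⟨h2, (dvd_mul_left _ _).mul_right _⟩,
      ⟨h3, dvd_mul_left _ _⟩⟩, rfl⟩

theorem s4_mem_D {m f : O3} (hm : s4_P m) : f ∈ s4_D m ↔ s4_P f ∧ f ∣ m := by
  simp only [s4_D, Finset.mem_product, mem_pdiv hm.1.ne_zero, mem_pdiv hm.2.1.ne_zero,
    mem_pdiv hm.2.2.ne_zero, s4_P, prod_dvd_iff]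
  tauto

theorem s4_card_dv {ε : ℝ} (hε : 0 < ε) :
    ∃ C : ℝ, 0 ≤ C ∧ ∀ n : O, n ≠ 0 → ((s4_dv n).card : ℝ) ≤ C * Nr n ^ ε := by
  obtain ⟨C, hC⟩ := card_pdiv_le (ε := ε / 3) (by positivity)
  refine ⟨|C| ^ 3, by positivity, fun n hn => ?_⟩
  have h := (hC n hn).trans (mul_le_mul_of_nonneg_right (le_abs_self C)
    (Real.rpow_nonneg (Nr_nonneg n) _))
  have h1 : ((s4_dv n).card : ℝ) ≤ ((pdiv n).card : ℝ) ^ 3 := by
    have := Finset.card_filter_le (pdiv n ×ˢ pdiv n ×ˢ pdiv n) (fun m => s4_pr m = n)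
    rw [Finset.card_product, Finset.card_product] at this
    have h2 : (s4_dv n).card ≤ (pdiv n).card ^ 3 := this.trans (le_of_eq (by ring))
    exact_mod_cast h2
  refine h1.trans ((pow_le_pow_left₀ (Nat.cast_nonneg _) h 3).trans (le_of_eq ?_))
  rw [mul_pow, ← Real.rpow_natCast (Nr n ^ (ε / 3)), ← Real.rpow_mul (Nr_nonneg n)]
  norm_num

/-- Regrouping along finite fibres. -/
theorem s4_fib {X Y E : Type} [NormedAddCommGroup E] [CompleteSpace E] {F : X → E}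
    (hF : Summable F) (π : X → Y) (S : Y → Finset X) (h1 : ∀ y, ∀ x ∈ S y, π x = y)
    (h2 : ∀ x, F x ≠ 0 → x ∈ S (π x)) : HasSum (fun y => ∑ x ∈ S y, F x) (∑' x, F x) := by
  classical
  convert hF.hasSum.tsum_fiberwise π using 2 with y
  rw [tsum_subtype (π ⁻¹' {y}) F, tsum_eq_sum (s := S y)]
  · refine Finset.sum_congr rfl fun x hx => ?_
    rw [Set.indicator_of_mem (show x ∈ π ⁻¹' {y} from h1 y x hx)]
  · intro x hx
    by_contra h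
    have h3 := Set.mem_of_indicator_ne_zero h
    have h4 : F x ≠ 0 := fun h0 => h (by rw [Set.indicator_of_mem h3, h0])
    exact hx ((show π x = y from h3) ▸ h2 x h4)

/-- Minkowski's inequality for series. -/
theorem s4_mink {ι : Type} {R : ℝ} {F : O → ℂ} {f : ι → O → ℂ} {b : ι → ℝ}
    (hs : ∀ r ∈ box R, HasSum (fun i => f i r) (F r)) (hb : Summable b) (hb0 : ∀ i, 0 ≤ b i)
    (h : ∀ i, NS R (f i) ≤ b i ^ 2) : NS R F ≤ (∑' i, b i) ^ 2 := by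
  have h0 := l4_nonneg R F
  have h1 : HasSum (fun i => ∑ r ∈ box R, conj (F r) * f i r) (∑ r ∈ box R, conj (F r) * F r) :=
    hasSum_sum fun r hr => (hs r hr).mul_left _
  have h2 : ‖∑ r ∈ box R, conj (F r) * F r‖ = NS R F := by
    have : ∑ r ∈ box R, conj (F r) * F r = (NS R F : ℂ) := by
      rw [NS, Complex.ofReal_sum]
      refine Finset.sum_congr rfl fun r _ => ?_
      rw [Complex.conj_mul', Complex.ofReal_pow]
    rw [this, Complex.norm_real, Real.norm_of_nonneg h0]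
  have h3 : ∀ i, ‖∑ r ∈ box R, conj (F r) * f i r‖ ≤ Real.sqrt (NS R F) * b i := fun i => by
    refine (norm_sum_le _ _).trans ?_
    simp only [norm_mul, RCLike.norm_conj]
    refine (Real.sum_mul_le_sqrt_mul_sqrt _ _ _).trans ?_
    exact mul_le_mul_of_nonneg_left (Real.sqrt_le_iff.2 ⟨hb0 i, h i⟩) (Real.sqrt_nonneg _)
  have h4 := h1.norm_le_of_bounded (hb.hasSum.mul_left (Real.sqrt (NS R F))) h3
  rw [h2] at h4
  have h5 : 0 ≤ ∑' i, b i := tsum_nonneg hb0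
  have h6 := Real.mul_self_sqrt h0
  have h7 := Real.sqrt_nonneg (NS R F)
  nlinarith [sq_nonneg (Real.sqrt (NS R F) - ∑' i, b i)]

/-- Minkowski's inequality for finite sums. -/
theorem s4_mink' {ι : Type} {R : ℝ} (S : Finset ι) {f : ι → O → ℂ} {b : ι → ℝ}
    (hb0 : ∀ i ∈ S, 0 ≤ b i) (h : ∀ i ∈ S, NS R (f i) ≤ b i ^ 2) :
    NS R (fun r => ∑ i ∈ S, f i r) ≤ (∑ i ∈ S, b i) ^ 2 := by
  have := s4_mink (ι := S) (R := R) (F := fun r => ∑ i ∈ S, f i r) (f := fun i => f i)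
    (b := fun i => b i) (fun r _ => S.hasSum fun i => f i r) (S.summable b)
    (fun i => hb0 i i.2) (fun i => h i i.2)
  rwa [Finset.tsum_subtype S b] at this

theorem s4_NS_mul (R : ℝ) (z : ℂ) (f : O → ℂ) : NS R (fun r => z * f r) = ‖z‖ ^ 2 * NS R f := by
  simp only [NS, norm_mul, mul_pow, Finset.mul_sum]

theorem s4_NS_le {R : ℝ} {f g : O → ℂ} (h : ∀ r ∈ box R, ‖f r‖ ≤ ‖g r‖) : NS R f ≤ NS R g :=
  Finset.sum_le_sum fun r hr => pow_le_pow_left₀ (norm_nonneg _) (h r hr) 2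

open Classical in
/-- The slices are stable under dilation. -/
theorem s4_ga_shift (G : O → ℂ) (k c : O) {d : O} (hd : Prim d) (h2 : ¬ (2 : O) ∣ d) :
    ∃ c' : O, ∀ n, s4_ga G k c (d * n) =
      if Squarefree d ∧ IsCoprime d k then s4_ga G (k * d) c' n else 0 := by
  have h4 : IsCoprime d 4 := by
    have : IsCoprime d 2 := ((prime_two.irreducible.coprime_iff_not_dvd).2 h2).symm
    simpa [show (2 : O) ^ 2 = 4 by norm_num] using this.pow_right (n := 2)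
  obtain ⟨u, v, huv⟩ := h4
  refine ⟨u * c, fun n => ?_⟩
  have e4 : (4 : O) ∣ d * n - c ↔ (4 : O) ∣ n - u * c := by
    constructor
    · rintro ⟨w, hw⟩
      exact ⟨u * w + v * n, by linear_combination u * hw - n * huv⟩
    · rintro ⟨w, hw⟩
      exact ⟨d * w - v * c, by linear_combination d * hw + c * huv⟩
  have e1 : Prim (d * n) ↔ Prim n := ⟨hd.of_mul, hd.mul⟩
  unfold s4_ga
  simp only [e4, e1, squarefree_mul_iff, isRelPrime_iff_isCoprime, IsCoprime.mul_left_iff,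
    IsCoprime.mul_right_iff, isCoprime_comm (x := n) (y := d), mul_assoc]
  split_ifs <;> tauto

end Crest.Agent.R017

end
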