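import Crest.Agent.R017.Arith3
import Crest.Agent.Lib.PNT.Basic

/-! # Row 17: multiplicative arithmetic in `O` -/

set_option autoImplicit false

noncomputable section

open scoped BigOperators ComplexConjugate
open Complex

namespace Crest.Agent.R017

theorem a4_mm {p a b : O} (hp : Prime p) (ha : a ≠ 0) (hb : b ≠ 0) :
    multiplicity p (a * b) = multiplicity p a + multiplicity p b :=
  multiplicity_mul hp (FiniteMultiplicity.of_prime_left hp (mul_ne_zero ha hb))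

theorem a4_mp {p a : O} (hp : Prime p) (ha : a ≠ 0) (k : ℕ) :
    multiplicity p (a ^ k) = k * multiplicity p a :=
  (FiniteMultiplicity.of_prime_left hp ha).multiplicity_pow hp

theorem a4_dvd {a b : O} (ha : a ≠ 0) (hb : b ≠ 0)
    (h : ∀ p : O, Prime p → multiplicity p a ≤ multiplicity p b) : a ∣ b := by
  rw [UniqueFactorizationMonoid.dvd_iff_emultiplicity_le ha]
  intro p hp
  rw [(FiniteMultiplicity.of_prime_left hp ha).emultiplicity_eq_multiplicity,
    (FiniteMultiplicity.of_prime_left hp hb).emultiplicity_eq_multiplicity]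
  exact_mod_cast h p hp

theorem a4_sqf {p d : O} (hp : Prime p) (hd : Squarefree d) : multiplicity p d ≤ 1 := by
  by_contra h
  have h2 : p ^ 2 ∣ d := pow_dvd_of_le_multiplicity (by omega)
  exact hp.not_isUnit (hd p (by rwa [sq] at h2))

theorem a4_nm_lt {p x : O} (hp : Prime p) (hx : x ≠ 0) {k : ℕ} (hk : k ≠ 0) :
    nm x < nm (p ^ k * x) := by
  have h3 := three_le_Nr_prime hp
  have h1 : (1 : ℝ) < Nr p ^ k := one_lt_pow₀ (by linarith) hk
  have hx0 := Nr_pos hx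
  have : Nr x < Nr (p ^ k * x) := by
    rw [Nr_mul, Nr_pow]; nlinarith
  unfold Nr at this
  exact_mod_cast this

theorem a4_rad_dvd {Q w : O} (hQ : Q ≠ 0) (hw : w ≠ 0) (h : ∀ p : O, Prime p → p ∣ w → p ∣ Q) :
    rad w ∣ Q := by
  refine a4_dvd (rad_ne_zero w) hQ fun p hp => ?_
  by_cases hd : p ∣ rad w
  · have := multiplicity_pos_of_dvd (h p hp ((prime_dvd_rad hw hp).1 hd))
    have := a4_sqf hp (squarefree_rad w)
    omega
  · rw [multiplicity_eq_zero.2 hd]; exact Nat.zero_le _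

/-- An element that is a sixth power away from `Q` is `Q`-smooth times a sixth power. -/
theorem a4_six {Q : O} : ∀ (n : ℕ) (x : O), nm x = n → x ≠ 0 →
    (∀ p : O, Prime p → ¬ p ∣ Q → (6 : ℕ) ∣ multiplicity p x) →
    ∃ w k : O, w ≠ 0 ∧ k ≠ 0 ∧ (∀ p : O, Prime p → p ∣ w → p ∣ Q) ∧ x = w * k ^ 6 := by
  intro n
  induction n using Nat.strong_induction_on with
  | _ n ih =>
    intro x hn hx h
    by_cases hs : ∀ p : O, Prime p → p ∣ x → p ∣ Q
    · exact ⟨x, 1, hx, one_ne_zero, hs, by ring⟩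
    · push Not at hs
      obtain ⟨p, hp, hpx, hpQ⟩ := hs
      have h6 : 6 ≤ multiplicity p x :=
        Nat.le_of_dvd (multiplicity_pos_of_dvd hpx) (h p hp hpQ)
      obtain ⟨y, rfl⟩ : p ^ 6 ∣ x := pow_dvd_of_le_multiplicity h6
      have hy : y ≠ 0 := right_ne_zero_of_mul hx
      obtain ⟨w, k, hw, hk, hsm, e⟩ := ih (nm y) (hn ▸ a4_nm_lt hp hy (by norm_num)) y rfl hy
        (fun q hq hqQ => by
          have := h q hq hqQ
          rw [a4_mm hq (pow_ne_zero _ hp.ne_zero) hy, a4_mp hq hp.ne_zero] at this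
          omega)
      exact ⟨w, p * k, hw, mul_ne_zero hp.ne_zero hk, hsm, by rw [e]; ring⟩

/-- A minimal exceptional row divides every exceptional row. -/
theorem a4_min {Q T : O} (hQ : Q ≠ 0) (hT : T ≠ 0) (hex : ∃ r : O, r ≠ 0 ∧ Exc Q T r) :
    ∃ r₀ : O, r₀ ≠ 0 ∧ Exc Q T r₀ ∧ ∀ r : O, r ≠ 0 → Exc Q T r →
      ∃ w k : O, w ≠ 0 ∧ k ≠ 0 ∧ rad w ∣ Q ∧ r = r₀ * w * k ^ 6 := by
  classical
  have hex' : ∃ n : ℕ, ∃ r : O, r ≠ 0 ∧ Exc Q T r ∧ nm r = n := by
    obtain ⟨r, h1, h2⟩ := hex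
    exact ⟨_, r, h1, h2, rfl⟩
  obtain ⟨r₀, h0, hE, hn⟩ := Nat.find_spec hex'
  have hmin : ∀ r : O, r ≠ 0 → Exc Q T r → nm r₀ ≤ nm r := fun r h1 h2 => by
    rw [hn]; exact Nat.find_min' hex' ⟨r, h1, h2, rfl⟩
  refine ⟨r₀, h0, hE, fun r hr hEr => ?_⟩
  have hdvd : r₀ ∣ r := by
    refine a4_dvd h0 hr fun p hp => ?_
    by_cases hpQ : p ∣ Q
    · have : ¬ p ∣ r₀ := by
        rintro ⟨y, rfl⟩
        have hy : y ≠ 0 := right_ne_zero_of_mul h0
        have h1 : Exc Q T y := fun q hq hqQ => by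
          have := hE q hq hqQ
          have hqp : ¬ q ∣ p := fun hqp => hqQ (hqp.trans hpQ)
          rw [mul_assoc, a4_mm hq hp.ne_zero (mul_ne_zero hy hT),
            multiplicity_eq_zero.2 hqp, zero_add] at this
          exact this
        have h2 := hmin y hy h1
        have h3 := a4_nm_lt hp hy one_ne_zero
        rw [pow_one] at h3
        omega
      rw [multiplicity_eq_zero.2 this]; exact Nat.zero_le _
    · have h6 : multiplicity p r₀ < 6 := by
        by_contra h6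
        obtain ⟨y, rfl⟩ : p ^ 6 ∣ r₀ := pow_dvd_of_le_multiplicity (by omega)
        have hy : y ≠ 0 := right_ne_zero_of_mul h0
        have h1 : Exc Q T y := fun q hq hqQ => by
          have := hE q hq hqQ
          rw [mul_assoc, a4_mm hq (pow_ne_zero _ hp.ne_zero) (mul_ne_zero hy hT),
            a4_mp hq hp.ne_zero] at this
          omega
        have h2 := hmin y hy h1
        have h3 := a4_nm_lt hp hy (k := 6) (by norm_num)
        omega
      have a := hE p hp hpQ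
      have b := hEr p hp hpQ
      rw [a4_mm hp h0 hT] at a
      rw [a4_mm hp hr hT] at b
      omega
  obtain ⟨x, rfl⟩ := hdvd
  have hx : x ≠ 0 := right_ne_zero_of_mul hr
  obtain ⟨w, k, hw, hk, hsm, e⟩ := a4_six (Q := Q) _ x rfl hx (fun p hp hpQ => by
    have a := hE p hp hpQ
    have b := hEr p hp hpQ
    rw [a4_mm hp h0 hT] at a
    rw [a4_mm hp hr hT, a4_mm hp h0 hx] at b
    omega)
  exact ⟨w, k, hw, hk, a4_rad_dvd hQ hw hsm, by rw [e]; ring⟩

theorem a4_four {Q t d r : O} (ht : t ≠ 0) (hd : d ≠ 0) (hs : Squarefree d)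
    (hc : IsCoprime d (Q * t)) (hr : r ≠ 0) (hE : Exc Q (t * d ^ 2) r) : d ^ 4 ∣ r := by
  refine a4_dvd (pow_ne_zero _ hd) hr fun p hp => ?_
  rw [a4_mp hp hd]
  by_cases hpd : p ∣ d
  · have hn : ¬ p ∣ Q * t := fun h => hp.not_isUnit (hc.isUnit_of_dvd' hpd h)
    have h1 := a4_sqf hp hs
    have h2 := multiplicity_pos_of_dvd hpd
    have h3 := hE p hp fun h => hn (h.mul_right _)
    have h4 : multiplicity p t = 0 := multiplicity_eq_zero.2 fun h => hn (h.mul_left _)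
    rw [a4_mm hp hr (mul_ne_zero ht (pow_ne_zero _ hd)), a4_mm hp ht (pow_ne_zero _ hd),
      a4_mp hp hd, h4] at h3
    omega
  · rw [multiplicity_eq_zero.2 hpd]; exact Nat.zero_le _

open Classical in
/-- Counting exceptional rows, with the saving from a new twist `d²`. -/
theorem card_exc_le {Q : O} (hQ : Q ≠ 0) {ε : ℝ} (hε : 0 < ε) :
    ∃ C : ℝ, ∀ (t d : O) (Y : ℝ), t ≠ 0 → d ≠ 0 → Squarefree d → IsCoprime d (Q * t) → 1 ≤ Y →
      (((box Y).filter (fun r => Exc Q (t * d ^ 2) r)).card : ℝ) ≤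
        C * Y ^ ε * (Y / Nr d ^ 4) ^ (1 / 6 : ℝ) := by
  obtain ⟨C₀, hC₀⟩ := smooth_sum_le (ε := 1) (σ := 1 / 6) one_pos (by norm_num)
  set C₁ : ℝ := C₀ * Nr Q ^ (1 : ℝ) with hC₁
  have hC₁0 : 0 ≤ C₁ := le_trans (by simp) (hC₀ Q hQ ∅ (by simp))
  refine ⟨25 * C₁, fun t d Y ht hd hs hc hY => ?_⟩
  have hY0 : 0 < Y := by linarith
  have hd0 := Nr_pos hd
  have hYε : 1 ≤ Y ^ ε := Real.one_le_rpow hY hε.le
  have hZ0 : 0 ≤ (Y / Nr d ^ 4) ^ (1 / 6 : ℝ) := by positivity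
  by_cases hex : ∃ r : O, r ≠ 0 ∧ Exc Q (t * d ^ 2) r
  swap
  · rw [Finset.filter_eq_empty_iff.2 fun r hr h => hex ⟨r, (mem_box.1 hr).1, h⟩]
    simp only [Finset.card_empty, Nat.cast_zero]
    positivity
  obtain ⟨r₀, h0, hE, hall⟩ := a4_min hQ (mul_ne_zero ht (pow_ne_zero _ hd)) hex
  have hN : Nr d ^ 4 ≤ Nr r₀ := by
    rw [← Nr_pow]; exact Nr_le_of_dvd h0 (a4_four ht hd hs hc h0 hE)
  have hr1 := one_le_Nr h0
  set W : Finset O := (box Y).filter (fun w => rad w ∣ Q) with hW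
  set Z : O → ℝ := fun w => (Y / Nr d ^ 4) ^ (1 / 6 : ℝ) * Nr w ^ (-(1 / 6 : ℝ)) with hZ
  have hsub : (box Y).filter (fun r => Exc Q (t * d ^ 2) r) ⊆
      W.biUnion (fun w => (box (Z w)).image (fun k => r₀ * w * k ^ 6)) := by
    intro r hr
    obtain ⟨hr1', hr2⟩ := Finset.mem_filter.1 hr
    obtain ⟨hr0, hrY⟩ := mem_box.1 hr1'
    obtain ⟨w, k, hw, hk, hrad, rfl⟩ := hall r hr0 hr2
    have hw0 := Nr_pos hw
    have hk1 := one_le_Nr hk
    rw [Nr_mul, Nr_mul, Nr_pow] at hrY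
    have hk6 : 1 ≤ Nr k ^ 6 := one_le_pow₀ hk1
    refine Finset.mem_biUnion.2 ⟨w, Finset.mem_filter.2 ⟨mem_box.2 ⟨hw, ?_⟩, hrad⟩,
      Finset.mem_image.2 ⟨k, mem_box.2 ⟨hk, ?_⟩, rfl⟩⟩
    · have h1 : Nr w ≤ Nr r₀ * Nr w := by nlinarith
      have h2 : Nr r₀ * Nr w ≤ Nr r₀ * Nr w * Nr k ^ 6 := le_mul_of_one_le_right (by positivity) hk6
      linarith
    · have h1 : Nr k ^ 6 ≤ Y / Nr d ^ 4 * (Nr w)⁻¹ := by
        rw [← div_eq_mul_inv, div_div, le_div_iff₀ (by positivity)]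
        have : Nr k ^ 6 * (Nr d ^ 4 * Nr w) ≤ Nr k ^ 6 * (Nr r₀ * Nr w) := by gcongr
        linarith
      have h2 := Real.rpow_le_rpow (by positivity) h1 (show (0 : ℝ) ≤ 1 / 6 by norm_num)
      rw [← Real.rpow_natCast, ← Real.rpow_mul (by positivity), Real.mul_rpow (by positivity)
        (by positivity), Real.inv_rpow hw0.le, ← Real.rpow_neg hw0.le] at h2
      simpa [hZ] using h2
  have h1 : (((box Y).filter (fun r => Exc Q (t * d ^ 2) r)).card : ℝ) ≤
      ∑ w ∈ W, 25 * Z w := by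
    have a := (Finset.card_le_card hsub).trans Finset.card_biUnion_le
    have b : (((box Y).filter (fun r => Exc Q (t * d ^ 2) r)).card : ℝ) ≤
        ∑ w ∈ W, (((box (Z w)).image (fun k => r₀ * w * k ^ 6)).card : ℝ) := by exact_mod_cast a
    refine b.trans (Finset.sum_le_sum fun w _ => ?_)
    have hZw : 0 ≤ Z w := mul_nonneg hZ0 (Real.rpow_nonneg (Nr_nonneg w) _)
    refine le_trans ?_ (card_box_le hZw)
    exact_mod_cast Finset.card_image_le
  have h2 := hC₀ Q hQ W fun w hw =>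
    ⟨(mem_box.1 (Finset.mem_filter.1 hw).1).1, (Finset.mem_filter.1 hw).2⟩
  have h3 : ∑ w ∈ W, 25 * Z w =
      25 * (Y / Nr d ^ 4) ^ (1 / 6 : ℝ) * ∑ w ∈ W, Nr w ^ (-(1 / 6 : ℝ)) := by
    rw [Finset.mul_sum]
    exact Finset.sum_congr rfl fun w _ => by simp only [hZ]; ring
  rw [h3] at h1
  calc _ ≤ _ := h1
    _ ≤ 25 * (Y / Nr d ^ 4) ^ (1 / 6 : ℝ) * C₁ := by gcongr
    _ = 25 * C₁ * 1 * (Y / Nr d ^ 4) ^ (1 / 6 : ℝ) := by ring
    _ ≤ _ := by gcongr

open Finset in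
/-- Rational primes `≡ 1 mod 3` in dyadic intervals. -/
theorem a4_primes_count : ∃ H₀ : ℕ, ∀ H : ℕ, H₀ ≤ H → (H : ℝ) ≤ 4 * Real.log H *
    ((Finset.Ioc H (2 * H)).filter (fun p => p.Prime ∧ p % 3 = 1)).card := by
  classical
  open Filter Topology ArithmeticFunction ArithmeticFunction.vonMangoldt in
  have h2 : Tendsto (fun n : ℕ => ((2 * n : ℕ) : ℝ)) atTop atTop :=
    tendsto_natCast_atTop_atTop.comp (tendsto_id.const_mul_atTop' two_pos)
  have hF := Lib.PNT.tendsto_residueClass_div (q := 3) (a := 1) isUnit_one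
  have ht : ((Nat.totient 3 : ℕ) : ℝ)⁻¹ = 1 / 2 := by
    rw [show Nat.totient 3 = 2 by decide]; norm_num
  rw [ht] at hF
  have lim := (((hF.comp h2).const_mul 2).sub (hF.comp tendsto_natCast_atTop_atTop)).sub
    (((Lib.PNT.tendsto_psi_div.comp h2).sub (Lib.PNT.tendsto_theta_div.comp h2)).const_mul 2)
  have ev := lim.eventually (lt_mem_nhds (show (2 / 5 : ℝ) < 2 * (1 / 2) - 1 / 2 - 2 * (1 - 1) by
    norm_num))
  obtain ⟨H₀, hH₀⟩ := Filter.eventually_atTop.1 (ev.and (Filter.eventually_ge_atTop 4))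
  refine ⟨H₀, fun H hH => ?_⟩
  obtain ⟨h, h4⟩ := hH₀ H hH
  simp only [Function.comp, Nat.floor_natCast] at h
  have hH4 : (4 : ℝ) ≤ H := by exact_mod_cast h4
  have hH0 : (0 : ℝ) < H := by linarith
  set F : ℕ → ℝ := fun k => ArithmeticFunction.vonMangoldt.residueClass (1 : ZMod 3) k with hFdef
  have hsplit : ∑ k ∈ Icc 1 (2 * H), F k = ∑ k ∈ Icc 1 H, F k + ∑ k ∈ Ioc H (2 * H), F k := by
    have e : ∀ n, Icc 1 n = Ioc 0 n := fun n => rfl
    rw [e, e, sum_Ioc_consecutive _ (Nat.zero_le _) (by omega)]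
  have hnp := Chebyshev.psi_sub_theta_eq_sum_not_prime ((2 * H : ℕ) : ℝ)
  rw [Nat.floor_natCast] at hnp
  have hle : ∑ k ∈ Ioc H (2 * H), F k ≤
      ((Finset.Ioc H (2 * H)).filter (fun p => p.Prime ∧ p % 3 = 1)).card * Real.log (2 * H) +
        ∑ n ∈ Ioc 0 (2 * H) with ¬n.Prime, ArithmeticFunction.vonMangoldt n := by
    rw [← sum_filter_add_sum_filter_not (Ioc H (2 * H)) Nat.Prime]
    refine add_le_add ?_ ?_
    · rw [← nsmul_eq_mul, ← sum_const, sum_filter, sum_filter]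
      refine sum_le_sum fun k hk => ?_
      by_cases hp : k.Prime
      · by_cases h1 : k % 3 = 1
        · rw [if_pos hp, if_pos ⟨hp, h1⟩]
          refine (ArithmeticFunction.vonMangoldt.residueClass_le _ _).trans ?_
          rw [ArithmeticFunction.vonMangoldt_apply_prime hp]
          refine Real.log_le_log (by exact_mod_cast hp.pos) ?_
          exact_mod_cast (mem_Ioc.1 hk).2
        · rw [if_pos hp, if_neg fun h => h1 h.2]
          refine le_of_eq (Set.indicator_of_notMem (fun h => h1 ?_) _)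
          exact (ZMod.natCast_eq_natCast_iff' k 1 3).1 (by simpa using h)
      · rw [if_neg hp, if_neg fun h => hp h.1]
    · refine (sum_le_sum fun k _ => ArithmeticFunction.vonMangoldt.residueClass_le _ k).trans ?_
      exact sum_le_sum_of_subset_of_nonneg
        (filter_subset_filter _ (Ioc_subset_Ioc_left (Nat.zero_le _)))
        fun _ _ _ => ArithmeticFunction.vonMangoldt_nonneg
  have hlog : Real.log (2 * H) ≤ 3 / 2 * Real.log H := by
    rw [Real.log_mul (by norm_num) hH0.ne']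
    have : Real.log 4 ≤ Real.log H := Real.log_le_log (by norm_num) hH4
    rw [show (4 : ℝ) = 2 ^ 2 by norm_num, Real.log_pow] at this
    push_cast at this
    linarith
  have hl0 : 0 ≤ Real.log H := Real.log_nonneg (by linarith)
  rw [← hnp] at hle
  rw [hsplit] at h
  generalize (((Finset.Ioc H (2 * H)).filter (fun p => p.Prime ∧ p % 3 = 1)).card) = N at hle ⊢
  have hN : (0 : ℝ) ≤ N := Nat.cast_nonneg N
  generalize Chebyshev.psi _ = a at h hle
  generalize Chebyshev.theta _ = b at h hle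
  push_cast at h
  have e : 2 * ((∑ k ∈ Icc 1 H, F k + ∑ k ∈ Ioc H (2 * H), F k) / (2 * H)) -
      (∑ k ∈ Icc 1 H, F k) / H - 2 * (a / (2 * H) - b / (2 * H)) =
      (∑ k ∈ Ioc H (2 * H), F k - (a - b)) / H := by field_simp; ring
  rw [e, lt_div_iff₀ hH0] at h
  have := mul_le_mul_of_nonneg_left hlog hN
  have := mul_nonneg hN hl0
  nlinarith

theorem a4_nm_unit {x : O} : IsUnit x ↔ nm x = 1 := by
  rw [isUnit_iff_Nr, Nr]; exact Nat.cast_eq_one

theorem a4_prime_of_nm {x : O} (h : (nm x).Prime) : Prime x := by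
  rw [← irreducible_iff_prime]
  refine ⟨fun hu => h.one_lt.ne' (a4_nm_unit.1 hu), fun a b e => ?_⟩
  rw [e, nm_mul] at h
  rcases (Nat.prime_mul_iff.1 h) with ⟨-, h1⟩ | ⟨-, h1⟩
  · exact Or.inr (a4_nm_unit.2 h1)
  · exact Or.inl (a4_nm_unit.2 h1)

/-- Primes `≡ 1 mod 3` split in `O`. -/
theorem a4_split {l : ℕ} (hl : l.Prime) (h1 : l % 3 = 1) :
    ∃ p : O, Prime p ∧ Prim p ∧ nm p = l := by
  have := Fact.mk hl
  have hcard : 3 ∣ Fintype.card (ZMod l)ˣ := by
    rw [ZMod.card_units]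
    have := hl.two_le
    omega
  have : Fact (Nat.Prime 3) := ⟨by norm_num⟩
  obtain ⟨u, hu⟩ := exists_prime_orderOf_dvd_card 3 hcard
  have hu3 : (u : ZMod l) ^ 3 = 1 := by
    have := pow_orderOf_eq_one u
    rw [hu] at this
    rw [← Units.val_pow_eq_pow_val, this, Units.val_one]
  have hu1 : (u : ZMod l) ≠ 1 := fun h => by
    have : u = 1 := Units.ext h
    rw [this, orderOf_one] at hu
    omega
  have hq : (u : ZMod l) ^ 2 + u + 1 = 0 := by
    have : ((u : ZMod l) - 1) * ((u : ZMod l) ^ 2 + u + 1) = 0 := by linear_combination hu3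
    exact (mul_eq_zero.1 this).resolve_left (sub_ne_zero.2 hu1)
  obtain ⟨a, ha⟩ := ZMod.intCast_surjective (u : ZMod l)
  have hdv : (l : ℤ) ∣ a ^ 2 + a + 1 := by
    rw [← ZMod.intCast_zmod_eq_zero_iff_dvd]
    push_cast
    rw [ha, hq]
  have hnp : ¬ Prime (l : O) := by
    intro hp
    set x : O := ⟨a, -1⟩ with hx
    have hx1 : nz x = a ^ 2 + a + 1 := by simp [hx, nz]
    have h2 : (l : O) ∣ x * star x := by
      rw [mul_star_self, hx1]
      obtain ⟨c, hc⟩ := hdv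
      exact ⟨(c : O), by rw [hc]; push_cast; ring⟩
    have key : ∀ y : O, (l : O) ∣ y → (l : ℤ) ∣ y.im := by
      rintro y ⟨z, rfl⟩
      refine ⟨z.im, ?_⟩
      simp [QuadraticAlgebra.im_mul, QuadraticAlgebra.re_natCast, QuadraticAlgebra.im_natCast]
    have hl1 : ¬ (l : ℤ) ∣ 1 := fun h => by
      have : l ∣ 1 := by exact_mod_cast h
      exact hl.one_lt.ne' (Nat.dvd_one.1 this)
    rcases hp.dvd_or_dvd h2 with h | h
    · have := key _ h
      simp only [hx] at this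
      exact hl1 (dvd_neg.1 this)
    · have := key _ h
      simp only [hx, QuadraticAlgebra.im_star, neg_neg] at this
      exact hl1 this
  have hnm : nm (l : O) = l ^ 2 := by
    have := Nr_natCast l
    unfold Nr at this
    exact_mod_cast this
  have hnu : ¬ IsUnit (l : O) := fun h => by
    rw [a4_nm_unit, hnm] at h
    have := hl.one_lt
    nlinarith
  rw [← irreducible_iff_prime, irreducible_iff, not_and_or] at hnp
  have hnp := hnp.resolve_left (not_not.2 hnu)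
  push Not at hnp
  obtain ⟨b, c, e, hb, hc⟩ := hnp
  have hbc : nm b * nm c = l ^ 2 := by rw [← nm_mul, ← e, hnm]
  have hb1 : nm b = l :=
    ((Nat.Prime.mul_eq_prime_sq_iff hl (fun h => hb (a4_nm_unit.2 h))
      (fun h => hc (a4_nm_unit.2 h))).1 hbc).1
  have hlam : ¬ lam ∣ b := by
    rintro ⟨z, rfl⟩
    rw [nm_mul] at hb1
    have : nm lam = 3 := by
      have := Nr_lam
      unfold Nr at this
      exact_mod_cast this
    rw [this] at hb1
    omega
  obtain ⟨v, hv, hP⟩ := exists_prim hlam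
  have hn : nm (v * b) = l := by rw [nm_mul, a4_nm_unit.1 hv, one_mul, hb1]
  exact ⟨v * b, a4_prime_of_nm (hn ▸ hl), hP, hn⟩

open Classical in
/-- Many primes: at least `Y^{1-ε}` admissible primes of norm in `(Y/2, Y]`... weighted crudely. -/
theorem card_primes_ge {Q : O} (hQ : Q ≠ 0) {ε : ℝ} (hε : 0 < ε) :
    ∃ Y₀ : ℝ, ∀ Y : ℝ, Y₀ ≤ Y →
      Y ^ (1 - ε) ≤ (((box Y).filter (fun p => Prime p ∧ Prim p ∧ IsCoprime p Q ∧ Y / 2 < Nr p)).card : ℝ) := by
  obtain ⟨H₀, hH₀⟩ := a4_primes_count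
  have ev := (isLittleO_log_rpow_atTop hε).def (show (0 : ℝ) < 1 / 16 by norm_num)
  obtain ⟨Y₁, hY₁⟩ := Filter.eventually_atTop.1 ev
  refine ⟨max Y₁ (max (2 * H₀ + 4) (2 * Nr Q)), fun Y hY => ?_⟩
  have hY1 : Y₁ ≤ Y := (le_max_left _ _).trans hY
  have hY2 : 2 * (H₀ : ℝ) + 4 ≤ Y := ((le_max_left _ _).trans (le_max_right _ _)).trans hY
  have hY3 : 2 * Nr Q ≤ Y := ((le_max_right _ _).trans (le_max_right _ _)).trans hY
  have hH00 : (0 : ℝ) ≤ H₀ := Nat.cast_nonneg _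
  have hY0 : 0 < Y := by linarith
  set H := ⌊Y / 2⌋₊ with hH
  have hHle : (H : ℝ) ≤ Y / 2 := Nat.floor_le (by positivity)
  have hHlt : Y / 2 < H + 1 := Nat.lt_floor_add_one _
  have hH0 : H₀ ≤ H := Nat.le_floor (by linarith)
  have hc := hH₀ H hH0
  set P := (Finset.Ioc H (2 * H)).filter (fun p => p.Prime ∧ p % 3 = 1) with hP
  have hle : P.card ≤
      ((box Y).filter (fun p => Prime p ∧ Prim p ∧ IsCoprime p Q ∧ Y / 2 < Nr p)).card := by
    refine le_trans (Finset.card_le_card (t := ((box Y).filter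
      (fun p => Prime p ∧ Prim p ∧ IsCoprime p Q ∧ Y / 2 < Nr p)).image nm) fun l hl => ?_)
      Finset.card_image_le
    obtain ⟨hl1, hl2, hl3⟩ := Finset.mem_filter.1 hl
    obtain ⟨hl4, hl5⟩ := Finset.mem_Ioc.1 hl1
    obtain ⟨p, hp, hpr, hn⟩ := a4_split hl2 hl3
    have hNr : Nr p = l := by rw [Nr, hn]
    have h4 : (H : ℝ) + 1 ≤ l := by exact_mod_cast hl4
    have h5 : (l : ℝ) ≤ 2 * H := by exact_mod_cast hl5
    refine Finset.mem_image.2 ⟨p, Finset.mem_filter.2 ⟨mem_box.2 ⟨hp.ne_zero, by linarith⟩,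
      hp, hpr, ?_, by linarith⟩, hn⟩
    rw [hp.irreducible.coprime_iff_not_dvd]
    intro h
    have := Nr_le_of_dvd hQ h
    linarith
  have hle' : (P.card : ℝ) ≤ _ := Nat.cast_le.2 hle
  refine le_trans ?_ hle'
  have hl := hY₁ Y hY1
  have hlY : 0 ≤ Real.log Y := Real.log_nonneg (by linarith)
  have hYε : 0 < Y ^ ε := Real.rpow_pos_of_pos hY0 _
  rw [Real.norm_eq_abs, Real.norm_eq_abs, abs_of_nonneg hlY, abs_of_pos hYε] at hl
  have hlH : Real.log H ≤ Real.log Y := Real.log_le_log (by linarith) (by linarith)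
  have hN : (0 : ℝ) ≤ P.card := Nat.cast_nonneg _
  rw [Real.rpow_sub hY0, Real.rpow_one, div_le_iff₀ hYε]
  have h6 : 4 * Real.log H * P.card ≤ 4 * (1 / 16 * Y ^ ε) * P.card := by gcongr; linarith
  nlinarith

end Crest.Agent.R017

end
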