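import Crest.Agent.R017.LFun1

/-! # Row 17: Hecke L-functions: continuation -/

set_option autoImplicit false

noncomputable section

open scoped BigOperators ComplexConjugate
open Complex MeasureTheory

namespace Crest.Agent.R017

theorem l2_cpow_mul (x y : O) (s : ℂ) :
    (Nr (x * y) : ℂ) ^ s = (Nr x : ℂ) ^ s * (Nr y : ℂ) ^ s := by
  rw [Nr_mul, Complex.ofReal_mul, Complex.mul_cpow_ofReal_nonneg (Nr_nonneg x) (Nr_nonneg y)]

theorem l2_summable {c : O → ℂ} (hc : ∀ n, Prim n → ‖c n‖ ≤ 1) {s : ℂ} (hs : 1 < s.re) :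
    Summable (fun n : O => if Prim n then c n * (Nr n : ℂ) ^ (-s) else 0) :=
  summable_Dser (K := 1) (A := 0) (fun n hn => by simpa using hc n hn) (by simpa using hs)

theorem l2_summable_log {c : O → ℂ} (hc : ∀ n, Prim n → ‖c n‖ ≤ Real.log (Nr n)) {s : ℂ}
    (hs : 1 < s.re) :
    Summable (fun n : O => if Prim n then c n * (Nr n : ℂ) ^ (-s) else 0) := by
  have hA : 0 < (s.re - 1) / 2 := by linarith
  refine summable_Dser (K := ((s.re - 1) / 2)⁻¹) (A := (s.re - 1) / 2) (fun n hn => ?_)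
    (by linarith)
  refine (hc n hn).trans ((Real.log_le_rpow_div (Nr_nonneg n) hA).trans (le_of_eq ?_))
  rw [div_eq_inv_mul]

theorem l2_congr {c c' : O → ℂ} (h : ∀ n, Prim n → c n = c' n) (s : ℂ) : Dser c s = Dser c' s := by
  unfold Dser
  refine tsum_congr fun n => ?_
  split_ifs with hn
  · rw [h n hn]
  · rfl

/-- Dirichlet convolution over primary elements. -/
theorem l2_conv {c c' : O → ℂ} {s : ℂ}
    (hc : Summable (fun n : O => if Prim n then c n * (Nr n : ℂ) ^ (-s) else 0))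
    (hc' : Summable (fun n : O => if Prim n then c' n * (Nr n : ℂ) ^ (-s) else 0)) :
    Dser c s * Dser c' s = Dser (fun n => ∑ d ∈ pdiv n, c d * c' (n / d)) s := by
  classical
  unfold Dser
  rw [tsum_mul_tsum_of_summable_norm hc.norm hc'.norm]
  have hs := (summable_mul_of_summable_norm hc.norm hc'.norm).hasSum.tsum_fiberwise
    (fun z : O × O => z.1 * z.2)
  rw [← hs.tsum_eq]
  refine tsum_congr fun n => ?_
  rw [tsum_subtype ((fun z : O × O => z.1 * z.2) ⁻¹' {n}) (fun z : O × O =>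
    (if Prim z.1 then c z.1 * (Nr z.1 : ℂ) ^ (-s) else 0) *
      (if Prim z.2 then c' z.2 * (Nr z.2 : ℂ) ^ (-s) else 0))]
  by_cases hn : Prim n
  · rw [if_pos hn, tsum_eq_sum (s := (pdiv n).image (fun d => (d, n / d)))]
    · rw [Finset.sum_image (fun a _ b _ h => congrArg Prod.fst h), Finset.sum_mul]
      refine Finset.sum_congr rfl fun d hd => ?_
      obtain ⟨hd1, m, rfl⟩ := (mem_pdiv hn.ne_zero).1 hd
      have hm : Prim m := hd1.of_mul hn
      rw [mul_div_cancel_left₀ m hd1.ne_zero, Set.indicator_of_mem (by simp)]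
      simp only [if_pos hd1, if_pos hm, l2_cpow_mul]
      ring
    · rintro ⟨a, b⟩ hab
      by_cases h1 : a * b = n
      · rw [Set.indicator_of_mem (by simpa using h1)]
        by_cases ha : Prim a
        · exfalso
          refine hab (Finset.mem_image.2 ⟨a, (mem_pdiv hn.ne_zero).2 ⟨ha, b, h1.symm⟩, ?_⟩)
          rw [← h1, mul_div_cancel_left₀ b ha.ne_zero]
        · simp [ha]
      · exact Set.indicator_of_notMem (by simpa using h1) _
  · rw [if_neg hn]
    refine (tsum_congr fun z => ?_).trans tsum_zero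
    by_cases h1 : z.1 * z.2 = n
    · rw [Set.indicator_of_mem (by simpa using h1)]
      by_cases ha : Prim z.1
      · by_cases hb : Prim z.2
        · exact absurd (h1 ▸ ha.mul hb) hn
        · simp [hb]
      · simp [ha]
    · exact Set.indicator_of_notMem (by simpa using h1) _

theorem l2_delta (c : O → ℂ) (s : ℂ) : Dser (fun n => if n = 1 then c n else 0) s = c 1 := by
  unfold Dser
  rw [tsum_eq_single 1]
  · simp [prim_one, Nr_one]
  · intro n hn
    simp [hn]

open Classical in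
/-- Extracting a primary divisor. -/
theorem l2_dvd {d : O} (hd : Prim d) (c : O → ℂ) (s : ℂ) :
    Dser (fun n => if d ∣ n then c n else 0) s =
      (Nr d : ℂ) ^ (-s) * Dser (fun n => c (d * n)) s := by
  unfold Dser
  rw [← tsum_mul_left, ← (mul_right_injective₀ hd.ne_zero).tsum_eq]
  · refine tsum_congr fun n => ?_
    by_cases hn : Prim n
    · simp only [if_pos (hd.mul hn), if_pos hn, if_pos (dvd_mul_right d n), l2_cpow_mul]
      ring
    · rw [if_neg hn, if_neg (fun h => hn (hd.of_mul h)), mul_zero]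
  · intro n hn
    by_contra h
    apply hn
    have : ¬ d ∣ n := fun ⟨m, hm⟩ => h ⟨m, hm.symm⟩
    simp [this]

theorem l2_sub {c c' : O → ℂ} {s : ℂ}
    (hc : Summable (fun n : O => if Prim n then c n * (Nr n : ℂ) ^ (-s) else 0))
    (hc' : Summable (fun n : O => if Prim n then c' n * (Nr n : ℂ) ^ (-s) else 0)) :
    Dser (fun n => c n - c' n) s = Dser c s - Dser c' s := by
  unfold Dser
  rw [← hc.tsum_sub hc']
  refine tsum_congr fun n => ?_
  split_ifs
  · ring
  · simp

open Classical in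
theorem l2_euler {q : O} {η : O → ℂ} (h : IsCh q η) {s : ℂ} (hs : 1 < s.re) (P : Finset O)
    (hP : ∀ p ∈ P, PP p) :
    Dser (fun n => if ∀ p ∈ P, ¬ p ∣ n then η n else 0) s =
      Dser η s * ∏ p ∈ P, (1 - η p * (Nr p : ℂ) ^ (-s)) := by
  induction P using Finset.induction_on with
  | empty => simp
  | insert r P hr ih =>
    have hr' : PP r := hP r (Finset.mem_insert_self _ _)
    have hP' : ∀ p ∈ P, PP p := fun p hp => hP p (Finset.mem_insert_of_mem hp)
    rw [Finset.prod_insert hr, mul_comm (1 - _), ← mul_assoc, ← ih hP']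
    rcases hr'.2 with hp | hp
    · have hb : ∀ n, ‖(if ∀ p ∈ P, ¬ p ∣ n then η n else 0)‖ ≤ 1 := fun n => by
        split_ifs
        · exact h.norm_le n
        · simp
      have e1 : Dser (fun n => if ∀ p ∈ insert r P, ¬ p ∣ n then η n else 0) s =
          Dser (fun n => (if ∀ p ∈ P, ¬ p ∣ n then η n else 0) -
            (if r ∣ n then (if ∀ p ∈ P, ¬ p ∣ n then η n else 0) else 0)) s := by
        refine l2_congr (fun n _ => ?_) s
        simp only [Finset.forall_mem_insert]
        by_cases h1 : r ∣ n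
        · simp [h1]
        · simp [h1]
      rw [e1, l2_sub (l2_summable (fun n _ => hb n) hs) (l2_summable (fun n _ => ?_) hs),
        l2_dvd hp]
      · have e2 : Dser (fun n => if ∀ p ∈ P, ¬ p ∣ r * n then η (r * n) else 0) s =
            η r * Dser (fun n => if ∀ p ∈ P, ¬ p ∣ n then η n else 0) s := by
          unfold Dser
          rw [← tsum_mul_left]
          refine tsum_congr fun n => ?_
          have : (∀ p ∈ P, ¬ p ∣ r * n) ↔ ∀ p ∈ P, ¬ p ∣ n := by
            refine forall₂_congr fun p hpP => not_congr ⟨fun hd => ?_, fun hd => hd.mul_left r⟩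
            rcases (hP' p hpP).1.dvd_or_dvd hd with h1 | h1
            · exact absurd ((hP' p hpP).eq_of_associated hr'
                ((hP' p hpP).1.associated_of_dvd hr'.1 h1) ▸ hpP) hr
            · exact h1
          simp only [this, h.mul]
          split_ifs <;> ring
        rw [e2]
        ring
      · split_ifs
        · exact h.norm_le n
        · simp
        · simp
    · subst hp
      have h0 : η lam = 0 := (h.zero lam).2 fun hc =>
        prime_lam.not_isUnit (hc.isUnit_of_dvd' dvd_rfl (lam_dvd_three.trans h.three))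
      rw [h0, zero_mul, sub_zero, mul_one]
      refine l2_congr (fun n hn => ?_) s
      simp only [Finset.forall_mem_insert, hn.not_lam_dvd, not_false_iff, true_and]

/-- Termwise differentiation. -/
theorem l2_hasDerivAt {c : O → ℂ} (hc : ∀ n, Prim n → ‖c n‖ ≤ 1) {s : ℂ} (hs : 1 < s.re) :
    HasDerivAt (Dser c) (-Dser (fun n => (Real.log (Nr n) : ℂ) * c n) s) s := by
  set σ : ℝ := (1 + s.re) / 2 with hσ
  have hσ1 : 1 < σ := by rw [hσ]; linarith
  have hU : IsOpen {w : ℂ | σ < w.re} := isOpen_lt continuous_const Complex.continuous_re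
  have hz : s ∈ {w : ℂ | σ < w.re} := by
    change σ < s.re
    rw [hσ]; linarith
  have hd : ∀ (n : O) (w : ℂ), HasDerivAt
      (fun w : ℂ => if Prim n then c n * (Nr n : ℂ) ^ (-w) else 0)
      (-(if Prim n then (Real.log (Nr n) : ℂ) * c n * (Nr n : ℂ) ^ (-w) else 0)) w := by
    intro n w
    by_cases hn : Prim n
    · simp only [if_pos hn]
      have h0 : (Nr n : ℂ) ≠ 0 := by exact_mod_cast (Nr_pos hn.ne_zero).ne'
      have := ((hasDerivAt_neg w).const_cpow (c := (Nr n : ℂ)) (Or.inl h0)).const_mul (c n)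
      refine this.congr_deriv ?_
      rw [Complex.ofReal_log (Nr_nonneg n)]
      ring
    · simp only [if_neg hn, neg_zero]
      exact hasDerivAt_const w 0
  have hb : ∀ (n : O) (w : ℂ), w ∈ {w : ℂ | σ < w.re} →
      ‖(if Prim n then c n * (Nr n : ℂ) ^ (-w) else 0)‖ ≤ Nr n ^ (-σ) := by
    intro n w hw
    split_ifs with hn
    · rw [norm_mul, Complex.norm_cpow_eq_rpow_re_of_pos (Nr_pos hn.ne_zero)]
      calc ‖c n‖ * Nr n ^ (-w).re ≤ 1 * Nr n ^ (-σ) := by
            refine mul_le_mul (hc n hn) (Real.rpow_le_rpow_of_exponent_le (one_le_Nr hn.ne_zero) ?_)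
              (Real.rpow_nonneg (Nr_nonneg n) _) zero_le_one
            have : σ < w.re := hw
            simp only [Complex.neg_re]
            linarith
        _ = Nr n ^ (-σ) := one_mul _
    · rw [norm_zero]
      exact Real.rpow_nonneg (Nr_nonneg n) _
  have hdiff : ∀ n : O, DifferentiableOn ℂ
      (fun w : ℂ => if Prim n then c n * (Nr n : ℂ) ^ (-w) else 0) {w : ℂ | σ < w.re} :=
    fun n w _ => (hd n w).differentiableAt.differentiableWithinAt
  have H := Complex.hasSum_deriv_of_summable_norm (summable_Nr_rpow hσ1) hdiff hU hb hz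
  simp_rw [(hd _ _).deriv] at H
  have H2 := ((Complex.differentiableOn_tsum_of_summable_norm (summable_Nr_rpow hσ1) hdiff hU
    hb).differentiableAt (hU.mem_nhds hz)).hasDerivAt
  rw [← H.tsum_eq, tsum_neg] at H2
  exact H2

theorem l2_norm_le {c : O → ℂ} (hc : ∀ n, Prim n → ‖c n‖ ≤ 1) {σ : ℝ} (hσ : 1 < σ) {s : ℂ}
    (hs : σ ≤ s.re) : ‖Dser c s‖ ≤ ∑' n : O, Nr n ^ (-σ) := by
  refine tsum_of_norm_bounded (summable_Nr_rpow hσ).hasSum fun n => ?_
  split_ifs with hn
  · rw [norm_mul, Complex.norm_cpow_eq_rpow_re_of_pos (Nr_pos hn.ne_zero)]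
    calc ‖c n‖ * Nr n ^ (-s).re ≤ 1 * Nr n ^ (-σ) := by
          refine mul_le_mul (hc n hn) (Real.rpow_le_rpow_of_exponent_le (one_le_Nr hn.ne_zero) ?_)
            (Real.rpow_nonneg (Nr_nonneg n) _) zero_le_one
          simp only [Complex.neg_re]
          linarith
      _ = Nr n ^ (-σ) := one_mul _
  · rw [norm_zero]
    exact Real.rpow_nonneg (Nr_nonneg n) _

theorem l2_tendsto {c : O → ℂ} (hc : ∀ n, Prim n → ‖c n‖ ≤ 1) :
    Filter.Tendsto (fun x : ℝ => Dser c x) Filter.atTop (nhds (c 1)) := by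
  have e : c 1 = ∑' n : O, if n = 1 then c n else 0 := by
    rw [tsum_eq_single 1 (fun n hn => if_neg hn), if_pos rfl]
  rw [e]
  unfold Dser
  refine tendsto_tsum_of_dominated_convergence (summable_Nr_rpow (σ := 2) (by norm_num))
    (fun n => ?_) ?_
  · by_cases hn : Prim n
    · simp only [if_pos hn]
      by_cases h1 : n = 1
      · subst h1
        simp [Nr_one]
      · rw [if_neg h1]
        have h2 : 1 < Nr n := lt_of_le_of_ne (one_le_Nr hn.ne_zero) fun h =>
          h1 (hn.eq_one_of_isUnit (isUnit_iff_Nr.2 h.symm))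
        rw [← mul_zero (c n)]
        refine Filter.Tendsto.const_mul _ ?_
        rw [tendsto_zero_iff_norm_tendsto_zero]
        simp only [Complex.norm_cpow_eq_rpow_re_of_pos (Nr_pos hn.ne_zero), Complex.neg_re,
          Complex.ofReal_re]
        exact (tendsto_rpow_atBot_of_base_gt_one _ h2).comp Filter.tendsto_neg_atTop_atBot
    · have h1 : n ≠ 1 := fun h => hn (h ▸ prim_one)
      simp only [if_neg hn, if_neg h1]
      exact tendsto_const_nhds
  · filter_upwards [Filter.eventually_ge_atTop (2 : ℝ)] with x hx n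
    split_ifs with hn
    · rw [norm_mul, Complex.norm_cpow_eq_rpow_re_of_pos (Nr_pos hn.ne_zero)]
      calc ‖c n‖ * Nr n ^ (-(x : ℂ)).re ≤ 1 * Nr n ^ (-(2 : ℝ)) := by
            refine mul_le_mul (hc n hn) (Real.rpow_le_rpow_of_exponent_le (one_le_Nr hn.ne_zero) ?_)
              (Real.rpow_nonneg (Nr_nonneg n) _) zero_le_one
            simp only [Complex.neg_re, Complex.ofReal_re]
            linarith
        _ = Nr n ^ (-(2 : ℝ)) := one_mul _
    · rw [norm_zero]
      exact Real.rpow_nonneg (Nr_nonneg n) _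

theorem IsCh.Dser_mul_mu {q : O} {η : O → ℂ} (h : IsCh q η) {s : ℂ} (hs : 1 < s.re) :
    Dser η s * Dser (fun n => mu n * η n) s = 1 := by
  classical
  rw [mul_comm, l2_conv (l2_summable (fun n _ => ?_) hs) (l2_summable (fun n _ => h.norm_le n) hs)]
  · rw [← h.one, ← l2_delta η s]
    refine l2_congr (fun n hn => ?_) s
    have : ∑ d ∈ pdiv n, mu d * η d * η (n / d) = (∑ d ∈ pdiv n, mu d) * η n := by
      rw [Finset.sum_mul]
      refine Finset.sum_congr rfl fun d hd => ?_
      obtain ⟨hd1, m, rfl⟩ := (mem_pdiv hn.ne_zero).1 hd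
      rw [mul_div_cancel_left₀ m hd1.ne_zero, h.mul, mul_assoc]
    rw [this, sum_pdiv_mu hn]
    split_ifs <;> simp
  · rw [norm_mul]
    exact mul_le_one₀ (norm_mu_le n) (norm_nonneg _) (h.norm_le n)

theorem zf_one : ZF 1 := by
  intro q η h s hs _
  rw [h.Lf_eq hs]
  exact left_ne_zero_of_mul_eq_one (h.Dser_mul_mu hs)

open Classical in
/-- Removing Euler factors. -/
theorem IsCh.Lo_coprime {q k : O} {η : O → ℂ} (h : IsCh q η) (hk : k ≠ 0) (s : ℂ) :
    Lo (fun n => if IsCoprime n k then η n else 0) s =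
      Lo η s * ∏ p ∈ pf k, (1 - η p * (Nr p : ℂ) ^ (-s)) := by
  obtain ⟨d1, e1⟩ := (h.coprime hk).Lo_spec
  obtain ⟨d2, e2⟩ := h.Lo_spec
  have d3 : Differentiable ℂ (fun s : ℂ => Lo η s * ∏ p ∈ pf k, (1 - η p * (Nr p : ℂ) ^ (-s))) := by
    refine d2.mul (Differentiable.fun_finsetProd fun p hp => ?_)
    have h0 : (Nr p : ℂ) ≠ 0 := by
      exact_mod_cast (Nr_pos ((mem_pf hk).1 hp).1.1.ne_zero).ne'
    exact (differentiable_const _).sub ((differentiable_const _).mul
      (differentiable_neg.const_cpow (Or.inl h0)))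
  have hU : IsOpen {w : ℂ | 1 < w.re} := isOpen_lt continuous_const Complex.continuous_re
  have key := AnalyticOnNhd.eq_of_eventuallyEq (𝕜 := ℂ) (fun z _ => d1.analyticAt z)
    (fun z _ => d3.analyticAt z) (z₀ := 2) (by
      filter_upwards [hU.mem_nhds (show (2 : ℂ) ∈ {w : ℂ | 1 < w.re} by simp)] with w hw
      rw [e1 w hw, e2 w hw, mul_assoc, ← l2_euler h hw (pf k) (fun p hp => ((mem_pf hk).1 hp).1)]
      congr 1
      refine l2_congr (fun n _ => ?_) w
      have : IsCoprime n k ↔ ∀ p ∈ pf k, ¬ p ∣ n := by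
        rw [← coprime_rad_iff hk, rad, IsCoprime.prod_right_iff]
        refine forall₂_congr fun p hp => ?_
        rw [isCoprime_comm, ((mem_pf hk).1 hp).1.1.irreducible.coprime_iff_not_dvd]
      simp only [this])
  exact congrFun key s

/-- The von Mangoldt function. -/
def vm (n : O) : ℂ := by
  classical exact if h : ∃ p : O, Prime p ∧ ∃ k : ℕ, 0 < k ∧ Associated n (p ^ k) then
    (Real.log (Nr h.choose) : ℂ) else 0
theorem l2_vm_assoc {n p : O} (hp : Prime p) {k : ℕ} (hk : 0 < k) (h : Associated n (p ^ k)) :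
    vm n = (Real.log (Nr p) : ℂ) := by
  have hex : ∃ p : O, Prime p ∧ ∃ k : ℕ, 0 < k ∧ Associated n (p ^ k) := ⟨p, hp, k, hk, h⟩
  unfold vm
  rw [dif_pos hex]
  obtain ⟨hr, j, hj, hrj⟩ := hex.choose_spec
  have h1 : hex.choose ∣ p ^ k :=
    ((dvd_pow_self _ hj.ne').trans hrj.symm.dvd).trans h.dvd
  rw [Nr_eq_of_associated (hr.associated_of_dvd hp (hr.dvd_of_dvd_pow h1))]

theorem l2_vm_zero {n : O} (h : ¬ ∃ p : O, Prime p ∧ ∃ k : ℕ, 0 < k ∧ Associated n (p ^ k)) :
    vm n = 0 := by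
  unfold vm
  rw [dif_neg h]

theorem vm_prime_pow {p : O} (hp : Prime p) {k : ℕ} (hk : 0 < k) : vm (p ^ k) = (Real.log (Nr p) : ℂ) :=
  l2_vm_assoc hp hk (Associated.refl _)

theorem norm_vm_le {n : O} (hn : n ≠ 0) : ‖vm n‖ ≤ Real.log (Nr n) := by
  by_cases h : ∃ p : O, Prime p ∧ ∃ k : ℕ, 0 < k ∧ Associated n (p ^ k)
  · obtain ⟨p, hp, k, hk, h⟩ := h
    rw [l2_vm_assoc hp hk h, Complex.norm_real, Real.norm_eq_abs,
      abs_of_nonneg (Real.log_nonneg (one_le_Nr hp.ne_zero))]
    exact Real.log_le_log (Nr_pos hp.ne_zero)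
      (Nr_le_of_dvd hn ((dvd_pow_self p hk.ne').trans h.symm.dvd))
  · rw [l2_vm_zero h, norm_zero]
    exact Real.log_nonneg (one_le_Nr hn)

theorem l2_sum_vm {n : O} (hn : Prim n) : ∑ d ∈ pdiv n, vm d = (Real.log (Nr n) : ℂ) := by
  classical
  refine Prim.induction (P := fun n => ∑ d ∈ pdiv n, vm d = (Real.log (Nr n) : ℂ)) ?_ ?_ hn
  · rw [Nr_one, Real.log_one, Complex.ofReal_zero]
    refine Finset.sum_eq_zero fun d hd => ?_
    have h1 := norm_vm_le ((mem_pdiv one_ne_zero).1 hd).1.ne_zero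
    rw [isUnit_iff_Nr.1 (isUnit_of_dvd_one ((mem_pdiv one_ne_zero).1 hd).2), Real.log_one] at h1
    exact norm_le_zero_iff.1 h1
  · intro p n hp hp' hn ih
    have hn0 := hn.ne_zero
    have hpn0 : p * n ≠ 0 := mul_ne_zero hp.ne_zero hn0
    have hsub : pdiv n ⊆ pdiv (p * n) := fun d hd =>
      (mem_pdiv hpn0).2 ⟨((mem_pdiv hn0).1 hd).1, ((mem_pdiv hn0).1 hd).2.mul_left p⟩
    rw [← Finset.sum_sdiff hsub, ih, Nr_mul, Real.log_mul (Nr_pos hp.ne_zero).ne' (Nr_pos hn0).ne',
      Complex.ofReal_add]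
    congr 1
    set m := multiplicity p n with hm
    rw [Finset.sum_eq_single (p ^ (m + 1)), vm_prime_pow hp (Nat.succ_pos m)]
    · intro d hd hne
      rw [Finset.mem_sdiff, mem_pdiv hpn0, mem_pdiv hn0] at hd
      obtain ⟨⟨hd1, hd2⟩, hd3⟩ := hd
      have hd4 : ¬ d ∣ n := fun h => hd3 ⟨hd1, h⟩
      refine l2_vm_zero ?_
      rintro ⟨r, hr, k, hk, hdk⟩
      by_cases hrp : p ∣ r
      · have ha : Associated r p := (hp.associated_of_dvd hr hrp).symm
        have hd5 : d = p ^ k := hd1.eq_of_associated (hp'.pow k) (hdk.trans (ha.pow_pow))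
        subst hd5
        obtain ⟨j, rfl⟩ : ∃ j, k = j + 1 := ⟨k - 1, by omega⟩
        have h1 : p ^ j ∣ n := by
          rw [pow_succ', mul_dvd_mul_iff_left hp.ne_zero] at hd2
          exact hd2
        rw [a3_pow_dvd hp hn0] at h1 hd4
        exact hne (by rw [show j = m by omega])
      · have hc : IsCoprime (r ^ k) p :=
          ((hp.irreducible.coprime_iff_not_dvd).2 hrp).symm.pow_left
        exact hd4 (hdk.dvd.trans (hc.dvd_of_dvd_mul_left (hdk.symm.dvd.trans hd2)))
    · intro h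
      refine absurd ?_ h
      rw [Finset.mem_sdiff, mem_pdiv hpn0, mem_pdiv hn0]
      refine ⟨⟨hp'.pow _, ?_⟩, fun h' => ?_⟩
      · rw [pow_succ']
        exact mul_dvd_mul_left p ((a3_pow_dvd hp hn0 m).2 le_rfl)
      · have := (a3_pow_dvd hp hn0 (m + 1)).1 h'.2
        omega

theorem l2_vm_mul {q : O} {η : O → ℂ} (h : IsCh q η) {s : ℂ} (hs : 1 < s.re) :
    Dser (fun n => vm n * η n) s * Dser η s = Dser (fun n => (Real.log (Nr n) : ℂ) * η n) s := by
  rw [l2_conv (l2_summable_log (fun n hn => ?_) hs) (l2_summable (fun n _ => h.norm_le n) hs)]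
  · refine l2_congr (fun n hn => ?_) s
    rw [← l2_sum_vm hn, Finset.sum_mul]
    refine Finset.sum_congr rfl fun d hd => ?_
    obtain ⟨hd1, m, rfl⟩ := (mem_pdiv hn.ne_zero).1 hd
    rw [mul_div_cancel_left₀ m hd1.ne_zero, h.mul, mul_assoc]
  · rw [norm_mul]
    exact (mul_le_of_le_one_right (norm_nonneg _) (h.norm_le n)).trans (norm_vm_le hn.ne_zero)

theorem IsCh.logDeriv {q : O} {η : O → ℂ} (h : IsCh q η) {s : ℂ} (hs : 1 < s.re) :
    deriv (Lf η) s = -(Dser (fun n => vm n * η n) s) * Lf η s := by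
  have hU : IsOpen {w : ℂ | 1 < w.re} := isOpen_lt continuous_const Complex.continuous_re
  have e : Lf η =ᶠ[nhds s] Dser η := by
    filter_upwards [hU.mem_nhds hs] with w hw
    exact h.Lf_eq hw
  rw [e.deriv_eq, (l2_hasDerivAt (fun n _ => h.norm_le n) hs).deriv, h.Lf_eq hs, neg_mul,
    l2_vm_mul h hs]

/-- `log L` is bounded to the right of `1`. -/
theorem exists_log_Lf {δ : ℝ} (hδ : 0 < δ) : ∃ C : ℝ, ∀ (q : O) (η : O → ℂ), IsCh q η →
    ∃ g : ℂ → ℂ, DifferentiableOn ℂ g {s | 1 < s.re} ∧ (∀ s : ℂ, 1 < s.re → Complex.exp (g s) = Lf η s) ∧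
      ∀ s : ℂ, 1 + δ ≤ s.re → ‖g s‖ ≤ C := by
  refine ⟨∑' n : O, Nr n ^ (-(1 + δ)), fun q η h => ?_⟩
  have hU : IsOpen {w : ℂ | 1 < w.re} := isOpen_lt continuous_const Complex.continuous_re
  set c : O → ℂ := fun n => vm n / (Real.log (Nr n) : ℂ) * η n with hc
  have hc1 : ∀ n, Prim n → ‖c n‖ ≤ 1 := fun n hn => by
    simp only [hc]
    rw [norm_mul, norm_div, Complex.norm_real, Real.norm_eq_abs,
      abs_of_nonneg (Real.log_nonneg (one_le_Nr hn.ne_zero))]
    exact mul_le_one₀ (div_le_one_of_le₀ (norm_vm_le hn.ne_zero)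
      (Real.log_nonneg (one_le_Nr hn.ne_zero))) (norm_nonneg _) (h.norm_le n)
  have hg : ∀ s : ℂ, 1 < s.re → HasDerivAt (Dser c) (-Dser (fun n => vm n * η n) s) s := by
    intro s hs
    have := l2_hasDerivAt hc1 hs
    rwa [l2_congr (c' := fun n => vm n * η n) (fun n hn => ?_) s] at this
    simp only [hc]
    by_cases h0 : Real.log (Nr n) = 0
    · have h1 := norm_vm_le hn.ne_zero
      rw [h0] at h1
      simp [norm_le_zero_iff.1 h1]
    · have h1 : (Real.log (Nr n) : ℂ) ≠ 0 := by exact_mod_cast h0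
      field_simp
  have hL : ∀ s : ℂ, 1 < s.re →
      HasDerivAt (Dser η) (-(Dser (fun n => vm n * η n) s * Dser η s)) s := by
    intro s hs
    rw [l2_vm_mul h hs]
    exact l2_hasDerivAt (fun n _ => h.norm_le n) hs
  have hF : ∀ s : ℂ, 1 < s.re →
      HasDerivAt (fun w => Complex.exp (-Dser c w) * Dser η w) 0 s := by
    intro s hs
    refine (((hg s hs).fun_neg.cexp).fun_mul (hL s hs)).congr_deriv ?_
    ring
  obtain ⟨a, ha⟩ := hU.exists_is_const_of_deriv_eq_zero (convex_halfSpace_re_gt 1).isPreconnected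
    (fun s hs => (hF s hs).differentiableAt.differentiableWithinAt)
    (fun s hs => (hF s hs).deriv)
  have ha1 : a = 1 := by
    have t1 := l2_tendsto hc1
    have t2 := l2_tendsto (fun n _ => h.norm_le n)
    have t3 := ((Complex.continuous_exp.tendsto _).comp t1.neg).mul t2
    have c1 : c 1 = 0 := by simp [hc, Nr_one]
    rw [c1, h.one, neg_zero, Complex.exp_zero, mul_one] at t3
    refine tendsto_nhds_unique (tendsto_const_nhds.congr' ?_) t3
    filter_upwards [Filter.eventually_gt_atTop (1 : ℝ)] with x hx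
    exact (ha x (by simpa using hx)).symm
  refine ⟨Dser c, fun s hs => (hg s hs).differentiableAt.differentiableWithinAt, fun s hs => ?_,
    fun s hs => l2_norm_le hc1 (by linarith) hs⟩
  have h1 := ha s hs
  rw [ha1, Complex.exp_neg, inv_mul_eq_one₀ (Complex.exp_ne_zero _)] at h1
  rw [h.Lf_eq hs, h1]


end Crest.Agent.R017

end
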