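import Crest.Agent.R017.Detect

/-! # Row 17: counting rows, combinatorial lemmas -/

set_option autoImplicit false

noncomputable section

open scoped BigOperators ComplexConjugate
open Complex MeasureTheory

namespace Crest.Agent.R017

/-- From moments at fixed length and height to a count. -/
theorem ct_circle (p : ℕ) : ∃ C : ℝ, 0 < C ∧ ∀ (S : Finset O) (c : O → O → ℂ) (wt : O → ℝ)
    (U T V W B : ℝ), (∀ r ∈ S, ∀ n, Prim n → ‖c r n‖ ≤ 1) → 0 < V → 0 ≤ W → (∀ r ∈ S, W ≤ wt r) →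
    (∀ r ∈ S, ∃ u τ, |u - U| ≤ 1 ∧ |τ - T| ≤ 1 ∧ V ≤ ‖sm 1 (c r) (Real.exp u) τ‖) →
    (∀ u τ, |u - U| ≤ 6 → |τ - T| ≤ 3 →
      ∑ r ∈ S, ‖sm 1 (c r) (Real.exp u) τ‖ ^ (p + 1) * wt r ≤ B) →
    S.card * (V ^ (p + 1) * W) ≤ C * B := by
  obtain ⟨C₀, h₀⟩ := norm_sm_le_circle one_pos
  set C₁ := max C₀ 1 with hC₁
  have hC₁0 : 0 < C₁ := lt_of_lt_of_le one_pos (le_max_right _ _)
  have hpi := Real.pi_pos
  refine ⟨2 * C₁ * (4 * Real.pi * C₁) ^ p * (2 * Real.pi), by positivity, ?_⟩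
  intro S c wt U T V W B hc hV hW hwt hS hB
  let g : O → ℝ → ℝ := fun r θ => ‖sm 1 (c r) (Real.exp (U + (2 + 4 * 1) * Real.cos θ))
    (T - (2 + 4 * 1) * Real.sin θ / (2 * 1))‖
  have hc' : ∀ r ∈ S, ∀ n, Prim n → ‖c r n‖ ≤ 1 * Nr n ^ (0 : ℝ) := fun r hr n hn => by
    simpa using hc r hr n hn
  have hg : ∀ r ∈ S, Continuous (g r) := fun r hr =>
    ((continuous_sm one_pos (hc' r hr)).comp (f := fun θ : ℝ =>
      (U + (2 + 4 * 1) * Real.cos θ, T - (2 + 4 * 1) * Real.sin θ / (2 * 1))) (by fun_prop)).norm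
  have hg0 : ∀ r θ, 0 ≤ g r θ := fun r θ => norm_nonneg _
  set m := V / (4 * Real.pi * C₁) with hm
  have hm0 : 0 < m := by positivity
  have key : ∀ r ∈ S, V ^ (p + 1) ≤
      2 * C₁ * (4 * Real.pi * C₁) ^ p * ∫ θ in (0 : ℝ)..(2 * Real.pi), g r θ ^ (p + 1) := by
    intro r hr
    obtain ⟨u, τ, hu, hτ, hle⟩ := hS r hr
    have h1 := hle.trans (h₀ (c r) 1 0 U T u τ (hc' r hr) hu hτ)
    have hI0 : 0 ≤ ∫ θ in (0 : ℝ)..(2 * Real.pi), g r θ :=
      intervalIntegral.integral_nonneg (by positivity) fun θ _ => hg0 r θ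
    have h2 : V ≤ C₁ * ∫ θ in (0 : ℝ)..(2 * Real.pi), g r θ :=
      h1.trans (mul_le_mul_of_nonneg_right (le_max_left _ _) hI0)
    have hi1 : IntervalIntegrable (fun θ => g r θ ^ (p + 1) / m ^ p) volume 0 (2 * Real.pi) :=
      (((hg r hr).pow _).div_const _).intervalIntegrable _ _
    have h3 : ∫ θ in (0 : ℝ)..(2 * Real.pi), g r θ ≤
        ∫ θ in (0 : ℝ)..(2 * Real.pi), (g r θ ^ (p + 1) / m ^ p + m) := by
      refine intervalIntegral.integral_mono_on (by positivity) ((hg r hr).intervalIntegrable _ _)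
        (hi1.add intervalIntegrable_const) fun θ _ => ?_
      rcases le_total (g r θ) m with h | h
      · exact h.trans (le_add_of_nonneg_left (div_nonneg (pow_nonneg (hg0 r θ) _) (by positivity)))
      · refine le_trans ?_ (le_add_of_nonneg_right hm0.le)
        rw [le_div_iff₀ (by positivity), pow_succ']
        exact mul_le_mul_of_nonneg_left (pow_le_pow_left₀ hm0.le h p) (hg0 r θ)
    rw [intervalIntegral.integral_add hi1 intervalIntegrable_const, intervalIntegral.integral_div,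
      intervalIntegral.integral_const, sub_zero, smul_eq_mul] at h3
    have h4 := h2.trans (mul_le_mul_of_nonneg_left h3 hC₁0.le)
    have e1 : C₁ * (2 * Real.pi * m) = V / 2 := by rw [hm]; field_simp; norm_num
    rw [mul_add, e1] at h4
    have h5 : V * m ^ p ≤ 2 * C₁ * ∫ θ in (0 : ℝ)..(2 * Real.pi), g r θ ^ (p + 1) := by
      rw [← le_div_iff₀ (by positivity), mul_assoc, mul_div_assoc, mul_div_assoc]
      linarith
    have e2 : V ^ (p + 1) = V * m ^ p * (4 * Real.pi * C₁) ^ p := by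
      rw [mul_assoc, ← mul_pow, hm, div_mul_cancel₀ _ (by positivity), pow_succ']
    rw [e2]
    calc _ ≤ (2 * C₁ * ∫ θ in (0 : ℝ)..(2 * Real.pi), g r θ ^ (p + 1)) * (4 * Real.pi * C₁) ^ p :=
          mul_le_mul_of_nonneg_right h5 (by positivity)
      _ = _ := by ring
  have hint : ∀ r ∈ S, IntervalIntegrable (fun θ => g r θ ^ (p + 1) * wt r) volume 0 (2 * Real.pi) :=
    fun r hr => (((hg r hr).pow _).mul continuous_const).intervalIntegrable _ _
  calc (S.card : ℝ) * (V ^ (p + 1) * W) = ∑ _r ∈ S, V ^ (p + 1) * W := by simp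
    _ ≤ ∑ r ∈ S, (2 * C₁ * (4 * Real.pi * C₁) ^ p *
          ∫ θ in (0 : ℝ)..(2 * Real.pi), g r θ ^ (p + 1)) * wt r :=
        Finset.sum_le_sum fun r hr => mul_le_mul (key r hr) (hwt r hr) hW
          ((pow_nonneg hV.le _).trans (key r hr))
    _ = 2 * C₁ * (4 * Real.pi * C₁) ^ p *
          ∫ θ in (0 : ℝ)..(2 * Real.pi), ∑ r ∈ S, g r θ ^ (p + 1) * wt r := by
        rw [intervalIntegral.integral_finset_sum hint, Finset.mul_sum]
        refine Finset.sum_congr rfl fun r _ => ?_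
        rw [intervalIntegral.integral_mul_const, mul_assoc]
    _ ≤ 2 * C₁ * (4 * Real.pi * C₁) ^ p * ∫ _θ in (0 : ℝ)..(2 * Real.pi), B := by
        refine mul_le_mul_of_nonneg_left (intervalIntegral.integral_mono_on (by positivity)
          (by simpa only [Finset.sum_fn] using IntervalIntegrable.sum S hint)
          intervalIntegrable_const fun θ _ => hB _ _ ?_ ?_) (by positivity)
        · rw [add_sub_cancel_left, abs_mul]
          have := Real.abs_cos_le_one θ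
          norm_num
          linarith
        · rw [sub_sub_cancel_left, abs_neg, abs_div, abs_mul]
          have := Real.abs_sin_le_one θ
          norm_num
          linarith
    _ = _ := by rw [intervalIntegral.integral_const, sub_zero, smul_eq_mul]; ring

/-- The top `j` entries carry their share of the sum. -/
theorem ct_top {ι : Type*} [DecidableEq ι] (s : Finset ι) (a : ι → ℝ) (j : ℕ) (hj : j ≤ s.card) :
    ∃ I ⊆ s, I.card = j ∧ j * ∑ i ∈ s, a i ≤ s.card * ∑ i ∈ I, a i := by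
  induction hj using Nat.decreasingInduction with
  | self => exact ⟨s, subset_rfl, rfl, le_rfl⟩
  | of_succ k _ ih =>
    obtain ⟨I, hI, hc, h⟩ := ih
    obtain ⟨i₀, hi₀, hmin⟩ := I.exists_min_image a (Finset.card_pos.1 (by omega))
    refine ⟨I.erase i₀, (Finset.erase_subset _ _).trans hI, by rw [Finset.card_erase_of_mem hi₀, hc]; rfl, ?_⟩
    have h1 := Finset.card_nsmul_le_sum I a (a i₀) hmin
    rw [hc, nsmul_eq_mul] at h1
    rw [Finset.sum_erase_eq_sub hi₀]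
    push_cast at h h1
    have hk : (0 : ℝ) < k + 1 := by positivity
    have hk0 : (0 : ℝ) ≤ k := by positivity
    have hs : (0 : ℝ) ≤ s.card := by positivity
    refine le_of_mul_le_mul_left ?_ hk
    nlinarith [mul_le_mul_of_nonneg_left h hk0, mul_le_mul_of_nonneg_left h1 hs]

theorem ct_top' {J : ℕ} (hJ : 0 < J) (f : Fin J → ℝ) (hf : ∀ i, 0 < f i) {a : ℝ}
    (ha : Real.exp a ≤ ∏ i, f i) {j : ℕ} (hj : j ≤ J) :
    ∃ I : Finset (Fin J), I.card = j ∧ Real.exp (2 * a * j / J) ≤ ∏ i ∈ I, f i ^ 2 := by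
  obtain ⟨I, -, hc, h⟩ := ct_top Finset.univ (fun i => Real.log (f i)) j (by simpa using hj)
  refine ⟨I, hc, ?_⟩
  have e : ∀ s : Finset (Fin J), ∏ i ∈ s, f i = Real.exp (∑ i ∈ s, Real.log (f i)) := fun s => by
    rw [Real.exp_sum]
    exact Finset.prod_congr rfl fun i _ => (Real.exp_log (hf i)).symm
  rw [e, Real.exp_le_exp] at ha
  rw [Finset.prod_pow, e, ← Real.exp_nat_mul, Real.exp_le_exp, div_le_iff₀ (by exact_mod_cast hJ)]
  rw [Finset.card_univ, Fintype.card_fin] at h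
  have hj0 : (0 : ℝ) ≤ j := by positivity
  push_cast
  nlinarith [mul_le_mul_of_nonneg_left ha hj0]

/-- Splitting into classes. -/
theorem ct_classes {κ : Type*} (K : Finset κ) (S : Finset O) (P : κ → O → Prop) (f : O → ℝ) {B : ℝ}
    (h1 : ∀ r ∈ S, ∃ k ∈ K, P k r)
    (h2 : ∀ k ∈ K, ∀ S' ⊆ S, (∀ r ∈ S', P k r) → ∑ r ∈ S', f r ≤ B) :
    ∑ r ∈ S, f r ≤ K.card * B := by
  classical
  rcases S.eq_empty_or_nonempty with rfl | ⟨r₀, hr₀⟩
  · rcases K.eq_empty_or_nonempty with rfl | ⟨k, hk⟩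
    · simp
    · exact (h2 k hk ∅ subset_rfl (by simp)).trans (le_mul_of_one_le_left
        (by simpa using h2 k hk ∅ subset_rfl (by simp)) (by exact_mod_cast Finset.card_pos.2 ⟨k, hk⟩))
  obtain ⟨k₀, -, -⟩ := h1 r₀ hr₀
  haveI : Nonempty κ := ⟨k₀⟩
  choose! g hg hP using h1
  rw [← Finset.sum_fiberwise_of_maps_to hg]
  refine (Finset.sum_le_card_nsmul _ _ B fun k hk => h2 k hk _ (Finset.filter_subset _ _)
    fun r hr => ?_).trans (by rw [nsmul_eq_mul])
  obtain ⟨hr1, hr2⟩ := Finset.mem_filter.1 hr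
  exact hr2 ▸ hP r hr1

theorem ct_ev {e : ℝ} (he : 0 < e) {C : ℝ} (hC : 0 ≤ C) :
    ∀ᶠ L : ℝ in Filter.atTop, ∀ τ : ℝ, |τ| ≤ L ^ 2 + 4 → C * (1 + |τ|) ^ C ≤ Real.exp (e * L) := by
  filter_upwards [dt_ev he (C * 5 ^ C) hC] with L hL τ hτ
  refine le_trans ?_ hL
  rw [mul_assoc, ← Real.mul_rpow (by norm_num) (by positivity)]
  refine mul_le_mul_of_nonneg_left (Real.rpow_le_rpow (by positivity) ?_ hC) hC
  nlinarith [sq_nonneg L]

/-- The abstract count: classes of lengths, heights and slots. -/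
theorem ct_abs (p : ℕ) {e : ℝ} (he : 0 < e) {J : ℕ} (hJ : 0 < J) : ∀ᶠ L : ℝ in Filter.atTop,
    ∀ (S : Finset O) (c : O → O → ℂ) (Lw : Fin J → O → ℝ) (σ a lo hi E : ℝ),
    (∀ r ∈ S, ∀ n, Prim n → ‖c r n‖ ≤ 1) → (∀ i r, 0 < Lw i r) →
    (∀ r ∈ S, Real.exp a ≤ ∏ i, Lw i r) → 0 ≤ σ → -L ≤ lo → hi ≤ 2 * L →
    (∀ r ∈ S, ∃ u γ, lo ≤ u ∧ u ≤ hi ∧ |γ| ≤ L ^ 2 ∧
      Real.exp (σ * u - e * L) ≤ ‖sm 1 (c r) (Real.exp u) γ‖) →
    (∀ U : ℝ, lo - 1 ≤ U → U ≤ hi + 1 → ∃ j ≤ J, ∃ B : ℝ,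
      (∀ I : Finset (Fin J), I.card = j → ∀ u τ, |u - U| ≤ 6 → |τ| ≤ L ^ 2 + 4 →
        ∑ r ∈ S, ‖sm 1 (c r) (Real.exp u) τ‖ ^ (p + 1) * ∏ i ∈ I, Lw i r ^ 2 ≤ Real.exp B) ∧
      B - (p + 1) * (σ * (U - 1) - e * L) - 2 * a * j / J ≤ E) →
    (S.card : ℝ) ≤ Real.exp (E + e * L) := by
  obtain ⟨C, hC, hcirc⟩ := ct_circle p
  filter_upwards [dt_ev he (C * 25 * 2 ^ J) (K' := 2) (by norm_num), Filter.eventually_ge_atTop (2 : ℝ)]
    with L hL hL2
  intro S c Lw σ a lo hi E hc hLw ha hσ hlo hhi hS hU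
  choose! j hj B hB hE using hU
  set N : ℤ := ⌈L ^ 2⌉ + 1 with hN
  have hN1 : (N : ℝ) ≤ L ^ 2 + 2 := by
    rw [hN]
    push_cast
    linarith [Int.ceil_lt_add_one (L ^ 2)]
  have hN2 : L ^ 2 + 1 ≤ N := by
    rw [hN]
    push_cast
    linarith [Int.le_ceil (L ^ 2)]
  have hmem : ∀ x : ℝ, |x| ≤ L ^ 2 → round x ∈ Finset.Icc (-N) N := by
    intro x hx
    have h1 := abs_le.1 (abs_sub_round x)
    have h2 := abs_le.1 hx
    rw [Finset.mem_Icc]
    constructor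
    · have : ((-N : ℤ) : ℝ) ≤ round x := by push_cast; linarith
      exact_mod_cast this
    · have : (round x : ℝ) ≤ N := by linarith
      exact_mod_cast this
  have hmain := ct_classes ((Finset.Icc (-N) N ×ˢ Finset.Icc (-N) N) ×ˢ (Finset.univ : Finset (Finset (Fin J))))
    S (fun k r => lo - 1 ≤ (k.1.1 : ℝ) ∧ (k.1.1 : ℝ) ≤ hi + 1 ∧ |(k.1.2 : ℝ)| ≤ L ^ 2 + 1 ∧
      k.2.card = j k.1.1 ∧ Real.exp (2 * a * j k.1.1 / J) ≤ ∏ i ∈ k.2, Lw i r ^ 2 ∧
      ∃ u τ : ℝ, |u - k.1.1| ≤ 1 ∧ |τ - k.1.2| ≤ 1 ∧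
        Real.exp (σ * (k.1.1 - 1) - e * L) ≤ ‖sm 1 (c r) (Real.exp u) τ‖) (fun _ => 1)
    (B := C * Real.exp E) (fun r hr => by
      obtain ⟨u, γ, hu1, hu2, hγ, hle⟩ := hS r hr
      have h1 := abs_le.1 (abs_sub_round u)
      have h2 := abs_le.1 (abs_sub_round γ)
      have h3 := abs_le.1 hγ
      have hU1 : lo - 1 ≤ (round u : ℝ) := by linarith
      have hU2 : (round u : ℝ) ≤ hi + 1 := by linarith
      obtain ⟨I, hI, hI2⟩ := ct_top' hJ (fun i => Lw i r) (fun i => hLw i r) (ha r hr) (hj _ hU1 hU2)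
      refine ⟨((round u, round γ), I), ?_, hU1, hU2, abs_le.2 ⟨by simp only; linarith, by simp only; linarith⟩,
        hI, hI2, u, γ, abs_le.2 ⟨by simp only; linarith, by simp only; linarith⟩,
        abs_le.2 ⟨by simp only; linarith, by simp only; linarith⟩, le_trans (Real.exp_le_exp.2 ?_) hle⟩
      · simp only [Finset.mem_product, Finset.mem_univ, and_true]
        exact ⟨hmem u (abs_le.2 ⟨by nlinarith, by nlinarith⟩), hmem γ hγ⟩
      · simp only
        nlinarith) (fun k _ S' hS' hP => by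
      rcases S'.eq_empty_or_nonempty with rfl | ⟨r₀, hr₀⟩
      · simp only [Finset.sum_empty]
        positivity
      obtain ⟨hU1, hU2, hT, hI, -⟩ := hP r₀ hr₀
      have h1 := hcirc S' c (fun r => ∏ i ∈ k.2, Lw i r ^ 2) k.1.1 k.1.2 _ _ (Real.exp (B k.1.1))
        (fun r hr => hc r (hS' hr)) (Real.exp_pos _) (Real.exp_pos _).le (fun r hr => (hP r hr).2.2.2.2.1)
        (fun r hr => (hP r hr).2.2.2.2.2) fun u τ hu hτ => le_trans
          (Finset.sum_le_sum_of_subset_of_nonneg hS' fun r _ _ => by positivity)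
          (hB _ hU1 hU2 k.2 hI u τ hu (by
            have := abs_le.1 hτ
            have := abs_le.1 hT
            exact abs_le.2 ⟨by linarith, by linarith⟩))
      rw [← Real.exp_nat_mul, ← Real.exp_add, ← le_div_iff₀ (Real.exp_pos _), mul_div_assoc,
        ← Real.exp_sub] at h1
      simp only [Finset.sum_const, nsmul_eq_mul, mul_one]
      refine h1.trans (mul_le_mul_of_nonneg_left (Real.exp_le_exp.2 ?_) hC.le)
      have := hE _ hU1 hU2
      push_cast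
      linarith)
  simp only [Finset.sum_const, nsmul_eq_mul, mul_one, Finset.card_product, Int.card_Icc,
    Finset.card_univ, Fintype.card_finset, Fintype.card_fin] at hmain
  have hc1 : (((N + 1 - -N).toNat : ℕ) : ℝ) ≤ 5 * (1 + L ^ 2) := by
    have h0 : 0 ≤ N + 1 - -N := by
      have : (0 : ℝ) ≤ N := by nlinarith
      have : 0 ≤ N := by exact_mod_cast this
      omega
    have : (((N + 1 - -N).toNat : ℤ) : ℝ) = ((N + 1 - -N : ℤ) : ℝ) := by rw [Int.toNat_of_nonneg h0]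
    push_cast at this
    rw [this]
    nlinarith
  rw [Real.rpow_two] at hL
  push_cast at hmain
  rw [Real.exp_add]
  calc (S.card : ℝ) ≤ _ := hmain
    _ ≤ 5 * (1 + L ^ 2) * (5 * (1 + L ^ 2)) * 2 ^ J * (C * Real.exp E) := by gcongr
    _ = Real.exp E * (C * 25 * 2 ^ J * (1 + L ^ 2) ^ 2) := by ring
    _ ≤ _ := mul_le_mul_of_nonneg_left hL (Real.exp_pos _).le

end Crest.Agent.R017

end
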