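import Crest.Agent.R017.Pointwise1

/-! # Row 17: pointwise bounds from zero-free regions -/

set_option autoImplicit false

noncomputable section

open scoped BigOperators ComplexConjugate
open Complex MeasureTheory

namespace Crest.Agent.R017

theorem ps_norm_le {a X τ : ℝ} {c : O → ℂ} {g : O → ℝ} (hg : Summable g) (h0 : ∀ n, 0 ≤ g n)
    (h : ∀ n, Prim n → ‖c n‖ * W a (Nr n / X) ≤ g n) : ‖sm a c X τ‖ ≤ ∑' n, g n := by
  refine tsum_of_norm_bounded hg.hasSum fun n => ?_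
  split_ifs with hn
  · rw [norm_mul, norm_mul, Complex.norm_cpow_eq_rpow_re_of_pos (Nr_pos hn.ne_zero), Complex.norm_real,
      Real.norm_of_nonneg (W_pos _ _).le]
    simpa using h n hn
  · simpa using h0 n

theorem ps_small {a : ℝ} (ha : 0 < a) : ∃ C : ℝ, 0 ≤ C ∧ ∀ (c : O → ℂ) (X τ σ : ℝ), 0 < X → X ≤ 1 → σ ≤ 1 →
    (∀ n, Prim n → ‖c n‖ ≤ 2 * Nr n ^ (1 / 2 : ℝ)) → ‖sm a c X τ‖ ≤ C * X ^ σ := by
  obtain ⟨C, hC⟩ := tsum_W_le_small ha (1 / 2) 1
  refine ⟨2 * |C|, by positivity, fun c X τ σ hX hX1 hσ hc => ?_⟩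
  have h0 : ∀ n : O, 0 ≤ (if n = 0 then 0 else Nr n ^ (1 / 2 : ℝ) * W a (Nr n / X)) := fun n => by
    split_ifs
    · exact le_rfl
    · exact mul_nonneg (Real.rpow_nonneg (Nr_nonneg n) _) (W_pos _ _).le
  refine (ps_norm_le ((summable_W ha hX (1 / 2)).mul_left 2) (fun n => mul_nonneg zero_le_two (h0 n))
    fun n hn => ?_).trans ?_
  · rw [if_neg hn.ne_zero, ← mul_assoc]
    exact mul_le_mul_of_nonneg_right (hc n hn) (W_pos _ _).le
  · rw [tsum_mul_left, mul_assoc]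
    refine mul_le_mul_of_nonneg_left ((hC X hX hX1).trans ?_) zero_le_two
    exact mul_le_mul (le_abs_self C) (Real.rpow_le_rpow_of_exponent_ge hX hX1 hσ) (by positivity) (abs_nonneg C)

theorem ps_Dser : ∃ D : ℝ, 0 ≤ D ∧ ∀ (c : O → ℂ), (∀ n, Prim n → ‖c n‖ ≤ 2 * Nr n ^ (1 / 2 : ℝ)) →
    ∀ s : ℂ, s.re = 2 → ‖Dser c s‖ ≤ D := by
  have hs := (summable_Nr_rpow (σ := 3 / 2) (by norm_num)).mul_left 2
  have h0 : ∀ n : O, 0 ≤ 2 * Nr n ^ (-(3 / 2 : ℝ)) := fun n =>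
    mul_nonneg zero_le_two (Real.rpow_nonneg (Nr_nonneg n) _)
  refine ⟨_, tsum_nonneg h0, fun c hc s hs2 => tsum_of_norm_bounded hs.hasSum fun n => ?_⟩
  split_ifs with hn
  · have hp := Nr_pos hn.ne_zero
    rw [norm_mul, Complex.norm_cpow_eq_rpow_re_of_pos hp, Complex.neg_re, hs2]
    refine (mul_le_mul_of_nonneg_right (hc n hn) (by positivity)).trans (le_of_eq ?_)
    rw [mul_assoc, ← Real.rpow_add hp]
    norm_num
  · simpa using h0 n

theorem ps_gauss {b x X H u : ℝ} (hb : 0 < b) (hX : 1 ≤ X) (hx : X ≤ x) (hH : Real.log x ≤ H) (hu : u ≤ 2) :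
    Real.exp (-(b * H ^ 2)) * X ^ u ≤ Real.exp (1 / b) := by
  have hL : 0 ≤ Real.log X := Real.log_nonneg hX
  have hL' : Real.log X ≤ H := (Real.log_le_log (by linarith) hx).trans hH
  rw [Real.rpow_def_of_pos (by linarith), ← Real.exp_add]
  refine Real.exp_le_exp.mpr ?_
  have h1 : Real.log X * u ≤ 2 * H := by nlinarith
  have h2 : 2 * H - b * H ^ 2 ≤ 1 / b := by
    rw [le_div_iff₀ hb]
    nlinarith [sq_nonneg (b * H - 1)]
  linarith

theorem ps_main {a δ : ℝ} (ha : 0 < a) (hδ : 0 < δ) (hδ1 : δ ≤ 1) : ∃ C : ℝ, 0 ≤ C ∧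
    ∀ (c : O → ℂ) (F : ℂ → ℂ) (x σ X τ M : ℝ), 1 ≤ X → X ≤ x → 0 ≤ σ → σ ≤ 1 → 1 ≤ M →
    (∀ n, Prim n → ‖c n‖ ≤ 2 * Nr n ^ (1 / 2 : ℝ)) → (∀ s : ℂ, s.re = 2 → Dser c s = F s) →
    (∀ s : ℂ, σ + δ ≤ s.re → s.re ≤ 2 → |s.im - τ| ≤ Real.log x + 1 → DifferentiableAt ℂ F s ∧ ‖F s‖ ≤ M) →
    ‖sm a c X τ‖ ≤ C * M * x ^ (2 * δ) * X ^ σ := by
  obtain ⟨D, hD0, hD⟩ := ps_Dser
  set w : ℝ := Real.sqrt (4 * Real.pi * a) * Real.exp (4 * a) with hw
  have hw0 : 0 ≤ w := by positivity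
  set J : ℝ := ∫ t : ℝ, Real.exp (-(a / 2) * t ^ 2) with hJ
  have hJ0 : 0 ≤ J := integral_nonneg fun t => (Real.exp_pos _).le
  refine ⟨D * w * Real.exp (1 / (a / 2)) * J + 4 * (w * Real.exp (1 / a)) + 2 * (1 / δ + 1) * w, by positivity,
    fun c F x σ X τ M hX hx hσ0 hσ hM hc hF hB => ?_⟩
  have hX0 : 0 < X := by linarith
  have hx1 : 1 ≤ x := hX.trans hx
  have hM0 : 0 ≤ M := by linarith
  set H : ℝ := Real.log x + 1 with hH
  have hH0 : 0 ≤ H := by have := Real.log_nonneg hx1; linarith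
  have hHL : Real.log x ≤ H := by linarith
  let G : ℂ → ℂ := fun z => F (z + τ * I) * Wh a z * (X : ℂ) ^ z
  have hG : ∀ u t B : ℝ, 0 ≤ u → u ≤ 2 → ‖F (u + t * I + τ * I)‖ ≤ B →
      ‖G (u + t * I)‖ ≤ B * w * (Real.exp (-(a * t ^ 2)) * X ^ u) := by
    intro u t B hu0 hu hB
    have e1 : ‖(X : ℂ) ^ ((u : ℂ) + t * I)‖ = X ^ u := by
      rw [Complex.norm_cpow_eq_rpow_re_of_pos hX0]; simp
    have e2 : Real.exp (a * (u ^ 2 - t ^ 2)) ≤ Real.exp (4 * a) * Real.exp (-(a * t ^ 2)) := by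
      rw [← Real.exp_add]
      refine Real.exp_le_exp.mpr ?_
      have : u ^ 2 ≤ 4 := by nlinarith
      nlinarith
    simp only [G]
    rw [norm_mul, norm_mul, norm_Wh ha, e1]
    calc _ ≤ B * (Real.sqrt (4 * Real.pi * a) * (Real.exp (4 * a) * Real.exp (-(a * t ^ 2)))) * X ^ u := by
          gcongr
          exact (norm_nonneg _).trans hB
      _ = _ := by rw [hw]; ring
  have hone : 1 ≤ x ^ δ := Real.one_le_rpow hx1 hδ.le
  have honeX : 1 ≤ X ^ σ := Real.one_le_rpow hX hσ0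
  have hx2 : x ^ (2 * δ) = x ^ δ * x ^ δ := by rw [two_mul, Real.rpow_add (by linarith)]
  have hbig : 1 ≤ x ^ (2 * δ) * X ^ σ := by rw [hx2]; exact one_le_mul_of_one_le_of_one_le (by nlinarith) honeX
  have heq : sm a c X τ = (1 / (2 * Real.pi) : ℂ) * ∫ t : ℝ, G ((2 : ℝ) + t * I) := by
    rw [sm_eq_integral ha hX0 hc (σ := 2) (by norm_num) τ]
    congr 2
    funext t
    simp only [G]
    rw [hF _ (by simp)]
  suffices hmain : ‖∫ t : ℝ, G ((2 : ℝ) + t * I)‖ ≤ (D * w * Real.exp (1 / (a / 2)) * J +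
      4 * (w * Real.exp (1 / a)) + 2 * (1 / δ + 1) * w) * M * x ^ (2 * δ) * X ^ σ by
    rw [heq, norm_mul]
    refine le_trans (mul_le_of_le_one_left (norm_nonneg _) ?_) hmain
    rw [norm_div, norm_one, norm_mul, Complex.norm_real, Real.norm_of_nonneg Real.pi_pos.le, Complex.norm_two]
    exact div_le_one_of_le₀ (by linarith [Real.pi_gt_three]) (by positivity)
  by_cases hI : Integrable fun t : ℝ => G ((2 : ℝ) + t * I)
  swap
  · rw [integral_undef hI, norm_zero]; positivity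
  -- the tail
  have htail : ‖∫ t in (Set.Ioc (-H) H)ᶜ, G ((2 : ℝ) + t * I)‖ ≤ D * w * Real.exp (1 / (a / 2)) * J := by
    have hg : Integrable fun t : ℝ => D * w * Real.exp (1 / (a / 2)) * Real.exp (-(a / 2) * t ^ 2) :=
      (integrable_exp_neg_mul_sq (half_pos ha)).const_mul _
    refine (norm_integral_le_of_norm_le hg.integrableOn ?_).trans ?_
    · refine (ae_restrict_iff' measurableSet_Ioc.compl).mpr (Filter.Eventually.of_forall fun t ht => ?_)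
      refine (hG 2 t D zero_le_two le_rfl ?_).trans ?_
      · rw [← hF _ (by simp)]
        exact hD c hc _ (by simp)
      · have ht' : H ^ 2 ≤ t ^ 2 := by
          rw [Set.mem_compl_iff, Set.mem_Ioc, not_and_or, not_lt, not_le] at ht
          rcases ht with ht | ht <;> nlinarith
        have h1 : Real.exp (-(a * t ^ 2)) ≤ Real.exp (-(a / 2 * H ^ 2)) * Real.exp (-(a / 2) * t ^ 2) := by
          rw [← Real.exp_add]
          exact Real.exp_le_exp.mpr (by nlinarith)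
        have h2 := ps_gauss (half_pos ha) hX hx hHL (le_refl (2 : ℝ))
        rw [mul_assoc (D * w)]
        refine mul_le_mul_of_nonneg_left ?_ (by positivity)
        calc _ ≤ Real.exp (-(a / 2 * H ^ 2)) * Real.exp (-(a / 2) * t ^ 2) * X ^ (2 : ℝ) := by gcongr
          _ = Real.exp (-(a / 2 * H ^ 2)) * X ^ (2 : ℝ) * Real.exp (-(a / 2) * t ^ 2) := by ring
          _ ≤ _ := by gcongr
    · refine (setIntegral_le_integral hg (Filter.Eventually.of_forall fun t => by positivity)).trans ?_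
      rw [integral_const_mul]
  -- the rectangle
  have hσδ : σ + δ ≤ 2 := by linarith
  have hin : ∀ u t : ℝ, σ + δ ≤ u → u ≤ 2 → |t| ≤ H →
      DifferentiableAt ℂ F (u + t * I + τ * I) ∧ ‖F (u + t * I + τ * I)‖ ≤ M := fun u t h1 h2 h3 =>
    hB _ (by simpa using h1) (by simpa using h2) (by simpa using h3)
  have hrect := Complex.integral_boundary_rect_eq_zero_of_differentiableOn G ⟨σ + δ, -H⟩ ⟨2, H⟩ (by
    intro z hz
    rw [Complex.mem_reProdIm] at hz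
    dsimp only at hz
    rw [Set.uIcc_of_le hσδ, Set.uIcc_of_le (by linarith)] at hz
    have h1 := (hin z.re z.im hz.1.1 hz.1.2 (abs_le.mpr hz.2)).1
    rw [Complex.re_add_im] at h1
    refine DifferentiableAt.differentiableWithinAt ?_
    refine ((h1.comp z (f := fun z => z + τ * I) (by fun_prop)).mul ?_).mul
      (differentiableAt_id.const_cpow (Or.inl (by exact_mod_cast hX0.ne')))
    unfold Wh
    fun_prop)
  dsimp only at hrect
  have hhor : ∀ t : ℝ, |t| = H → ‖∫ u in (σ + δ)..2, G (u + t * I)‖ ≤ 2 * (M * w * Real.exp (1 / a)) := by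
    intro t ht
    refine (intervalIntegral.norm_integral_le_of_norm_le_const (C := M * w * Real.exp (1 / a))
      fun u hu => ?_).trans ?_
    · rw [Set.uIoc_of_le hσδ] at hu
      refine (hG u t M (by linarith [hu.1]) hu.2 (hin u t hu.1.le hu.2 ht.le).2).trans ?_
      refine mul_le_mul_of_nonneg_left ?_ (by positivity)
      rw [← sq_abs, ht]
      exact ps_gauss ha hX hx hHL hu.2
    · rw [mul_comm]
      refine mul_le_mul_of_nonneg_right ?_ (by positivity)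
      rw [abs_of_nonneg (by linarith)]
      linarith
  have hleft : ‖∫ t in (-H)..H, G ((σ + δ : ℝ) + t * I)‖ ≤ 2 * (1 / δ + 1) * w * M * x ^ (2 * δ) * X ^ σ := by
    refine (intervalIntegral.norm_integral_le_of_norm_le_const (C := M * w * (X ^ σ * x ^ δ))
      fun t ht => ?_).trans ?_
    · rw [Set.uIoc_of_le (by linarith)] at ht
      refine (hG (σ + δ) t M (by linarith) hσδ (hin _ t le_rfl hσδ (abs_le.mpr ⟨ht.1.le, ht.2⟩)).2).trans ?_
      refine mul_le_mul_of_nonneg_left ?_ (by positivity)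
      refine (mul_le_of_le_one_left (by positivity) (Real.exp_le_one_iff.mpr (neg_nonpos.mpr (by positivity)))).trans ?_
      rw [Real.rpow_add hX0]
      gcongr
    · have h1 : H ≤ (1 / δ + 1) * x ^ δ := by
        have := Real.log_le_rpow_div (by linarith : 0 ≤ x) hδ
        rw [add_mul, one_div, inv_mul_eq_div]
        linarith
      rw [abs_of_nonneg (by linarith), hx2]
      calc _ ≤ M * w * (X ^ σ * x ^ δ) * (2 * ((1 / δ + 1) * x ^ δ)) := by gcongr; linarith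
        _ = _ := by ring
  have hmid : ‖∫ t in (-H)..H, G ((2 : ℝ) + t * I)‖ ≤
      4 * (M * w * Real.exp (1 / a)) + 2 * (1 / δ + 1) * w * M * x ^ (2 * δ) * X ^ σ := by
    have h1 := hhor (-H) (by rw [abs_neg, abs_of_nonneg hH0])
    have h2 := hhor H (abs_of_nonneg hH0)
    have e : I • ∫ t in (-H)..H, G ((2 : ℝ) + t * I) = I • (∫ t in (-H)..H, G ((σ + δ : ℝ) + t * I)) +
        (∫ u in (σ + δ)..2, G (u + H * I)) - ∫ u in (σ + δ)..2, G (u + (-H : ℝ) * I) := by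
      linear_combination hrect
    have h3 := congrArg norm e
    rw [norm_smul, Complex.norm_I, one_mul] at h3
    rw [h3]
    refine (norm_sub_le _ _).trans ((add_le_add_left (norm_add_le _ _) _).trans ?_)
    rw [norm_smul, Complex.norm_I, one_mul]
    linarith
  rw [← integral_add_compl (measurableSet_Ioc (a := -H) (b := H)) hI,
    ← intervalIntegral.integral_of_le (by linarith)]
  refine (norm_add_le _ _).trans ?_
  have h1 : D * w * Real.exp (1 / (a / 2)) * J ≤ D * w * Real.exp (1 / (a / 2)) * J * (M * (x ^ (2 * δ) * X ^ σ)) :=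
    le_mul_of_one_le_right (by positivity) (one_le_mul_of_one_le_of_one_le hM hbig)
  have h2 : 4 * (M * w * Real.exp (1 / a)) ≤ 4 * (M * w * Real.exp (1 / a)) * (x ^ (2 * δ) * X ^ σ) :=
    le_mul_of_one_le_right (by positivity) hbig
  linarith

/-- The common part: `Φ` is one of `L`, `1 / L`, `-L' / L`. -/
theorem ps_all {a ε : ℝ} (ha : 0 < a) (hε : 0 < ε) : ∃ C : ℝ, 0 ≤ C ∧
    ∀ (x : ℝ) (q : O) (η : O → ℂ) (σ T X τ : ℝ) (c : O → ℂ) (F : ℂ → ℂ),
    1 ≤ x → IsCh q η → ¬ Princ η → Nr q ≤ x → 1 / 2 ≤ σ → σ ≤ 1 → ZFl η σ T →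
    0 < X → X ≤ x → |τ| ≤ x → |τ| + Real.log x + 4 ≤ T →
    (∀ n, Prim n → ‖c n‖ ≤ 2 * Nr n ^ (1 / 2 : ℝ)) → (∀ s : ℂ, s.re = 2 → Dser c s = F s) →
    (∀ s : ℂ, Lf η s ≠ 0 → DifferentiableAt ℂ F s) →
    (∀ (s : ℂ) (B : ℝ), ‖Lf η s‖ ≤ B ∧ ‖(Lf η s)⁻¹‖ ≤ B ∧ ‖deriv (Lf η) s / Lf η s‖ ≤ B → ‖F s‖ ≤ B) →
      ‖sm a c X τ‖ ≤ C * x ^ ε * X ^ σ := by
  set δ := min (ε / 3) 1 with hδd
  have hδ : 0 < δ := lt_min (by linarith) one_pos
  have hδ1 : δ ≤ 1 := min_le_right _ _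
  have hδε : δ ≤ ε / 3 := min_le_left _ _
  obtain ⟨C₁, hC₁, h₁⟩ := ps_small ha
  obtain ⟨C₂, hC₂, h₂⟩ := ps_main ha hδ hδ1
  obtain ⟨C₃, hC₃, h₃⟩ := Lf_bounds hδ
  refine ⟨C₁ + C₂ * (2 * C₃ + 1), by positivity,
    fun x q η σ T X τ c F hx h hp hq hσ hσ1 hZ hX hXx hτ hT hc hF hd hb => ?_⟩
  have hxε : 1 ≤ x ^ ε := Real.one_le_rpow hx hε.le
  have hXσ : 0 ≤ X ^ σ := by positivity
  rcases le_total X 1 with hX1 | hX1
  · refine (h₁ c X τ σ hX hX1 hσ1 hc).trans (mul_le_mul_of_nonneg_right ?_ hXσ)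
    exact (le_add_of_nonneg_right (by positivity)).trans (le_mul_of_one_le_right (by positivity) hxε)
  have hxδ : 1 ≤ x ^ δ := Real.one_le_rpow hx hδ.le
  refine (h₂ c F x σ X τ ((2 * C₃ + 1) * x ^ δ) hX1 hXx (by linarith) hσ1
    (one_le_mul_of_one_le_of_one_le (by linarith) hxδ) hc hF fun s hs1 hs2 hs3 => ?_).trans ?_
  · have him : |s.im| ≤ |τ| + (Real.log x + 1) := by
      have := abs_sub_abs_le_abs_sub s.im τ
      linarith
    have hl := Real.log_le_sub_one_of_pos (show 0 < x by linarith)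
    refine ⟨hd s (hZ s (by linarith) (by linarith)), ?_⟩
    refine (hb s _ (h₃ (2 * x) q η σ T (by linarith) h hp (by linarith) hσ hσ1 hZ s hs1 (by linarith)
      (by linarith) (by linarith))).trans ?_
    rw [Real.mul_rpow zero_le_two (by linarith), ← mul_assoc]
    refine mul_le_mul_of_nonneg_right ?_ (by positivity)
    have h2 : (2 : ℝ) ^ δ ≤ 2 := by
      simpa using Real.rpow_le_rpow_of_exponent_le one_le_two hδ1
    nlinarith
  · refine mul_le_mul_of_nonneg_right ?_ hXσ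
    have h1 : x ^ δ * x ^ (2 * δ) ≤ x ^ ε := by
      rw [← Real.rpow_add (by linarith)]
      exact Real.rpow_le_rpow_of_exponent_le hx (by linarith)
    calc _ = C₂ * (2 * C₃ + 1) * (x ^ δ * x ^ (2 * δ)) := by ring
      _ ≤ C₂ * (2 * C₃ + 1) * x ^ ε := by gcongr
      _ ≤ _ := by gcongr; linarith

theorem ps_one_le {n : O} (hn : Prim n) : 1 ≤ 2 * Nr n ^ (1 / 2 : ℝ) := by
  have := Real.one_le_rpow (one_le_Nr hn.ne_zero) (show (0 : ℝ) ≤ 1 / 2 by norm_num)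
  linarith

theorem ps_log_le (n : O) : Real.log (Nr n) ≤ 2 * Nr n ^ (1 / 2 : ℝ) := by
  have := Real.log_le_rpow_div (Nr_nonneg n) (show (0 : ℝ) < 1 / 2 by norm_num)
  linarith

theorem ps_diff {n : O} (hn : n ≠ 0) :
    vm n - pr n = 0 ∨ (Pow2 n ∧ ‖vm n - pr n‖ ≤ Real.log (Nr n)) := by
  by_cases hp : Prime n
  · left
    have := vm_prime_pow hp one_pos
    rw [pow_one] at this
    rw [this, pr, if_pos hp, sub_self]
  rw [pr, if_neg hp, sub_zero]
  by_cases h : ∃ p : O, Prime p ∧ ∃ k : ℕ, 0 < k ∧ Associated n (p ^ k)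
  · refine Or.inr ⟨?_, norm_vm_le hn⟩
    obtain ⟨p, hp', k, hk, ha⟩ := h
    have hk2 : 2 ≤ k := by
      by_contra hk2
      obtain rfl : k = 1 := by omega
      rw [pow_one] at ha
      exact hp (ha.symm.prime hp')
    intro r hr hrn
    exact ((pow_dvd_pow_of_dvd (hr.dvd_of_dvd_pow (hrn.trans ha.dvd)) 2).trans (pow_dvd_pow p hk2)).trans
      ha.symm.dvd
  · left
    rw [vm, dif_neg h]

theorem ps_pows {a ε : ℝ} (ha : 0 < a) (hε : 0 < ε) : ∃ C : ℝ, 0 ≤ C ∧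
    ∀ (η : O → ℂ) (x X τ σ : ℝ), (∀ n, ‖η n‖ ≤ 1) → 1 ≤ x → 0 < X → X ≤ x → 1 / 2 ≤ σ → σ ≤ 1 →
      ‖sm a (fun n => (vm n - pr n) * η n) X τ‖ ≤ C * x ^ ε * X ^ σ := by
  classical
  obtain ⟨C₁, hC₁, h₁⟩ := ps_small ha
  obtain ⟨C₂, h₂⟩ := pow2_sum_le (σ := 1 / 2 + ε / 2) (by linarith)
  let g : O → ℝ := fun n => if n ≠ 0 ∧ Pow2 n then Nr n ^ (-(1 / 2 + ε / 2)) else 0
  have hg0 : ∀ n, 0 ≤ g n := fun n => by
    simp only [g]
    split_ifs
    · exact Real.rpow_nonneg (Nr_nonneg n) _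
    · exact le_rfl
  have hgS : ∀ S : Finset O, ∑ n ∈ S, g n ≤ |C₂| := fun S => by
    rw [← Finset.sum_filter]
    exact (h₂ _ fun n hn => (Finset.mem_filter.mp hn).2).trans (le_abs_self _)
  have hg : Summable g := summable_of_sum_le hg0 hgS
  set K := 2 / ε * Real.exp (a * (-(1 / 2 + ε)) ^ 2) with hK
  have hK0 : 0 ≤ K := by positivity
  refine ⟨C₁ + K * |C₂|, by positivity, fun η x X τ σ hη hx hX hXx hσ hσ1 => ?_⟩
  have hxε : 1 ≤ x ^ ε := Real.one_le_rpow hx hε.le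
  have hXσ : 0 ≤ X ^ σ := by positivity
  have hle : ∀ n, ‖(vm n - pr n) * η n‖ ≤ ‖vm n - pr n‖ := fun n => by
    rw [norm_mul]; exact mul_le_of_le_one_right (norm_nonneg _) (hη n)
  rcases le_total X 1 with hX1 | hX1
  · refine (h₁ _ X τ σ hX hX1 hσ1 fun n hn => (hle n).trans ?_).trans (mul_le_mul_of_nonneg_right ?_ hXσ)
    · rcases ps_diff hn.ne_zero with h | h
      · rw [h, norm_zero]; exact zero_le_one.trans (ps_one_le hn)
      · exact h.2.trans (ps_log_le n)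
    · exact (le_add_of_nonneg_right (by positivity)).trans (le_mul_of_one_le_right (by positivity) hxε)
  refine (ps_norm_le (hg.mul_left (K * X ^ (1 / 2 + ε))) (fun n => mul_nonneg (by positivity) (hg0 n))
    fun n hn => ?_).trans ?_
  · refine (mul_le_mul_of_nonneg_right (hle n) (W_pos _ _).le).trans ?_
    rcases ps_diff hn.ne_zero with h | h
    · rw [h, norm_zero, zero_mul]; exact mul_nonneg (by positivity) (hg0 n)
    · have hN := Nr_pos hn.ne_zero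
      have h1 := h.2.trans (Real.log_le_rpow_div hN.le (half_pos hε))
      have h2 := W_le_rpow ha (div_pos hN hX) (-(1 / 2 + ε))
      refine (mul_le_mul h1 h2 (W_pos _ _).le (by positivity)).trans (le_of_eq ?_)
      simp only [g, if_pos (And.intro hn.ne_zero h.1)]
      have e : Nr n ^ (-(1 / 2 + ε / 2)) = Nr n ^ (ε / 2) * Nr n ^ (-(1 / 2 + ε)) := by
        rw [← Real.rpow_add hN]; congr 1; ring
      rw [Real.div_rpow hN.le hX.le, Real.rpow_neg hX.le, e, hK]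
      field_simp
  · rw [tsum_mul_left]
    have h1 : ∑' n, g n ≤ |C₂| := hg.tsum_le_of_sum_le hgS
    have h2 : X ^ (1 / 2 + ε) ≤ x ^ ε * X ^ σ := by
      rw [Real.rpow_add hX, mul_comm]
      exact mul_le_mul (Real.rpow_le_rpow hX.le hXx hε.le) (Real.rpow_le_rpow_of_exponent_le hX1 hσ)
        (by positivity) (by positivity)
    calc _ ≤ K * (x ^ ε * X ^ σ) * |C₂| := by gcongr; exact tsum_nonneg hg0
      _ = K * |C₂| * x ^ ε * X ^ σ := by ring
      _ ≤ _ := by gcongr; linarith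

theorem pw_S {a ε : ℝ} (ha : 0 < a) (hε : 0 < ε) : ∃ C : ℝ, 0 ≤ C ∧
    ∀ (x : ℝ) (q : O) (η : O → ℂ) (σ T X τ : ℝ),
    1 ≤ x → IsCh q η → ¬ Princ η → Nr q ≤ x → 1 / 2 ≤ σ → σ ≤ 1 → ZFl η σ T →
    0 < X → X ≤ x → |τ| ≤ x → |τ| + Real.log x + 4 ≤ T →
      ‖sm a (fun n => mu n * η n) X τ‖ ≤ C * x ^ ε * X ^ σ := by
  obtain ⟨C, hC, H⟩ := ps_all ha hε
  refine ⟨C, hC, fun x q η σ T X τ hx h hp hq hσ hσ1 hZ hX hXx hτ hT =>
    H x q η σ T X τ _ (fun s => (Lf η s)⁻¹) hx h hp hq hσ hσ1 hZ hX hXx hτ hT (fun n hn => ?_) (fun s hs => ?_)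
      (fun s hs => (h.Lf_differentiableAt (Or.inr hp)).inv hs) fun s B hB => hB.2.1⟩
  · rw [norm_mul]
    exact (mul_le_one₀ (norm_mu_le n) (norm_nonneg _) (h.norm_le n)).trans (ps_one_le hn)
  · have h1 : 1 < s.re := by rw [hs]; norm_num
    rw [h.Lf_eq h1]
    exact eq_inv_of_mul_eq_one_right (h.Dser_mul_mu h1)

theorem pw_A {a ε : ℝ} (ha : 0 < a) (hε : 0 < ε) : ∃ C : ℝ, 0 ≤ C ∧
    ∀ (x : ℝ) (q : O) (η : O → ℂ) (σ T X τ : ℝ),
    1 ≤ x → IsCh q η → ¬ Princ η → Nr q ≤ x → 1 / 2 ≤ σ → σ ≤ 1 → ZFl η σ T →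
    0 < X → X ≤ x → |τ| ≤ x → |τ| + Real.log x + 4 ≤ T →
      ‖sm a η X τ‖ ≤ C * x ^ ε * X ^ σ := by
  obtain ⟨C, hC, H⟩ := ps_all ha hε
  exact ⟨C, hC, fun x q η σ T X τ hx h hp hq hσ hσ1 hZ hX hXx hτ hT =>
    H x q η σ T X τ _ (Lf η) hx h hp hq hσ hσ1 hZ hX hXx hτ hT (fun n hn => (h.norm_le n).trans (ps_one_le hn))
      (fun s hs => (h.Lf_eq (by rw [hs]; norm_num)).symm)
      (fun s _ => h.Lf_differentiableAt (Or.inr hp)) fun s B hB => hB.1⟩

theorem pw_P {a ε : ℝ} (ha : 0 < a) (hε : 0 < ε) : ∃ C : ℝ, 0 ≤ C ∧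
    ∀ (x : ℝ) (q : O) (η : O → ℂ) (σ T X τ : ℝ),
    1 ≤ x → IsCh q η → ¬ Princ η → Nr q ≤ x → 1 / 2 ≤ σ → σ ≤ 1 → ZFl η σ T →
    0 < X → X ≤ x → |τ| ≤ x → |τ| + Real.log x + 4 ≤ T →
      ‖sm a (fun n => pr n * η n) X τ‖ ≤ C * x ^ ε * X ^ σ := by
  obtain ⟨C, hC, H⟩ := ps_all ha hε
  obtain ⟨C', hC', H'⟩ := ps_pows ha hε
  refine ⟨C + C', by positivity, fun x q η σ T X τ hx h hp hq hσ hσ1 hZ hX hXx hτ hT => ?_⟩
  have hd : Differentiable ℂ (Lf η) := fun s => h.Lf_differentiableAt (Or.inr hp)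
  have hle : ∀ (z : ℂ) (n : O), ‖z * η n‖ ≤ ‖z‖ := fun z n => by
    rw [norm_mul]; exact mul_le_of_le_one_right (norm_nonneg _) (h.norm_le n)
  have hv : ∀ n, Prim n → ‖vm n * η n‖ ≤ 2 * Nr n ^ (1 / 2 : ℝ) := fun n hn =>
    (hle _ n).trans ((norm_vm_le hn.ne_zero).trans (ps_log_le n))
  have hw : ∀ n, Prim n → ‖(vm n - pr n) * η n‖ ≤ 2 * Nr n ^ (1 / 2 : ℝ) := fun n hn => by
    refine (hle _ n).trans ?_
    rcases ps_diff hn.ne_zero with h | h
    · rw [h, norm_zero]; exact zero_le_one.trans (ps_one_le hn)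
    · exact h.2.trans (ps_log_le n)
  have h1 := H x q η σ T X τ (fun n => vm n * η n) (fun s => -(deriv (Lf η) s / Lf η s)) hx h hp hq hσ hσ1 hZ hX
    hXx hτ hT hv (fun s hs => by
      have h1 : 1 < s.re := by rw [hs]; norm_num
      rw [h.logDeriv h1, mul_div_cancel_right₀ _ (zf_one q η h s h1 (Or.inr hp)), neg_neg])
    (fun s hs => (((hd.analyticAt s).deriv.differentiableAt).div (hd s) hs).neg)
    fun s B hB => by rw [norm_neg]; exact hB.2.2
  have h2 := H' η x X τ σ h.norm_le hx hX hXx hσ hσ1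
  have e : sm a (fun n => pr n * η n) X τ =
      sm a (fun n => vm n * η n) X τ - sm a (fun n => (vm n - pr n) * η n) X τ := by
    unfold sm
    rw [← (summable_sm ha hX hv τ).tsum_sub (summable_sm ha hX hw τ)]
    refine tsum_congr fun n => ?_
    split_ifs
    · ring
    · simp
  rw [e]
  refine (norm_sub_le _ _).trans ?_
  linarith

end Crest.Agent.R017

end
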