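import Crest.Agent.R017.T4StepAux0

/-! # Row 17, `step4`: the leaves -/

set_option autoImplicit false

noncomputable section

open scoped BigOperators ComplexConjugate
open Complex MeasureTheory

namespace Crest.Agent.R017

theorem s4b_A_zero {α η : O → ℂ} {Z : ℝ} {f : O} (hf : Prim f) (hα : ∀ b, α b ≠ 0 → Nr b ≤ Z)
    (h : Z / Nr f < 1) (s : ℂ) : s4_A α Z f η s = 0 := by
  refine Finset.sum_eq_zero fun b hb => ?_
  have h1 := one_le_Nr (Finset.mem_filter.1 hb).2.ne_zero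
  have h2 := Nr_pos hf.ne_zero
  have h3 : α (f * b) = 0 := by
    by_contra h3
    have h4 := hα _ h3
    rw [div_lt_one h2] at h
    rw [Nr_mul] at h4
    nlinarith
  rw [h3, zero_mul, zero_mul]

theorem s4b_A_le {e : ℝ} (he : 0 < e) : ∃ C : ℝ, 0 ≤ C ∧ ∀ (α η : O → ℂ) (Z u : ℝ) (f : O), Prim f →
    (∀ b, ‖α b‖ ≤ 1) → (∀ b, α b ≠ 0 → Nr b ≤ Z) → (∀ b, ‖η b‖ ≤ 1) → 1 ≤ Z / Nr f →
    ‖s4_A α Z f η (((2 * e - 1 : ℝ) : ℂ) + u * I)‖ ≤ C * (Z / Nr f) ^ (2 * e) := by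
  classical
  obtain ⟨C, hC⟩ := sum_box_rpow_le (σ := 1 - 2 * e) (by linarith)
  refine ⟨|C|, abs_nonneg _, fun α η Z u f hf hα hZ hη h => ?_⟩
  have h0 := Nr_pos hf.ne_zero
  have h1 := hC _ h
  rw [sub_sub_cancel, neg_sub] at h1
  refine le_trans ?_ (h1.trans (mul_le_mul_of_nonneg_right (le_abs_self _) (by positivity)))
  rw [s4_A, ← Finset.sum_filter_of_ne (p := fun b => α (f * b) ≠ 0)
    fun b _ hb => left_ne_zero_of_mul (left_ne_zero_of_mul hb)]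
  refine (norm_sum_le _ _).trans ((Finset.sum_le_sum fun b hb => ?_).trans
    (Finset.sum_le_sum_of_subset_of_nonneg (fun b hb => ?_)
      fun b _ _ => Real.rpow_nonneg (Nr_nonneg b) _))
  · have hb0 := Nr_pos (Finset.mem_filter.1 (Finset.mem_filter.1 hb).1).2.ne_zero
    rw [norm_mul, norm_mul, Complex.norm_cpow_eq_rpow_re_of_pos hb0]
    simp only [add_re, ofReal_re, mul_re, I_re, mul_zero, ofReal_im, I_im, mul_one, sub_self,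
      add_zero]
    exact mul_le_of_le_one_left (by positivity) (mul_le_one₀ (hα _) (norm_nonneg _) (hη _))
  · obtain ⟨h2, h3⟩ := Finset.mem_filter.1 hb
    refine mem_box.2 ⟨(Finset.mem_filter.1 h2).2.ne_zero, ?_⟩
    rw [le_div_iff₀ h0, mul_comm, ← Nr_mul]
    exact hZ _ h3

theorem s4b_br_pow {a₁ a₂ : ℝ} (ha₁ : 0 < a₁) (ha₂ : 0 < a₂) {k : ℕ} (hk : 1 ≤ k) :
    ∃ C : ℝ, 0 ≤ C ∧ ∀ (l X₁ X₂ τ : ℝ) (c : ℂ) (η : O → ℂ), 0 < l → 0 < X₁ → 0 < X₂ → ‖c‖ ≤ 1 →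
      (∀ n, ‖η n‖ ≤ 1) → ‖s4_br a₁ a₂ l c η X₁ X₂ τ‖ ≤ C * (X₁ * X₂) ^ k := by
  obtain ⟨C₁, h₁⟩ := norm_sm_le ha₁ k
  obtain ⟨C₂, h₂⟩ := norm_sm_le ha₂ k
  have hk' : (1 : ℝ) ≤ k := by exact_mod_cast hk
  refine ⟨2 * (|C₁| * |C₂|), by positivity, fun l X₁ X₂ τ c η hl h1 h2 hc hη => ?_⟩
  have key : ∀ Y₁ Y₂ : ℝ, 0 < Y₁ → 0 < Y₂ →
      ‖sm a₁ η Y₁ τ * sm a₂ η Y₂ τ‖ ≤ |C₁| * |C₂| * (Y₁ * Y₂) ^ k := fun Y₁ Y₂ p₁ p₂ => by
    have b₁ := h₁ η Y₁ τ p₁ (fun n _ => hη n) (Or.inl hk')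
    have b₂ := h₂ η Y₂ τ p₂ (fun n _ => hη n) (Or.inl hk')
    rw [Real.rpow_natCast] at b₁ b₂
    rw [norm_mul, mul_pow, mul_mul_mul_comm]
    exact mul_le_mul (b₁.trans (mul_le_mul_of_nonneg_right (le_abs_self _) (by positivity)))
      (b₂.trans (mul_le_mul_of_nonneg_right (le_abs_self _) (by positivity))) (norm_nonneg _)
      (by positivity)
  have h3 := key X₁ X₂ h1 h2
  have h4 := key (X₁ / l) (X₂ * l) (by positivity) (by positivity)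
  rw [show X₁ / l * (X₂ * l) = X₁ * X₂ by field_simp] at h4
  refine (norm_sub_le _ _).trans ?_
  rw [norm_mul c]
  have h5 := mul_le_of_le_one_left (norm_nonneg (sm a₁ η (X₁ / l) τ * sm a₂ η (X₂ * l) τ)) hc
  linarith

theorem s4b_cs (S : Finset O) (f g : O → ℂ) {B X Y : ℝ} (hB : 0 ≤ B) (hX : 0 ≤ X) (hY : 0 ≤ Y)
    (hf : ∑ r ∈ S, ‖f r‖ ^ 4 ≤ B * X ^ 2) (hg : ∑ r ∈ S, ‖g r‖ ^ 4 ≤ B * Y ^ 2) :
    ∑ r ∈ S, ‖f r * g r‖ ^ 2 ≤ B * (X * Y) := by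
  have h := Finset.sum_mul_sq_le_sq_mul_sq S (fun r => ‖f r‖ ^ 2) fun r => ‖g r‖ ^ 2
  simp only [← pow_mul] at h
  simp only [norm_mul, mul_pow]
  refine le_of_sq_le_sq (h.trans ((mul_le_mul hf hg (Finset.sum_nonneg fun _ _ => by positivity)
    (by positivity)).trans (le_of_eq (by ring)))) (by positivity)

theorem s4b_prod {M₁ M₂ s₁ s₂ : ℂ} {A Λ X₁ X₂ E : ℝ} (hA : 0 ≤ A) (hΛ : 0 ≤ Λ) (h₁ : 0 < X₁)
    (h₂ : 0 < X₂) (hE : 1 ≤ E) (hE₁ : X₁ ≤ E) (hE₂ : X₂ ≤ E) (hM₁ : ‖M₁‖ ≤ A * X₁)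
    (hM₂ : ‖M₂‖ ≤ A * X₂) (hs₁ : ‖s₁ - M₁‖ ≤ Λ * √X₁) (hs₂ : ‖s₂ - M₂‖ ≤ Λ * √X₂) :
    ‖s₁ * s₂ - M₁ * M₂‖ ≤ (2 * A * Λ + Λ ^ 2) * (√X₁ * √X₂ * √E) := by
  have e : s₁ * s₂ - M₁ * M₂ = M₁ * (s₂ - M₂) + (s₁ - M₁) * M₂ + (s₁ - M₁) * (s₂ - M₂) := by ring
  have q₁ := Real.sqrt_le_sqrt hE₁
  have q₂ := Real.sqrt_le_sqrt hE₂
  have q₃ : 1 ≤ √E := Real.one_le_sqrt.2 hE
  have p₁ := Real.sqrt_nonneg X₁
  have p₂ := Real.sqrt_nonneg X₂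
  have b₁ : ‖M₁ * (s₂ - M₂)‖ ≤ A * Λ * (√X₁ * √X₂ * √E) := by
    rw [norm_mul]
    refine (mul_le_mul hM₁ hs₂ (norm_nonneg _) (by positivity)).trans ?_
    calc A * X₁ * (Λ * √X₂) = A * Λ * (√X₁ * √X₂ * √X₁) := by
          linear_combination (-(A * Λ * √X₂)) * Real.mul_self_sqrt h₁.le
      _ ≤ _ := by gcongr
  have b₂ : ‖(s₁ - M₁) * M₂‖ ≤ A * Λ * (√X₁ * √X₂ * √E) := by
    rw [norm_mul]
    refine (mul_le_mul hs₁ hM₂ (norm_nonneg _) (by positivity)).trans ?_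
    calc Λ * √X₁ * (A * X₂) = A * Λ * (√X₁ * √X₂ * √X₂) := by
          linear_combination (-(A * Λ * √X₁)) * Real.mul_self_sqrt h₂.le
      _ ≤ _ := by gcongr
  have b₃ : ‖(s₁ - M₁) * (s₂ - M₂)‖ ≤ Λ ^ 2 * (√X₁ * √X₂ * √E) := by
    rw [norm_mul]
    refine (mul_le_mul hs₁ hs₂ (norm_nonneg _) (by positivity)).trans ?_
    calc Λ * √X₁ * (Λ * √X₂) = Λ ^ 2 * (√X₁ * √X₂ * 1) := by ring
      _ ≤ _ := by gcongr
  rw [e]
  refine (norm_add₃_le).trans ?_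
  linarith

open Classical in
/-- `sm_asymp` in a convenient form. -/
theorem s4b_asymp {a e : ℝ} (ha : 0 < a) (he : 0 < e) (q : O) : ∃ C : ℝ, 1 ≤ C ∧
    ∀ (η : O → ℂ) (k : O) (x τ : ℝ), IsCh q η → k ≠ 0 → 1 ≤ x → Nr k ≤ x ^ 2 → ∃ ϱ : ℂ, ‖ϱ‖ ≤ C ∧
      ∀ X : ℝ, 0 < X → ‖sm a (fun n => if IsCoprime n k then η n else 0) X τ -
        ϱ * (X : ℂ) ^ (1 - τ * I)‖ ≤ C * x ^ (2 * e) * (1 + |τ|) ^ C * √X := by
  obtain ⟨C, hC, h⟩ := sm_asymp ha he q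
  set A := √(4 * Real.pi * a) * Real.exp a with hA
  have hA0 : 0 ≤ A := by positivity
  refine ⟨1 + C + C * A, by nlinarith, fun η k x τ hη hk hx hkx => ?_⟩
  obtain ⟨ϱ, h1, -, h2⟩ := h η k hη hk
  refine ⟨ϱ * Wh a (1 - τ * I), ?_, fun X hX => ?_⟩
  · have h3 := norm_Wh ha 1 (-τ)
    rw [show ((1 : ℝ) : ℂ) + ((-τ : ℝ) : ℂ) * I = 1 - τ * I by push_cast; ring] at h3
    have h4 : ‖Wh a (1 - τ * I)‖ ≤ A := by
      rw [h3]
      exact mul_le_mul_of_nonneg_left (Real.exp_le_exp.2 (by nlinarith [sq_nonneg τ]))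
        (Real.sqrt_nonneg _)
    rw [norm_mul]
    linarith [mul_le_mul h1 h4 (norm_nonneg _) hC]
  · rw [mul_right_comm, Real.sqrt_eq_rpow]
    refine (h2 X τ hX).trans ?_
    have h3 : Nr k ^ e ≤ x ^ (2 * e) := by
      rw [Real.rpow_mul (by linarith), Real.rpow_two]
      exact Real.rpow_le_rpow (Nr_nonneg k) hkx he.le
    have h4 : C ≤ 1 + C + C * A := by nlinarith
    have h5 : (1 + |τ|) ^ C ≤ (1 + |τ|) ^ (1 + C + C * A) :=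
      Real.rpow_le_rpow_of_exponent_le (by linarith [abs_nonneg τ]) h4
    have h6 := Real.rpow_nonneg (Nr_nonneg k) e
    gcongr

open Classical in
theorem s4b_exc {a₁ a₂ e : ℝ} (ha₁ : 0 < a₁) (ha₂ : 0 < a₂) (he : 0 < e) (q : O) :
    ∃ C : ℝ, 0 ≤ C ∧ ∀ (η : O → ℂ) (k : O) (x l X₁ X₂ τ E : ℝ), IsCh q η → k ≠ 0 → 1 ≤ x →
      Nr k ≤ x ^ 2 → 0 < l → 0 < X₁ → 0 < X₂ → 1 ≤ E → X₁ ≤ E → X₂ ≤ E → X₁ / l ≤ E → X₂ * l ≤ E →
      ‖s4_br a₁ a₂ l 1 (fun n => if IsCoprime n k then η n else 0) X₁ X₂ τ‖ ^ 2 ≤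
        C * x ^ (8 * e) * (1 + |τ|) ^ C * (X₁ * X₂ * E) := by
  obtain ⟨C₁, hC₁, h₁⟩ := s4b_asymp ha₁ he q
  obtain ⟨C₂, hC₂, h₂⟩ := s4b_asymp ha₂ he q
  set C := C₁ + C₂ with hC
  have hC1 : 1 ≤ C := by linarith
  refine ⟨36 * C ^ 4, by positivity, fun η k x l X₁ X₂ τ E hη hk hx hkx hl p₁ p₂ hE e₁ e₂ e₃ e₄ => ?_⟩
  obtain ⟨ϱ₁, b₁, s₁⟩ := h₁ η k x τ hη hk hx hkx
  obtain ⟨ϱ₂, b₂, s₂⟩ := h₂ η k x τ hη hk hx hkx
  have hT : 1 ≤ 1 + |τ| := by linarith [abs_nonneg τ]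
  set Λ := C * x ^ (2 * e) * (1 + |τ|) ^ C with hΛ
  have hx1 : 1 ≤ x ^ (2 * e) := Real.one_le_rpow hx (by positivity)
  have hT1 : 1 ≤ (1 + |τ|) ^ C := Real.one_le_rpow hT (by positivity)
  have hCΛ : C ≤ Λ := by
    rw [hΛ, mul_assoc]
    exact le_mul_of_one_le_right (by positivity) (one_le_mul_of_one_le_of_one_le hx1 hT1)
  have hm : ∀ C' : ℝ, 1 ≤ C' → C' ≤ C → C' * x ^ (2 * e) * (1 + |τ|) ^ C' ≤ Λ := fun C' h1 h2 => by
    have h3 := Real.rpow_le_rpow_of_exponent_le hT h2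
    rw [hΛ]
    gcongr
  have hM : ∀ (ϱ : ℂ) (X : ℝ), 0 < X → ‖ϱ‖ ≤ C → ‖ϱ * (X : ℂ) ^ (1 - τ * I)‖ ≤ C * X :=
    fun ϱ X hX h => by
      rw [norm_mul, Complex.norm_cpow_eq_rpow_re_of_pos hX]
      simp only [sub_re, one_re, mul_re, ofReal_re, I_re, mul_zero, ofReal_im, I_im, mul_one,
        sub_self, sub_zero, Real.rpow_one]
      exact mul_le_mul_of_nonneg_right h hX.le
  have key : ∀ Y₁ Y₂ : ℝ, 0 < Y₁ → 0 < Y₂ → Y₁ ≤ E → Y₂ ≤ E → Y₁ * Y₂ = X₁ * X₂ →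
      ‖sm a₁ (fun n => if IsCoprime n k then η n else 0) Y₁ τ *
        sm a₂ (fun n => if IsCoprime n k then η n else 0) Y₂ τ -
        ϱ₁ * ϱ₂ * ((X₁ * X₂ : ℝ) : ℂ) ^ (1 - τ * I)‖ ≤ 3 * Λ ^ 2 * √(X₁ * X₂ * E) := by
    intro Y₁ Y₂ q₁ q₂ r₁ r₂ hY
    have h := s4b_prod (by positivity) (by positivity) q₁ q₂ hE r₁ r₂
      (hM ϱ₁ Y₁ q₁ (by linarith)) (hM ϱ₂ Y₂ q₂ (by linarith))
      ((s₁ Y₁ q₁).trans (mul_le_mul_of_nonneg_right (hm C₁ hC₁ (by linarith)) (Real.sqrt_nonneg _)))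
      ((s₂ Y₂ q₂).trans (mul_le_mul_of_nonneg_right (hm C₂ hC₂ (by linarith)) (Real.sqrt_nonneg _)))
    rw [mul_mul_mul_comm, ← Complex.mul_cpow_ofReal_nonneg q₁.le q₂.le, ← Complex.ofReal_mul,
      ← Real.sqrt_mul q₁.le, ← Real.sqrt_mul (by positivity), hY] at h
    refine h.trans (mul_le_mul_of_nonneg_right ?_ (Real.sqrt_nonneg _))
    nlinarith
  have k₁ := key X₁ X₂ p₁ p₂ e₁ e₂ rfl
  have k₂ := key (X₁ / l) (X₂ * l) (by positivity) (by positivity) e₃ e₄ (by field_simp)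
  have h3 : ‖s4_br a₁ a₂ l 1 (fun n => if IsCoprime n k then η n else 0) X₁ X₂ τ‖ ≤
      6 * Λ ^ 2 * √(X₁ * X₂ * E) := by
    rw [s4_br, one_mul, ← sub_sub_sub_cancel_right _ _ (ϱ₁ * ϱ₂ * ((X₁ * X₂ : ℝ) : ℂ) ^ (1 - τ * I))]
    linarith [norm_sub_le_of_le k₁ k₂]
  refine (pow_le_pow_left₀ (norm_nonneg _) h3 2).trans ?_
  have h4 : (x ^ (2 * e)) ^ 4 = x ^ (8 * e) := by
    rw [← Real.rpow_natCast, ← Real.rpow_mul (by linarith)]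
    congr 1
    push_cast
    ring
  have h5 : ((1 + |τ|) ^ C) ^ 4 ≤ (1 + |τ|) ^ (36 * C ^ 4) := by
    rw [← Real.rpow_natCast, ← Real.rpow_mul (by linarith)]
    refine Real.rpow_le_rpow_of_exponent_le hT ?_
    have := le_self_pow₀ hC1 (show 4 ≠ 0 by norm_num)
    push_cast
    linarith
  rw [mul_pow, Real.sq_sqrt (by positivity)]
  refine mul_le_mul_of_nonneg_right ?_ (by positivity)
  calc (6 * Λ ^ 2) ^ 2 = 36 * C ^ 4 * (x ^ (2 * e)) ^ 4 * ((1 + |τ|) ^ C) ^ 4 := by rw [hΛ]; ring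
    _ ≤ _ := by
      rw [h4]
      gcongr

/-- Put `H = R / (K N d²)`, `X₃ = Z / N f`.  If `H < 1` the box is empty, if `X₃ < 1` the third
factor vanishes (`hαs`); in general it is `≤ C X₃^{2e}` (`sum_box_rpow_le`; only `N b ≤ X₃` occur).
If `X₁ X₂ < x⁻²`: `‖s4_br‖ ≤ C (X₁ X₂)²` (`norm_sm_le` with `σ = 2`), at most `25 x / N d²` rows,
compare with the last term `N₁ N₂ Z ≥ x⁻²` of `s4_Dd`.
Otherwise `X₁ X₂ ≤ x^{4e} (X₁ X₂)^{1+2e}`.  Non-exceptional rows: Cauchy–Schwarz, `IH` (lengths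
`X₁, X₂, X₁ / l, X₂ l`), `PW`, `N rad (t d²) ≤ N (rad t) N d`,
`X₃^{2θ+4e-2} ≤ X₃^{6e-1} Z^{2θ-1}`.  Exceptional rows: `card_exc_le` gives at most
`C x^e (R/K)^{1/6} / N d`; `‖s4_br‖² ≤ C x^{8e} (1 + |τ|)^C X₁ X₂ E` with `E = N₁ N₂` for `c = 0`
(`norm_sm_le`, `σ = 1`) and `E = 1 + N₁ + N₂ l` for `c = 1` (`exists_of_exc`, `sm_asymp` with
`q = Q * Q`, `k = rad (r t d²)` of norm `≤ x²`, `coprime_rad_iff`; the main terms cancel;
`norm_Wh`); `X₃^{4e} ≤ X₃^{6e-1} Z`. -/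
theorem s4_leaf {Q : O} (hQ : Q ≠ 0) (h72 : (72 : O) ∣ Q) {a₁ a₂ e C₀ : ℝ} (ha₁ : 0 < a₁)
    (ha₂ : 0 < a₂) (he : 0 < e) (he1 : e ≤ 1 / 8) (hC₀ : 0 ≤ C₀) : ∃ C : ℝ, 0 ≤ C ∧
    ∀ (x R K N₁ N₂ l Z θ Ξ P : ℝ) (c : ℂ) (ψ α : O → ℂ) (t : O),
    s4_Hyp Q a₁ a₂ C₀ x R K N₁ N₂ l Z θ Ξ P c ψ α t →
    ∀ (ψ' ψ'' : O → ℂ) (d f : O) (X₁ X₂ τ u : ℝ), IsCh Q ψ' → IsCh Q ψ'' → Adm Q d → IsCoprime d t →
    Prim f → 0 < X₁ → X₁ ≤ N₁ → 0 < X₂ → X₂ ≤ N₂ →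
    NS (R / (K * Nr d ^ 2)) (fun r =>
      s4_br a₁ a₂ l c (fun n => ψ' n * chi n (r * (t * d ^ 2))) X₁ X₂ τ *
        s4_A α Z f (fun b => ψ'' b * chi b (r * (t * d ^ 2))) (((2 * e - 1 : ℝ) : ℂ) + u * I)) ≤
      C * x ^ (13 * e) * (1 + |τ|) ^ C * (1 + |u|) ^ 2 * (X₁ * X₂) ^ (1 + 2 * e) *
        (Z / Nr f) ^ (6 * e - 1) * s4_Dd R K N₁ N₂ l Z θ Ξ P c t / Nr d := by
  classical
  obtain ⟨CA, hCA, hA⟩ := s4b_A_le he
  obtain ⟨C1, hC1, hb1⟩ := s4b_br_pow ha₁ ha₂ (k := 1) le_rfl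
  obtain ⟨C2, hC2, hb2⟩ := s4b_br_pow ha₁ ha₂ (k := 2) one_le_two
  obtain ⟨CE, hCE, hE⟩ := s4b_exc ha₁ ha₂ he (Q * Q)
  obtain ⟨CC, hCC⟩ := card_exc_le hQ he
  have k₁ : 0 ≤ 25 * C2 ^ 2 * CA ^ 2 := by positivity
  have k₂ : 0 ≤ |CC| * (C1 ^ 2 + CE) * CA ^ 2 := by positivity
  set C := 25 * C2 ^ 2 * CA ^ 2 + 4 + |CC| * (C1 ^ 2 + CE) * CA ^ 2 + C₀ + CE with hC
  have hC0 : 0 ≤ C := by positivity
  refine ⟨C, hC0, fun x R K N₁ N₂ l Z θ Ξ P c ψ α t H ψ' ψ'' d f X₁ X₂ τ u h' h'' hd hdt hf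
    p₁ e₁ p₂ e₂ => ?_⟩
  have hx := H.hx
  have hR := H.hR
  have hK := H.hK
  have hl := H.hl
  have hZ := H.hZ
  have hΞ := H.hΞ
  have hP := H.hP
  have hd0 := hd.1.ne_zero
  have hNd := one_le_Nr hd0
  have hNf := one_le_Nr hf.ne_zero
  have hNt := Nr_nonneg (rad t)
  have hN₁ : 0 < N₁ := p₁.trans_le e₁
  have hN₂ : 0 < N₂ := p₂.trans_le e₂
  have htd : t * d ^ 2 ≠ 0 := mul_ne_zero H.ht (pow_ne_zero 2 hd0)
  have hc1 : ‖c‖ ≤ 1 := by rcases H.hc with rfl | rfl <;> simp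
  have hT : 1 ≤ 1 + |τ| := by linarith [abs_nonneg τ]
  have hU : 1 ≤ (1 + |u|) ^ 2 := one_le_pow₀ (by linarith [abs_nonneg u])
  have hη : ∀ (φ : O → ℂ) (w : O), IsCh Q φ → ∀ n, ‖φ n * chi n w‖ ≤ 1 := fun φ w h n => by
    rw [norm_mul]
    exact mul_le_one₀ (h.norm_le n) (norm_nonneg _) (norm_chi_le _ _)
  set Hh := R / (K * Nr d ^ 2) with hHh
  set X₃ := Z / Nr f with hX₃
  set Y := X₁ * X₂ with hY
  set E := (if c = 0 then N₁ * N₂ else 1 + N₁ + N₂ * l) with hEdef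
  have hY0 : 0 < Y := by positivity
  have hX₃0 : 0 < X₃ := by positivity
  have hX₃Z : X₃ ≤ Z := div_le_self (by linarith) hNf
  have hE0 : 0 ≤ E := by
    rw [hEdef]
    split_ifs <;> positivity
  have hYN : Y ≤ N₁ * N₂ := mul_le_mul e₁ e₂ p₂.le hN₁.le
  set D₁ := K⁻¹ * Ξ * P ^ 2 * (R * Nr (rad t)) * Z ^ (2 * θ - 1) with hD₁
  set D₂ := (R / K) ^ (1 / 6 : ℝ) * E * Z with hD₂
  set D₃ := N₁ * N₂ * Z with hD₃
  have d₁ : 0 ≤ D₁ := by positivity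
  have d₂ : 0 ≤ D₂ := by positivity
  have d₃ : 0 ≤ D₃ := by positivity
  set G := x ^ (13 * e) * (1 + |τ|) ^ C * (1 + |u|) ^ 2 with hG
  set V := Y ^ (1 + 2 * e) * X₃ ^ (6 * e - 1) / Nr d with hV
  have V0 : 0 ≤ V := by positivity
  have hGm : ∀ a b : ℝ, a ≤ 13 * e → b ≤ C → x ^ a * (1 + |τ|) ^ b * (1 + |u|) ^ 2 ≤ G :=
    fun a b ha hb => by
      have h1 := Real.rpow_le_rpow_of_exponent_le hx ha
      have h2 := Real.rpow_le_rpow_of_exponent_le hT hb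
      rw [hG]
      gcongr
  have G0 : 0 ≤ G := by positivity
  suffices key : NS Hh (fun r =>
      s4_br a₁ a₂ l c (fun n => ψ' n * chi n (r * (t * d ^ 2))) X₁ X₂ τ *
        s4_A α Z f (fun b => ψ'' b * chi b (r * (t * d ^ 2))) (((2 * e - 1 : ℝ) : ℂ) + u * I)) ≤
      C * (G * (V * (D₁ + D₂ + D₃))) by
    refine key.trans (le_of_eq ?_)
    rw [s4_Dd, hG, hV]
    ring
  rcases lt_or_ge Hh 1 with hH | hH
  · rw [NS, box_eq_empty hH, Finset.sum_empty]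
    positivity
  rcases lt_or_ge X₃ 1 with hX | hX
  · simp only [NS, s4b_A_zero hf (fun b hb => (H.hαs b hb).2) hX, mul_zero, norm_zero]
    rw [zero_pow two_ne_zero, Finset.sum_const_zero]
    positivity
  have hHx : Hh * Nr d ≤ x := by
    have h1 : Hh * Nr d = R / (K * Nr d) := by
      rw [hHh]
      field_simp
    rw [h1]
    exact (div_le_self (by linarith) (one_le_mul_of_one_le_of_one_le hK hNd)).trans H.hRx
  have hHx' : Hh ≤ x := (le_mul_of_one_le_right (by linarith) hNd).trans hHx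
  have hA2 : ∀ r, ‖s4_A α Z f (fun b => ψ'' b * chi b (r * (t * d ^ 2)))
      (((2 * e - 1 : ℝ) : ℂ) + u * I)‖ ^ 2 ≤ CA ^ 2 * (X₃ ^ (6 * e - 1) * Z) := fun r => by
    refine (pow_le_pow_left₀ (norm_nonneg _) (hA α _ Z u f hf H.hα (fun b hb => (H.hαs b hb).2)
      (hη _ _ h'') hX) 2).trans ?_
    rw [mul_pow]
    refine mul_le_mul_of_nonneg_left ?_ (sq_nonneg _)
    calc (X₃ ^ (2 * e)) ^ 2 = X₃ ^ (2 * e * 2) := by
          rw [Real.rpow_mul hX₃0.le (2 * e) 2, Real.rpow_two]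
      _ ≤ X₃ ^ (6 * e - 1 + 1) := Real.rpow_le_rpow_of_exponent_le hX (by linarith)
      _ = X₃ ^ (6 * e - 1) * X₃ := Real.rpow_add_one hX₃0.ne' _
      _ ≤ _ := mul_le_mul_of_nonneg_left hX₃Z (by positivity)
  rcases le_total (x * Y) 1 with hs | hs
  · -- short sums
    have hY1 : Y ≤ 1 := (le_mul_of_one_le_left hY0.le hx).trans hs
    have h1 := Finset.sum_le_card_nsmul (box Hh) (fun r =>
      ‖s4_br a₁ a₂ l c (fun n => ψ' n * chi n (r * (t * d ^ 2))) X₁ X₂ τ *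
        s4_A α Z f (fun b => ψ'' b * chi b (r * (t * d ^ 2))) (((2 * e - 1 : ℝ) : ℂ) + u * I)‖ ^ 2)
      ((C2 * Y ^ 2) ^ 2 * (CA ^ 2 * (X₃ ^ (6 * e - 1) * Z))) fun r _ => by
        rw [norm_mul, mul_pow]
        exact mul_le_mul (pow_le_pow_left₀ (norm_nonneg _)
          (hb2 l X₁ X₂ τ c _ (by linarith) p₁ p₂ hc1 (hη _ _ h')) 2) (hA2 r) (sq_nonneg _)
          (sq_nonneg _)
    rw [nsmul_eq_mul] at h1
    have h2 : ((box Hh).card : ℝ) ≤ 25 * (x / Nr d) :=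
      (card_box_le (by linarith)).trans (mul_le_mul_of_nonneg_left
        ((le_div_iff₀ (by linarith)).2 hHx) (by norm_num))
    have h3 : x * Y * Y * Y ^ 2 ≤ 1 * (N₁ * N₂) * Y ^ (1 + 2 * e) := by
      have h4 : Y ^ 2 ≤ Y ^ (1 + 2 * e) := by
        rw [← Real.rpow_two]
        exact Real.rpow_le_rpow_of_exponent_ge hY0 hY1 (by linarith)
      gcongr
    have h4 : 1 ≤ G := by simpa using le_trans (by simpa using hU) (hGm 0 0 (by linarith) hC0)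
    refine (h1.trans (mul_le_mul_of_nonneg_right h2 (by positivity))).trans ?_
    calc _ = 25 * C2 ^ 2 * CA ^ 2 * (1 * (x * Y * Y * Y ^ 2 * (X₃ ^ (6 * e - 1) * Z / Nr d))) := by
          ring
      _ ≤ C * (G * (1 * (N₁ * N₂) * Y ^ (1 + 2 * e) * (X₃ ^ (6 * e - 1) * Z / Nr d))) := by
          gcongr
          linarith
      _ = C * (G * (V * D₃)) := by rw [hV, hD₃]; ring
      _ ≤ _ := by gcongr; linarith
  have hYx : Y ≤ x ^ (2 * e) * Y ^ (1 + 2 * e) := by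
    rw [Real.rpow_add hY0, Real.rpow_one, mul_left_comm, ← Real.mul_rpow (by linarith) hY0.le]
    exact le_mul_of_one_le_right hY0.le (Real.one_le_rpow hs (by positivity))
  rw [NS, ← Finset.sum_filter_add_sum_filter_not (box Hh) fun r => Exc Q (t * d ^ 2) r]
  -- exceptional rows
  have hexc : ∑ r ∈ (box Hh).filter (fun r => Exc Q (t * d ^ 2) r),
      ‖s4_br a₁ a₂ l c (fun n => ψ' n * chi n (r * (t * d ^ 2))) X₁ X₂ τ *
        s4_A α Z f (fun b => ψ'' b * chi b (r * (t * d ^ 2))) (((2 * e - 1 : ℝ) : ℂ) + u * I)‖ ^ 2 ≤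
      |CC| * (C1 ^ 2 + CE) * CA ^ 2 * (G * (V * D₂)) := by
    have x8 : 1 ≤ x ^ (8 * e) * (1 + |τ|) ^ CE :=
      one_le_mul_of_one_le_of_one_le (Real.one_le_rpow hx (by positivity)) (Real.one_le_rpow hT hCE)
    have h1 := Finset.sum_le_card_nsmul ((box Hh).filter (fun r => Exc Q (t * d ^ 2) r)) (fun r =>
      ‖s4_br a₁ a₂ l c (fun n => ψ' n * chi n (r * (t * d ^ 2))) X₁ X₂ τ *
        s4_A α Z f (fun b => ψ'' b * chi b (r * (t * d ^ 2))) (((2 * e - 1 : ℝ) : ℂ) + u * I)‖ ^ 2)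
      ((C1 ^ 2 + CE) * (x ^ (8 * e) * (1 + |τ|) ^ CE) * (Y * E) *
        (CA ^ 2 * (X₃ ^ (6 * e - 1) * Z))) fun r hr => by
        rw [norm_mul, mul_pow]
        refine mul_le_mul ?_ (hA2 r) (sq_nonneg _) (by positivity)
        obtain ⟨hr, hex⟩ := Finset.mem_filter.1 hr
        obtain ⟨hr0, hr1⟩ := mem_box.1 hr
        rcases H.hc with hc | hc
        · have h2 := pow_le_pow_left₀ (norm_nonneg _) (hb1 l X₁ X₂ τ c _ (by linarith) p₁ p₂ hc1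
            (hη _ (r * (t * d ^ 2)) h')) 2
          refine h2.trans ?_
          have h3 : Y ≤ E := by
            rw [hEdef, if_pos hc]
            exact hYN
          calc (C1 * Y ^ 1) ^ 2 = C1 ^ 2 * 1 * (Y * Y) := by ring
            _ ≤ _ := by
              gcongr
              linarith
        · have hrt := mul_ne_zero hr0 htd
          obtain ⟨η₀, hη₀, h2⟩ := exists_of_exc h' h72 hrt hex
          have h3 : E = 1 + N₁ + N₂ * l := by rw [hEdef, if_neg (by rw [hc]; exact one_ne_zero)]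
          have h4 : Nr (rad (r * (t * d ^ 2))) ≤ x ^ 2 := by
            have h5 : rad (r * (t * d ^ 2)) ∣ r * d * rad t := by
              refine (rad_mul_dvd hr0 htd).trans ?_
              rw [mul_assoc, mul_comm d]
              refine mul_dvd_mul (rad_dvd hr0) ((rad_mul_dvd H.ht (pow_ne_zero 2 hd0)).trans ?_)
              rw [rad_pow two_ne_zero]
              exact mul_dvd_mul_left _ (rad_dvd hd0)
            refine (Nr_le_of_dvd (mul_ne_zero (mul_ne_zero hr0 hd0) (rad_ne_zero t)) h5).trans ?_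
            rw [Nr_mul, Nr_mul, sq]
            exact mul_le_mul ((mul_le_mul_of_nonneg_right hr1 (by linarith)).trans hHx) H.htx hNt
              (by linarith)
          have h5 : N₂ ≤ N₂ * l := le_mul_of_one_le_right hN₂.le hl
          have h6 : X₁ / l ≤ X₁ := div_le_self p₁.le hl
          have h7 : X₂ * l ≤ N₂ * l := mul_le_mul_of_nonneg_right e₂ (by linarith)
          have h8 := hE η₀ _ x l X₁ X₂ τ E hη₀ (rad_ne_zero _) hx h4 (by linarith) p₁ p₂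
            (by linarith) (by linarith) (by linarith) (by linarith) (by linarith)
          simp only [coprime_rad_iff hrt, ← h2] at h8
          rw [hc]
          refine h8.trans ?_
          rw [mul_assoc CE]
          gcongr
          linarith [sq_nonneg C1]
    rw [nsmul_eq_mul] at h1
    have h2 : (((box Hh).filter (fun r => Exc Q (t * d ^ 2) r)).card : ℝ) ≤
        |CC| * x ^ e * ((R / K) ^ (1 / 6 : ℝ) / Nr d) := by
      refine (hCC t d Hh H.ht hd0 hd.2.1 (hd.2.2.mul_right hdt) hH).trans ?_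
      have h3 : (Hh / Nr d ^ 4) ^ (1 / 6 : ℝ) = (R / K) ^ (1 / 6 : ℝ) / Nr d := by
        rw [show Hh / Nr d ^ 4 = R / K / Nr d ^ 6 by rw [hHh]; field_simp,
          Real.div_rpow (by positivity) (by positivity), ← Real.rpow_natCast (Nr d),
          ← Real.rpow_mul (by linarith)]
        norm_num
      rw [h3]
      have h4 := le_abs_self CC
      gcongr
    have h3 := hGm (e + 8 * e + 2 * e) CE (by linarith) (by linarith)
    rw [Real.rpow_add (by linarith), Real.rpow_add (by linarith)] at h3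
    refine (h1.trans (mul_le_mul_of_nonneg_right h2 (by positivity))).trans ?_
    calc _ = |CC| * (C1 ^ 2 + CE) * CA ^ 2 * (x ^ e * x ^ (8 * e) * (1 + |τ|) ^ CE * 1 * Y *
          (X₃ ^ (6 * e - 1) / Nr d * D₂)) := by rw [hD₂]; ring
      _ ≤ |CC| * (C1 ^ 2 + CE) * CA ^ 2 * (x ^ e * x ^ (8 * e) * (1 + |τ|) ^ CE * (1 + |u|) ^ 2 *
          (x ^ (2 * e) * Y ^ (1 + 2 * e)) * (X₃ ^ (6 * e - 1) / Nr d * D₂)) := by gcongr
      _ = |CC| * (C1 ^ 2 + CE) * CA ^ 2 * (x ^ e * x ^ (8 * e) * x ^ (2 * e) * (1 + |τ|) ^ CE *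
          (1 + |u|) ^ 2 * (V * D₂)) := by rw [hV]; ring
      _ ≤ _ := by gcongr
  -- the other rows
  have hnon : ∑ r ∈ (box Hh).filter (fun r => ¬ Exc Q (t * d ^ 2) r),
      ‖s4_br a₁ a₂ l c (fun n => ψ' n * chi n (r * (t * d ^ 2))) X₁ X₂ τ *
        s4_A α Z f (fun b => ψ'' b * chi b (r * (t * d ^ 2))) (((2 * e - 1 : ℝ) : ℂ) + u * I)‖ ^ 2 ≤
      4 * (G * (V * D₁)) := by
    set B := Ξ * (1 + |τ|) ^ C₀ * (Hh * Nr (rad (t * d ^ 2))) with hB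
    have hNr := Nr_nonneg (rad (t * d ^ 2))
    have B0 : 0 ≤ B := by positivity
    have l0 : 0 < l := by linarith
    have c₁ := s4b_cs _ _ _ B0 p₁.le p₂.le (H.IH a₁ (Or.inl rfl) ψ' d X₁ τ h' hd0 p₁)
      (H.IH a₂ (Or.inr rfl) ψ' d X₂ τ h' hd0 p₂)
    have c₂ := s4b_cs _ _ _ B0 (by positivity) (by positivity)
      (H.IH a₁ (Or.inl rfl) ψ' d (X₁ / l) τ h' hd0 (by positivity))
      (H.IH a₂ (Or.inr rfl) ψ' d (X₂ * l) τ h' hd0 (by positivity))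
    rw [show X₁ / l * (X₂ * l) = Y by rw [hY]; field_simp] at c₂
    have h1 : ∑ r ∈ (box Hh).filter (fun r => ¬ Exc Q (t * d ^ 2) r),
        ‖s4_br a₁ a₂ l c (fun n => ψ' n * chi n (r * (t * d ^ 2))) X₁ X₂ τ‖ ^ 2 ≤ 4 * (B * Y) := by
      have h0 := add_le_add (mul_le_mul_of_nonneg_left c₁ zero_le_two)
        (mul_le_mul_of_nonneg_left c₂ zero_le_two)
      rw [Finset.mul_sum, Finset.mul_sum, ← Finset.sum_add_distrib] at h0
      refine le_trans (Finset.sum_le_sum fun r _ => ?_) (h0.trans (le_of_eq (by rw [hY]; ring)))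
      rw [s4_br]
      generalize sm a₁ _ X₁ τ * sm a₂ _ X₂ τ = z₁
      generalize sm a₁ _ (X₁ / l) τ * sm a₂ _ (X₂ * l) τ = z₂
      have h2 : ‖z₁ - c * z₂‖ ≤ ‖z₁‖ + ‖z₂‖ := norm_sub_le_of_le le_rfl (by
        rw [norm_mul]
        exact mul_le_of_le_one_left (norm_nonneg _) hc1)
      nlinarith [pow_le_pow_left₀ (norm_nonneg _) h2 2, sq_nonneg (‖z₁‖ - ‖z₂‖)]
    have h2 : (X₃ ^ (θ + (2 * e - 1))) ^ 2 ≤ X₃ ^ (6 * e - 1) * Z ^ (2 * θ - 1) := by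
      have h3 := H.hθ
      calc (X₃ ^ (θ + (2 * e - 1))) ^ 2 = X₃ ^ ((θ + (2 * e - 1)) * 2) := by
            rw [Real.rpow_mul hX₃0.le (θ + (2 * e - 1)) 2, Real.rpow_two]
        _ ≤ X₃ ^ (6 * e - 1 + (2 * θ - 1)) := Real.rpow_le_rpow_of_exponent_le hX (by linarith)
        _ = X₃ ^ (6 * e - 1) * X₃ ^ (2 * θ - 1) := Real.rpow_add hX₃0 _ _
        _ ≤ _ := mul_le_mul_of_nonneg_left (Real.rpow_le_rpow hX₃0.le hX₃Z (by linarith))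
            (by positivity)
    have h3 : Hh * Nr (rad (t * d ^ 2)) ≤ K⁻¹ * (R * Nr (rad t)) / Nr d := by
      have h4 : Nr (rad (t * d ^ 2)) ≤ Nr (rad t) * Nr d := by
        rw [← Nr_mul]
        refine Nr_le_of_dvd (mul_ne_zero (rad_ne_zero t) hd0)
          ((rad_mul_dvd H.ht (pow_ne_zero 2 hd0)).trans ?_)
        rw [rad_pow two_ne_zero]
        exact mul_dvd_mul_left _ (rad_dvd hd0)
      refine (mul_le_mul_of_nonneg_left h4 (by linarith)).trans (le_of_eq ?_)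
      rw [hHh]
      field_simp
    have h4 := hGm (2 * e) C₀ (by linarith) (by linarith)
    calc _ ≤ ∑ r ∈ (box Hh).filter (fun r => ¬ Exc Q (t * d ^ 2) r),
          ‖s4_br a₁ a₂ l c (fun n => ψ' n * chi n (r * (t * d ^ 2))) X₁ X₂ τ‖ ^ 2 *
            (P * (1 + |u|) * X₃ ^ (θ + (2 * e - 1))) ^ 2 := by
          refine Finset.sum_le_sum fun r hr => ?_
          obtain ⟨hr, hex⟩ := Finset.mem_filter.1 hr
          rw [norm_mul, mul_pow]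
          exact mul_le_mul_of_nonneg_left (pow_le_pow_left₀ (norm_nonneg _)
            (H.PW ψ'' d r f (2 * e - 1) u h'' hd0 hr hex hf (by linarith) (by linarith)) 2)
            (sq_nonneg _)
      _ ≤ 4 * (B * Y) * (P * (1 + |u|) * X₃ ^ (θ + (2 * e - 1))) ^ 2 := by
          rw [← Finset.sum_mul]
          exact mul_le_mul_of_nonneg_right h1 (sq_nonneg _)
      _ = 4 * ((1 + |τ|) ^ C₀ * (1 + |u|) ^ 2 * (Ξ * P ^ 2) * (Hh * Nr (rad (t * d ^ 2))) * Y *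
          (X₃ ^ (θ + (2 * e - 1))) ^ 2) := by rw [hB]; ring
      _ ≤ 4 * ((1 + |τ|) ^ C₀ * (1 + |u|) ^ 2 * (Ξ * P ^ 2) * (K⁻¹ * (R * Nr (rad t)) / Nr d) *
          (x ^ (2 * e) * Y ^ (1 + 2 * e)) * (X₃ ^ (6 * e - 1) * Z ^ (2 * θ - 1))) := by gcongr
      _ = 4 * (x ^ (2 * e) * (1 + |τ|) ^ C₀ * (1 + |u|) ^ 2 * (V * D₁)) := by rw [hV, hD₁]; ring
      _ ≤ _ := by gcongr
  have g₁ : 0 ≤ G * (V * D₁) := by positivity
  have g₂ : 0 ≤ G * (V * D₂) := by positivity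
  have g₃ : 0 ≤ G * (V * D₃) := by positivity
  have f₁ := mul_le_mul_of_nonneg_right (show 4 ≤ C by linarith) g₁
  have f₂ := mul_le_mul_of_nonneg_right (show |CC| * (C1 ^ 2 + CE) * CA ^ 2 ≤ C by linarith) g₂
  have f₃ := mul_nonneg hC0 g₃
  simp only [mul_add]
  linarith

end Crest.Agent.R017

end
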