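import Crest.Agent.R017.T4StepAux0

/-! # Row 17, `step4`: Möbius inversion in three variables -/

set_option autoImplicit false

noncomputable section

open scoped BigOperators ComplexConjugate
open Complex MeasureTheory

namespace Crest.Agent.R017

/-- Möbius transform in one variable. -/
def s4m_M (Φ : O → ℂ) (f : O) : ℂ := ∑ u ∈ pdiv f, mu u * Φ (f / u)

theorem s4m_div {f u : O} (hf : Prim f) (hu : u ∈ pdiv f) : f / u ∈ pdiv f ∧ u * (f / u) = f := by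
  obtain ⟨h1, h2⟩ := (mem_pdiv hf.ne_zero).1 hu
  have e := EuclideanDomain.mul_div_cancel' h1.ne_zero h2
  exact ⟨(mem_pdiv hf.ne_zero).2 ⟨h1.of_mul (e.symm ▸ hf), Dvd.intro_left u e⟩, e⟩

theorem s4m_congr {Φ Ψ : O → ℂ} {f : O} (hf : Prim f) (h : ∀ v ∈ pdiv f, Φ v = Ψ v) :
    s4m_M Φ f = s4m_M Ψ f :=
  Finset.sum_congr rfl fun u hu => by rw [h _ (s4m_div hf hu).1]

theorem s4m_zero {Φ : O → ℂ} {f : O} (hf : Prim f) (h : ∀ v ∈ pdiv f, Φ v = 0) : s4m_M Φ f = 0 := by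
  rw [s4m_congr hf h]
  simp [s4m_M]

theorem s4m_sum {ι : Type} (s : Finset ι) (Φ : ι → O → ℂ) (f : O) :
    ∑ i ∈ s, s4m_M (Φ i) f = s4m_M (fun v => ∑ i ∈ s, Φ i v) f := by
  simp only [s4m_M, Finset.mul_sum]
  exact Finset.sum_comm

theorem s4m_norm {Φ : O → ℂ} {B : ℝ} (h : ∀ v, ‖Φ v‖ ≤ B) (f : O) :
    ‖s4m_M Φ f‖ ≤ (pdiv f).card * B := by
  refine (norm_sum_le _ _).trans ((Finset.sum_le_card_nsmul _ _ B fun u _ => ?_).trans
    (by rw [nsmul_eq_mul]))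
  rw [norm_mul]
  exact (mul_le_of_le_one_left (norm_nonneg _) (norm_mu_le u)).trans (h _)

theorem s4m_inv (Φ : O → ℂ) {m : O} (hm : Prim m) : ∑ f ∈ pdiv m, s4m_M Φ f = Φ m := by
  have hm0 := hm.ne_zero
  have h1 : ∑ f ∈ pdiv m, s4m_M Φ f = ∑ v ∈ pdiv m, ∑ u ∈ pdiv (m / v), mu u * Φ v := by
    unfold s4m_M
    rw [Finset.sum_sigma', Finset.sum_sigma']
    refine Finset.sum_bij' (fun x _ => ⟨x.1 / x.2, x.2⟩) (fun x _ => ⟨x.2 * x.1, x.2⟩) ?_ ?_ ?_ ?_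
      fun _ _ => rfl
    · rintro ⟨f, u⟩ hx
      obtain ⟨hf, hu⟩ := Finset.mem_sigma.1 hx
      obtain ⟨f1, f2⟩ := (mem_pdiv hm0).1 hf
      obtain ⟨a1, a2⟩ := s4m_div f1 hu
      obtain ⟨b1, b2⟩ := (mem_pdiv f1.ne_zero).1 a1
      have hv : f / u ∈ pdiv m := (mem_pdiv hm0).2 ⟨b1, b2.trans f2⟩
      obtain ⟨c1, c2⟩ := s4m_div hm hv
      refine Finset.mem_sigma.2 ⟨hv, (mem_pdiv ((mem_pdiv hm0).1 c1).1.ne_zero).2
        ⟨((mem_pdiv f1.ne_zero).1 hu).1, ?_⟩⟩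
      refine (mul_dvd_mul_iff_left b1.ne_zero).1 ?_
      simp only
      rwa [c2, mul_comm, a2]
    · rintro ⟨v, u⟩ hx
      obtain ⟨hv, hu⟩ := Finset.mem_sigma.1 hx
      obtain ⟨c1, c2⟩ := s4m_div hm hv
      obtain ⟨u1, u2⟩ := (mem_pdiv ((mem_pdiv hm0).1 c1).1.ne_zero).1 hu
      have v1 := ((mem_pdiv hm0).1 hv).1
      refine Finset.mem_sigma.2 ⟨(mem_pdiv hm0).2 ⟨u1.mul v1, ?_⟩,
        (mem_pdiv (u1.mul v1).ne_zero).2 ⟨u1, dvd_mul_right _ _⟩⟩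
      simp only at c2 u2 ⊢
      rw [← c2, mul_comm u v]
      exact mul_dvd_mul_left v u2
    · rintro ⟨f, u⟩ hx
      obtain ⟨hf, hu⟩ := Finset.mem_sigma.1 hx
      simp only [(s4m_div ((mem_pdiv hm0).1 hf).1 hu).2]
    · rintro ⟨v, u⟩ hx
      obtain ⟨hv, hu⟩ := Finset.mem_sigma.1 hx
      have u1 := ((mem_pdiv ((mem_pdiv hm0).1 (s4m_div hm hv).1).1.ne_zero).1 hu).1
      simp only [mul_div_cancel_left₀ v u1.ne_zero]
  rw [h1, Finset.sum_eq_single_of_mem m ((mem_pdiv hm0).2 ⟨hm, dvd_rfl⟩)]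
  · rw [← Finset.sum_mul, EuclideanDomain.div_self hm0, sum_pdiv_mu prim_one, if_pos rfl, one_mul]
  · intro v hv hne
    obtain ⟨c1, c2⟩ := s4m_div hm hv
    rw [← Finset.sum_mul, sum_pdiv_mu ((mem_pdiv hm0).1 c1).1, if_neg, zero_mul]
    intro h
    rw [h, mul_one] at c2
    exact hne c2

theorem s4m_van {Φ : O → ℂ} {p f : O} (hp : Prime p) (hpp : Prim p) (hf : Prim f) (hpf : ¬ p ∣ f)
    (h : ∀ v ∈ pdiv f, Φ (p * v) = Φ v) : s4m_M Φ (p * f) = 0 := by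
  have h0 := (hpp.mul hf).ne_zero
  have e : pdiv (p * f) = pdiv f ∪ (pdiv f).image (fun u => p * u) := by
    ext u
    simp only [Finset.mem_union, Finset.mem_image, mem_pdiv h0, mem_pdiv hf.ne_zero]
    constructor
    · rintro ⟨h1, h2⟩
      by_cases hu : p ∣ u
      · obtain ⟨w, rfl⟩ := hu
        exact Or.inr ⟨w, ⟨hpp.of_mul h1, (mul_dvd_mul_iff_left hp.ne_zero).1 h2⟩, rfl⟩
      · exact Or.inl ⟨h1, ((hp.irreducible.coprime_iff_not_dvd.2 hu).symm).dvd_of_dvd_mul_left h2⟩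
    · rintro (⟨h1, h2⟩ | ⟨w, ⟨h1, h2⟩, rfl⟩)
      · exact ⟨h1, h2.mul_left p⟩
      · exact ⟨hpp.mul h1, mul_dvd_mul_left p h2⟩
  unfold s4m_M
  rw [e, Finset.sum_union, Finset.sum_image fun x _ y _ hxy => mul_left_cancel₀ hp.ne_zero hxy,
    ← Finset.sum_add_distrib]
  · refine Finset.sum_eq_zero fun u hu => ?_
    obtain ⟨a1, a2⟩ := s4m_div hf hu
    obtain ⟨u1, u2⟩ := (mem_pdiv hf.ne_zero).1 hu
    have e1 : p * f / u = p * (f / u) := by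
      conv_lhs => rw [← a2, mul_left_comm, mul_div_cancel_left₀ _ u1.ne_zero]
    have e2 : p * f / (p * u) = f / u := by
      conv_lhs => rw [← a2, ← mul_assoc, mul_div_cancel_left₀ _ (hpp.mul u1).ne_zero]
    rw [e1, e2, h _ a1, mu_mul (hp.irreducible.coprime_iff_not_dvd.2 fun h' => hpf (h'.trans u2)),
      mu_prime hp]
    ring
  · rw [Finset.disjoint_left]
    intro u hu hu'
    obtain ⟨w, -, rfl⟩ := Finset.mem_image.1 hu'
    exact hpf ((dvd_mul_right p w).trans ((mem_pdiv hf.ne_zero).1 hu).2)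

/-- The Möbius transform of `s4_phi`. -/
def s4m_g (k : O) (f : O3) : ℂ :=
  s4m_M (fun a => s4m_M (fun b => s4m_M (fun c => s4_phi k (a, b, c)) f.2.2) f.2.1) f.1

theorem s4m_g_inv (k : O) {m : O3} (hm : s4_P m) : ∑ f ∈ s4_D m, s4m_g k f = s4_phi k m := by
  simp only [s4_D, Finset.sum_product, s4m_g, s4m_sum, s4m_inv _ hm.1, s4m_inv _ hm.2.1,
    s4m_inv _ hm.2.2]

theorem s4m_g_le {δ : ℝ} (hδ : 0 < δ) : ∃ C : ℝ, 0 ≤ C ∧ ∀ (k : O) (f : O3), s4_P f →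
    ‖s4m_g k f‖ ≤ C * Nr (s4_pr f) ^ δ := by
  obtain ⟨C, hC⟩ := card_pdiv_le hδ
  have h : ∀ t, Prim t → ((pdiv t).card : ℝ) ≤ |C| * Nr t ^ δ := fun t ht => (hC t ht.ne_zero).trans
    (mul_le_mul_of_nonneg_right (le_abs_self C) (Real.rpow_nonneg (Nr_nonneg t) _))
  refine ⟨|C| ^ 3, by positivity, fun k f hf => ?_⟩
  refine (s4m_norm (fun a => s4m_norm (fun b => s4m_norm (B := 1) (fun c => ?_) _) _) _).trans ?_
  · unfold s4_phi
    split_ifs <;> simp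
  · have h1 := Real.rpow_nonneg (Nr_nonneg f.1) δ
    have h2 := Real.rpow_nonneg (Nr_nonneg f.2.1) δ
    rw [mul_one, s4_pr, Nr_mul, Nr_mul, Real.mul_rpow (mul_nonneg (Nr_nonneg _) (Nr_nonneg _)) (Nr_nonneg _),
      Real.mul_rpow (Nr_nonneg _) (Nr_nonneg _)]
    refine (mul_le_mul (h _ hf.1) (mul_le_mul (h _ hf.2.1) (h _ hf.2.2) (by positivity) (by positivity))
      (by positivity) (by positivity)).trans (le_of_eq (by ring))

theorem s4m_phi {k p : O} (hp : Prime p) (hk : ¬ p ∣ k) {m m' : O3} (h : s4_pr m = p * s4_pr m')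
    (hm : ¬ p ∣ s4_pr m') : s4_phi k m = s4_phi k m' := by
  classical
  have h1 := hp.irreducible.coprime_iff_not_dvd.2 hk
  have h2 := hp.irreducible.coprime_iff_not_dvd.2 hm
  unfold s4_phi
  rw [h]
  refine if_congr ?_ rfl rfl
  simp only [squarefree_mul_iff, isRelPrime_iff_isCoprime, IsCoprime.mul_left_iff, h1, h2,
    hp.squarefree, true_and]

theorem s4m_g_van {k p : O} (hp : Prime p) (hpp : Prim p) (hk : ¬ p ∣ k) {f : O3} (hf : s4_P f)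
    (h1 : p ∣ s4_pr f) (h2 : ¬ p ^ 2 ∣ s4_pr f) : s4m_g k f = 0 := by
  obtain ⟨a, b, c⟩ := f
  obtain ⟨ha, hb, hc⟩ := hf
  simp only [s4_pr] at h1 h2 ha hb hc
  have key : ∀ {x y z : O}, x ≠ 0 → y ≠ 0 → z ≠ 0 → p * (x * y * z) = a * b * c →
      ∀ u ∈ pdiv x, ∀ v ∈ pdiv y, ∀ w ∈ pdiv z, ¬ p ∣ u * v * w := by
    intro x y z hx hy hz e u hu v hv w hw h
    refine h2 ?_
    rw [← e, sq]
    exact mul_dvd_mul_left p (h.trans (mul_dvd_mul (mul_dvd_mul ((mem_pdiv hx).1 hu).2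
      ((mem_pdiv hy).1 hv).2) ((mem_pdiv hz).1 hw).2))
  have nd : ∀ {x y : O}, p * x * y = a * b * c → ¬ p ∣ x := fun {x y} e h => h2 (by
    rw [← e, sq]
    exact (mul_dvd_mul_left p h).mul_right y)
  unfold s4m_g
  rcases hp.dvd_or_dvd h1 with h | ⟨x, rfl⟩
  · rcases hp.dvd_or_dvd h with ⟨x, rfl⟩ | ⟨x, rfl⟩
    · have hx := hpp.of_mul ha
      exact s4m_van hp hpp hx (nd (mul_assoc _ _ _).symm) fun u hu => s4m_congr hb fun v hv =>
        s4m_congr hc fun w hw => s4m_phi hp hk (by simp only [s4_pr]; ring)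
          (key hx.ne_zero hb.ne_zero hc.ne_zero (by ring) u hu v hv w hw)
    · have hx := hpp.of_mul hb
      exact s4m_zero ha fun u hu => s4m_van hp hpp hx (nd (y := a * c) (by ring)) fun v hv =>
        s4m_congr hc fun w hw => s4m_phi hp hk (by simp only [s4_pr]; ring)
          (key ha.ne_zero hx.ne_zero hc.ne_zero (by ring) u hu v hv w hw)
  · have hx := hpp.of_mul hc
    exact s4m_zero ha fun u hu => s4m_zero hb fun v hv => s4m_van hp hpp hx (nd (y := a * b) (by ring))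
      fun w hw => s4m_phi hp hk (by simp only [s4_pr]; ring)
        (key ha.ne_zero hb.ne_zero hx.ne_zero (by ring) u hu v hv w hw)

theorem s4m_supp {k : O} (hk : k ≠ 0) {f : O3} (hf : s4_P f) (h : s4m_g k f ≠ 0) :
    ∃ q : O × O, (q.1 ≠ 0 ∧ rad q.1 ∣ k) ∧ (q.2 ≠ 0 ∧ Pow2 q.2) ∧ s4_pr f = q.1 * q.2 := by
  obtain ⟨q, ⟨q1, q2, q3, q4, q5⟩, -⟩ := exists_part hf.pr hk
  refine ⟨q, ⟨q1.ne_zero, q3⟩, ⟨q2.ne_zero, fun p₀ hp₀ hd₀ => ?_⟩, q5⟩
  obtain ⟨p, hp, hass⟩ := exists_PP hp₀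
  have hd : p ∣ q.2 := hass.symm.dvd.trans hd₀
  have hpp : Prim p := hp.2.resolve_right fun hl => q2.not_lam_dvd (hl ▸ hd)
  have hpk : ¬ p ∣ k := fun h' => hp.1.not_unit (q4.isUnit_of_dvd' hd h')
  have h1 : ¬ p ∣ q.1 := fun h' => hpk (((prime_dvd_rad q1.ne_zero hp.1).2 h').trans q3)
  refine (hass.pow_pow (n := 2)).dvd.trans ?_
  by_contra h2
  refine h (s4m_g_van hp.1 hpp hpk hf (q5 ▸ hd.mul_left _) fun h3 => h2 ?_)
  rw [q5] at h3
  exact ((hp.1.irreducible.coprime_iff_not_dvd.2 h1).pow_left).dvd_of_dvd_mul_left h3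

/-- `g f = ∑_{u ∈ s4_D f} μ(u₁) μ(u₂) μ(u₃) φ(f₁/u₁, f₂/u₂, f₃/u₃)`.
Inversion: one variable at a time, `∑_{f ∣ m} ∑_{u ∣ f} μ(u) Φ(f/u) = Φ(m)` (`sum_pdiv_mu`).
Size: `‖g f‖ ≤ card (s4_D f) ≤ C N(pr f)^δ` (`card_pdiv_le`).
Support: if a primary prime `p ∤ k` has `p ∣ pr f`, `p² ∤ pr f`, then `g f = 0` (say `p ∣ f₁`; pair
`u₁` with `p u₁`; multiplying an entry by `p` does not change `s4_phi k`).  Hence `pr f = v s` with
`rad v ∣ k`, `Pow2 s` (`exists_part`); at most `C N(pr f)^δ` triples have a given product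
(`s4_card_dv`); finish with `smooth_sum_le` and `pow2_sum_le`. -/
theorem s4_mob {e : ℝ} (he : 0 < e) : ∃ C : ℝ, 0 ≤ C ∧ ∀ k : O, k ≠ 0 → ∃ (g : O3 → ℂ) (K : ℝ),
    (∀ m, s4_P m → ∑ f ∈ s4_D m, g f = s4_phi k m) ∧
    (∀ f, s4_P f → ‖g f‖ ≤ K * Nr (s4_pr f)) ∧
    ∀ S : Finset O3, ∑ f ∈ S, (if s4_P f then ‖g f‖ * Nr (s4_pr f) ^ (-(1 / 2 + e)) else 0) ≤
      C * Nr k ^ (e / 2) := by
  classical
  obtain ⟨C₁, hC₁, H₁⟩ := s4m_g_le (δ := e / 4) (by positivity)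
  obtain ⟨K, -, HK⟩ := s4m_g_le one_pos
  obtain ⟨C₂, hC₂, H₂⟩ := s4_card_dv (ε := e / 4) (by positivity)
  obtain ⟨C₃, H₃⟩ := smooth_sum_le (ε := e / 2) (σ := 1 / 2 + e / 2) (by positivity) (by positivity)
  obtain ⟨C₄, H₄⟩ := pow2_sum_le (σ := 1 / 2 + e / 2) (by linarith)
  have hC₄ : 0 ≤ C₄ := by simpa using H₄ ∅ (by simp)
  have hC₃ : 0 ≤ C₃ := by simpa [Nr_one] using H₃ 1 one_ne_zero ∅ (by simp)
  refine ⟨C₂ * C₁ * (C₃ * C₄), by positivity, fun k hk => ⟨s4m_g k, K, fun m hm => s4m_g_inv k hm,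
    fun f hf => by simpa using HK k f hf, fun S => ?_⟩⟩
  have hN : ∀ (n : O) (a : ℝ), 0 ≤ Nr n ^ a := fun n a => Real.rpow_nonneg (Nr_nonneg n) a
  set S' := S.filter (fun f => s4_P f ∧ s4m_g k f ≠ 0) with hS'
  set T := S'.image s4_pr with hT
  have hTq : ∀ n ∈ T, ∃ q : O × O, (q.1 ≠ 0 ∧ rad q.1 ∣ k) ∧ (q.2 ≠ 0 ∧ Pow2 q.2) ∧ n = q.1 * q.2 := by
    intro n hn
    obtain ⟨f, hf, rfl⟩ := Finset.mem_image.1 hn
    exact s4m_supp hk (Finset.mem_filter.1 hf).2.1 (Finset.mem_filter.1 hf).2.2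
  choose! q hq1 hq2 hq3 using hTq
  calc _ = ∑ f ∈ S', ‖s4m_g k f‖ * Nr (s4_pr f) ^ (-(1 / 2 + e)) := by
        rw [hS', Finset.sum_filter]
        refine Finset.sum_congr rfl fun f _ => ?_
        by_cases h1 : s4_P f <;> by_cases h2 : s4m_g k f = 0 <;> simp [h1, h2]
    _ = ∑ n ∈ T, ∑ f ∈ S'.filter (fun f => s4_pr f = n), ‖s4m_g k f‖ * Nr (s4_pr f) ^ (-(1 / 2 + e)) :=
        (Finset.sum_fiberwise_of_maps_to (fun f hf => Finset.mem_image_of_mem _ hf) _).symm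
    _ ≤ ∑ n ∈ T, C₂ * C₁ * Nr n ^ (-(1 / 2 + e / 2)) := by
        refine Finset.sum_le_sum fun n hn => ?_
        have hn0 : n ≠ 0 := by rw [hq3 n hn]; exact mul_ne_zero (hq1 n hn).1 (hq2 n hn).1
        refine (Finset.sum_le_card_nsmul _ _ (C₁ * Nr n ^ (e / 4) * Nr n ^ (-(1 / 2 + e)))
          fun f hf => ?_).trans ?_
        · obtain ⟨f1, rfl⟩ := Finset.mem_filter.1 hf
          exact mul_le_mul_of_nonneg_right (H₁ k f (Finset.mem_filter.1 f1).2.1) (hN _ _)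
        · rw [nsmul_eq_mul]
          refine (mul_le_mul_of_nonneg_right ((Nat.cast_le.2 (Finset.card_le_card fun f hf =>
            (s4_mem_dv hn0).2 ⟨(Finset.mem_filter.1 (Finset.mem_filter.1 hf).1).2.1,
              (Finset.mem_filter.1 hf).2⟩)).trans (H₂ n hn0))
            (mul_nonneg (mul_nonneg hC₁ (hN _ _)) (hN _ _))).trans (le_of_eq ?_)
          rw [show -(1 / 2 + e / 2) = e / 4 + (e / 4 + -(1 / 2 + e)) by ring, Real.rpow_add (Nr_pos hn0),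
            Real.rpow_add (Nr_pos hn0)]
          ring
    _ ≤ C₂ * C₁ * ((∑ v ∈ T.image (fun n => (q n).1), Nr v ^ (-(1 / 2 + e / 2))) *
          ∑ s ∈ T.image (fun n => (q n).2), Nr s ^ (-(1 / 2 + e / 2))) := by
        rw [← Finset.mul_sum, Finset.sum_mul_sum, ← Finset.sum_product']
        refine mul_le_mul_of_nonneg_left ?_ (by positivity)
        refine le_trans (le_of_eq ?_) (Finset.sum_le_sum_of_subset_of_nonneg (s := T.image q)
          (fun x hx => ?_) fun x _ _ => mul_nonneg (hN _ _) (hN _ _))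
        · rw [Finset.sum_image (s := T) (g := q) fun x hx y hy hxy => by rw [hq3 x hx, hq3 y hy, hxy]]
          refine Finset.sum_congr rfl fun n hn => ?_
          rw [← Real.mul_rpow (Nr_nonneg _) (Nr_nonneg _), ← Nr_mul, ← hq3 n hn]
        · obtain ⟨n, hn, rfl⟩ := Finset.mem_image.1 hx
          exact Finset.mem_product.2 ⟨Finset.mem_image_of_mem _ hn, Finset.mem_image_of_mem _ hn⟩
    _ ≤ C₂ * C₁ * ((C₃ * Nr k ^ (e / 2)) * C₄) := by
        refine mul_le_mul_of_nonneg_left (mul_le_mul (H₃ k hk _ fun x hx => ?_) (H₄ _ fun x hx => ?_)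
          (Finset.sum_nonneg fun x _ => hN _ _) (mul_nonneg hC₃ (hN _ _))) (by positivity)
        · obtain ⟨n, hn, rfl⟩ := Finset.mem_image.1 hx
          exact hq1 n hn
        · obtain ⟨n, hn, rfl⟩ := Finset.mem_image.1 hx
          exact hq2 n hn
    _ = _ := by ring

end Crest.Agent.R017

end
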