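import Crest.Agent.R017.T4StepAuxT
import Crest.Agent.R017.T4StepAuxM
import Crest.Agent.R017.T4StepAuxB

/-! # Row 17, `step4`: the children -/

set_option autoImplicit false

noncomputable section

open scoped BigOperators ComplexConjugate
open Complex MeasureTheory

namespace Crest.Agent.R017

open Classical in
theorem s4c_sum {T : O3 → ℂ} (hT : s4_Dec T) {k : O} (hk : Prim k) {u : O → ℂ} {K B : ℝ}
    (hu : ∀ n, Prim n → ‖u n‖ ≤ K * Nr n ^ B) :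
    HasSum (fun n => if Prim n ∧ Squarefree n ∧ IsCoprime n k then s4_G T (k * n) * u n else 0)
      (∑ κ ∈ s4_dv k, ∑' m, if s4_P m then T (κ * m) * u (s4_pr m) * s4_phi k m else 0) := by
  have h := hasSum_sum (s := s4_dv k) fun κ hκ => s4_group
    (((hT.shift ((s4_mem_dv hk.ne_zero).1 hκ).1).mul (u := fun m => u (s4_pr m))
      fun m hm => hu _ hm.pr).mul (u := s4_phi k) (K := 1) (B := 0) fun m _ => by
        unfold s4_phi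
        split_ifs <;> simp).summable'
  refine (congrArg (HasSum · _) (funext fun n => ?_)).mpr h
  by_cases hn : Prim n
  swap
  · simp [hn]
  simp only [hn, true_and, if_true]
  have e : ∀ κ : O3, s4_G (fun m => T (κ * m) * u (s4_pr m) * s4_phi k m) n =
      if Squarefree n ∧ IsCoprime n k then s4_G (fun m => T (κ * m)) n * u n else 0 := fun κ => by
    unfold s4_G s4_phi
    split_ifs with h1
    · rw [Finset.sum_mul]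
      refine Finset.sum_congr rfl fun m hm => ?_
      simp only [((s4_mem_dv hn.ne_zero).1 hm).2, if_pos h1, mul_one]
    · refine Finset.sum_eq_zero fun m hm => ?_
      simp only [((s4_mem_dv hn.ne_zero).1 hm).2, if_neg h1, mul_zero]
  simp only [e]
  split_ifs with h1
  · rw [s4_G_mul T hk hn h1.2, Finset.sum_mul]
  · simp

theorem s4c_br {a₁ a₂ l X₁ X₂ : ℝ} (ha₁ : 0 < a₁) (ha₂ : 0 < a₂) (hl : 0 < l) (hX₁ : 0 < X₁)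
    (hX₂ : 0 < X₂) (c : ℂ) (η : O → ℂ) (σ u τ : ℝ) :
    s4_br a₁ a₂ l c (fun n => η n * (Nr n : ℂ) ^ ((σ : ℂ) + u * I)) X₁ X₂ τ =
      (((X₁ * X₂) ^ σ * (Real.exp (a₁ * σ ^ 2) * Real.exp (a₂ * σ ^ 2)) : ℝ) : ℂ) *
        s4_br a₁ a₂ l c η (X₁ * Real.exp (2 * a₁ * σ)) (X₂ * Real.exp (2 * a₂ * σ)) (τ - u) := by
  unfold s4_br
  rw [sm_rpow ha₁ hX₁, sm_rpow ha₂ hX₂, sm_rpow ha₁ (div_pos hX₁ hl), sm_rpow ha₂ (mul_pos hX₂ hl),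
    show X₁ / l * Real.exp (2 * a₁ * σ) = X₁ * Real.exp (2 * a₁ * σ) / l by ring,
    show X₂ * l * Real.exp (2 * a₂ * σ) = X₂ * Real.exp (2 * a₂ * σ) * l by ring]
  have h1 : (((X₁ * X₂) ^ σ : ℝ) : ℂ) = ((X₁ ^ σ : ℝ) : ℂ) * ((X₂ ^ σ : ℝ) : ℂ) := by
    rw [Real.mul_rpow hX₁.le hX₂.le, Complex.ofReal_mul]
  have h2 : (((X₁ * X₂) ^ σ : ℝ) : ℂ) = (((X₁ / l) ^ σ : ℝ) : ℂ) * (((X₂ * l) ^ σ : ℝ) : ℂ) := by
    rw [← Complex.ofReal_mul, ← Real.mul_rpow (by positivity) (by positivity),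
      show X₁ / l * (X₂ * l) = X₁ * X₂ by field_simp]
  simp only [Complex.ofReal_mul]
  linear_combination (-(((Real.exp (a₁ * σ ^ 2) : ℝ) : ℂ) * ((Real.exp (a₂ * σ ^ 2) : ℝ) : ℂ) *
      sm a₁ η (X₁ * Real.exp (2 * a₁ * σ)) (τ - u) * sm a₂ η (X₂ * Real.exp (2 * a₂ * σ)) (τ - u))) * h1 +
    (c * ((Real.exp (a₁ * σ ^ 2) : ℝ) : ℂ) * ((Real.exp (a₂ * σ ^ 2) : ℝ) : ℂ) *
      sm a₁ η (X₁ * Real.exp (2 * a₁ * σ) / l) (τ - u) *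
      sm a₂ η (X₂ * Real.exp (2 * a₂ * σ) * l) (τ - u)) * h2

theorem s4c_alg {X₁ X₂ X₃ F e₁ e₂ e : ℝ} (h₁ : 0 < X₁) (h₂ : 0 < X₂) (h₃ : 0 < X₃) (hF : 0 < F)
    (he₁ : e₁ ≤ 0) (he₂ : e₂ ≤ 0) (he : 0 < e) :
    (F ^ (2 * e - 1) * (X₁ * X₂) ^ (2 * e - 1)) ^ 2 *
      ((X₁ * Real.exp e₁ * (X₂ * Real.exp e₂)) ^ (1 + 2 * e) * X₃ ^ (6 * e - 1)) ≤
      (F ^ (-(1 / 2 + e)) * (X₁ * X₂ * X₃ * F) ^ (3 * e - 1 / 2)) ^ 2 := by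
  obtain ⟨X₁, rfl⟩ : ∃ u, X₁ = Real.exp u := ⟨_, (Real.exp_log h₁).symm⟩
  obtain ⟨X₂, rfl⟩ : ∃ u, X₂ = Real.exp u := ⟨_, (Real.exp_log h₂).symm⟩
  obtain ⟨X₃, rfl⟩ : ∃ u, X₃ = Real.exp u := ⟨_, (Real.exp_log h₃).symm⟩
  obtain ⟨F, rfl⟩ : ∃ u, F = Real.exp u := ⟨_, (Real.exp_log hF).symm⟩
  simp only [← Real.exp_mul, ← Real.exp_nat_mul, ← Real.exp_add, Real.exp_le_exp]
  push_cast
  nlinarith [mul_nonneg he.le (neg_nonneg.2 he₁), mul_nonneg he.le (neg_nonneg.2 he₂)]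

theorem s4c_Dd {Q : O} {a₁ a₂ C₀ x R K N₁ N₂ l Z θ Ξ P : ℝ} {c : ℂ} {ψ α : O → ℂ} {t : O}
    (h : s4_Hyp Q a₁ a₂ C₀ x R K N₁ N₂ l Z θ Ξ P c ψ α t) :
    0 ≤ s4_Dd R K N₁ N₂ l Z θ Ξ P c t := by
  have hx0 : 0 < x := lt_of_lt_of_le one_pos h.hx
  have hN₁ : 0 < N₁ := lt_of_lt_of_le (inv_pos.2 hx0) h.hN₁
  have hN₂ : 0 < N₂ := lt_of_lt_of_le (inv_pos.2 hx0) h.hN₂
  have hl : 0 < l := lt_of_lt_of_le one_pos h.hl
  have hZ : 0 < Z := lt_of_lt_of_le one_pos h.hZ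
  have hK : 0 < K := lt_of_lt_of_le one_pos h.hK
  have hR : 0 < R := lt_of_lt_of_le one_pos h.hR
  have h1 := h.hΞ
  have h2 := Nr_nonneg (rad t)
  unfold s4_Dd
  split_ifs <;> positivity

theorem s4c_u {Q : O} {ξ : O → ℂ} (hξ : IsCh Q ξ) (ρ : O) (σ u : ℝ) {n : O} (hn : Prim n) :
    ‖ξ n * chi n ρ * (Nr n : ℂ) ^ ((σ : ℂ) + u * I)‖ ≤ 1 * Nr n ^ σ := by
  rw [norm_mul, norm_mul, Complex.norm_cpow_eq_rpow_re_of_pos (Nr_pos hn.ne_zero), l3_re]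
  exact mul_le_mul_of_nonneg_right (mul_le_one₀ (hξ.norm_le n) (norm_nonneg _) (norm_chi_le _ _))
    (Real.rpow_nonneg (Nr_nonneg _) _)

theorem s4c_umul {Q : O} {ξ : O → ℂ} (hξ : IsCh Q ξ) (ρ : O) (s : ℂ) (x y : O) (hx : Prim x)
    (hy : Prim y) : ξ (x * y) * chi (x * y) ρ * (Nr (x * y) : ℂ) ^ s =
      ξ x * chi x ρ * (Nr x : ℂ) ^ s * (ξ y * chi y ρ * (Nr y : ℂ) ^ s) := by
  rw [hξ.mul, chi_mul_left hx.ne_zero hy.ne_zero, Nr_mul, Complex.ofReal_mul,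
    Complex.mul_cpow_ofReal_nonneg (Nr_nonneg _) (Nr_nonneg _)]
  ring

/-- One term of the expansion. -/
theorem s4c_term {Q : O} (hQ : Q ≠ 0) (h72 : (72 : O) ∣ Q) {a₁ a₂ e C₀ : ℝ} (ha₁ : 0 < a₁)
    (ha₂ : 0 < a₂) (he : 0 < e) (he1 : e ≤ 1 / 8) (hC₀ : 0 ≤ C₀) : ∃ C : ℝ, 0 ≤ C ∧
    ∀ (x R K N₁ N₂ l Z θ Ξ P τ : ℝ) (c : ℂ) (ψ α : O → ℂ) (t : O),
    s4_Hyp Q a₁ a₂ C₀ x R K N₁ N₂ l Z θ Ξ P c ψ α t →
    ∀ (ξ : O → ℂ) (d : O) (u : ℝ) (κ f : O3), IsCh Q ξ → Adm Q d → IsCoprime d t → s4_P κ →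
    s4_P f →
    NS (R / (K * Nr d ^ 2)) (fun r => ∑' m, if s4_P m then
      s4_T a₁ a₂ N₁ N₂ l τ c ψ α t (κ * (f * m)) * (ξ (s4_pr (f * m)) * chi (s4_pr (f * m)) (r * d ^ 2) *
        (Nr (s4_pr (f * m)) : ℂ) ^ (((2 * e - 1 : ℝ) : ℂ) + u * I)) else 0) ≤
      (C * x ^ (13 * e) * (1 + |τ|) ^ C * (1 + |u|) ^ C * s4_Dd R K N₁ N₂ l Z θ Ξ P c t / Nr d) *
        (Nr (s4_pr f) ^ (-(1 / 2 + e)) * (N₁ * N₂ * Z / Nr (s4_pr κ)) ^ (3 * e - 1 / 2)) ^ 2 := by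
  obtain ⟨C, hC, hleaf⟩ := s4_leaf hQ h72 ha₁ ha₂ he he1 hC₀
  obtain ⟨E, hE⟩ : ∃ E, E = Real.exp (a₁ * (2 * e - 1) ^ 2) * Real.exp (a₂ * (2 * e - 1) ^ 2) :=
    ⟨_, rfl⟩
  have hE0 : 0 < E := by rw [hE]; positivity
  refine ⟨E ^ 2 * C + C + 2, by positivity,
    fun x R K N₁ N₂ l Z θ Ξ P τ c ψ α t h ξ d u κ f hξ hd hdt hκ hf => ?_⟩
  have hx0 : 0 < x := lt_of_lt_of_le one_pos h.hx
  have hN₁ : 0 < N₁ := lt_of_lt_of_le (inv_pos.2 hx0) h.hN₁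
  have hN₂ : 0 < N₂ := lt_of_lt_of_le (inv_pos.2 hx0) h.hN₂
  have hl : 0 < l := lt_of_lt_of_le one_pos h.hl
  have hZ : 0 < Z := lt_of_lt_of_le one_pos h.hZ
  have hD := s4c_Dd h
  have hκf := hκ.mul hf
  have k1 := one_le_Nr hκf.1.ne_zero
  have k2 := one_le_Nr hκf.2.1.ne_zero
  have k3 := Nr_pos hκf.2.2.ne_zero
  have kf := Nr_pos hf.pr.ne_zero
  have kd := Nr_pos hd.1.ne_zero
  obtain ⟨X₁, hX₁⟩ : ∃ X, X = N₁ / Nr (κ * f).1 := ⟨_, rfl⟩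
  obtain ⟨X₂, hX₂⟩ : ∃ X, X = N₂ / Nr (κ * f).2.1 := ⟨_, rfl⟩
  have hX₁0 : 0 < X₁ := by rw [hX₁]; positivity
  have hX₂0 : 0 < X₂ := by rw [hX₂]; positivity
  have hX₁N : X₁ ≤ N₁ := hX₁ ▸ div_le_self hN₁.le k1
  have hX₂N : X₂ ≤ N₂ := hX₂ ▸ div_le_self hN₂.le k2
  have e₁ : 2 * a₁ * (2 * e - 1) ≤ 0 := mul_nonpos_of_nonneg_of_nonpos (by positivity) (by linarith)
  have e₂ : 2 * a₂ * (2 * e - 1) ≤ 0 := mul_nonpos_of_nonneg_of_nonpos (by positivity) (by linarith)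
  have hL := hleaf x R K N₁ N₂ l Z θ Ξ P c ψ α t h (fun n => ψ n * ξ n) ξ d (κ * f).2.2
    (X₁ * Real.exp (2 * a₁ * (2 * e - 1))) (X₂ * Real.exp (2 * a₂ * (2 * e - 1))) (τ - u) u
    (h.hψ.mul_same hξ) hξ hd hdt hκf.2.2 (by positivity)
    ((mul_le_of_le_one_right hX₁0.le (Real.exp_le_one_iff.2 e₁)).trans hX₁N) (by positivity)
    ((mul_le_of_le_one_right hX₂0.le (Real.exp_le_one_iff.2 e₂)).trans hX₂N)
  refine le_trans (s4_NS_le (g := fun r =>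
    ((Nr (s4_pr f) ^ (2 * e - 1) * (X₁ * X₂) ^ (2 * e - 1) * E : ℝ) : ℂ) *
      (s4_br a₁ a₂ l c (fun n => ψ n * ξ n * chi n (r * (t * d ^ 2)))
        (X₁ * Real.exp (2 * a₁ * (2 * e - 1))) (X₂ * Real.exp (2 * a₂ * (2 * e - 1))) (τ - u) *
        s4_A α Z (κ * f).2.2 (fun b => ξ b * chi b (r * (t * d ^ 2)))
          (((2 * e - 1 : ℝ) : ℂ) + u * I))) fun r _ => ?_) ?_
  · have h1 := s4_eval (τ := τ) h.hψ ha₁ ha₂ hN₁ hN₂ hl c (fun b hb => (h.hαs b hb).2) t hκf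
      (u := fun n => ξ n * chi n (r * d ^ 2) * (Nr n : ℂ) ^ (((2 * e - 1 : ℝ) : ℂ) + u * I))
      (K := 1) (B := 2 * e - 1)
      (fun x y hx hy => s4c_umul hξ (r * d ^ 2) (((2 * e - 1 : ℝ) : ℂ) + u * I) x y hx hy)
      (fun n hn => s4c_u hξ (r * d ^ 2) (2 * e - 1) u hn)
    have h2 : (∑' m, if s4_P m then s4_T a₁ a₂ N₁ N₂ l τ c ψ α t (κ * (f * m)) *
        (ξ (s4_pr (f * m)) * chi (s4_pr (f * m)) (r * d ^ 2) *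
        (Nr (s4_pr (f * m)) : ℂ) ^ (((2 * e - 1 : ℝ) : ℂ) + u * I)) else 0) =
        (ξ (s4_pr f) * chi (s4_pr f) (r * d ^ 2) *
          (Nr (s4_pr f) : ℂ) ^ (((2 * e - 1 : ℝ) : ℂ) + u * I)) *
        ∑' m, if s4_P m then s4_T a₁ a₂ N₁ N₂ l τ c ψ α t (κ * f * m) *
        (ξ (s4_pr m) * chi (s4_pr m) (r * d ^ 2) *
        (Nr (s4_pr m) : ℂ) ^ (((2 * e - 1 : ℝ) : ℂ) + u * I)) else 0 := by
      rw [← tsum_mul_left]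
      refine tsum_congr fun m => ?_
      split_ifs with hm
      · rw [s4_pr_mul, s4c_umul hξ _ _ _ _ hf.pr hm.pr, mul_assoc κ]; ring
      · simp
    have h3 : (fun n => ψ n * chi n t * (ξ n * chi n (r * d ^ 2) *
        (Nr n : ℂ) ^ (((2 * e - 1 : ℝ) : ℂ) + u * I))) = fun n =>
        (ψ n * ξ n * chi n (r * (t * d ^ 2))) * (Nr n : ℂ) ^ (((2 * e - 1 : ℝ) : ℂ) + u * I) := by
      funext n
      simp only [chi_mul_right]; ring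
    have h4 : ∑ b ∈ (box Z).filter Prim, α ((κ * f).2.2 * b) * (chi b t * (ξ b * chi b (r * d ^ 2) *
        (Nr b : ℂ) ^ (((2 * e - 1 : ℝ) : ℂ) + u * I))) =
        s4_A α Z (κ * f).2.2 (fun b => ξ b * chi b (r * (t * d ^ 2)))
          (((2 * e - 1 : ℝ) : ℂ) + u * I) := by
      refine Finset.sum_congr rfl fun b _ => ?_
      simp only [chi_mul_right]; ring
    rw [h2, h1, h3, h4, ← hX₁, ← hX₂, s4c_br ha₁ ha₂ hl hX₁0 hX₂0, ← hE]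
    have h5 := s4c_u hξ (r * d ^ 2) (2 * e - 1) u hf.pr
    have h6 : ‖ψ (κ * f).1 * ψ (κ * f).2.1 * chi (s4_pr (κ * f)) t *
        ((Nr (κ * f).1 : ℂ) ^ (-(τ * I)) * (Nr (κ * f).2.1 : ℂ) ^ (-(τ * I)))‖ ≤ 1 := by
      simp only [norm_mul, sv_norm_cpow hκf.1.ne_zero, sv_norm_cpow hκf.2.1.ne_zero, mul_one]
      exact mul_le_one₀ (mul_le_one₀ (h.hψ.norm_le _) (norm_nonneg _) (h.hψ.norm_le _))
        (norm_nonneg _) (norm_chi_le _ _)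
    rw [norm_mul, norm_mul (_ * _ * _ * _)]
    refine (mul_le_mul h5 (mul_le_of_le_one_left (norm_nonneg _) h6) (by positivity)
      (by positivity)).trans (le_of_eq ?_)
    simp only [norm_mul, Complex.norm_real]
    rw [Real.norm_of_nonneg (by positivity), Real.norm_of_nonneg (by positivity),
      Real.norm_of_nonneg (by positivity)]
    ring
  rw [s4_NS_mul, Complex.norm_real, Real.norm_of_nonneg (by positivity)]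
  refine (mul_le_mul_of_nonneg_left hL (by positivity)).trans ?_
  have a1 := s4c_alg hX₁0 hX₂0 (div_pos hZ k3) kf e₁ e₂ he
  have a2 : X₁ * X₂ * (Z / Nr (κ * f).2.2) * Nr (s4_pr f) = N₁ * N₂ * Z / Nr (s4_pr κ) := by
    have := Nr_pos hκ.pr.ne_zero
    have h7 : Nr (κ * f).1 * Nr (κ * f).2.1 * Nr (κ * f).2.2 = Nr (s4_pr κ) * Nr (s4_pr f) := by
      rw [← Nr_mul, ← Nr_mul, ← Nr_mul, ← s4_pr_mul]; rfl
    rw [hX₁, hX₂, eq_div_iff this.ne']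
    field_simp
    linear_combination (-1 : ℝ) * h7
  rw [a2] at a1
  have a3 : (1 + |τ - u|) ^ C * (1 + |u|) ^ 2 ≤
      (1 + |τ|) ^ (E ^ 2 * C + C + 2) * (1 + |u|) ^ (E ^ 2 * C + C + 2) := by
    have t1 : 1 ≤ 1 + |τ| := le_add_of_nonneg_right (abs_nonneg _)
    have t2 : 1 ≤ 1 + |u| := le_add_of_nonneg_right (abs_nonneg _)
    have t3 : 1 + |τ - u| ≤ (1 + |τ|) * (1 + |u|) := by
      have := abs_sub τ u
      nlinarith [mul_nonneg (abs_nonneg τ) (abs_nonneg u)]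
    calc _ ≤ ((1 + |τ|) * (1 + |u|)) ^ C * (1 + |u|) ^ 2 := by gcongr
      _ = (1 + |τ|) ^ C * (1 + |u|) ^ (C + 2) := by
          rw [Real.mul_rpow (by positivity) (by positivity), Real.rpow_add (by positivity),
            Real.rpow_two]; ring
      _ ≤ _ := by
          have : 0 ≤ E ^ 2 * C := by positivity
          gcongr <;> linarith
  calc _ = (E ^ 2 * C) * x ^ (13 * e) * ((1 + |τ - u|) ^ C * (1 + |u|) ^ 2) *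
        (s4_Dd R K N₁ N₂ l Z θ Ξ P c t / Nr d) *
        ((Nr (s4_pr f) ^ (2 * e - 1) * (X₁ * X₂) ^ (2 * e - 1)) ^ 2 *
        ((X₁ * Real.exp (2 * a₁ * (2 * e - 1)) * (X₂ * Real.exp (2 * a₂ * (2 * e - 1)))) ^ (1 + 2 * e) *
          (Z / Nr (κ * f).2.2) ^ (6 * e - 1))) := by ring
    _ ≤ (E ^ 2 * C + C + 2) * x ^ (13 * e) *
        ((1 + |τ|) ^ (E ^ 2 * C + C + 2) * (1 + |u|) ^ (E ^ 2 * C + C + 2)) *
        (s4_Dd R K N₁ N₂ l Z θ Ξ P c t / Nr d) *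
        (Nr (s4_pr f) ^ (-(1 / 2 + e)) * (N₁ * N₂ * Z / Nr (s4_pr κ)) ^ (3 * e - 1 / 2)) ^ 2 := by
        gcongr
        linarith
    _ = _ := by ring

theorem s4c_alg2 {x Λ k e : ℝ} (hx : 1 ≤ x) (hΛ : 0 < Λ) (hΛx : Λ ≤ x ^ 3) (hk : 0 < k) (he : 0 < e) :
    x ^ (13 * e) * (k ^ (e / 2) * k ^ (e / 2) * (Λ / k) ^ (3 * e - 1 / 2)) ^ 2 ≤
      x ^ (31 * e) * k ^ (1 - 4 * e) / Λ := by
  obtain ⟨x, rfl⟩ : ∃ u, x = Real.exp u := ⟨_, (Real.exp_log (by linarith)).symm⟩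
  obtain ⟨Λ, rfl⟩ : ∃ u, Λ = Real.exp u := ⟨_, (Real.exp_log hΛ).symm⟩
  obtain ⟨k, rfl⟩ : ∃ u, k = Real.exp u := ⟨_, (Real.exp_log hk).symm⟩
  simp only [← Real.exp_mul, ← Real.exp_nat_mul, ← Real.exp_add, ← Real.exp_sub,
    Real.exp_le_exp] at hΛx ⊢
  push_cast at hΛx ⊢
  nlinarith [mul_nonneg he.le (sub_nonneg.2 hΛx)]

open Classical in
/-- The children twisted by a character. -/
theorem s4c_char {Q : O} (hQ : Q ≠ 0) (h72 : (72 : O) ∣ Q) {a₁ a₂ e C₀ : ℝ} (ha₁ : 0 < a₁)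
    (ha₂ : 0 < a₂) (he : 0 < e) (he1 : e ≤ 1 / 8) (hC₀ : 0 ≤ C₀) : ∃ C : ℝ, 0 ≤ C ∧
    ∀ (x R K N₁ N₂ l Z θ Ξ P τ : ℝ) (c : ℂ) (ψ α : O → ℂ) (t : O),
    s4_Hyp Q a₁ a₂ C₀ x R K N₁ N₂ l Z θ Ξ P c ψ α t →
    ∀ (ξ : O → ℂ) (k d : O) (u : ℝ), IsCh Q ξ → Prim k → Adm Q d → IsCoprime d t →
    NS (R / (K * Nr d ^ 2)) (fun r => ∑' n, if Prim n ∧ Squarefree n ∧ IsCoprime n k then
      s4_G (s4_T a₁ a₂ N₁ N₂ l τ c ψ α t) (k * n) *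
        (ξ n * chi n (r * d ^ 2) * (Nr n : ℂ) ^ (((2 * e - 1 : ℝ) : ℂ) + u * I)) else 0) ≤
      (C * x ^ (31 * e) * (1 + |τ|) ^ C * (s4_Dd R K N₁ N₂ l Z θ Ξ P c t / (N₁ * N₂ * Z))) *
        (1 + |u|) ^ C * Nr k ^ (1 - 4 * e) / Nr d := by
  obtain ⟨C, hC, hterm⟩ := s4c_term hQ h72 ha₁ ha₂ he he1 hC₀
  obtain ⟨Cm, hCm, hmob⟩ := s4_mob he
  obtain ⟨Cd, hCd, hdv⟩ := s4_card_dv (half_pos he)
  refine ⟨C * (Cd * Cm) ^ 2 + C, by positivity,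
    fun x R K N₁ N₂ l Z θ Ξ P τ c ψ α t h ξ k d u hξ hk hd hdt => ?_⟩
  have hx0 : 0 < x := lt_of_lt_of_le one_pos h.hx
  have hN₁ : 0 < N₁ := lt_of_lt_of_le (inv_pos.2 hx0) h.hN₁
  have hN₂ : 0 < N₂ := lt_of_lt_of_le (inv_pos.2 hx0) h.hN₂
  have hl : 0 < l := lt_of_lt_of_le one_pos h.hl
  have hZ : 0 < Z := lt_of_lt_of_le one_pos h.hZ
  have hD := s4c_Dd h
  have kd := Nr_pos hd.1.ne_zero
  have kk := Nr_pos hk.ne_zero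
  have hdec := s4_T_dec (τ := τ) h.hψ ha₁ ha₂ hN₁ hN₂ hl h.hc h.hα (fun b hb => (h.hαs b hb).2) t
  obtain ⟨g, Kg, hg1, hg2, hg3⟩ := hmob k hk.ne_zero
  obtain ⟨L, hL⟩ : ∃ L, L = C * x ^ (13 * e) * (1 + |τ|) ^ C * (1 + |u|) ^ C *
    s4_Dd R K N₁ N₂ l Z θ Ξ P c t / Nr d := ⟨_, rfl⟩
  have hL0 : 0 ≤ L := by rw [hL]; positivity
  obtain ⟨V, hV⟩ : ∃ V, V = (N₁ * N₂ * Z / Nr k) ^ (3 * e - 1 / 2) := ⟨_, rfl⟩
  have hV0 : 0 ≤ V := by rw [hV]; positivity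
  have hb0 : ∀ f : O3, 0 ≤ (if s4_P f then ‖g f‖ * Nr (s4_pr f) ^ (-(1 / 2 + e)) else 0) := fun f => by
    have := Nr_nonneg (s4_pr f)
    split_ifs <;> positivity
  have hbs := summable_of_sum_le hb0 hg3
  have hbt := hbs.tsum_le_of_sum_le hg3
  have e1 := fun r => (s4c_sum hdec hk
    (u := fun n => ξ n * chi n (r * d ^ 2) * (Nr n : ℂ) ^ (((2 * e - 1 : ℝ) : ℂ) + u * I))
    (fun n hn => s4c_u hξ (r * d ^ 2) (2 * e - 1) u hn)).tsum_eq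
  simp only [e1]
  refine (s4_mink' (s4_dv k) (b := fun _ => Cm * Nr k ^ (e / 2) * (Real.sqrt L * V))
    (fun _ _ => by positivity) fun κ hκ => ?_).trans ?_
  · obtain ⟨hκ, hκk⟩ := (s4_mem_dv hk.ne_zero).1 hκ
    refine (s4_mink (f := fun f r => if s4_P f then g f * ∑' m, (if s4_P m then
      s4_T a₁ a₂ N₁ N₂ l τ c ψ α t (κ * (f * m)) * (ξ (s4_pr (f * m)) * chi (s4_pr (f * m)) (r * d ^ 2) *
        (Nr (s4_pr (f * m)) : ℂ) ^ (((2 * e - 1 : ℝ) : ℂ) + u * I)) else 0) else 0)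
      (b := fun f => (if s4_P f then ‖g f‖ * Nr (s4_pr f) ^ (-(1 / 2 + e)) else 0) *
      (Real.sqrt L * V)) (fun r _ => ?_) (hbs.mul_right _)
      (fun f => mul_nonneg (hb0 f) (by positivity)) fun f => ?_).trans ?_
    · have h1 := s4_expand ((hdec.shift hκ).mul (u := fun m => ξ (s4_pr m) *
        chi (s4_pr m) (r * d ^ 2) * (Nr (s4_pr m) : ℂ) ^ (((2 * e - 1 : ℝ) : ℂ) + u * I))
        fun m hm => s4c_u hξ (r * d ^ 2) (2 * e - 1) u hm.pr) hg2 hg1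
      simp only [mul_comm (s4_phi k _)] at h1
      exact h1
    · by_cases hf : s4_P f
      · simp only [if_pos hf]
        rw [s4_NS_mul]
        have h1 := hterm x R K N₁ N₂ l Z θ Ξ P τ c ψ α t h ξ d u κ f hξ hd hdt hκ hf
        rw [hκk, ← hL, ← hV] at h1
        refine (mul_le_mul_of_nonneg_left h1 (by positivity)).trans (le_of_eq ?_)
        rw [mul_pow, mul_pow, mul_pow, mul_pow, Real.sq_sqrt hL0]
        ring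
      · simp [hf, NS]
    · rw [tsum_mul_right]
      exact pow_le_pow_left₀ (mul_nonneg (tsum_nonneg hb0) (by positivity))
        (mul_le_mul_of_nonneg_right hbt (by positivity)) 2
  rw [Finset.sum_const, nsmul_eq_mul]
  have a1 := s4c_alg2 h.hx (Λ := N₁ * N₂ * Z) (by positivity) (by
    calc N₁ * N₂ * Z ≤ x * x * x := by gcongr; exacts [h.hN₁x, h.hN₂x, h.hZx]
      _ = x ^ 3 := by ring) kk he
  rw [← hV] at a1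
  have t1 : 1 ≤ 1 + |τ| := le_add_of_nonneg_right (abs_nonneg _)
  have t2 : 1 ≤ 1 + |u| := le_add_of_nonneg_right (abs_nonneg _)
  have t3 : C ≤ C * (Cd * Cm) ^ 2 + C := le_add_of_nonneg_left (by positivity)
  have t4 : C * (Cd * Cm) ^ 2 ≤ C * (Cd * Cm) ^ 2 + C := le_add_of_nonneg_right hC
  calc _ ≤ ((Cd * Nr k ^ (e / 2)) * (Cm * Nr k ^ (e / 2) * (Real.sqrt L * V))) ^ 2 := by
        gcongr
        exact hdv k hk.ne_zero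
    _ = (Cd * Cm) ^ 2 * Real.sqrt L ^ 2 * (Nr k ^ (e / 2) * Nr k ^ (e / 2) * V) ^ 2 := by ring
    _ = C * (Cd * Cm) ^ 2 * (1 + |τ|) ^ C * (1 + |u|) ^ C * (s4_Dd R K N₁ N₂ l Z θ Ξ P c t / Nr d) *
        (x ^ (13 * e) * (Nr k ^ (e / 2) * Nr k ^ (e / 2) * V) ^ 2) := by
        rw [Real.sq_sqrt hL0, hL]; ring
    _ ≤ (C * (Cd * Cm) ^ 2 + C) * (1 + |τ|) ^ (C * (Cd * Cm) ^ 2 + C) *
        (1 + |u|) ^ (C * (Cd * Cm) ^ 2 + C) * (s4_Dd R K N₁ N₂ l Z θ Ξ P c t / Nr d) *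
        (x ^ (31 * e) * Nr k ^ (1 - 4 * e) / (N₁ * N₂ * Z)) := by gcongr
    _ = _ := by ring

theorem s4c_supp {Q : O} {a₁ a₂ C₀ x R K N₁ N₂ l Z θ Ξ P : ℝ} {c : ℂ} {ψ α : O → ℂ} {t : O}
    (h : s4_Hyp Q a₁ a₂ C₀ x R K N₁ N₂ l Z θ Ξ P c ψ α t) (τ : ℝ) {n : O} (hn : Prim n)
    (hG : s4_G (s4_T a₁ a₂ N₁ N₂ l τ c ψ α t) n ≠ 0) : IsCoprime n Q := by
  obtain ⟨m, hm, hT⟩ := Finset.exists_ne_zero_of_sum_ne_zero hG
  obtain ⟨hP, rfl⟩ := (s4_mem_dv hn.ne_zero).1 hm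
  simp only [s4_T, mul_ne_zero_iff] at hT
  obtain ⟨⟨⟨⟨⟨h1, h2⟩, h3⟩, -⟩, -⟩, -⟩ := hT
  exact ((ch_cop h.hψ h1).mul_left (ch_cop h.hψ h2)).mul_left (h.hαs _ h3).1.2.2

theorem s4_child {Q : O} (hQ : Q ≠ 0) (h72 : (72 : O) ∣ Q) {a₁ a₂ e C₀ : ℝ} (ha₁ : 0 < a₁)
    (ha₂ : 0 < a₂) (he : 0 < e) (he1 : e ≤ 1 / 8) (hC₀ : 0 ≤ C₀) : ∃ C : ℝ, 0 ≤ C ∧
    ∀ (x R K N₁ N₂ l Z θ Ξ P τ : ℝ) (c : ℂ) (ψ α : O → ℂ) (t : O),
    s4_Hyp Q a₁ a₂ C₀ x R K N₁ N₂ l Z θ Ξ P c ψ α t →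
    ∀ (k c' d : O) (u : ℝ), Prim k → Adm Q d → IsCoprime d t →
    NS (R / (K * Nr d ^ 2)) (rowF (fun n =>
      s4_ga (s4_G (s4_T a₁ a₂ N₁ N₂ l τ c ψ α t)) k c' n * (sig n d * chi n (d ^ 2)) *
      (Nr n : ℂ) ^ (((2 * e - 1 : ℝ) : ℂ) + u * I))) ≤
      (C * x ^ (31 * e) * (1 + |τ|) ^ C * (s4_Dd R K N₁ N₂ l Z θ Ξ P c t / (N₁ * N₂ * Z))) *
        (1 + |u|) ^ C * Nr k ^ (1 - 4 * e) / Nr d := by
  classical
  obtain ⟨C, hC, hch⟩ := s4c_char hQ h72 ha₁ ha₂ he he1 hC₀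
  refine ⟨C, hC, fun x R K N₁ N₂ l Z θ Ξ P τ c ψ α t h k c' d u hk hd hdt => ?_⟩
  have hx0 : 0 < x := lt_of_lt_of_le one_pos h.hx
  have hN₁ : 0 < N₁ := lt_of_lt_of_le (inv_pos.2 hx0) h.hN₁
  have hN₂ : 0 < N₂ := lt_of_lt_of_le (inv_pos.2 hx0) h.hN₂
  have hl : 0 < l := lt_of_lt_of_le one_pos h.hl
  have hZ : 0 < Z := lt_of_lt_of_le one_pos h.hZ
  have hD := s4c_Dd h
  have kd := Nr_pos hd.1.ne_zero
  have kk := Nr_pos hk.ne_zero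
  have hdec := s4_T_dec (τ := τ) h.hψ ha₁ ha₂ hN₁ hN₂ hl h.hc h.hα (fun b hb => (h.hαs b hb).2) t
  have h12 : (12 : O) ∣ Q := (show (12 : O) ∣ 72 from ⟨6, by norm_num⟩).trans h72
  have h4 : (4 : O) ∣ Q := (show (4 : O) ∣ 72 from ⟨18, by norm_num⟩).trans h72
  have h2 : (2 : O) ∣ Q := (show (2 : O) ∣ 72 from ⟨36, by norm_num⟩).trans h72
  have hd2 : ¬ (2 : O) ∣ d := ch_odd h2 hd.2.2
  obtain ⟨B, hB⟩ : ∃ B, B = (C * x ^ (31 * e) * (1 + |τ|) ^ C *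
    (s4_Dd R K N₁ N₂ l Z θ Ξ P c t / (N₁ * N₂ * Z))) * (1 + |u|) ^ C * Nr k ^ (1 - 4 * e) / Nr d :=
    ⟨_, rfl⟩
  have hB0 : 0 ≤ B := by rw [hB]; positivity
  rw [← hB]
  have hsupp : ∀ n, Prim n → s4_G (s4_T a₁ a₂ N₁ N₂ l τ c ψ α t) (k * n) ≠ 0 → IsCoprime n Q :=
    fun n hn hG => (s4c_supp h τ (hk.mul hn) hG).of_mul_left_right
  by_cases hc : ∃ c₀, IsCoprime c₀ Q ∧ (4 : O) ∣ c₀ - c'
  swap
  · have : ∀ n, s4_ga (s4_G (s4_T a₁ a₂ N₁ N₂ l τ c ψ α t)) k c' n = 0 := fun n => by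
      unfold s4_ga
      split_ifs with h1
      · by_contra h0
        exact hc ⟨n, hsupp n h1.1 h0, h1.2.2.2⟩
      · rfl
    simpa [this, NS, rowF] using hB0
  obtain ⟨c₀, hc₀, h40⟩ := hc
  have e4 : ∀ m : O, (4 : O) ∣ m - c' ↔ (4 : O) ∣ m - c₀ := fun m => by
    constructor
    · intro h1
      simpa using dvd_sub h1 h40
    · intro h1
      simpa using dvd_add h1 h40
  obtain ⟨S, hS, hξ, -, horth⟩ := class_four hQ h12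
  have key : rowF (fun n =>
      s4_ga (s4_G (s4_T a₁ a₂ N₁ N₂ l τ c ψ α t)) k c' n * (sig n d * chi n (d ^ 2)) *
      (Nr n : ℂ) ^ (((2 * e - 1 : ℝ) : ℂ) + u * I)) = fun r => ∑ ξ ∈ S, (conj (ξ c₀) / 12) *
        ∑' n, if Prim n ∧ Squarefree n ∧ IsCoprime n k then
        s4_G (s4_T a₁ a₂ N₁ N₂ l τ c ψ α t) (k * n) *
        (ξ n * sig n d * chi n (r * d ^ 2) * (Nr n : ℂ) ^ (((2 * e - 1 : ℝ) : ℂ) + u * I)) else 0 := by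
    funext r
    have h1 := hasSum_sum (s := S) fun ξ hξS => ((s4c_sum hdec hk
      (u := fun n => ξ n * sig n d * chi n (r * d ^ 2) * (Nr n : ℂ) ^ (((2 * e - 1 : ℝ) : ℂ) + u * I))
      (fun n hn => s4c_u ((hξ ξ hξS).mul_sig h4 hd2) (r * d ^ 2) (2 * e - 1) u hn)).summable.hasSum.mul_left
      (conj (ξ c₀) / 12))
    rw [← h1.tsum_eq, rowF]
    refine tsum_congr fun n => ?_
    unfold s4_ga
    by_cases h3 : Prim n ∧ Squarefree n ∧ IsCoprime n k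
    swap
    · rw [if_neg (by tauto)]
      simp [h3]
    simp only [if_pos h3]
    by_cases h0 : s4_G (s4_T a₁ a₂ N₁ N₂ l τ c ψ α t) (k * n) = 0
    · simp [h0]
    have h5 := horth n c₀ (hsupp n h3.1 h0) hc₀
    have h6 : ∑ ξ ∈ S, (conj (ξ c₀) / 12) * (s4_G (s4_T a₁ a₂ N₁ N₂ l τ c ψ α t) (k * n) *
        (ξ n * sig n d * chi n (r * d ^ 2) * (Nr n : ℂ) ^ (((2 * e - 1 : ℝ) : ℂ) + u * I))) =
        (∑ ξ ∈ S, ξ n * conj (ξ c₀)) / 12 * (s4_G (s4_T a₁ a₂ N₁ N₂ l τ c ψ α t) (k * n) *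
        (sig n d * chi n (r * d ^ 2) * (Nr n : ℂ) ^ (((2 * e - 1 : ℝ) : ℂ) + u * I))) := by
      rw [Finset.sum_div, Finset.sum_mul]
      exact Finset.sum_congr rfl fun ξ _ => by ring
    rw [h6, h5, chi_mul_right]
    simp only [h3.1, h3.2.1, h3.2.2, true_and, e4]
    split_ifs <;> ring
  rw [key]
  refine (s4_mink' S (b := fun _ => Real.sqrt B / 12) (fun _ _ => by positivity)
    fun ξ hξS => ?_).trans (le_of_eq ?_)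
  · rw [s4_NS_mul]
    have h1 := hch x R K N₁ N₂ l Z θ Ξ P τ c ψ α t h _ k d u ((hξ ξ hξS).mul_sig h4 hd2) hk hd hdt
    rw [← hB] at h1
    rw [div_pow, Real.sq_sqrt hB0, norm_div, RCLike.norm_conj]
    have h7 := (hξ ξ hξS).norm_le c₀
    calc _ ≤ (1 / ‖(12 : ℂ)‖) ^ 2 * B := by gcongr; exact l4_nonneg _ _
      _ = _ := by simp; ring
  · rw [Finset.sum_const, hS, nsmul_eq_mul]
    push_cast
    rw [show (12 : ℝ) * (Real.sqrt B / 12) = Real.sqrt B by ring, Real.sq_sqrt hB0]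

end Crest.Agent.R017

end
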