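import Crest.Agent.R017.T4StepAuxD

/-! # Row 17, `step4`: reduction to squarefree support -/

set_option autoImplicit false

noncomputable section

open scoped BigOperators ComplexConjugate
open Complex MeasureTheory

namespace Crest.Agent.R017

open Classical in
theorem s4e_split {u : O → ℂ} {K : ℝ} (hu : ∀ n, Prim n → ‖u n‖ ≤ K * Nr n ^ (-2 : ℝ)) :
    HasSum (fun s => if Prim s ∧ Pow2 s then
      ∑' n, (if Prim n ∧ Squarefree n ∧ IsCoprime n s then u (s * n) else 0) else 0)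
      (∑' n, if Prim n then u n else 0) := by
  obtain ⟨F, hF⟩ : ∃ F : O × O → ℂ, F = fun p => if (Prim p.1 ∧ Pow2 p.1) ∧
    (Prim p.2 ∧ Squarefree p.2 ∧ IsCoprime p.2 p.1) then u (p.1 * p.2) else 0 := ⟨_, rfl⟩
  have h0 : ∀ n : O, 0 ≤ Nr n ^ (-2 : ℝ) := fun n => Real.rpow_nonneg (Nr_nonneg _) _
  have hs : Summable F := by
    refine Summable.of_norm_bounded ((l3_summable_two.mul_of_nonneg l3_summable_two h0 h0).mul_left
      |K|) fun p => ?_
    have := h0 p.1
    have := h0 p.2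
    simp only [hF]
    split_ifs with h
    · refine (hu _ (h.1.1.mul h.2.1)).trans ?_
      rw [Nr_mul, Real.mul_rpow (Nr_nonneg _) (Nr_nonneg _)]
      exact mul_le_mul_of_nonneg_right (le_abs_self _) (by positivity)
    · rw [norm_zero]; positivity
  have h1 := s4_fib hs (fun p => p.1 * p.2)
    (fun n => if hn : Prim n then {((exists_sqf_pow2 hn).exists.choose).swap} else ∅)
    (fun n p hp => by
      split_ifs at hp with hn
      · rw [Finset.mem_singleton.1 hp]
        have := (exists_sqf_pow2 hn).exists.choose_spec.2.2.2.2.2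
        rw [Prod.fst_swap, Prod.snd_swap, mul_comm]
        exact this.symm
      · simp at hp)
    (fun p hp => by
      simp only [hF] at hp
      split_ifs at hp with h
      swap
      · exact absurd rfl hp
      have hn := h.1.1.mul h.2.1
      rw [dif_pos hn, Finset.mem_singleton,
        (exists_sqf_pow2 hn).unique (exists_sqf_pow2 hn).exists.choose_spec (y₂ := p.swap)
          ⟨h.2.1, h.1.1, h.2.2.1, h.1.2, h.2.2.2, mul_comm _ _⟩, Prod.swap_swap])
  have h2 : (∑' n, if Prim n then u n else 0) = ∑' p, F p := by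
    rw [← h1.tsum_eq]
    refine tsum_congr fun n => ?_
    by_cases hn : Prim n
    · obtain ⟨a1, a2, a3, a4, a5, a6⟩ := (exists_sqf_pow2 hn).exists.choose_spec
      rw [if_pos hn, dif_pos hn, Finset.sum_singleton, hF]
      simp only [Prod.fst_swap, Prod.snd_swap]
      rw [if_pos ⟨⟨a2, a4⟩, a1, a3, a5⟩, mul_comm, ← a6]
    · simp [hn]
  rw [h2]
  refine hs.hasSum.prod_fiberwise fun s => ?_
  have h3 := (hs.prod_factor s).hasSum
  simp only [hF] at h3 ⊢
  by_cases h : Prim s ∧ Pow2 s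
  · simpa only [h, true_and, and_self, if_true] using h3
  · simp only [h, false_and, if_false]
    exact hasSum_zero

theorem s4_abs {Q : O} (hQ : Q ≠ 0) (h6 : (6 : O) ∣ Q) (CA : ℝ → ℝ) {M C₁ e : ℝ} (hM : 0 ≤ M)
    (hC₁ : 0 ≤ C₁) (he : 0 < e) (he1 : e ≤ 1 / 8) : ∃ C : ℝ, 0 ≤ C ∧
    ∀ (t : O) (x R K Λ Y : ℝ) (G : O → ℂ), s4_Abs Q t CA M C₁ e x R K Λ Y G →
    NS R (fun r => ∑' n, if Prim n then G n * chi n r else 0) ≤
      C * x ^ (20 * e) * (R * Λ + K ^ (5 / 6 : ℝ) * Λ ^ 2 * (1 + Y)) := by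
  classical
  obtain ⟨C, hC, hsl⟩ := s4_slice hQ h6 CA hM hC₁ he he1
  obtain ⟨Cp, hp⟩ := pow2_sum_le (σ := 1 / 2 + 2 * e) (by linarith)
  refine ⟨C * (16 * |Cp|) ^ 2, by positivity, fun t x R K Λ Y G h => ?_⟩
  have hx0 : 0 < x := lt_of_lt_of_le one_pos h.hx
  have hR0 : 0 < R := lt_of_lt_of_le one_pos h.hR
  have hK0 : 0 < K := lt_of_lt_of_le one_pos h.hK
  have hΛ := h.hΛ
  have hY := h.hY
  obtain ⟨L, hL⟩ : ∃ L, L = C * x ^ (20 * e) * (R * Λ + K ^ (5 / 6 : ℝ) * Λ ^ 2 * (1 + Y)) := ⟨_, rfl⟩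
  have hL0 : 0 ≤ L := by rw [hL]; positivity
  obtain ⟨K₀, hK₀⟩ := h.dec
  have hw0 : ∀ s : O, 0 ≤ if Prim s ∧ Pow2 s then Nr s ^ (-(1 / 2 + 2 * e)) else 0 := fun s => by
    split_ifs
    · exact Real.rpow_nonneg (Nr_nonneg _) _
    · exact le_rfl
  have hw : ∀ S : Finset O,
      ∑ s ∈ S, (if Prim s ∧ Pow2 s then Nr s ^ (-(1 / 2 + 2 * e)) else 0) ≤ |Cp| := fun S => by
    rw [← Finset.sum_filter]
    exact (hp _ fun s hs => ⟨(Finset.mem_filter.1 hs).2.1.ne_zero,
      (Finset.mem_filter.1 hs).2.2⟩).trans (le_abs_self _)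
  have hws := summable_of_sum_le hw0 hw
  have h4 : (4 : O) ≠ 0 := by
    intro h0
    have := congrArg QuadraticAlgebra.re h0
    revert this
    decide
  refine (s4_mink (f := fun s r => if Prim s ∧ Pow2 s then chi s r *
      ∑ c ∈ reps 4, rowF (s4_ga G s c) r else 0)
    (b := fun s => (if Prim s ∧ Pow2 s then Nr s ^ (-(1 / 2 + 2 * e)) else 0) * (16 * Real.sqrt L))
    (fun r _ => ?_) (hws.mul_right _) (fun s => mul_nonneg (hw0 s) (by positivity))
    fun s => ?_).trans ?_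
  · have h1 := s4e_split (u := fun n => G n * chi n r) (K := K₀) fun n hn => by
      rw [norm_mul]
      exact (mul_le_of_le_one_right (norm_nonneg _) (norm_chi_le _ _)).trans (hK₀ n hn)
    refine (congrArg (HasSum · _) (funext fun s => ?_)).mpr h1
    split_ifs with hs
    swap
    · rfl
    have h2 := hasSum_sum (s := reps 4) fun c _ =>
      (Summable.of_norm_bounded (f := fun n => s4_ga G s c n * chi n r)
        (h.summ 0 s c hs.1) fun n => by
          rw [norm_mul, Real.rpow_zero]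
          exact mul_le_mul_of_nonneg_left (norm_chi_le _ _) (norm_nonneg _)).hasSum
    unfold rowF
    rw [← h2.tsum_eq, ← tsum_mul_left]
    refine tsum_congr fun n => ?_
    unfold s4_ga
    by_cases h3 : Prim n ∧ Squarefree n ∧ IsCoprime n s
    · obtain ⟨c, ⟨hc1, hc2⟩, hc3⟩ := reps_existsUnique h4 n
      rw [if_pos h3, Finset.sum_eq_single c, if_pos ⟨h3.1, h3.2.1, h3.2.2, dvd_sub_comm.1 hc2⟩,
        chi_mul_left hs.1.ne_zero h3.1.ne_zero]
      · ring
      · intro c' h5 h7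
        rw [if_neg fun h8 => h7 (hc3 c' ⟨h5, dvd_sub_comm.1 h8.2.2.2⟩), zero_mul]
      · intro h5
        exact absurd hc1 h5
    · rw [if_neg h3, Finset.sum_eq_zero fun c _ => by rw [if_neg (by tauto), zero_mul], mul_zero]
  · by_cases hs : Prim s ∧ Pow2 s
    swap
    · simp [hs, NS]
    simp only [if_pos hs]
    have ks := Nr_pos hs.1.ne_zero
    refine (s4_NS_le (g := fun r => ∑ c ∈ reps 4, rowF (s4_ga G s c) r) fun r _ => ?_).trans ?_
    · rw [norm_mul]
      exact mul_le_of_le_one_left (norm_nonneg _) (norm_chi_le _ _)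
    refine (s4_mink' (reps 4) (b := fun _ => Nr s ^ (-(1 / 2 + 2 * e)) * Real.sqrt L)
      (fun _ _ => by positivity) fun c _ => ?_).trans (le_of_eq ?_)
    · refine (hsl t x R K Λ Y G h s c hs.1).trans (le_of_eq ?_)
      rw [← hL, mul_pow, Real.sq_sqrt hL0, ← Real.rpow_natCast, ← Real.rpow_mul ks.le, mul_comm]
      congr 2
      push_cast
      ring
    · rw [Finset.sum_const, card_reps h4, show nm 4 = 16 by decide, nsmul_eq_mul]
      push_cast
      ring
  · rw [tsum_mul_right]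
    calc _ ≤ (|Cp| * (16 * Real.sqrt L)) ^ 2 :=
          pow_le_pow_left₀ (mul_nonneg (tsum_nonneg hw0) (by positivity))
            (mul_le_mul_of_nonneg_right (hws.tsum_le_of_sum_le hw) (by positivity)) 2
      _ = (16 * |Cp|) ^ 2 * Real.sqrt L ^ 2 := by ring
      _ = _ := by rw [Real.sq_sqrt hL0, hL]; ring

end Crest.Agent.R017

end
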