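import Crest.Agent.R017.T4AuxA

/-! # Row 17: analytic helpers for the fourth moment with primes -/

set_option autoImplicit false

noncomputable section

open scoped BigOperators ComplexConjugate
open Complex MeasureTheory

namespace Crest.Agent.R017

/-- A very short smooth sum is dominated by the term `n = 1`. -/
theorem t4_low {a : ℝ} (ha : 0 < a) : ∃ N₀ c : ℝ, 0 < N₀ ∧ N₀ ≤ 1 ∧ 0 < c ∧
    ∀ (η : O → ℂ) (τ : ℝ), η 1 = 1 → (∀ n, Prim n → ‖η n‖ ≤ 1) → c ≤ ‖sm a η N₀ τ‖ := by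
  classical
  have hs := summable_Nr_rpow (σ := 2) (by norm_num)
  set S : ℝ := ∑' x : O, Nr x ^ (-(2 : ℝ)) with hS
  have hS0 : 0 ≤ S := tsum_nonneg fun x => Real.rpow_nonneg (Nr_nonneg x) _
  obtain ⟨k, hk⟩ := pow_unbounded_of_one_lt (2 * S) (one_lt_two (α := ℝ))
  set L : ℝ := 2 * a * (2 + k) with hL
  have hL0 : 0 ≤ L := by positivity
  set X : ℝ := Real.exp (-L) with hX
  have hX0 : 0 < X := Real.exp_pos _
  set w : ℝ := Real.exp (-L ^ 2 / (4 * a)) with hw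
  have hw0 : 0 < w := Real.exp_pos _
  refine ⟨X, w / 2, hX0, Real.exp_le_one_iff.2 (by linarith), by positivity, fun η τ h1 hη => ?_⟩
  have hc' : ∀ n, Prim n → ‖η n‖ ≤ 1 * Nr n ^ (0 : ℝ) := fun n hn => by simpa using hη n hn
  have hsum := summable_sm ha hX0 hc' τ
  unfold sm
  rw [hsum.tsum_eq_add_tsum_ite 1]
  have hlog : ∀ n : O, n ≠ 0 → Real.log (Nr n / X) = Real.log (Nr n) + L := fun n hn => by
    rw [Real.log_div (Nr_pos hn).ne' hX0.ne', hX, Real.log_exp]; ring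
  have h2 : (if Prim (1 : O) then η 1 * (Nr 1 : ℂ) ^ (-(τ * I)) * (W a (Nr 1 / X) : ℂ) else 0) = w := by
    rw [if_pos prim_one, h1, W, hlog 1 one_ne_zero, Nr_one]
    simp [hw]
  rw [h2]
  have h3 : ‖∑' n : O, if n = 1 then 0 else
      (if Prim n then η n * (Nr n : ℂ) ^ (-(τ * I)) * (W a (Nr n / X) : ℂ) else 0)‖ ≤
      w * ((2 : ℝ) ^ k)⁻¹ * S := by
    refine tsum_of_norm_bounded (hs.hasSum.mul_left (w * ((2 : ℝ) ^ k)⁻¹)) fun n => ?_
    have h0 : 0 ≤ w * ((2 : ℝ) ^ k)⁻¹ * Nr n ^ (-(2 : ℝ)) := by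
      have := Real.rpow_nonneg (Nr_nonneg n) (-(2 : ℝ))
      positivity
    split_ifs with hn1 hn
    · simpa using h0
    · have hN := Nr_pos hn.ne_zero
      have hN2 : 2 ≤ Nr n := by
        have h4 : nm n ≠ 1 := fun h => hn1 (hn.eq_one_of_isUnit (a4_nm_unit.2 h))
        have h5 : nm n ≠ 0 := fun h => hn.ne_zero (nm_eq_zero.1 h)
        have : 2 ≤ nm n := by omega
        unfold Nr
        exact_mod_cast this
      have hl : 0 ≤ Real.log (Nr n) := Real.log_nonneg (by linarith)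
      rw [w2_norm_term hn]
      have h6 : W a (Nr n / X) ≤ w * (Nr n ^ (-(k : ℝ)) * Nr n ^ (-(2 : ℝ))) := by
        rw [W, hlog n hn.ne_zero, ← Real.rpow_add hN, Real.rpow_def_of_pos hN, hw, ← Real.exp_add]
        refine Real.exp_le_exp.2 ?_
        rw [div_add' _ _ _ (by positivity), div_le_div_iff_of_pos_right (by positivity), hL]
        nlinarith [sq_nonneg (Real.log (Nr n))]
      have h7 : Nr n ^ (-(k : ℝ)) ≤ ((2 : ℝ) ^ k)⁻¹ := by
        rw [Real.rpow_neg hN.le, Real.rpow_natCast]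
        exact inv_anti₀ (by positivity) (pow_le_pow_left₀ (by norm_num) hN2 k)
      have h8 := Real.rpow_nonneg hN.le (-(2 : ℝ))
      calc ‖η n‖ * W a (Nr n / X) ≤ 1 * W a (Nr n / X) :=
            mul_le_mul_of_nonneg_right (hη n hn) (W_pos _ _).le
        _ ≤ w * (((2 : ℝ) ^ k)⁻¹ * Nr n ^ (-(2 : ℝ))) := by
            rw [one_mul]
            exact h6.trans (by gcongr)
        _ = _ := by ring
    · simpa using h0
  have h4 : ((2 : ℝ) ^ k)⁻¹ * S ≤ 1 / 2 := by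
    rw [inv_mul_le_iff₀ (by positivity)]
    linarith
  have h5 := norm_sub_norm_le (w : ℂ) (-(∑' n : O, if n = 1 then 0 else
      (if Prim n then η n * (Nr n : ℂ) ^ (-(τ * I)) * (W a (Nr n / X) : ℂ) else 0)))
  rw [sub_neg_eq_add, norm_neg, Complex.norm_real, Real.norm_of_nonneg hw0.le] at h5
  nlinarith

/-- Cauchy-Schwarz for an interval integral. -/
theorem t4_cs {F : ℝ → ℝ} (hF : Continuous F) {U : ℝ} (hU : 0 ≤ U) :
    (∫ u in (0 : ℝ)..U, F u) ^ 2 ≤ U * ∫ u in (0 : ℝ)..U, F u ^ 2 := by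
  rcases hU.eq_or_lt with rfl | hU'
  · simp
  set J := ∫ u in (0 : ℝ)..U, F u with hJ
  have h0 : 0 ≤ ∫ u in (0 : ℝ)..U, (U * F u - J) ^ 2 :=
    intervalIntegral.integral_nonneg hU fun u _ => sq_nonneg _
  have h1 : ∫ u in (0 : ℝ)..U, (U * F u - J) ^ 2 =
      U ^ 2 * (∫ u in (0 : ℝ)..U, F u ^ 2) - 2 * U * J * J + U * J ^ 2 := by
    have e : (fun u => (U * F u - J) ^ 2) = fun u => (U ^ 2 * F u ^ 2 - 2 * U * J * F u) + J ^ 2 := by
      funext u; ring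
    rw [e, intervalIntegral.integral_add, intervalIntegral.integral_sub,
      intervalIntegral.integral_const_mul, intervalIntegral.integral_const_mul,
      intervalIntegral.integral_const]
    · simp only [sub_zero, smul_eq_mul, hJ]
    all_goals exact Continuous.intervalIntegrable (by fun_prop) _ _
  rw [h1] at h0
  have : 0 ≤ U * (U * (∫ u in (0 : ℝ)..U, F u ^ 2) - J ^ 2) := by nlinarith
  linarith [(mul_nonneg_iff_of_pos_left hU').1 this]

/-- Summing a reflected bound over rows. -/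
theorem t4_refl {ι : Type*} (S : Finset ι) (ω B V : ι → ℝ) (F : ι → ℝ → ℝ) {E U H₀ H₁ : ℝ}
    (hω : ∀ r ∈ S, 0 ≤ ω r) (hB : ∀ r ∈ S, 0 ≤ B r) (hF : ∀ r ∈ S, Continuous (F r))
    (hF0 : ∀ r ∈ S, ∀ u, 0 ≤ F r u) (hE : 0 ≤ E) (hU : 0 ≤ U) (hV0 : ∀ r ∈ S, 0 ≤ V r)
    (hV : ∀ r ∈ S, V r ≤ U)
    (h : ∀ r ∈ S, B r ≤ E * (1 + ∫ u in (0 : ℝ)..V r, F r u))
    (h0 : ∑ r ∈ S, ω r ≤ H₀) (h1 : ∀ u, 0 ≤ u → u ≤ U → ∑ r ∈ S, ω r * F r u ^ 2 ≤ H₁) :
    ∑ r ∈ S, ω r * B r ^ 2 ≤ 2 * E ^ 2 * (H₀ + U ^ 2 * H₁) := by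
  have h2 : ∀ r ∈ S, B r ^ 2 ≤ 2 * E ^ 2 * (1 + U * ∫ u in (0 : ℝ)..U, F r u ^ 2) := by
    intro r hr
    have h3 : ∫ u in (0 : ℝ)..V r, F r u ≤ ∫ u in (0 : ℝ)..U, F r u :=
      intervalIntegral.integral_mono_interval le_rfl (hV0 r hr) (hV r hr)
        (Filter.Eventually.of_forall fun u => hF0 r hr u) ((hF r hr).intervalIntegrable _ _)
    have h4 := t4_cs (hF r hr) hU
    have h5 : B r ≤ E * (1 + ∫ u in (0 : ℝ)..U, F r u) := (h r hr).trans (by gcongr)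
    calc B r ^ 2 ≤ (E * (1 + ∫ u in (0 : ℝ)..U, F r u)) ^ 2 := pow_le_pow_left₀ (hB r hr) h5 2
      _ = E ^ 2 * (1 + ∫ u in (0 : ℝ)..U, F r u) ^ 2 := by ring
      _ ≤ E ^ 2 * (2 * (1 + U * ∫ u in (0 : ℝ)..U, F r u ^ 2)) := by
          refine mul_le_mul_of_nonneg_left ?_ (sq_nonneg _)
          nlinarith [sq_nonneg (1 - ∫ u in (0 : ℝ)..U, F r u)]
      _ = _ := by ring
  have h3 : ∑ r ∈ S, ω r * ∫ u in (0 : ℝ)..U, F r u ^ 2 ≤ U * H₁ := by
    have e : ∑ r ∈ S, ω r * ∫ u in (0 : ℝ)..U, F r u ^ 2 =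
        ∫ u in (0 : ℝ)..U, ∑ r ∈ S, ω r * F r u ^ 2 := by
      rw [intervalIntegral.integral_finsetSum]
      · exact Finset.sum_congr rfl fun r _ => (intervalIntegral.integral_const_mul _ _).symm
      · intro r hr
        have := hF r hr
        exact Continuous.intervalIntegrable (by fun_prop) _ _
    rw [e]
    calc _ ≤ ∫ _u in (0 : ℝ)..U, H₁ := by
          refine intervalIntegral.integral_mono_on hU ?_ (by simp) fun u hu => h1 u hu.1 hu.2
          refine Continuous.intervalIntegrable (continuous_finsetSum _ fun r hr => ?_) _ _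
          have := hF r hr
          fun_prop
      _ = _ := by simp
  calc ∑ r ∈ S, ω r * B r ^ 2
      ≤ ∑ r ∈ S, ω r * (2 * E ^ 2 * (1 + U * ∫ u in (0 : ℝ)..U, F r u ^ 2)) :=
        Finset.sum_le_sum fun r hr => mul_le_mul_of_nonneg_left (h2 r hr) (hω r hr)
    _ = 2 * E ^ 2 * (∑ r ∈ S, ω r + U * ∑ r ∈ S, ω r * ∫ u in (0 : ℝ)..U, F r u ^ 2) := by
        rw [Finset.mul_sum, ← Finset.sum_add_distrib, Finset.mul_sum]
        exact Finset.sum_congr rfl fun r _ => by ring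
    _ ≤ 2 * E ^ 2 * (H₀ + U * (U * H₁)) := by gcongr
    _ = _ := by ring

end Crest.Agent.R017

end
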