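import Crest.Agent.R017.ThRes3

/-! # Row 17, cubic theta: the coefficients at powers of `λ` -/

set_option autoImplicit false

noncomputable section

open scoped BigOperators ComplexConjugate Topology ENNReal
open Complex MeasureTheory Filter Set

namespace Crest.Agent.R017.Theta

open Classical in
/-- The weight attached to the moduli `λ^m c`, `λ ∤ c`. -/
def Bl (m : ℕ) (B : O × O → ℂ) : O × O → ℂ := fun x =>
  if lam ∣ x.1 then 0 else if m = 0 then B x else if lam ∣ x.2 then 0 else B (lam ^ m * x.1, x.2) * kap x.2 lam ^ m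

theorem lm_iff {x y : O} (h : (9 : O) ∣ x - y) : lam ∣ x ↔ lam ∣ y :=
  dvd_iff_dvd_of_dvd_sub ((lam_dvd_three.trans ⟨3, by norm_num⟩).trans h)

theorem lm_ne {x : O} (h : ¬ lam ∣ x) : x ≠ 0 := fun h0 => h (h0 ▸ dvd_zero _)

theorem Per.bl {B : O × O → ℂ} (hB : Per B) (m : ℕ) : Per (Bl m B) := by
  constructor
  · intro x
    unfold Bl
    split_ifs
    · simp
    · exact hB.bd x
    · simp
    · rw [norm_mul, norm_pow]
      exact mul_le_one₀ (hB.bd _) (by positivity) (pow_le_one₀ (norm_nonneg _) (norm_kap_le _ _))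
  · intro x y h
    unfold Bl
    by_cases h1 : lam ∣ x.1
    · rw [if_pos h1, if_pos ((lm_iff h.1).1 h1)]
    · rw [if_neg h1, if_neg (fun h' => h1 ((lm_iff h.1).2 h'))]
      by_cases h2 : m = 0
      · rw [if_pos h2, if_pos h2, hB.per x y h]
      · rw [if_neg h2, if_neg h2]
        by_cases h3 : lam ∣ x.2
        · rw [if_pos h3, if_pos ((lm_iff h.2).1 h3)]
        · rw [if_neg h3, if_neg (fun h' => h3 ((lm_iff h.2).2 h')), kap_lam_per h3 h.2,
            hB.per (lam ^ m * x.1, x.2) (lam ^ m * y.1, y.2)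
              ⟨(h.1.mul_left (lam ^ m)).trans ⟨1, by simp only; ring⟩, h.2⟩]
open Classical in
/-- `cf B (λ^m c, d) = cf (Bl m B) (c, d)` is periodic modulo `9 c`; `gs_tower`. -/
theorem Ac_lam_pow {B : O × O → ℂ} (hB : Per B) (m : ℕ) {c : O} (hc : ¬ lam ∣ c) (h : O) :
    Ac B (lam ^ m * c) h = if lam ^ m ∣ h then (3 : ℂ) ^ m * Ac (Bl m B) c (h / lam ^ m) else 0 := by
  have hc0 := lm_ne hc
  have e : (fun d => cf B (lam ^ m * c, d)) = fun d => cf (Bl m B) (c, d) := by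
    funext d
    by_cases h2 : m = 0
    · subst h2
      simp only [pow_zero, one_mul]
      unfold cf Bl
      rw [if_neg hc, if_pos rfl]
    · unfold cf Bl
      simp only
      rw [if_neg hc, if_neg h2]
      by_cases h3 : lam ∣ d
      · rw [if_pos h3, zero_mul, ite_self, if_neg]
        intro h'
        exact prime_lam.not_isUnit (IsCoprime.isUnit_of_dvd' h'
          ((dvd_pow_self lam h2).mul_right c) h3)
      · rw [if_neg h3]
        have hl : IsCoprime (lam ^ m) d := (prime_lam.coprime_iff_not_dvd.2 h3).pow_left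
        by_cases h4 : Cop (c, d)
        · rw [if_pos h4, if_pos (show Cop (lam ^ m * c, d) from IsCoprime.mul_left hl h4)]
          unfold sy sym
          simp only
          rw [if_neg h3, if_neg h3, kap_mul_right, kap_pow_right _ _ h2]
          ring
        · rw [if_neg h4, if_neg (fun h' : Cop (lam ^ m * c, d) => h4 (IsCoprime.of_mul_left_right h'))]
  unfold Ac
  rw [e, show 9 * (lam ^ m * c) = 9 * c * lam ^ m by ring,
    gs_tower (mul_ne_zero ga_nine hc0) (pow_ne_zero _ prime_lam.ne_zero)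
      (fun x y hxy => (hB.bl m).wt.cf_per hxy hc0), Nr_pow, Nr_lam]
  push_cast
  rfl
/-- Substitute `d ↦ w d` with `w ≡ 1 mod 9`, `w ≡ λ³ mod c`. -/
theorem Ac_lam_cube {B : O × O → ℂ} (hB : Per B) {c h : O} (hc : ¬ lam ∣ c) (h9 : (9 : O) ∣ h) :
    Ac B c (lam ^ 3 * h) = Ac B c h := by
  have hc0 := lm_ne hc
  obtain ⟨a, b, hab⟩ := coprime_three_iff.2 hc
  have hn : Prim (lam + (1 - lam) * (a * c)) := ⟨-(1 - lam) * b, by linear_combination (1 - lam) * hab⟩
  have hl : IsCoprime lam c := prime_lam.coprime_iff_not_dvd.2 hc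
  have hcop : IsCoprime (lam + (1 - lam) * (a * c)) c := by
    rw [show lam + (1 - lam) * (a * c) = lam + c * ((1 - lam) * a) by ring]
    exact hl.add_mul_left_left _
  rw [← Ac_cube hB hn hc0 hcop h]
  unfold Ac
  refine gs_congr ?_
  rw [← sub_mul, mul_comm 9 c]
  refine mul_dvd_mul ?_ h9
  exact (Dvd.intro (-((1 - lam) * a)) (by ring)).trans (sub_dvd_pow_sub_pow _ _ 3)
theorem lm_zero {B : O × O → ℂ} {m : ℕ} {c : O} (hc : lam ∣ c) (h : O) : Ac (Bl m B) c h = 0 := by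
  unfold Ac gs cf Bl
  simp [hc]

theorem rs_lam_cube {B : O × O → ℂ} (hB : Per B) (m : ℕ) {h : O} (h9 : (9 : O) ∣ h) :
    rs (Bl m B) (lam ^ 3 * h) = rs (Bl m B) h := by
  have : (fun c => Ac (Bl m B) c (lam ^ 3 * h)) = fun c => Ac (Bl m B) c h := by
    funext c
    by_cases hc : lam ∣ c
    · rw [lm_zero hc, lm_zero hc]
    · exact Ac_lam_cube (hB.bl m) hc h9
  unfold rs
  rw [this]
theorem lm_res_sum {a : ℕ → O → ℂ} {L : ℕ → ℂ} (S : Finset ℕ) (hpg : ∀ m, PG (a m))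
    (h : ∀ m ∈ S, Res (a m) (L m)) : Res (fun c => ∑ m ∈ S, a m c) (∑ m ∈ S, L m) := by
  classical
  have hpg' : ∀ S : Finset ℕ, PG (fun c => ∑ m ∈ S, a m c) := by
    intro S
    choose C hC using hpg
    refine ⟨∑ m ∈ S, C m, fun c => (norm_sum_le _ _).trans ?_⟩
    rw [Finset.sum_mul]
    exact Finset.sum_le_sum fun m _ => hC m c
  induction S using Finset.induction_on with
  | empty => simpa using res_zero
  | insert m S hm ih =>
    simp only [Finset.sum_insert hm]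
    exact Res.add (hpg m) (hpg' S) (h m (Finset.mem_insert_self _ _))
      (ih fun i hi => h i (Finset.mem_insert_of_mem hi))

theorem rs_lam_sum {B : O × O → ℂ} (hB : Per B) {u : O} (hu : IsUnit u) (k : ℕ) :
    rs B (u * lam ^ k) = ∑ m ∈ Finset.range (k + 1),
      (((3 : ℝ) ^ (-((m : ℝ) / 3)) : ℝ) : ℂ) * rs (Bl m B) (u * lam ^ (k - m)) := by
  classical
  have hl0 : lam ≠ 0 := prime_lam.ne_zero
  have hh : ∀ j : ℕ, u * lam ^ j ≠ 0 := fun j => mul_ne_zero hu.ne_zero (pow_ne_zero _ hl0)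
  set a : ℕ → O → ℂ := fun m c =>
    if lam ^ m ∣ c ∧ ¬ lam ^ (m + 1) ∣ c then Ac B c (u * lam ^ k) else 0 with ha
  have hpg : ∀ m, PG (a m) := fun m => ⟨81, fun c => by
    simp only [ha]
    split_ifs
    · exact norm_Ac_le hB.bd _ _
    · rw [norm_zero]; have := Nr_nonneg c; positivity⟩
  have hdv : ∀ (m : ℕ) (c : O), lam ^ (m + 1) ∣ lam ^ m * c ↔ lam ∣ c := fun m c => by
    rw [pow_succ, mul_dvd_mul_iff_left (pow_ne_zero _ hl0)]
  have hres : ∀ m ∈ Finset.range (k + 1), Res (a m)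
      ((((3 : ℝ) ^ (-((m : ℝ) / 3)) : ℝ) : ℂ) * rs (Bl m B) (u * lam ^ (k - m))) := by
    intro m hm
    have hm : m ≤ k := Nat.lt_succ_iff.1 (Finset.mem_range.1 hm)
    have h1 := Res.scale (a := a m) (n := lam ^ m) (pow_ne_zero _ hl0)
      ((res_rs (hB.bl m) (hh (k - m))).const_mul ((3 : ℂ) ^ m)) (fun c => by
        simp only [ha]
        by_cases hc : lam ∣ c
        · rw [if_neg (fun h' => h'.2 ((hdv m c).2 hc)), lm_zero hc, mul_zero]
        · have e : u * lam ^ k = lam ^ m * (u * lam ^ (k - m)) := by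
            rw [mul_left_comm, ← pow_add, Nat.add_sub_cancel' hm]
          rw [if_pos ⟨dvd_mul_right _ _, fun h' => hc ((hdv m c).1 h')⟩, Ac_lam_pow hB m hc, e,
            if_pos (dvd_mul_right _ _), mul_div_cancel_left₀ _ (pow_ne_zero _ hl0)])
      (fun c hc => by simp only [ha]; rw [if_neg (fun h' => hc h'.1)])
    have e2 : ((Nr (lam ^ m) ^ (-(4 / 3) : ℝ) : ℝ) : ℂ) * (3 : ℂ) ^ m =
        (((3 : ℝ) ^ (-((m : ℝ) / 3)) : ℝ) : ℂ) := by
      rw [Nr_pow, Nr_lam, ← Real.rpow_natCast, ← Real.rpow_mul (by norm_num),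
        show -((m : ℝ) / 3) = m * -(4 / 3) + m by ring, Real.rpow_add (by norm_num),
        Real.rpow_natCast]
      push_cast
      rfl
    rwa [← mul_assoc, e2] at h1
  refine Res.unique (res_rs hB (hh k)) ((lm_res_sum _ hpg hres).congr fun c hc => ?_)
  obtain ⟨j, y, hy, rfl⟩ := WfDvdMonoid.max_power_factor hc prime_lam.irreducible
  have hiff : ∀ m : ℕ, (lam ^ m ∣ lam ^ j * y ∧ ¬ lam ^ (m + 1) ∣ lam ^ j * y) ↔ m = j := by
    intro m
    constructor
    · rintro ⟨h1, h2⟩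
      by_contra hne
      rcases lt_or_gt_of_ne hne with h3 | h3
      · exact h2 ((pow_dvd_pow lam h3).mul_right y)
      · exact hy ((hdv j y).1 ((pow_dvd_pow lam h3).trans h1))
    · rintro rfl
      exact ⟨dvd_mul_right _ _, fun h' => hy ((hdv _ y).1 h')⟩
  simp only [ha, hiff]
  rw [Finset.sum_ite_eq']
  split_ifs with hj
  · rfl
  · rw [Ac_lam_pow hB j hy, if_neg]
    intro h'
    have hj : k + 1 ≤ j := by simpa using hj
    have h2 : lam ^ (k + 1) ∣ lam ^ k * u := by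
      rw [mul_comm]; exact (pow_dvd_pow lam hj).trans h'
    exact prime_lam.not_isUnit (isUnit_of_dvd_unit ((hdv k u).1 h2) hu)
theorem Tc_lam : ∃ K : ℝ, 0 ≤ K ∧ ∀ B : O × O → ℂ, Per B → ∀ (u : O) (k : ℕ), IsUnit u →
    ‖Tc B (u * lam ^ k)‖ ≤ K * (3 : ℝ) ^ ((k : ℝ) / 6) := by
  obtain ⟨K, hK0, hK⟩ := norm_Tc_le
  have hl0 : lam ≠ 0 := prime_lam.ne_zero
  have hM : 0 < ‖Me F0‖ := norm_pos_iff.2 Me_F0_ne
  have hN : ∀ {u : O}, IsUnit u → ∀ j : ℕ, Nr (u * lam ^ j) = 3 ^ j := fun hu j => by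
    rw [Nr_mul, isUnit_iff_Nr.1 hu, one_mul, Nr_pow, Nr_lam]
  have hT : ∀ (B : O × O → ℂ) (h : O), ‖Tc B h‖ = ‖rs B h‖ / ‖Me F0‖ * Nr h ^ (1 / 6 : ℝ) := by
    intro B h
    unfold Tc
    rw [norm_mul, norm_div, Complex.norm_real,
      Real.norm_of_nonneg (Real.rpow_nonneg (Nr_nonneg h) _)]
  have h1 : ∀ B : O × O → ℂ, Per B → ∀ (m : ℕ) (u : O), IsUnit u → ∀ j : ℕ,
      ‖rs (Bl m B) (u * lam ^ j)‖ ≤ K * 27 * ‖Me F0‖ := by
    intro B hB m u hu j
    induction j using Nat.strong_induction_on with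
    | _ j ih =>
      by_cases hj : j < 7
      · have h2 := hK _ (hB.bl m) (u * lam ^ j)
        rw [hT, hN hu] at h2
        have h3 : (1 : ℝ) ≤ ((3 : ℝ) ^ j) ^ (1 / 6 : ℝ) :=
          Real.one_le_rpow (one_le_pow₀ (by norm_num)) (by norm_num)
        have h4 : Real.sqrt (3 ^ j) ≤ 27 := by
          refine Real.sqrt_le_iff.2 ⟨by norm_num, ?_⟩
          calc (3 : ℝ) ^ j ≤ 3 ^ 6 := pow_le_pow_right₀ (by norm_num) (by omega)
            _ = 27 ^ 2 := by norm_num
        rw [← div_le_iff₀ hM]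
        calc _ ≤ ‖rs (Bl m B) (u * lam ^ j)‖ / ‖Me F0‖ * ((3 : ℝ) ^ j) ^ (1 / 6 : ℝ) :=
              le_mul_of_one_le_right (by positivity) h3
          _ ≤ K * 27 := h2.trans (by gcongr)
      · obtain ⟨i, rfl⟩ : ∃ i, j = i + 7 := ⟨j - 7, by omega⟩
        have h9 : (9 : O) ∣ u * lam ^ (i + 4) :=
          ⟨u * lam ^ i * om ^ 2, by
            rw [pow_add, show lam ^ 4 = (lam ^ 2) ^ 2 by ring, lam_sq]; ring⟩
        rw [show u * lam ^ (i + 7) = lam ^ 3 * (u * lam ^ (i + 4)) by ring, rs_lam_cube hB m h9]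
        exact ih _ (by omega)
  set q : ℝ := (3 : ℝ) ^ (-(1 / 3) : ℝ) with hq
  have hq0 : 0 ≤ q := by positivity
  have hq1 : q < 1 := Real.rpow_lt_one_of_one_lt_of_neg (by norm_num) (by norm_num)
  have hS : 0 ≤ (1 - q)⁻¹ := inv_nonneg.2 (by linarith)
  refine ⟨K * 27 * (1 - q)⁻¹, by positivity, fun B hB u k hu => ?_⟩
  rw [hT, hN hu, ← Real.rpow_natCast, ← Real.rpow_mul (by norm_num),
    show (k : ℝ) * (1 / 6) = k / 6 by ring]
  refine mul_le_mul_of_nonneg_right ?_ (by positivity)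
  rw [div_le_iff₀ hM, rs_lam_sum hB hu]
  refine (norm_sum_le _ _).trans ?_
  calc _ ≤ ∑ m ∈ Finset.range (k + 1), q ^ m * (K * 27 * ‖Me F0‖) := by
        refine Finset.sum_le_sum fun m _ => ?_
        rw [norm_mul, Complex.norm_real, Real.norm_of_nonneg (by positivity), hq,
          ← Real.rpow_natCast, ← Real.rpow_mul (by norm_num),
          show -(1 / 3 : ℝ) * m = -((m : ℝ) / 3) by ring]
        exact mul_le_mul_of_nonneg_left (h1 B hB m u hu _) (by positivity)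
    _ = (∑ m ∈ Finset.range (k + 1), q ^ m) * (K * 27 * ‖Me F0‖) := by rw [Finset.sum_mul]
    _ ≤ (1 - q)⁻¹ * (K * 27 * ‖Me F0‖) := by
        refine mul_le_mul_of_nonneg_right ?_ (by positivity)
        rw [← tsum_geometric_of_lt_one hq0 hq1]
        exact (summable_geometric_of_lt_one hq0 hq1).sum_le_tsum _ fun _ _ => by positivity
    _ = _ := by ring

end Crest.Agent.R017.Theta

end
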