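import Crest.Agent.R017.ThAr1
import Crest.Agent.R017.ThLam

/-! # Row 17, cubic theta: the coefficients -/

set_option autoImplicit false

noncomputable section

open scoped BigOperators ComplexConjugate Topology ENNReal
open Complex MeasureTheory Filter Set

namespace Crest.Agent.R017.Theta

theorem a2t_cop_lam {n : O} (hn : Prim n) : IsCoprime n lam :=
  (prime_lam.coprime_iff_not_dvd.2 hn.not_lam_dvd).symm

theorem a2t_cop {n u : O} (hn : Prim n) (hu : IsUnit u) (k : ℕ) : IsCoprime n (u * lam ^ k) := by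
  refine IsCoprime.mul_right ?_ (a2t_cop_lam hn).pow_right
  obtain ⟨v, rfl⟩ := hu
  exact ⟨0, ↑v⁻¹, by simp⟩

theorem a2t_cop9 {n : O} (hn : Prim n) : IsCoprime n 9 := by
  have h := coprime_three_iff.2 hn.not_lam_dvd
  rw [show (9 : O) = 3 * 3 by norm_num]
  exact h.mul_right h

theorem a2t_ne {u : O} (hu : IsUnit u) (k : ℕ) : u * lam ^ k ≠ 0 :=
  mul_ne_zero hu.ne_zero (pow_ne_zero _ prime_lam.ne_zero)

theorem a2t_kap_ne {n x : O} (hn : Prim n) (h : IsCoprime n x) : kap n x ≠ 0 := fun h0 =>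
  ((kap_eq_zero hn.ne_zero).1 h0).elim hn.not_lam_dvd fun h' => h' h

theorem a2t_op_one {B : O × O → ℂ} (hB : Per B) : Op 1 B = B := by
  simpa using hB.op_cube prim_one

theorem a2t_op_op {B : O × O → ℂ} (hB : Per B) {n : O} (hn : Prim n) : Op n (Op (n ^ 2) B) = B := by
  rw [Op_mul hn (hn.pow 2), ← pow_succ, hB.op_cube hn]

theorem a2t_kap_cube {n j x : O} (hn : Prim n) (hj : Prim j) (h : IsCoprime j x) :
    kap (n * j ^ 3) x = kap n x := by
  rw [kap_mul_left hn.ne_zero (hj.pow 3).ne_zero, kap_pow_left hj.ne_zero,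
    kap_cube (a2t_kap_ne hj h), mul_one]

theorem a2t_kap_per {n n' u : O} (hn : Prim n) (hn' : Prim n') (h : (9 : O) ∣ n - n')
    (hu : IsUnit u) (k : ℕ) : kap n (u * lam ^ k) = kap n' (u * lam ^ k) := by
  rcases Nat.eq_zero_or_pos k with rfl | hk
  · rw [pow_zero, mul_one, kap_unit_per hu hn.not_lam_dvd h]
  · rw [kap_mul_right, kap_mul_right, kap_pow_right _ _ hk.ne', kap_pow_right _ _ hk.ne',
      kap_unit_per hu hn.not_lam_dvd h, kap_lam_per hn.not_lam_dvd h]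

theorem a2t_two {N : O} (hN : Prim N)
    (h : ¬ ∃ n j : O, Prim n ∧ Squarefree n ∧ Prim j ∧ N = n * j ^ 3) :
    ∃ p : O, Prime p ∧ Prim p ∧ multiplicity p N % 3 = 2 := by
  by_contra hc
  have h1 : ∀ p : O, Prime p → multiplicity p N % 3 ≤ 1 := by
    intro p hp
    by_contra h2
    obtain ⟨q, hq, hpq⟩ := exists_PP hp
    have h3 : multiplicity q N = multiplicity p N := multiplicity_eq_of_associated_left hpq
    rcases hq.2 with h4 | rfl
    · exact hc ⟨q, hq.1, h4, by omega⟩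
    · rw [multiplicity_eq_zero.2 hN.not_lam_dvd] at h3
      omega
  obtain ⟨n, hn0, hn, hnm⟩ := a3_build hN.ne_zero 1 (fun a _ => a % 3) (fun _ => rfl)
  obtain ⟨j, hj0, hj, hjm⟩ := a3_build hN.ne_zero 1 (fun a _ => a / 3) (fun _ => rfl)
  refine h ⟨n, j, hn hN, (a3_sqf hn0).2 fun p hp => by rw [hnm p hp]; exact h1 p hp, hj hN,
    a3_ext hN ((hn hN).mul ((hj hN).pow 3)) fun p hp => ?_⟩
  rw [a3_mul hp hn0 (pow_ne_zero 3 hj0), a3_pow hp hj0, hnm p hp, hjm p hp]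
  omega

theorem Tc_cube' {B : O × O → ℂ} (hB : Per B) {j : O} (hj : Prim j) {h : O} (hh : h ≠ 0) :
    Tc B (j ^ 3 * h) = (‖emb j‖ : ℂ) * Tc B h := by
  refine Prim.induction (P := fun j => Tc B (j ^ 3 * h) = (‖emb j‖ : ℂ) * Tc B h) (by simp) ?_ hj
  intro p n hp hpp hn ih
  rw [mul_pow, mul_assoc, Tc_cube hB hp hpp (mul_ne_zero (hn.pow 3).ne_zero hh), ih, map_mul,
    norm_mul]
  push_cast
  ring
/-- `Prim.sqf_induction`, `g3_mul`, `cubic_recip`, `Op_mul`. -/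
theorem Tc_sqf {n : O} (hn : Prim n) (hs : Squarefree n) {B : O × O → ℂ} (hB : Per B) {h : O}
    (hh : h ≠ 0) (hc : IsCoprime n h) :
    Tc (Op n B) (n * h) = conj (kap n 9) * kap n h * conj (g3 n) * Tc B h := by
  refine Prim.sqf_induction (P := fun n => IsCoprime n h →
    Tc (Op n B) (n * h) = conj (kap n 9) * kap n h * conj (g3 n) * Tc B h) ?_ ?_ hn hs hc
  · intro _
    rw [a2t_op_one hB, kap_unit_left isUnit_one, kap_unit_left isUnit_one, g3_one]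
    simp
  · intro p n hp hpp hn _ hpn ih hc
    have h1 : ¬ p ∣ n * h := fun hd => (hp.dvd_or_dvd hd).elim hpn
      (hp.coprime_iff_not_dvd.1 hc.of_mul_left_left)
    have h2 : IsCoprime p n := hp.coprime_iff_not_dvd.2 hpn
    have h3 := kap_cube (a2t_kap_ne hpp h2)
    rw [mul_comm p n, ← Op_mul hpp hn, mul_comm n p, mul_assoc p n h, Tc_prime (hB.op n) hp hpp h1,
      ih hc.of_mul_left_right, g3_mul hpp.not_lam_dvd hn.not_lam_dvd h2, cubic_recip hn hpp,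
      kap_mul_left hp.ne_zero hn.ne_zero, kap_mul_left hp.ne_zero hn.ne_zero, kap_mul_right p n h]
    simp only [map_mul, conj_kap p n]
    linear_combination (-(conj (kap p 9) * conj (kap n 9) * kap p h * kap n h * conj (g3 p) *
      conj (g3 n) * Tc B h * kap p n)) * h3
theorem Tc_formula {n j : O} (hn : Prim n) (hs : Squarefree n) (hj : Prim j) {B : O × O → ℂ}
    (hB : Per B) {u : O} (hu : IsUnit u) (k : ℕ) :
    Tc (Op n B) (u * lam ^ k * (n * j ^ 3)) =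
      conj (kap n 9) * kap n (u * lam ^ k) * tau (n * j ^ 3) * Tc B (u * lam ^ k) := by
  rw [show u * lam ^ k * (n * j ^ 3) = j ^ 3 * (n * (u * lam ^ k)) by ring,
    Tc_cube' (hB.op n) hj (mul_ne_zero hn.ne_zero (a2t_ne hu k)),
    Tc_sqf hn hs hB (a2t_ne hu k) (a2t_cop hn hu k), tau_eq hn hs hj]
  ring
/-- `B = Op n (Op (n²) B)`. -/
theorem Tc_size : ∃ K : ℝ, ∀ B : O × O → ℂ, Per B → ∀ (u : O) (k : ℕ) (n j : O), IsUnit u → Prim n →
    Squarefree n → Prim j → ‖Tc B (u * lam ^ k * (n * j ^ 3))‖ ≤ K * (3 : ℝ) ^ ((k : ℝ) / 6) * Real.sqrt (Nr j) := by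
  obtain ⟨K, hK, h⟩ := Tc_lam
  refine ⟨K, fun B hB u k n j hu hn hs hj => ?_⟩
  have h1 := Tc_formula hn hs hj (hB.op (n ^ 2)) hu k
  rw [a2t_op_op hB hn] at h1
  rw [h1, tau_eq hn hs hj]
  simp only [norm_mul, Complex.norm_conj, norm_g3 hn.not_lam_dvd hs, Complex.norm_real, norm_norm,
    norm_emb, Real.norm_eq_abs, abs_of_nonneg (Real.sqrt_nonneg (Nr j))]
  have h2 := h _ (hB.op (n ^ 2)) u k hu
  have h3 := norm_kap_le n 9
  have h4 := norm_kap_le n (u * lam ^ k)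
  calc _ ≤ 1 * 1 * (Real.sqrt (Nr j) * 1) * (K * (3 : ℝ) ^ ((k : ℝ) / 6)) := by gcongr
    _ = _ := by ring
/-- Some prime has multiplicity `≡ 2 mod 3`. -/
theorem Tc_support {B : O × O → ℂ} (hB : Per B) {u : O} (k : ℕ) {N : O} (hu : IsUnit u) (hN : Prim N)
    (h : ¬ ∃ n j : O, Prim n ∧ Squarefree n ∧ Prim j ∧ N = n * j ^ 3) :
    Tc B (u * lam ^ k * N) = 0 := by
  obtain ⟨p, hp, hpp, hm⟩ := a2t_two hN h
  obtain ⟨m, hm1, hm2⟩ :=
    (FiniteMultiplicity.of_prime_left hp hN.ne_zero).exists_eq_pow_mul_and_not_dvd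
  have h1 : ¬ p ∣ u * lam ^ k * m := fun hd => (hp.dvd_or_dvd hd).elim
    (hp.coprime_iff_not_dvd.1 (a2t_cop hpp hu k)) hm2
  have h2 : u * lam ^ k * m ≠ 0 := fun h0 => h1 (h0 ▸ dvd_zero p)
  have h3 : u * lam ^ k * N = (p ^ (multiplicity p N / 3)) ^ 3 * (p ^ 2 * (u * lam ^ k * m)) := by
    have h4 : p ^ multiplicity p N = (p ^ (multiplicity p N / 3)) ^ 3 * p ^ 2 := by
      rw [← pow_mul, ← pow_add]; congr 1; omega
    conv_lhs => rw [hm1, h4]
    ring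
  rw [h3, Tc_cube' hB (hpp.pow _) (mul_ne_zero (pow_ne_zero 2 hp.ne_zero) h2), Tc_sq hB hp hpp h1,
    mul_zero]
/-- From one non-zero coefficient to the base expansion (`i = Op N₀ B₁` for a primary `N₀ ≡ α`). -/
theorem Tc_base {B₀ : O × O → ℂ} (hB : Per B₀) {h₀ : O} (hh : h₀ ≠ 0) (hT : Tc B₀ h₀ ≠ 0) :
    ∃ (u : O) (k : ℕ), IsUnit u ∧ ∀ α : O, ∃ (B : O × O → ℂ) (κ : ℂ), Per B ∧
      ∀ N : O, Prim N → (9 : O) ∣ N - α → tau N = κ * Tc B (u * lam ^ k * N) := by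
  obtain ⟨u, k, N₀, hu, hN₀, rfl⟩ := exists_decomp hh
  refine ⟨u, k, hu, fun α => ?_⟩
  obtain ⟨n₀, j₀, hn₀, hs₀, hj₀, rfl⟩ : ∃ n j : O, Prim n ∧ Squarefree n ∧ Prim j ∧ N₀ = n * j ^ 3 := by
    by_contra h
    exact hT (Tc_support hB k hu hN₀ h)
  have hB₁ := hB.op (n₀ ^ 2)
  have h1 : Tc (Op (n₀ ^ 2) B₀) (u * lam ^ k) ≠ 0 := by
    intro h0
    have h2 := Tc_formula hn₀ hs₀ hj₀ hB₁ hu k
    rw [a2t_op_op hB hn₀, h0, mul_zero] at h2
    exact hT h2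
  generalize Op (n₀ ^ 2) B₀ = B₁ at hB₁ h1
  by_cases hex : ∃ M : O, Prim M ∧ (9 : O) ∣ M - α
  swap
  · exact ⟨B₁, 0, hB₁, fun N hN h => absurd ⟨N, hN, h⟩ hex⟩
  obtain ⟨M, hM, hMα⟩ := hex
  refine ⟨Op M B₁, (conj (kap M 9) * kap M (u * lam ^ k) * Tc B₁ (u * lam ^ k))⁻¹, hB₁.op M,
    fun N hN hNα => ?_⟩
  have h9 : (9 : O) ∣ N - M := by simpa using dvd_sub hNα hMα
  by_cases h : ∃ n j : O, Prim n ∧ Squarefree n ∧ Prim j ∧ N = n * j ^ 3
  · obtain ⟨n, j, hn, hs, hj, rfl⟩ := h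
    have e1 : Op M B₁ = Op n B₁ := by
      rw [← hB₁.op_congr hN h9, ← Op_mul (hj.pow 3) hn, (hB₁.op n).op_cube hj]
    have e2 : kap n 9 = kap M 9 := by
      rw [← a2t_kap_cube hn hj (a2t_cop9 hj), kap_per9 hN.not_lam_dvd h9 h9]
    have e3 : kap n (u * lam ^ k) = kap M (u * lam ^ k) := by
      rw [← a2t_kap_cube hn hj (a2t_cop hj hu k), a2t_kap_per hN hM h9 hu k]
    have n1 : conj (kap M 9) ≠ 0 := (_root_.map_ne_zero _).2 (a2t_kap_ne hM (a2t_cop9 hM))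
    have n2 := a2t_kap_ne hM (a2t_cop hM hu k)
    rw [e1, Tc_formula hn hs hj hB₁ hu k, e2, e3]
    field_simp
  · rw [tau_eq_zero hN h, Tc_support (hB₁.op M) k hu hN h, mul_zero]

end Crest.Agent.R017.Theta

end
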