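import Crest.Agent.R017.ThLim1

/-! # Row 17, cubic theta: the derivative along a geodesic -/

set_option autoImplicit false

noncomputable section

open scoped BigOperators ComplexConjugate Topology ENNReal
open Complex MeasureTheory Filter Set

namespace Crest.Agent.R017.Theta

theorem m2t_norm_th : ∃ K : ℝ, 0 ≤ K ∧ ∀ B : O × O → ℂ, Per B → ∀ h : O, h ≠ 0 → ∀ v : ℝ, 0 < v →
    ‖th B h v‖ ≤ K * ‖emb h‖ * v * K1 (v * ‖emb h‖ / 9) := by
  obtain ⟨K, hK0, hK⟩ := norm_Tc_le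
  refine ⟨K * (9 : ℝ) ^ (-(7 / 3) : ℝ), by positivity, fun B hB h h0 v hv => ?_⟩
  have hn : 0 < ‖emb h‖ := norm_pos_iff.2 (fun e => h0 (emb_injective (by simpa using e)))
  have h2 : 0 < K1 (v * ‖emb h‖ / 9) := K1_pos (by positivity)
  unfold th
  rw [norm_mul, Complex.norm_real, Real.norm_of_nonneg (by positivity)]
  have := hK B hB h
  rw [← norm_emb] at this
  calc _ ≤ (K * ‖emb h‖) * ((9 : ℝ) ^ (-(7 / 3) : ℝ) * v * K1 (v * ‖emb h‖ / 9)) := by gcongr
    _ = _ := by ring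

open Classical in
theorem m2t_summable {B : O × O → ℂ} (hB : Per B) {v : ℝ} (hv : 0 < v) (z : ℂ) :
    Summable (fun h : O => if h = 0 then 0 else th B h v * eh h z) := by
  refine Summable.of_norm_bounded (summable_th hB hv) fun h => ?_
  split_ifs
  · simp
  · rw [norm_mul, norm_eh, mul_one]

open Classical in
theorem m2t_summable' {B : O × O → ℂ} (hB : Per B) {v : ℝ} (hv : 0 < v) {u : O → ℂ} {M : ℝ}
    (hu : ∀ h, ‖u h‖ ≤ M * ‖emb h‖) :
    Summable (fun h : O => if h = 0 then 0 else th B h v * u h) := by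
  obtain ⟨K, hK0, hK⟩ := m2t_norm_th
  refine Summable.of_norm_bounded
    (((summable_K1 (δ := v / 9) (by positivity) 1)).mul_left (K * v * M)) fun h => ?_
  split_ifs with h0
  · simp
  · have hn : 0 < ‖emb h‖ := norm_pos_iff.2 (fun e => h0 (emb_injective (by simpa using e)))
    have h2 : 0 < K1 (v * ‖emb h‖ / 9) := K1_pos (by positivity)
    rw [norm_mul, Real.rpow_one, ← norm_emb_sq]
    calc ‖th B h v‖ * ‖u h‖ ≤ (K * ‖emb h‖ * v * K1 (v * ‖emb h‖ / 9)) * (M * ‖emb h‖) :=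
          mul_le_mul (hK B hB h h0 v hv) (hu h) (norm_nonneg _) (by positivity)
      _ = _ := by rw [show v * ‖emb h‖ / 9 = v / 9 * ‖emb h‖ by ring]; ring

theorem m2t_sin {a : ℝ → ℝ} {L : ℝ} (ha : Tendsto (fun s => a s / s) (𝓝[>] 0) (𝓝 L)) :
    Tendsto (fun s => Real.sin (a s) / s) (𝓝[>] 0) (𝓝 L) := by
  have hs0 : ∀ᶠ s in 𝓝[>] (0 : ℝ), 0 < s := self_mem_nhdsWithin
  have h0 : Tendsto a (𝓝[>] 0) (𝓝 0) := by
    have h1 : Tendsto (fun s : ℝ => s) (𝓝[>] 0) (𝓝 0) := tendsto_nhdsWithin_of_tendsto_nhds tendsto_id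
    have := h1.mul ha
    rw [zero_mul] at this
    refine this.congr' ?_
    filter_upwards [hs0] with s hs
    field_simp
  have h1 := ((Real.hasDerivAt_sin 0).isLittleO).comp_tendsto h0
  have h2 : a =O[𝓝[>] 0] (fun s : ℝ => s) := by
    refine Asymptotics.isBigO_of_div_tendsto_nhds ?_ L ha
    filter_upwards [hs0] with s hs h using absurd h hs.ne'
  have h3 : (fun s => Real.sin (a s) - a s) =o[𝓝[>] 0] (fun s : ℝ => s) := by
    refine Asymptotics.IsLittleO.trans_isBigO ?_ h2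
    simpa [Function.comp_def] using h1
  have h4 := h3.tendsto_div_nhds_zero.add ha
  rw [zero_add] at h4
  refine h4.congr fun s => ?_
  ring

theorem m2t_ec_sub (y : ℂ) : ec y - ec (-y) = 2 * I * (Real.sin (2 * c0 * y.im) : ℂ) := by
  have h1 : ec y = Complex.exp (((2 * c0 * y.im : ℝ) : ℂ) * I) := by
    unfold ec c0; congr 1; push_cast; ring
  rw [ec_neg, Complex.sub_conj, h1, Complex.exp_ofReal_mul_I_im]
  push_cast; ring

theorem m2t_eh_diff (h : O) {ζ : ℝ → ℂ} {ξ : ℂ}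
    (hζ : Tendsto (fun s : ℝ => ζ s / (s : ℂ)) (𝓝[>] 0) (𝓝 ξ)) :
    Tendsto (fun s : ℝ => (eh h (ζ s) - eh h (-ζ s)) / (s : ℂ)) (𝓝[>] 0)
      (𝓝 (((4 * c0 / 9 : ℝ) : ℂ) * I * (((emb h * ξ).im : ℝ) : ℂ))) := by
  have h1 : Tendsto (fun s : ℝ => (2 * c0 * (emb h * ζ s / 9).im) / s) (𝓝[>] 0)
      (𝓝 (2 * c0 / 9 * (emb h * ξ).im)) := by
    have h2 := ((Complex.continuous_im.tendsto _).comp (hζ.const_mul (emb h))).const_mul (2 * c0 / 9)
    refine h2.congr fun s => ?_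
    simp only [Function.comp]
    rw [← mul_div_assoc, Complex.div_ofReal_im, show (9 : ℂ) = ((9 : ℝ) : ℂ) by norm_num,
      Complex.div_ofReal_im]
    ring
  have h3 := ((Complex.continuous_ofReal.tendsto _).comp (m2t_sin h1)).const_mul (2 * I)
  have e : 2 * I * ((2 * c0 / 9 * (emb h * ξ).im : ℝ) : ℂ) =
      ((4 * c0 / 9 : ℝ) : ℂ) * I * (((emb h * ξ).im : ℝ) : ℂ) := by push_cast; ring
  rw [← e]
  refine h3.congr fun s => ?_
  simp only [Function.comp]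
  unfold eh
  rw [show emb h * -ζ s / 9 = -(emb h * ζ s / 9) by ring, m2t_ec_sub, Complex.ofReal_div]
  ring

open Classical in
/-- Difference quotients (`tendsto_tsum_of_dominated_convergence`, `p3_ec_sub`, `K1_anti`,
`summable_K1`, `norm_Tc_le`). -/
theorem Th_diff {B : O × O → ℂ} (hB : Per B) (z₀ : ℂ) {ζ : ℝ → ℂ} {v : ℝ → ℝ} {ξ : ℂ} {v₀ : ℝ}
    (hv₀ : 0 < v₀) (hζ : Tendsto (fun s : ℝ => ζ s / (s : ℂ)) (𝓝[>] 0) (𝓝 ξ))
    (hv : Tendsto v (𝓝[>] 0) (𝓝 v₀)) :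
    Tendsto (fun s : ℝ => (Th B (z₀ + ζ s, v s) - Th B (z₀ - ζ s, v s)) / (s : ℂ)) (𝓝[>] 0)
      (𝓝 (((4 * c0 / 9 : ℝ) : ℂ) * I *
        ∑' h : O, if h = 0 then 0 else th B h v₀ * eh h z₀ * (((emb h * ξ).im : ℝ) : ℂ))) := by
  obtain ⟨K, hK0, hK⟩ := m2t_norm_th
  have hv1 : ∀ᶠ s in 𝓝[>] (0 : ℝ), v₀ / 2 < v s ∧ v s < 2 * v₀ :=
    (hv.eventually (lt_mem_nhds (by linarith))).and (hv.eventually (gt_mem_nhds (by linarith)))
  have hζ1 : ∀ᶠ s in 𝓝[>] (0 : ℝ), ‖ζ s / (s : ℂ)‖ < ‖ξ‖ + 1 :=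
    hζ.norm.eventually (gt_mem_nhds (by linarith))
  have hs0 : ∀ᶠ s in 𝓝[>] (0 : ℝ), 0 < s := self_mem_nhdsWithin
  set F : ℝ → O → ℂ := fun s h => if h = 0 then 0 else
    th B h (v s) * eh h z₀ * ((eh h (ζ s) - eh h (-ζ s)) / (s : ℂ)) with hF
  have key : Tendsto (fun s => ∑' h, F s h) (𝓝[>] 0) (𝓝 (∑' h : O, if h = 0 then 0 else
      th B h v₀ * eh h z₀ * (((4 * c0 / 9 : ℝ) : ℂ) * I * (((emb h * ξ).im : ℝ) : ℂ)))) := by
    refine tendsto_tsum_of_dominated_convergence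
      (bound := fun h : O => (K * (2 * v₀) * (2 * c0 * (2 / 9 * (‖ξ‖ + 1)))) *
        (Nr h ^ (1 : ℝ) * (if h = 0 then 0 else K1 (v₀ / 18 * ‖emb h‖))))
      ((summable_K1 (by positivity) 1).mul_left _) (fun h => ?_) ?_
    · by_cases h0 : h = 0
      · simp only [hF, if_pos h0]; exact tendsto_const_nhds
      · simp only [hF, if_neg h0]
        refine Tendsto.mul (Tendsto.mul_const _ ?_) (m2t_eh_diff h hζ)
        exact ((continuousOn_th B h0).continuousAt (Ioi_mem_nhds hv₀)).tendsto.comp hv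
    · filter_upwards [hv1, hζ1, hs0] with s hs1 hs2 hs3 h
      by_cases h0 : h = 0
      · simp only [hF, if_pos h0]; simp
      · simp only [hF, if_neg h0]
        have hvs : 0 < v s := by linarith [hs1.1]
        have hn : 0 < ‖emb h‖ := norm_pos_iff.2 (fun e => h0 (emb_injective (by simpa using e)))
        have h1 := hK B hB h h0 (v s) hvs
        have h2 : K1 (v s * ‖emb h‖ / 9) ≤ K1 (v₀ / 18 * ‖emb h‖) :=
          K1_anti (by positivity) (by nlinarith [hs1.1])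
        have h2' : 0 < K1 (v s * ‖emb h‖ / 9) := K1_pos (by positivity)
        have h3 : ‖(eh h (ζ s) - eh h (-ζ s)) / (s : ℂ)‖ ≤
            2 * c0 * (2 / 9 * (‖ξ‖ + 1)) * ‖emb h‖ := by
          have h4 := p3_ec_sub (emb h * ζ s / 9) (emb h * (-ζ s) / 9)
          have h5 : ‖emb h * ζ s / 9 - emb h * (-ζ s) / 9‖ = 2 / 9 * ‖ζ s‖ * ‖emb h‖ := by
            rw [show emb h * ζ s / 9 - emb h * (-ζ s) / 9 = (2 / 9 : ℂ) * ζ s * emb h by ring]
            simp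
          rw [norm_div, Complex.norm_real, Real.norm_of_nonneg hs3.le, div_lt_iff₀ hs3] at hs2
          rw [norm_div, Complex.norm_real, Real.norm_of_nonneg hs3.le, div_le_iff₀ hs3]
          unfold eh
          refine h4.trans ?_
          rw [h5]
          have := c0_pos
          calc 2 * c0 * (2 / 9 * ‖ζ s‖ * ‖emb h‖) ≤ 2 * c0 * (2 / 9 * ((‖ξ‖ + 1) * s) * ‖emb h‖) := by
                gcongr
            _ = _ := by ring
        rw [norm_mul, norm_mul, norm_eh, mul_one, Real.rpow_one, ← norm_emb_sq]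
        have := c0_pos
        calc ‖th B h (v s)‖ * ‖(eh h (ζ s) - eh h (-ζ s)) / (s : ℂ)‖
            ≤ (K * ‖emb h‖ * (2 * v₀) * K1 (v₀ / 18 * ‖emb h‖)) *
              (2 * c0 * (2 / 9 * (‖ξ‖ + 1)) * ‖emb h‖) := by
              refine mul_le_mul (h1.trans ?_) h3 (norm_nonneg _) (by
                have := h2'.le.trans h2; positivity)
              gcongr
              exact hs1.2.le
          _ = _ := by ring
  have e1 : (∑' h : O, if h = 0 then 0 else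
      th B h v₀ * eh h z₀ * (((4 * c0 / 9 : ℝ) : ℂ) * I * (((emb h * ξ).im : ℝ) : ℂ))) =
      ((4 * c0 / 9 : ℝ) : ℂ) * I *
        ∑' h : O, if h = 0 then 0 else th B h v₀ * eh h z₀ * (((emb h * ξ).im : ℝ) : ℂ) := by
    rw [← tsum_mul_left]
    refine tsum_congr fun h => ?_
    split_ifs
    · simp
    · ring
  rw [← e1]
  refine key.congr' ?_
  filter_upwards [hv1] with s hs1
  have hvs : 0 < v s := by linarith [hs1.1]
  unfold Th
  rw [← Summable.tsum_sub (m2t_summable hB hvs _) (m2t_summable hB hvs _), ← tsum_div_const]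
  refine tsum_congr fun h => ?_
  simp only [hF]
  split_ifs
  · simp
  · rw [sub_eq_add_neg z₀, eh_add, eh_add]; ring
open Classical in
theorem m2t_geod {B B' : O × O → ℂ} (hB : Per B) (hB' : Per B') {κ : ℂ} {g : SG} (hq : g 1 0 ≠ 0)
    (h : ∀ x, cf B x = κ * cf B' (ra x g)) {v : ℝ} (hv : 0 < v) (ξ : ℂ) :
    (∑' c : O, if c = 0 then 0 else th B c (Nr (g 1 0) * v)⁻¹ * eh c (emb (g 0 0) / emb (g 1 0)) *
        (((emb c * (-(conj ξ / (emb (g 1 0) ^ 2 * ((v ^ 2 : ℝ) : ℂ))))).im : ℝ) : ℂ)) =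
      κ * ∑' c : O, if c = 0 then 0 else th B' c v * eh c (-(emb (g 1 1) / emb (g 1 0))) *
        (((emb c * ξ).im : ℝ) : ℂ) := by
  have hq' : emb (g 1 0) ≠ 0 := fun e => hq (emb_injective (by simpa using e))
  have hN : 0 < Nr (g 1 0) := Nr_pos hq
  have hv' : 0 < (Nr (g 1 0) * v)⁻¹ := by positivity
  have hs0 : ∀ᶠ s in 𝓝[>] (0 : ℝ), 0 < s := self_mem_nhdsWithin
  have hr : Tendsto (fun s : ℝ => ‖(s : ℂ) * ξ‖ ^ 2 + v ^ 2) (𝓝[>] 0) (𝓝 (v ^ 2)) := by
    have : Continuous (fun s : ℝ => ‖(s : ℂ) * ξ‖ ^ 2 + v ^ 2) := by fun_prop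
    have h2 := this.tendsto 0
    simp only [Complex.ofReal_zero, zero_mul, norm_zero, ne_eq, OfNat.ofNat_ne_zero,
      not_false_eq_true, zero_pow, zero_add] at h2
    exact tendsto_nhdsWithin_of_tendsto_nhds h2
  have hA := Th_diff hB (emb (g 0 0) / emb (g 1 0))
    (ζ := fun s : ℝ => -(conj ((s : ℂ) * ξ) /
      (emb (g 1 0) ^ 2 * ((‖(s : ℂ) * ξ‖ ^ 2 + v ^ 2 : ℝ) : ℂ))))
    (v := fun s : ℝ => v / (Nr (g 1 0) * (‖(s : ℂ) * ξ‖ ^ 2 + v ^ 2)))
    (ξ := -(conj ξ / (emb (g 1 0) ^ 2 * ((v ^ 2 : ℝ) : ℂ)))) hv' (by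
      have h1 : Tendsto (fun s : ℝ => -(conj ξ /
          (emb (g 1 0) ^ 2 * ((‖(s : ℂ) * ξ‖ ^ 2 + v ^ 2 : ℝ) : ℂ)))) (𝓝[>] 0)
          (𝓝 (-(conj ξ / (emb (g 1 0) ^ 2 * ((v ^ 2 : ℝ) : ℂ))))) := by
        refine Tendsto.neg (Tendsto.div tendsto_const_nhds
          (Tendsto.const_mul _ ((Complex.continuous_ofReal.tendsto _).comp hr)) ?_)
        exact mul_ne_zero (pow_ne_zero _ hq') (by exact_mod_cast (pow_pos hv 2).ne')
      refine h1.congr' ?_
      filter_upwards [hs0] with s hs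
      have : (s : ℂ) ≠ 0 := by exact_mod_cast hs.ne'
      rw [map_mul, Complex.conj_ofReal]
      field_simp) (by
      have h1 := Tendsto.div (tendsto_const_nhds (x := v)) (hr.const_mul (Nr (g 1 0)))
        (by positivity)
      have e : v / (Nr (g 1 0) * v ^ 2) = (Nr (g 1 0) * v)⁻¹ := by field_simp
      rw [e] at h1
      exact h1)
  have hB2 := (Th_diff hB' (-(emb (g 1 1) / emb (g 1 0))) (ζ := fun s : ℝ => (s : ℂ) * ξ)
    (v := fun _ => v) (ξ := ξ) hv (by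
      refine tendsto_const_nhds.congr' ?_
      filter_upwards [hs0] with s hs
      have : (s : ℂ) ≠ 0 := by exact_mod_cast hs.ne'
      field_simp) tendsto_const_nhds).const_mul κ
  have hC := tendsto_nhds_unique hA (hB2.congr fun s => by
    have h1 := Th_mob hB hB' hq h (w := (-(emb (g 1 1) / emb (g 1 0)) + (s : ℂ) * ξ, v)) hv
    rw [mob_geod g hq _ hv] at h1
    unfold rfl' at h1
    simp only at h1
    rw [← mul_div_assoc]
    congr 1
    have e1 : 2 * -(emb (g 1 1) / emb (g 1 0)) - (-(emb (g 1 1) / emb (g 1 0)) + (s : ℂ) * ξ) =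
      -(emb (g 1 1) / emb (g 1 0)) - (s : ℂ) * ξ := by ring
    rw [e1] at h1
    rw [← h1]
    congr 3 <;> ring)
  have h0 : ((4 * c0 / 9 : ℝ) : ℂ) * I ≠ 0 := by
    refine mul_ne_zero ?_ Complex.I_ne_zero
    have := c0_pos
    exact_mod_cast (by positivity : (4 * c0 / 9 : ℝ) ≠ 0)
  apply mul_left_cancel₀ h0
  rw [hC]
  ring

open Classical in
/-- Apply `Th_diff` to both sides of `Th_mob` at `w = (-d/q + s ξ, v)` for `ξ = 1, I`. -/
theorem th_geod {B B' : O × O → ℂ} (hB : Per B) (hB' : Per B') {κ : ℂ} {g : SG} (hq : g 1 0 ≠ 0)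
    (h : ∀ x, cf B x = κ * cf B' (ra x g)) {v : ℝ} (hv : 0 < v) :
    (∑' c : O, if c = 0 then 0 else
        th B c (Nr (g 1 0) * v)⁻¹ * eO (c * g 0 0) (9 * g 1 0) * emb c) =
      κ * emb (g 1 0) ^ 2 * ((v ^ 2 : ℝ) : ℂ) *
        ∑' c : O, if c = 0 then 0 else
          th B' c v * eO (-(c * g 1 1)) (9 * g 1 0) * conj (emb c) := by
  have hq' : emb (g 1 0) ≠ 0 := fun e => hq (emb_injective (by simpa using e))
  have hN : 0 < Nr (g 1 0) := Nr_pos hq
  have hv' : 0 < (Nr (g 1 0) * v)⁻¹ := by positivity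
  have hvc : (v : ℂ) ≠ 0 := by exact_mod_cast hv.ne'
  have h1 := m2t_geod hB hB' hq h hv 1
  have hI := m2t_geod hB hB' hq h hv I
  set m : ℂ := (emb (g 1 0) ^ 2 * ((v ^ 2 : ℝ) : ℂ)) with hm
  have hm0 : m ≠ 0 := by rw [hm]; push_cast; exact mul_ne_zero (pow_ne_zero _ hq') (pow_ne_zero _ hvc)
  have hs : ∀ {B : O × O → ℂ}, Per B → ∀ {v : ℝ}, 0 < v → ∀ z ξ : ℂ, Summable (fun c : O =>
      if c = 0 then 0 else th B c v * eh c z * (((emb c * ξ).im : ℝ) : ℂ)) := by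
    intro B hB v hv z ξ
    have := m2t_summable' hB hv (u := fun c => eh c z * (((emb c * ξ).im : ℝ) : ℂ)) (M := ‖ξ‖)
      (fun c => by
        rw [norm_mul, norm_eh, one_mul, Complex.norm_real, Real.norm_eq_abs]
        refine (Complex.abs_im_le_norm _).trans ?_
        rw [norm_mul, mul_comm])
    simpa only [mul_assoc] using this
  have eL : (∑' c : O, if c = 0 then 0 else
        th B c (Nr (g 1 0) * v)⁻¹ * eO (c * g 0 0) (9 * g 1 0) * emb c) =
      m * ((∑' c : O, if c = 0 then 0 else th B c (Nr (g 1 0) * v)⁻¹ *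
          eh c (emb (g 0 0) / emb (g 1 0)) * (((emb c * (-(conj I / m))).im : ℝ) : ℂ)) -
        I * ∑' c : O, if c = 0 then 0 else th B c (Nr (g 1 0) * v)⁻¹ *
          eh c (emb (g 0 0) / emb (g 1 0)) * (((emb c * (-(conj 1 / m))).im : ℝ) : ℂ)) := by
    rw [← tsum_mul_left, ← Summable.tsum_sub (hs hB hv' _ _) ((hs hB hv' _ _).mul_left _),
      ← tsum_mul_left]
    refine tsum_congr fun c => ?_
    split_ifs
    · simp
    · rw [eh_div]
      have e1 : emb c * (-(conj I / m)) = I * (emb c / m) := by rw [Complex.conj_I]; ring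
      have e2 : emb c * (-(conj 1 / m)) = -(emb c / m) := by rw [map_one]; ring
      have e3 : emb c = m * (((emb c / m).re : ℂ) + ((emb c / m).im : ℂ) * I) := by
        rw [Complex.re_add_im]; field_simp
      rw [e1, e2, Complex.I_mul_im, Complex.neg_im]
      conv_lhs => rw [e3]
      push_cast
      ring
  have eR : (∑' c : O, if c = 0 then 0 else
          th B' c v * eO (-(c * g 1 1)) (9 * g 1 0) * conj (emb c)) =
      (∑' c : O, if c = 0 then 0 else th B' c v *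
          eh c (-(emb (g 1 1) / emb (g 1 0))) * (((emb c * I).im : ℝ) : ℂ)) -
        I * ∑' c : O, if c = 0 then 0 else th B' c v *
          eh c (-(emb (g 1 1) / emb (g 1 0))) * (((emb c * 1).im : ℝ) : ℂ) := by
    rw [← tsum_mul_left, ← Summable.tsum_sub (hs hB' hv _ _) ((hs hB' hv _ _).mul_left _)]
    refine tsum_congr fun c => ?_
    split_ifs
    · simp
    · have e0 : -(emb (g 1 1) / emb (g 1 0)) = emb (-g 1 1) / emb (g 1 0) := by
        rw [map_neg]; ring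
      rw [e0, eh_div, mul_neg, mul_one, Complex.mul_I_im]
      have e3 : conj (emb c) = ((emb c).re : ℂ) - ((emb c).im : ℂ) * I := by
        apply Complex.ext <;> simp
      rw [e3]
      ring
  rw [eL, eR, h1, hI, hm]
  ring
theorem Jb_geod {B B' : O × O → ℂ} (hB : Per B) (hB' : Per B') {κ : ℂ} {g : SG} (hq : g 1 0 ≠ 0)
    (h : ∀ x, cf B x = κ * cf B' (ra x g)) {v : ℝ} (hv : 0 < v) :
    Jb (fun c => Tc B c * ang c * eO (c * g 0 0) (9 * g 1 0)) v =
      κ * ang (g 1 0) ^ 2 * (((Nr (g 1 0) ^ 2 * v ^ 4)⁻¹ : ℝ) : ℂ) *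
        Jb (fun c => Tc B' c * conj (ang c) * eO (-(c * g 1 1)) (9 * g 1 0)) (Nr (g 1 0) * v)⁻¹ := by
  classical
  have hq' : emb (g 1 0) ≠ 0 := fun e => hq (emb_injective (by simpa using e))
  have hN : 0 < Nr (g 1 0) := Nr_pos hq
  have hv' : 0 < (Nr (g 1 0) * v)⁻¹ := by positivity
  have key := th_geod hB hB' hq h hv'
  have e0 : (Nr (g 1 0) * (Nr (g 1 0) * v)⁻¹)⁻¹ = v := by field_simp
  rw [e0] at key
  have hang : ∀ c : O, emb c = ang c * (‖emb c‖ : ℂ) := by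
    intro c
    by_cases h0 : emb c = 0
    · simp [h0]
    · unfold ang
      have : (‖emb c‖ : ℂ) ≠ 0 := by exact_mod_cast norm_ne_zero_iff.2 h0
      field_simp
  have eL : ∀ (B : O × O → ℂ) (u : O → ℂ) (φ : ℂ →+* ℂ), (∀ r : ℝ, φ r = r) → ∀ v : ℝ,
      (∑' c : O, if c = 0 then 0 else th B c v * u c * φ (emb c)) =
        (((9 : ℝ) ^ (-(7 / 3) : ℝ) * v : ℝ) : ℂ) * Jb (fun c => Tc B c * φ (ang c) * u c) v := by
    intro B u φ hφ v
    unfold Jb
    rw [← tsum_mul_left]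
    refine tsum_congr fun c => ?_
    split_ifs
    · simp
    · unfold th
      have : φ (emb c) = φ (ang c) * (‖emb c‖ : ℂ) := by
        conv_lhs => rw [hang c]
        rw [map_mul, hφ]
      rw [this]
      push_cast
      ring
  have e1 := eL B (fun c => eO (c * g 0 0) (9 * g 1 0)) (RingHom.id ℂ) (fun _ => rfl) v
  have e2 := eL B' (fun c => eO (-(c * g 1 1)) (9 * g 1 0)) (starRingEnd ℂ) Complex.conj_ofReal
    (Nr (g 1 0) * v)⁻¹
  simp only [RingHom.id_apply] at e1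
  rw [e1, e2] at key
  have h9 : (((9 : ℝ) ^ (-(7 / 3) : ℝ) * v : ℝ) : ℂ) ≠ 0 := by
    exact_mod_cast (by positivity : ((9 : ℝ) ^ (-(7 / 3) : ℝ) * v : ℝ) ≠ 0)
  apply mul_left_cancel₀ h9
  rw [key]
  have e3 : emb (g 1 0) ^ 2 = ang (g 1 0) ^ 2 * (Nr (g 1 0) : ℂ) := by
    conv_lhs => rw [hang (g 1 0)]
    rw [mul_pow, ← norm_emb_sq]; push_cast; ring
  rw [e3]
  have hNc : (Nr (g 1 0) : ℂ) ≠ 0 := by exact_mod_cast hN.ne'
  have hvc : (v : ℂ) ≠ 0 := by exact_mod_cast hv.ne'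
  push_cast
  field_simp

end Crest.Agent.R017.Theta

end
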