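import Crest.Agent.R017.ThV1



/-! # Row 17, cubic theta: the dual weight -/

set_option autoImplicit false

noncomputable section

open scoped BigOperators ComplexConjugate Topology ENNReal
open Complex MeasureTheory Filter Set


namespace Crest.Agent.R017.Theta

/-- The Mellin density of the dual weight on the line `Re w = 0`. -/
def mV0 (A τ t : ℝ) : ℂ := (1 / (2 * Real.pi) : ℂ) * gam (t * I) * Wh A (1 - t * I - τ * I)

theorem v0_ratio {c : ℝ} (hc : 0 < c) (t : ℝ) :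
    ‖Complex.Gamma (t * I + c)‖ * ‖(Complex.Gamma (c + 1 - t * I))⁻¹‖ ≤ c⁻¹ := by
  have hne : (c : ℂ) - t * I ≠ 0 := by
    intro h
    have := congrArg Complex.re h
    simp at this
    exact hc.ne' this
  have e1 : Complex.Gamma (c + 1 - t * I) = (c - t * I) * Complex.Gamma (c - t * I) := by
    rw [← Complex.Gamma_add_one _ hne]; congr 1; ring
  have e2 : (c : ℂ) - t * I = conj (t * I + c) := by
    simp; ring
  have e3 : ‖Complex.Gamma (c - t * I)‖ = ‖Complex.Gamma (t * I + c)‖ := by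
    rw [e2, Complex.Gamma_conj, Complex.norm_conj]
  have h4 : c ≤ ‖(c : ℂ) - t * I‖ := by
    have := Complex.re_le_norm ((c : ℂ) - t * I)
    simpa using this
  rw [e1, norm_inv, norm_mul, e3, mul_inv]
  rcases eq_or_ne ‖Complex.Gamma (t * I + c)‖ 0 with h | h
  · rw [h]; simp [hc.le]
  · rw [mul_left_comm, mul_inv_cancel₀ h, mul_one]
    exact inv_anti₀ hc h4

theorem norm_gam_zero_le : ∃ C : ℝ, 0 ≤ C ∧ ∀ t : ℝ, ‖gam (t * I)‖ ≤ C := by
  have hc : 0 < 9 / c0 := div_pos (by norm_num) c0_pos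
  refine ⟨(9 / c0) ^ (-2 : ℝ) * ((2 / 3 : ℝ)⁻¹ * (1 / 3 : ℝ)⁻¹), by positivity, fun t => ?_⟩
  have h1 := v0_ratio (c := 2 / 3) (by norm_num) t
  have h2 := v0_ratio (c := 1 / 3) (by norm_num) t
  have e1 : ((2 / 3 : ℝ) : ℂ) + 1 = 5 / 3 := by push_cast; ring
  have e2 : ((1 / 3 : ℝ) : ℂ) + 1 = 4 / 3 := by push_cast; ring
  have e3 : ((2 / 3 : ℝ) : ℂ) = 2 / 3 := by push_cast; ring
  have e4 : ((1 / 3 : ℝ) : ℂ) = 1 / 3 := by push_cast; ring
  rw [e1, e3] at h1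
  rw [e2, e4] at h2
  have h0 : ‖((9 / c0 : ℝ) : ℂ) ^ (4 * ((t : ℂ) * I) - 2)‖ = (9 / c0) ^ (-2 : ℝ) := by
    rw [norm_cpow_eq_rpow_re_of_pos hc]; congr 1; simp
  rw [gam, norm_mul, norm_mul, norm_mul, norm_mul, h0, mul_assoc]
  refine mul_le_mul_of_nonneg_left ?_ (by positivity)
  rw [mul_mul_mul_comm]
  exact mul_le_mul h1 h2 (by positivity) (by positivity)

theorem v0_cont_gam : Continuous fun t : ℝ => gam (t * I) :=
  differentiableOn_gam.continuousOn.comp_continuous (by fun_prop) fun t => by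
    simp only [mem_ofPred_eq]; simp

theorem v0_Wh (A τ t : ℝ) : Wh A (1 - t * I - τ * I) = Wh A ((1 : ℝ) + (-t - τ : ℝ) * I) := by
  congr 1; push_cast; ring

theorem v0_int {A : ℝ} (hA : 0 < A) (τ : ℝ) :
    Integrable fun t : ℝ => ‖Wh A (1 - t * I - τ * I)‖ := by
  have h : Integrable (fun t : ℝ => ‖Wh A ((1 : ℝ) + t * I)‖) := by
    simpa using integrable_exp_Wh hA 0 1
  have h2 := (h.comp_sub_right τ).comp_neg
  simp only [v0_Wh]
  exact h2

theorem v0_int_eq (A τ : ℝ) :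
    ∫ t : ℝ, ‖Wh A (1 - t * I - τ * I)‖ = ∫ t : ℝ, ‖Wh A ((1 : ℝ) + t * I)‖ := by
  simp only [v0_Wh]
  rw [integral_neg_eq_self (fun t : ℝ => ‖Wh A ((1 : ℝ) + (t - τ : ℝ) * I)‖),
    integral_sub_right_eq_self (fun t : ℝ => ‖Wh A ((1 : ℝ) + (t : ℝ) * I)‖)]

theorem v0_norm_le {C : ℝ} (hC : ∀ t : ℝ, ‖gam (t * I)‖ ≤ C) (A τ t : ℝ) :
    ‖mV0 A τ t‖ ≤ ‖(1 / (2 * Real.pi) : ℂ)‖ * C * ‖Wh A (1 - t * I - τ * I)‖ := by
  rw [mV0, norm_mul, norm_mul]
  gcongr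
  exact hC t

theorem integrable_mV0 {A : ℝ} (hA : 0 < A) (τ : ℝ) : Integrable (mV0 A τ) := by
  obtain ⟨C, -, hC⟩ := norm_gam_zero_le
  refine ((v0_int hA τ).const_mul (‖(1 / (2 * Real.pi) : ℂ)‖ * C)).mono' ?_
    (Eventually.of_forall fun t => v0_norm_le hC A τ t)
  have h1 := v0_cont_gam
  have h2 := (differentiable_Wh A).continuous
  refine Continuous.aestronglyMeasurable ?_
  unfold mV0
  exact (continuous_const.mul h1).mul (by fun_prop)

theorem integral_mV0_le {A : ℝ} (hA : 0 < A) : ∃ C : ℝ, ∀ τ, ∫ t, ‖mV0 A τ t‖ ≤ C := by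
  obtain ⟨C, -, hC⟩ := norm_gam_zero_le
  refine ⟨‖(1 / (2 * Real.pi) : ℂ)‖ * C * ∫ t : ℝ, ‖Wh A ((1 : ℝ) + t * I)‖, fun τ => ?_⟩
  rw [← v0_int_eq A τ, ← integral_const_mul]
  exact integral_mono (integrable_mV0 hA τ).norm ((v0_int hA τ).const_mul _)
    fun t => v0_norm_le hC A τ t

theorem v0_line (A τ σ : ℝ) (G : ℂ → ℂ) :
    ∫ t : ℝ, G (((σ - 1 : ℝ) : ℂ) + t * I + (1 - τ * I)) * Wh A (((σ - 1 : ℝ) : ℂ) + t * I) =
      ∫ t : ℝ, G (σ + t * I) * Wh A (1 - (σ + t * I) - τ * I) := by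
  rw [← integral_add_right_eq_self _ τ]
  congr 1
  funext t
  have e1 : ((σ - 1 : ℝ) : ℂ) + (t + τ : ℝ) * I + (1 - τ * I) = σ + t * I := by push_cast; ring
  have e2 : ((σ - 1 : ℝ) : ℂ) + (t + τ : ℝ) * I = -(1 - (σ + t * I) - τ * I) := by push_cast; ring
  rw [e1, e2]
  simp only [Wh, neg_sq]

theorem VV_eq0 {A : ℝ} (hA : 0 < A) (τ y : ℝ) (hy : 0 < y) :
    VV A τ y = ∫ t : ℝ, mV0 A τ t * (y : ℂ) ^ (-(t * I)) := by
  set G : ℂ → ℂ := fun w => gam w * (y : ℂ) ^ (-w) with hG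
  have hy0 : (y : ℂ) ≠ 0 := ofReal_ne_zero.2 hy.ne'
  have hd : DifferentiableOn ℂ (fun s => G (s + (1 - τ * I))) (strip (0 - 1) (1 / 2 - 1)) := by
    refine DifferentiableOn.mul (differentiableOn_gam.comp (by fun_prop) fun s hs => ?_) ?_
    · have := hs.1
      simp only [mem_ofPred_eq]
      simp
      linarith
    · exact Differentiable.differentiableOn
        (Differentiable.const_cpow (by fun_prop) (Or.inl hy0))
  have hg : ExpGr (fun s => G (s + (1 - τ * I))) (0 - 1) (1 / 2 - 1) := by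
    refine ExpGr.comp_add _ ((expGr_gam ?_).mul (expGr_cpow_neg hy _ _))
    simp
  have h := shift_Wh hA (by norm_num) hd hg
  rw [v0_line A τ 0 G, v0_line A τ (1 / 2) G] at h
  have e1 : VV A τ y = (1 / (2 * Real.pi) : ℂ) *
      ∫ t : ℝ, G ((1 / 2 : ℝ) + t * I) * Wh A (1 - ((1 / 2 : ℝ) + t * I) - τ * I) := by
    rw [VV, ← integral_const_mul]
    congr 1
    funext t
    simp only [hG, mV]
    push_cast
    ring
  rw [e1, ← h, ← integral_const_mul]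
  congr 1
  funext t
  simp only [hG, mV0]
  simp only [ofReal_zero, zero_add]
  ring

end Crest.Agent.R017.Theta

end
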