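import Crest.Agent.R017.ThV2

/-! # Row 17, cubic theta: the abstract summation formula -/

set_option autoImplicit false

noncomputable section

open scoped BigOperators ComplexConjugate Topology ENNReal
open Complex MeasureTheory Filter Set

namespace Crest.Agent.R017.Theta

open Classical in
theorem v3t_swap {a : O → ℂ} {K : ℝ} (ha : ∀ c, ‖a c‖ ≤ K * Real.sqrt (Nr c)) {G : ℝ → ℂ}
    (hG : Integrable G) {σ : ℝ} (hσ : 3 / 2 < σ) {s : ℝ → ℂ} (hs : Continuous s)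
    (hre : ∀ t, (s t).re = σ) :
    ∫ t, G t * Dall a (s t) =
      ∑' c : O, if c = 0 then 0 else a c * ∫ t, G t * (Nr c : ℂ) ^ (-s t) := by
  set F : O → ℝ → ℂ := fun c t => G t * (if c = 0 then 0 else a c * (Nr c : ℂ) ^ (-s t)) with hF
  have hbd : ∀ c t, ‖(if c = 0 then 0 else a c * (Nr c : ℂ) ^ (-s t))‖ ≤
      |K| * Nr c ^ (-(σ - 1 / 2)) := by
    intro c t
    have hp := Real.rpow_nonneg (Nr_nonneg c) (-(σ - 1 / 2))
    split_ifs with hc
    · rw [norm_zero]; positivity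
    · have hN := Nr_pos hc
      rw [norm_mul, Complex.norm_cpow_eq_rpow_re_of_pos hN, neg_re, hre]
      have e3 : Nr c ^ (-(σ - 1 / 2)) = Real.sqrt (Nr c) * Nr c ^ (-σ) := by
        rw [Real.sqrt_eq_rpow, ← Real.rpow_add hN]; congr 1; ring
      rw [e3, ← mul_assoc]
      exact mul_le_mul_of_nonneg_right ((ha c).trans
        (mul_le_mul_of_nonneg_right (le_abs_self K) (Real.sqrt_nonneg _)))
        (Real.rpow_nonneg hN.le _)
  have hint : ∀ c, Integrable (F c) := by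
    intro c
    refine hG.mul_bdd (Continuous.aestronglyMeasurable ?_) (Eventually.of_forall (hbd c))
    split_ifs with hc
    · fun_prop
    · simp only [w2_cpow (Nr_pos hc)]
      fun_prop
  have hsum : Summable fun c => ∫ t, ‖F c t‖ := by
    refine Summable.of_nonneg_of_le (fun n => integral_nonneg fun t => norm_nonneg _) (fun c => ?_)
      (((summable_Nr_rpow (σ := σ - 1 / 2) (by linarith)).mul_left |K|).mul_left (∫ t, ‖G t‖))
    rw [← integral_mul_const]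
    refine integral_mono (hint c).norm (hG.norm.mul_const _) fun t => ?_
    simp only [hF, norm_mul]
    exact mul_le_mul_of_nonneg_left (hbd c t) (norm_nonneg _)
  have h1 : ∀ t : ℝ, G t * Dall a (s t) = ∑' c, F c t := fun t => by
    simp only [hF, Dall, tsum_mul_left]
  simp only [h1]
  rw [← integral_tsum_of_summable_integral_norm hint hsum]
  refine tsum_congr fun c => ?_
  simp only [hF]
  split_ifs with hc
  · simp
  · rw [← integral_const_mul]
    exact integral_congr_ae (Eventually.of_forall fun t => by simp only; ring)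

open Classical in
/-- `W_mellin` termwise on `Re s = 2`. -/
theorem tsum_W_eq {a : O → ℂ} {K : ℝ} (ha : ∀ c, ‖a c‖ ≤ K * Real.sqrt (Nr c)) {A L : ℝ} (hA : 0 < A)
    (hL : 0 < L) (τ : ℝ) :
    (∑' c : O, if c = 0 then 0 else a c * (Nr c : ℂ) ^ (-(τ * I)) * (W A (Nr c / L) : ℂ)) =
      (1 / (2 * Real.pi) : ℂ) * ∫ t : ℝ, (Dall a (((2 : ℝ) : ℂ) + t * I + τ * I) *
        (L : ℂ) ^ (((2 : ℝ) : ℂ) + t * I)) * Wh A (((2 : ℝ) : ℂ) + t * I) := by
  have hG : Integrable fun t : ℝ =>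
      (L : ℂ) ^ (((2 : ℝ) : ℂ) + t * I) * Wh A (((2 : ℝ) : ℂ) + t * I) :=
    integrable_mul_Wh hA (F := fun s => (L : ℂ) ^ s) (σ₁ := 2) (σ₂ := 2)
      (Continuous.continuousOn (by simp only [w2_cpow hL]; fun_prop)) (expGr_cpow hL 2 2)
      le_rfl le_rfl
  have h := v3t_swap ha hG (σ := 2) (by norm_num)
    (s := fun t : ℝ => ((2 : ℝ) : ℂ) + t * I + τ * I) (by fun_prop) (fun t => by simp)
  have e : ∀ t : ℝ, (Dall a (((2 : ℝ) : ℂ) + t * I + τ * I) *
      (L : ℂ) ^ (((2 : ℝ) : ℂ) + t * I)) * Wh A (((2 : ℝ) : ℂ) + t * I) =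
      (L : ℂ) ^ (((2 : ℝ) : ℂ) + t * I) * Wh A (((2 : ℝ) : ℂ) + t * I) *
        Dall a (((2 : ℝ) : ℂ) + t * I + τ * I) := fun t => by ring
  simp only [e]
  rw [h, ← tsum_mul_left]
  refine tsum_congr fun c => ?_
  split_ifs with hc
  · simp
  · have hN := Nr_pos hc
    rw [W_mellin hA (div_pos hN hL) 2, mul_left_comm, mul_assoc, ← integral_const_mul]
    congr 2
    refine integral_congr_ae (Eventually.of_forall fun t => ?_)
    simp only [w2_cpow hN, w2_cpow hL, w2_cpow (div_pos hN hL), Real.log_div hN.ne' hL.ne']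
    have : Complex.exp ((Real.log (Nr c) : ℝ) * -((τ : ℂ) * I)) *
        Complex.exp ((Real.log (Nr c) - Real.log L : ℝ) * -(((2 : ℝ) : ℂ) + t * I)) =
        Complex.exp ((Real.log (Nr c) : ℝ) * -(((2 : ℝ) : ℂ) + t * I + τ * I)) *
        Complex.exp ((Real.log L : ℝ) * (((2 : ℝ) : ℂ) + t * I)) := by
      rw [← Complex.exp_add, ← Complex.exp_add]
      congr 1
      rw [Complex.ofReal_sub]
      ring
    linear_combination Wh A (((2 : ℝ) : ℂ) + t * I) * this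

open Classical in
/-- `VV_eq` with `k = 2` termwise. -/
theorem tsum_VV_eq {b : O → ℂ} {K : ℝ} (hb : ∀ c, ‖b c‖ ≤ K * Real.sqrt (Nr c)) {A Y : ℝ} (hA : 0 < A)
    (hY : 0 < Y) (τ : ℝ) :
    (∑' c : O, if c = 0 then 0 else b c * VV A τ (Nr c * Y)) =
      (1 / (2 * Real.pi) : ℂ) * ∫ t : ℝ, gam (((5 / 2 : ℝ) : ℂ) + t * I) *
        Wh A (1 - (((5 / 2 : ℝ) : ℂ) + t * I) - τ * I) * (Y : ℂ) ^ (-(((5 / 2 : ℝ) : ℂ) + t * I)) *
          Dall b (((5 / 2 : ℝ) : ℂ) + t * I) := by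
  have e5 : (1 / 2 + ((2 : ℕ) : ℝ) : ℝ) = 5 / 2 := by norm_num
  have hG0 := integrable_gam_Wh hA 2 τ
  rw [e5] at hG0
  have hG : Integrable fun t : ℝ => gam (((5 / 2 : ℝ) : ℂ) + t * I) *
      Wh A (1 - (((5 / 2 : ℝ) : ℂ) + t * I) - τ * I) *
        (Y : ℂ) ^ (-(((5 / 2 : ℝ) : ℂ) + t * I)) := by
    refine hG0.mul_bdd (c := Y ^ (-(5 / 2 : ℝ))) (Continuous.aestronglyMeasurable ?_)
      (Eventually.of_forall fun t => ?_)
    · simp only [w2_cpow hY]
      fun_prop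
    · rw [Complex.norm_cpow_eq_rpow_re_of_pos hY]
      simp
  have h := v3t_swap hb hG (σ := 5 / 2) (by norm_num)
    (s := fun t : ℝ => ((5 / 2 : ℝ) : ℂ) + t * I) (by fun_prop) (fun t => by simp)
  rw [h, ← tsum_mul_left]
  refine tsum_congr fun c => ?_
  split_ifs with hc
  · simp
  · have hN := Nr_pos hc
    rw [VV_eq hA 2 τ (mul_pos hN hY), e5, mul_left_comm]
    congr 2
    refine integral_congr_ae (Eventually.of_forall fun t => ?_)
    simp only [Complex.ofReal_mul]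
    rw [Complex.mul_cpow_ofReal_nonneg hN.le hY.le]
    ring

theorem v3t_subst (f : ℝ → ℂ) (τ : ℝ) : ∫ t, f t = ∫ t, f (-(t + τ)) := by
  rw [← integral_neg_eq_self f, ← integral_add_right_eq_self (fun t => f (-t)) τ]

open Classical in
/-- Shift from `Re s = 2` to `Re s = -3/2` (`shift_Wh`), functional equation with
`w = 1 - s - i τ`, substitution `t ↦ -t - τ`. -/
theorem voronoi_abs {a b : O → ℂ} {K : ℝ} (ha : ∀ c, ‖a c‖ ≤ K * Real.sqrt (Nr c))
    (hb : ∀ c, ‖b c‖ ≤ K * Real.sqrt (Nr c)) {ε : ℂ} {N : ℝ} (hN : 0 < N)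
    (h : ∀ v : ℝ, 0 < v → Jb a v = ε * (((N ^ 2 * v ^ 4)⁻¹ : ℝ) : ℂ) * Jb b (N * v)⁻¹)
    {A L : ℝ} (hA : 0 < A) (hL : 0 < L) (τ : ℝ) :
    (∑' c : O, if c = 0 then 0 else a c * (Nr c : ℂ) ^ (-(τ * I)) * (W A (Nr c / L) : ℂ)) =
      ε * (L : ℂ) ^ (1 - τ * I) / (N : ℂ) *
        ∑' c : O, if c = 0 then 0 else b c * VV A τ (Nr c * L / N ^ 2) := by
  obtain ⟨D, hD, hgr, hDa, hFE⟩ := exists_FE ha hb hN h
  have hY : 0 < L / N ^ 2 := by positivity
  simp only [mul_div_assoc (Nr _) L]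
  rw [tsum_W_eq ha hA hL τ, tsum_VV_eq hb hA hY τ]
  have hL0 : (L : ℂ) ≠ 0 := Complex.ofReal_ne_zero.2 hL.ne'
  have hsh := shift_Wh hA (F := fun s => D (s + τ * I) * (L : ℂ) ^ s) (σ₁ := -(3 / 2)) (σ₂ := 2)
    (by norm_num)
    (Differentiable.differentiableOn (by simp only [w2_cpow hL]; fun_prop))
    (((hgr _ _).comp_add_I τ).mul (expGr_cpow hL _ _))
  have e1 : ∀ t : ℝ, Dall a (((2 : ℝ) : ℂ) + t * I + τ * I) = D (((2 : ℝ) : ℂ) + t * I + τ * I) :=
    fun t => (hDa _ (by simp; norm_num)).symm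
  simp only [e1]
  rw [← hsh, v3t_subst _ τ, mul_left_comm _ (1 / (2 * Real.pi) : ℂ)]
  congr 1
  rw [← integral_const_mul]
  refine integral_congr_ae (Eventually.of_forall fun t => ?_)
  have e2 : ((-(3 / 2) : ℝ) : ℂ) + ((-(t + τ) : ℝ) : ℂ) * I =
      1 - (((5 / 2 : ℝ) : ℂ) + t * I) - τ * I := by push_cast; ring
  simp only
  rw [e2, sub_add_cancel, hFE _ (by simp; norm_num)]
  set w : ℂ := ((5 / 2 : ℝ) : ℂ) + t * I
  have hN0 : (N : ℂ) = Complex.exp (Real.log N : ℝ) := by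
    rw [← Complex.ofReal_exp, Real.exp_log hN]
  have e3 : (N : ℂ) ^ (2 * w - 1) * (L : ℂ) ^ (1 - w - τ * I) * (N : ℂ) =
      (L : ℂ) ^ (1 - τ * I) * ((L / N ^ 2 : ℝ) : ℂ) ^ (-w) := by
    rw [w2_cpow hN, w2_cpow hL, w2_cpow hL, w2_cpow hY, Real.log_div hL.ne' (by positivity),
      Real.log_pow]
    conv_lhs => rw [mul_assoc]; enter [2, 2]; rw [hN0]
    rw [← Complex.exp_add, ← Complex.exp_add, ← Complex.exp_add]
    congr 1
    push_cast
    ring
  have hN1 : (N : ℂ) ≠ 0 := Complex.ofReal_ne_zero.2 hN.ne'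
  field_simp
  linear_combination ε * gam w * Dall b w * Wh A (1 - w - τ * I) * e3

end Crest.Agent.R017.Theta

end
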