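import Crest.Agent.R017.FE
import Crest.Agent.R017.ThAr2
import Crest.Agent.R017.ThLim2
import Crest.Agent.R017.ThV3
import Crest.Agent.R017.ThV0

/-! # Row 17: the cubic theta function: interface (Voronoi formula) -/

set_option autoImplicit false

noncomputable section

open scoped BigOperators ComplexConjugate
open Complex MeasureTheory

namespace Crest.Agent.R017

/-- Splitting off the part of the symbol belonging to a primary factor of the first entry. -/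
theorem sym_split (q₀ : O) (hq₀ : q₀ ≠ 0) : ∃ Ξ : O → O → ℂ, (∀ x y, ‖Ξ x y‖ ≤ 1) ∧
    (∀ x x' y y', (9 : O) ∣ x - x' → 9 * q₀ ∣ y - y' → Ξ x y = Ξ x' y') ∧
    ∀ q₁ d : O, Prim q₁ → IsCoprime (q₀ * q₁) d → sym (q₀ * q₁) d = Ξ q₁ d * kap q₁ d :=
  Theta.sym_split' q₀ hq₀

/-- The cubic theta package.  `T i c` is the (normalised) Fourier coefficient at the frequency `c / 9`
of the `i`-th member of a finite family of cubic theta functions. -/
theorem voronoi : ∃ (ι : Type) (T : ι → O → ℂ) (act : ι → O → O → O → O → ι) (K : ℝ),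
    -- size and support
    (∀ (i : ι) (u : O) (k : ℕ) (n j : O), IsUnit u → Prim n → Squarefree n → Prim j →
      ‖T i (u * lam ^ k * (n * j ^ 3))‖ ≤ K * (3 : ℝ) ^ ((k : ℝ) / 6) * Real.sqrt (Nr j)) ∧
    (∀ (i : ι) (u : O) (k : ℕ) (N : O), IsUnit u → Prim N →
      (¬ ∃ n j : O, Prim n ∧ Squarefree n ∧ Prim j ∧ N = n * j ^ 3) → T i (u * lam ^ k * N) = 0) ∧
    -- the base expansion
    (∃ (u : O) (k : ℕ), IsUnit u ∧ ∀ α : O, ∃ (i : ι) (κ : ℂ),
      ∀ N : O, Prim N → (9 : O) ∣ N - α → tau N = κ * T i (u * lam ^ k * N)) ∧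
    -- the action only depends on the matrix modulo `9`
    (∀ i a b q d a' b' q' d', (9 : O) ∣ a - a' → (9 : O) ∣ b - b' → (9 : O) ∣ q - q' → (9 : O) ∣ d - d' →
      act i a b q d = act i a' b' q' d') ∧
    -- the summation formula
    (∀ A : ℝ, 0 < A → ∃ (m : ℝ → ℝ → ℂ) (V : ℝ → ℝ → ℂ),
      (∀ τ, Integrable (m τ)) ∧ (∃ C : ℝ, ∀ τ, ∫ t, ‖m τ t‖ ≤ C) ∧
      (∀ τ y, 0 < y → V τ y = ∫ t : ℝ, m τ t * (y : ℂ) ^ (-(t * I))) ∧
      (∀ k : ℕ, ∃ C : ℝ, ∀ τ y, 0 < y → ‖V τ y‖ ≤ C * (1 + |τ|) ^ (4 * k) * y ^ (-(1 / 2 + k : ℝ))) ∧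
      ∀ (i : ι) (a b q d : O) (L τ : ℝ), a * d - b * q = 1 → q ≠ 0 → 0 < L →
        (∑' c : O, if c = 0 then 0 else
          T i c * ang c * eO (c * a) (9 * q) * (Nr c : ℂ) ^ (-(τ * I)) * (W A (Nr c / L) : ℂ)) =
        conj (sym q d) * ang q ^ 2 * (L : ℂ) ^ (1 - τ * I) / (Nr q : ℂ) *
          ∑' c : O, if c = 0 then 0 else
            T (act i a b q d) c * conj (ang c) * eO (-(c * d)) (9 * q) * V τ (Nr c * L / Nr q ^ 2)) := by
  classical
  obtain ⟨act, hper, hcongr, hact⟩ := Theta.exists_act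
  obtain ⟨K, hK⟩ := Theta.Tc_size
  obtain ⟨K₀, hK₀, hT⟩ := Theta.norm_Tc_le
  refine ⟨{B : O × O → ℂ // Theta.Per B}, fun i => Theta.Tc i.1,
    fun i a b q d => ⟨act i.1 a b q d, hper _ _ _ _ _ i.2⟩, K,
    fun i u k n j hu hn hs hj => hK i.1 i.2 u k n j hu hn hs hj,
    fun i u k N hu hN h => Theta.Tc_support i.2 k hu hN h, ?_,
    fun i a b q d a' b' q' d' ha hb hq hd => Subtype.ext (hcongr _ _ _ _ _ _ _ _ _ ha hb hq hd),
    fun A hA => ⟨Theta.mV0 A, Theta.VV A, Theta.integrable_mV0 hA, Theta.integral_mV0_le hA,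
      Theta.VV_eq0 hA, Theta.norm_VV_le hA, fun i a b q d L τ hdet hq hL => ?_⟩⟩
  · obtain ⟨h₀, hh, hT0⟩ := Theta.exists_Tc_ne
    obtain ⟨u, k, hu, h⟩ := Theta.Tc_base Theta.per_Be hh hT0
    refine ⟨u, k, hu, fun α => ?_⟩
    obtain ⟨B, κ, hB, h⟩ := h α
    exact ⟨⟨B, hB⟩, κ, h⟩
  · have hang : ∀ c : O, ‖ang c‖ ≤ 1 := fun c => by
      by_cases hc : c = 0
      · simp [ang, hc]
      · exact (norm_ang hc).le
    have hbd : ∀ (B : O × O → ℂ), Theta.Per B → ∀ (c : O) (x y : ℂ), ‖x‖ ≤ 1 → ‖y‖ ≤ 1 →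
        ‖Theta.Tc B c * x * y‖ ≤ K₀ * Real.sqrt (Nr c) := fun B hB c x y hx hy => by
      rw [norm_mul, norm_mul]
      exact (mul_le_of_le_one_right (by positivity) hy).trans
        ((mul_le_of_le_one_right (norm_nonneg _) hx).trans (hT B hB c))
    exact Theta.voronoi_abs (fun c => hbd _ i.2 c _ _ (hang c) (norm_eO _ _).le)
      (fun c => hbd _ (hper _ _ _ _ _ i.2) c _ _ (by rw [Complex.norm_conj]; exact hang c)
        (norm_eO _ _).le) (Nr_pos hq)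
      (fun v hv => Theta.Jb_geod (g := Theta.mkSG a b q d hdet) i.2 (hper _ _ _ _ _ i.2) hq
        (hact i.1 (Theta.mkSG a b q d hdet) i.2) hv) hA hL τ

end Crest.Agent.R017

end
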