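import Crest.Agent.R017.Basic

/-! # Row 17: multiplicative arithmetic in `O` -/

set_option autoImplicit false

noncomputable section

open scoped BigOperators ComplexConjugate
open Complex

namespace Crest.Agent.R017

theorem mem_pf {t p : O} (ht : t ≠ 0) : p ∈ pf t ↔ PP p ∧ p ∣ t := by
  classical
  unfold pf
  rw [Finset.mem_filter, mem_box]
  exact ⟨fun h => h.2, fun h => ⟨⟨h.1.1.ne_zero, Nr_le_of_dvd ht h.2⟩, h⟩⟩
theorem mem_pdiv {t d : O} (ht : t ≠ 0) : d ∈ pdiv t ↔ Prim d ∧ d ∣ t := by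
  classical
  unfold pdiv
  rw [Finset.mem_filter, mem_box]
  exact ⟨fun h => h.2, fun h => ⟨⟨h.1.ne_zero, Nr_le_of_dvd ht h.2⟩, h⟩⟩
theorem PP.eq_of_associated {p q : O} (hp : PP p) (hq : PP q) (h : Associated p q) : p = q := by
  rcases hp.2 with h1 | h1 <;> rcases hq.2 with h2 | h2
  · exact h1.eq_of_associated h2 h
  · exact absurd (h2 ▸ h.symm.dvd) h1.not_lam_dvd
  · exact absurd (h1 ▸ h.dvd) h2.not_lam_dvd
  · rw [h1, h2]
theorem exists_PP {p : O} (hp : Prime p) : ∃ p', PP p' ∧ Associated p p' := by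
  by_cases h : lam ∣ p
  · exact ⟨lam, ⟨prime_lam, Or.inr rfl⟩, (prime_lam.associated_of_dvd hp h).symm⟩
  · obtain ⟨u, hu, hup⟩ := exists_prim h
    have ha : Associated p (u * p) := (associated_mul_unit_right p u hu).trans
      (by rw [mul_comm])
    exact ⟨u * p, ⟨ha.prime hp, Or.inl hup⟩, ha⟩
theorem a1_of_mem_pf {t p : O} (h : p ∈ pf t) : PP p ∧ p ∣ t := by
  classical
  unfold pf at h
  exact (Finset.mem_filter.1 h).2
theorem a1_coprime {p q : O} (hp : PP p) (hq : PP q) (h : p ≠ q) : IsCoprime p q :=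
  hp.1.coprime_iff_not_dvd.2 fun hd => h (hp.eq_of_associated hq (hp.1.associated_of_dvd hq.1 hd))
theorem a1_rad_dvd_of {t z : O} (h : ∀ p, Prime p → p ∣ t → p ∣ z) : rad t ∣ z :=
  Finset.prod_dvd_of_coprime (s := fun p : O => p)
    (fun _ hp _ hq hne => a1_coprime (a1_of_mem_pf hp).1 (a1_of_mem_pf hq).1 hne)
    (fun p hp => h p (a1_of_mem_pf hp).1.1 (a1_of_mem_pf hp).2)
theorem a1_dvd_pow {t z : O} (ht : t ≠ 0) (h : ∀ p, Prime p → p ∣ t → p ∣ z) :
    ∃ k : ℕ, t ∣ z ^ k := by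
  induction t using UniqueFactorizationMonoid.induction_on_prime with
  | h₁ => exact absurd rfl ht
  | h₂ x hx => exact ⟨0, hx.dvd⟩
  | h₃ a p ha hp ih =>
    obtain ⟨k, hk⟩ := ih ha fun q hq hqa => h q hq (hqa.mul_left p)
    exact ⟨k + 1, by rw [pow_succ']; exact mul_dvd_mul (h p hp (dvd_mul_right p a)) hk⟩
theorem rad_ne_zero (t : O) : rad t ≠ 0 :=
  Finset.prod_ne_zero_iff.2 fun _ hp => (a1_of_mem_pf hp).1.1.ne_zero
theorem rad_dvd {t : O} (ht : t ≠ 0) : rad t ∣ t := by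
  have _ := ht
  exact a1_rad_dvd_of fun _ _ h => h
theorem squarefree_rad (t : O) : Squarefree (rad t) :=
  Finset.squarefree_prod_of_pairwise_isCoprime (f := fun p : O => p)
    (fun _ hp _ hq hne => (a1_coprime (a1_of_mem_pf hp).1 (a1_of_mem_pf hq).1 hne).isRelPrime)
    (fun _ hp => (a1_of_mem_pf hp).1.1.squarefree)
theorem prime_dvd_rad {t p : O} (ht : t ≠ 0) (hp : Prime p) : p ∣ rad t ↔ p ∣ t := by
  refine ⟨fun h => h.trans (rad_dvd ht), fun h => ?_⟩
  obtain ⟨q, hq, hpq⟩ := exists_PP hp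
  exact hpq.dvd.trans (Finset.dvd_prod_of_mem (fun p : O => p)
    ((mem_pf ht).2 ⟨hq, hpq.symm.dvd.trans h⟩))
theorem rad_mul_dvd {s t : O} (hs : s ≠ 0) (ht : t ≠ 0) : rad (s * t) ∣ rad s * rad t :=
  a1_rad_dvd_of fun _ hp h => (hp.dvd_or_dvd h).elim
    (fun h1 => ((prime_dvd_rad hs hp).2 h1).mul_right _)
    (fun h1 => ((prime_dvd_rad ht hp).2 h1).mul_left _)
theorem rad_dvd_rad {s t : O} (ht : t ≠ 0) (h : s ∣ t) : rad s ∣ rad t :=
  a1_rad_dvd_of fun _ hp h1 => (prime_dvd_rad ht hp).2 (h1.trans h)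
theorem rad_pow {t : O} {k : ℕ} (hk : k ≠ 0) : rad (t ^ k) = rad t := by
  by_cases ht : t = 0
  · rw [ht, zero_pow hk]
  · have : pf (t ^ k) = pf t := by
      ext p
      rw [mem_pf ht, mem_pf (pow_ne_zero k ht)]
      exact ⟨fun h => ⟨h.1, h.1.1.dvd_of_dvd_pow h.2⟩, fun h => ⟨h.1, h.2.pow hk⟩⟩
    unfold rad
    rw [this]
theorem rad_mul_of_coprime {s t : O} (hs : s ≠ 0) (ht : t ≠ 0) (h : IsCoprime s t) :
    rad (s * t) = rad s * rad t := by
  have h1 : pf (s * t) = pf s ∪ pf t := by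
    ext p
    rw [Finset.mem_union, mem_pf hs, mem_pf ht, mem_pf (mul_ne_zero hs ht)]
    exact ⟨fun h => (h.1.1.dvd_or_dvd h.2).imp (fun h' => ⟨h.1, h'⟩) (fun h' => ⟨h.1, h'⟩),
      fun h => h.elim (fun h' => ⟨h'.1, h'.2.mul_right _⟩) (fun h' => ⟨h'.1, h'.2.mul_left _⟩)⟩
  have h2 : Disjoint (pf s) (pf t) := Finset.disjoint_left.2 fun p hp hq =>
    (a1_of_mem_pf hp).1.1.not_unit (h.isUnit_of_dvd' (a1_of_mem_pf hp).2 (a1_of_mem_pf hq).2)
  unfold rad
  rw [h1, Finset.prod_union h2]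
theorem a1_prim_of_mem_pf {t p : O} (ht : Prim t) (h : p ∈ pf t) : Prim p :=
  (a1_of_mem_pf h).1.2.elim id fun h1 => absurd (h1 ▸ (a1_of_mem_pf h).2) ht.not_lam_dvd
theorem Prim.rad {t : O} (ht : Prim t) : Prim (rad t) :=
  Finset.prod_induction (fun p : O => p) Prim (fun _ _ => Prim.mul) prim_one
    fun _ hp => a1_prim_of_mem_pf ht hp
theorem rad_eq_self {t : O} (ht : Prim t) (hs : Squarefree t) : rad t = t := by
  obtain ⟨k, hk⟩ := a1_dvd_pow (z := rad t) ht.ne_zero fun p hp h => (prime_dvd_rad ht.ne_zero hp).2 h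
  exact ht.rad.eq_of_associated ht
    (associated_of_dvd_dvd (rad_dvd ht.ne_zero) (hs.isRadical k _ hk))
theorem coprime_rad_iff {t x : O} (ht : t ≠ 0) : IsCoprime x (rad t) ↔ IsCoprime x t := by
  obtain ⟨k, hk⟩ := a1_dvd_pow (z := rad t) ht fun p hp h => (prime_dvd_rad ht hp).2 h
  exact ⟨fun h => h.pow_right.of_isCoprime_of_dvd_right hk,
    fun h => h.of_isCoprime_of_dvd_right (rad_dvd ht)⟩
theorem dvd_rad_pow {t : O} (ht : t ≠ 0) : ∃ k : ℕ, t ∣ rad t ^ k :=
  a1_dvd_pow ht fun _ hp h => (prime_dvd_rad ht hp).2 h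
theorem Prim.eq_prod_pf {t : O} (ht : Prim t) : t = ∏ p ∈ pf t, p ^ multiplicity p t := by
  refine Prim.induction (P := fun t => t = ∏ p ∈ pf t, p ^ multiplicity p t) ?_ ?_ ht
  · symm
    exact Finset.prod_eq_one fun p hp =>
      absurd (isUnit_of_dvd_one (a1_of_mem_pf hp).2) (a1_of_mem_pf hp).1.1.not_unit
  · intro p n hp hpp hn ih
    have hpn : p * n ≠ 0 := mul_ne_zero hp.ne_zero hn.ne_zero
    have hPP : PP p := ⟨hp, Or.inl hpp⟩
    have hmem : p ∈ pf (p * n) := (mem_pf hpn).2 ⟨hPP, dvd_mul_right p n⟩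
    have h1 : ∏ q ∈ pf (p * n), q ^ multiplicity q (p * n) =
        (∏ q ∈ pf (p * n), q ^ multiplicity q p) * ∏ q ∈ pf (p * n), q ^ multiplicity q n := by
      rw [← Finset.prod_mul_distrib]
      refine Finset.prod_congr rfl fun q hq => ?_
      have hq' := (a1_of_mem_pf hq).1.1
      rw [multiplicity_mul hq' (FiniteMultiplicity.of_prime_left hq' hpn), pow_add]
    have h2 : ∏ q ∈ pf (p * n), q ^ multiplicity q p = p := by
      rw [Finset.prod_eq_single_of_mem p hmem, multiplicity_self, pow_one]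
      intro q hq hne
      have hq' := (a1_of_mem_pf hq).1
      rw [multiplicity_eq_zero.2 fun hd =>
        hne (hq'.eq_of_associated hPP (hq'.1.associated_of_dvd hp hd)), pow_zero]
    have h3 : ∏ q ∈ pf (p * n), q ^ multiplicity q n = ∏ q ∈ pf n, q ^ multiplicity q n := by
      symm
      refine Finset.prod_subset (fun q hq => (mem_pf hpn).2
        ⟨(a1_of_mem_pf hq).1, (a1_of_mem_pf hq).2.mul_left p⟩) fun q hq hqn => ?_
      rw [multiplicity_eq_zero.2 fun hd => hqn ((mem_pf hn.ne_zero).2 ⟨(a1_of_mem_pf hq).1, hd⟩),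
        pow_zero]
    rw [h1, h2, h3, ← ih]
theorem four_le_Nr_prime {p : O} (hp : Prime p) (h : ¬ lam ∣ p) : 4 ≤ Nr p := by
  obtain ⟨u, hu, hup⟩ := exists_prim h
  have h1 : Nr (u * p) = Nr p := by rw [Nr_mul, isUnit_iff_Nr.1 hu, one_mul]
  have h2 := hup.nm_mod_three
  have h3 : Nr p ≠ 1 := fun h' => hp.not_unit (isUnit_iff_Nr.2 h')
  rw [← h1] at h3 ⊢
  unfold Nr at h3 ⊢
  have h4 : nm (u * p) ≠ 1 := fun h' => h3 (by rw [h']; simp)
  have h5 : 4 ≤ nm (u * p) := by omega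
  exact_mod_cast h5
theorem three_le_Nr_prime {p : O} (hp : Prime p) : 3 ≤ Nr p := by
  by_cases h : lam ∣ p
  · rw [← Nr_eq_of_associated (prime_lam.associated_of_dvd hp h), Nr_lam]
  · linarith [four_le_Nr_prime hp h]

/-! ### Möbius function -/
theorem mu_one : mu 1 = 1 := by
  unfold mu
  rw [if_pos squarefree_one, UniqueFactorizationMonoid.factors_one]
  simp
theorem mu_prime {p : O} (hp : Prime p) : mu p = -1 := by
  unfold mu
  rw [if_pos hp.squarefree, UniqueFactorizationMonoid.card_factors_of_irreducible hp.irreducible,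
    pow_one]
theorem mu_mul {x y : O} (h : IsCoprime x y) : mu (x * y) = mu x * mu y := by
  unfold mu
  by_cases hx : Squarefree x
  · by_cases hy : Squarefree y
    · rw [if_pos hx, if_pos hy, if_pos (squarefree_mul_iff.2 ⟨h.isRelPrime, hx, hy⟩),
        Multiset.card_eq_card_of_rel (UniqueFactorizationMonoid.factors_mul hx.ne_zero hy.ne_zero),
        Multiset.card_add, pow_add]
    · rw [if_neg hy, if_neg (fun h' => hy h'.of_mul_right), mul_zero]
  · rw [if_neg hx, if_neg (fun h' => hx h'.of_mul_left), zero_mul]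
theorem mu_eq_zero {x : O} : mu x = 0 ↔ ¬ Squarefree x := by
  unfold mu
  by_cases hx : Squarefree x
  · rw [if_pos hx]
    simp [hx]
  · rw [if_neg hx]
    simp [hx]
theorem mu_sq {x : O} (h : Squarefree x) : mu x * mu x = 1 := by
  unfold mu
  rw [if_pos h, ← mul_pow]
  simp
theorem norm_mu_le (x : O) : ‖mu x‖ ≤ 1 := by
  unfold mu
  split_ifs <;> simp
theorem conj_mu (x : O) : conj (mu x) = mu x := by
  unfold mu
  split_ifs <;> simp
open Classical in
theorem sum_pdiv_mu {n : O} (hn : Prim n) : ∑ d ∈ pdiv n, mu d = if n = 1 then 1 else 0 := by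
  split_ifs with h1
  · subst h1
    have : pdiv 1 = {1} := by
      ext d
      rw [mem_pdiv one_ne_zero, Finset.mem_singleton]
      exact ⟨fun h => h.1.eq_one_of_isUnit (isUnit_of_dvd_one h.2),
        fun h => by rw [h]; exact ⟨prim_one, dvd_rfl⟩⟩
    rw [this, Finset.sum_singleton, mu_one]
  · obtain ⟨p0, hp0, hp0n⟩ := WfDvdMonoid.exists_irreducible_factor
      (fun hu => h1 (hn.eq_one_of_isUnit hu)) hn.ne_zero
    obtain ⟨p, hP, hpp0⟩ := exists_PP hp0.prime
    have hpn : p ∣ n := hpp0.symm.dvd.trans hp0n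
    have hp : Prime p := hP.1
    have hpp : Prim p := a1_prim_of_mem_pf hn ((mem_pf hn.ne_zero).2 ⟨hP, hpn⟩)
    rw [← Finset.sum_filter_add_sum_filter_not (pdiv n) (fun d => p ∣ d)]
    have key : ∑ e ∈ (pdiv n).filter (fun d => ¬ p ∣ d), mu (p * e) =
        ∑ d ∈ (pdiv n).filter (fun d => p ∣ d), mu d := by
      refine Finset.sum_bij_ne_zero (fun e _ _ => p * e) ?_ ?_ ?_ ?_
      · intro e he _
        rw [Finset.mem_filter, mem_pdiv hn.ne_zero] at he ⊢
        exact ⟨⟨hpp.mul he.1.1, (hp.coprime_iff_not_dvd.2 he.2).mul_dvd hpn he.1.2⟩,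
          dvd_mul_right p e⟩
      · intro a _ _ b _ _ hab
        exact mul_left_cancel₀ hp.ne_zero hab
      · intro d hd hd0
        rw [Finset.mem_filter, mem_pdiv hn.ne_zero] at hd
        obtain ⟨⟨hd1, hd2⟩, e, rfl⟩ := hd
        have hsq : Squarefree (p * e) := by
          by_contra hns
          exact hd0 (mu_eq_zero.2 hns)
        refine ⟨e, ?_, hd0, rfl⟩
        rw [Finset.mem_filter, mem_pdiv hn.ne_zero]
        exact ⟨⟨hpp.of_mul hd1, (dvd_mul_left e p).trans hd2⟩,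
          fun hpe => hp.not_unit (hsq p (mul_dvd_mul_left p hpe))⟩
      · intro _ _ _
        rfl
    rw [← key, ← Finset.sum_add_distrib]
    refine Finset.sum_eq_zero fun e he => ?_
    rw [mu_mul (hp.coprime_iff_not_dvd.2 (Finset.mem_filter.1 he).2), mu_prime hp]
    ring
open Classical in
/-- Möbius detection of coprimality (one of the two elements primary). -/
theorem sum_pdiv_mu_dvd {n : O} (hn : Prim n) (x : O) :
    ∑ d ∈ pdiv n, (if d ∣ x then mu d else 0) = if IsCoprime n x then 1 else 0 := by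
  have hg : ¬ lam ∣ EuclideanDomain.gcd n x := fun h =>
    hn.not_lam_dvd (h.trans (EuclideanDomain.gcd_dvd_left n x))
  obtain ⟨u, hu, hug⟩ := exists_prim hg
  have h1 : (pdiv n).filter (fun d => d ∣ x) = pdiv (u * EuclideanDomain.gcd n x) := by
    ext d
    rw [Finset.mem_filter, mem_pdiv hn.ne_zero, mem_pdiv hug.ne_zero, hu.dvd_mul_left]
    exact ⟨fun h => ⟨h.1.1, EuclideanDomain.dvd_gcd h.1.2 h.2⟩,
      fun h => ⟨⟨h.1, h.2.trans (EuclideanDomain.gcd_dvd_left n x)⟩,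
        h.2.trans (EuclideanDomain.gcd_dvd_right n x)⟩⟩
  rw [← Finset.sum_filter, h1, sum_pdiv_mu hug]
  refine if_congr ?_ rfl rfl
  rw [← EuclideanDomain.gcd_isUnit_iff]
  exact ⟨fun h => IsUnit.of_mul_eq_one_right u h, fun h => hug.eq_one_of_isUnit (hu.mul h)⟩
theorem a1_sq_mul {n : O} (hn : n ≠ 0) : ∃ a b : O, n = a * (b * b) ∧ Squarefree a := by
  induction n using UniqueFactorizationMonoid.induction_on_prime with
  | h₁ => exact absurd rfl hn
  | h₂ x hx => exact ⟨x, 1, by ring, hx.squarefree⟩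
  | h₃ m p hm hp ih =>
    obtain ⟨a, b, rfl, ha⟩ := ih hm
    by_cases hpa : p ∣ a
    · obtain ⟨c, rfl⟩ := hpa
      exact ⟨c, p * b, by ring, ha.of_mul_right⟩
    · exact ⟨p * a, b, by ring, squarefree_mul_iff.2
        ⟨(hp.coprime_iff_not_dvd.2 hpa).isRelPrime, hp.squarefree, ha⟩⟩
open Classical in
/-- Möbius detection of squarefreeness. -/
theorem sum_pdiv_mu_sq {n : O} (hn : Prim n) :
    ∑ d ∈ pdiv n, (if d ^ 2 ∣ n then mu d else 0) = if Squarefree n then 1 else 0 := by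
  obtain ⟨a, b, hab, ha⟩ := a1_sq_mul hn.ne_zero
  have h1 : ∑ d ∈ pdiv n, (if d ^ 2 ∣ n then mu d else 0) =
      ∑ d ∈ pdiv n, (if d ∣ b then mu d else 0) := by
    refine Finset.sum_congr rfl fun d _ => ?_
    by_cases hd : Squarefree d
    · refine if_congr ⟨fun h => ?_, fun h => ?_⟩ rfl rfl
      · rw [hab, sq] at h
        have h2 := ha.dvd_of_squarefree_of_mul_dvd_mul_right h
        exact hd.isRadical 2 b (by rwa [sq])
      · rw [hab, sq]
        exact (mul_dvd_mul h h).mul_left a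
    · rw [mu_eq_zero.2 hd]
      simp
  rw [h1, sum_pdiv_mu_dvd hn]
  refine if_congr ⟨fun h => ?_, fun h => ?_⟩ rfl rfl
  · have hb : IsUnit b := h.isUnit_of_dvd' (by rw [hab]; exact (dvd_mul_left b b).mul_left a) dvd_rfl
    rw [hab]
    exact ha.squarefree_of_dvd (by rw [(hb.mul hb).mul_right_dvd])
  · have hb : IsUnit b := h b (by rw [hab]; exact dvd_mul_left _ a)
    exact (isCoprime_zero_left.2 hb).of_isCoprime_of_dvd_left (dvd_zero n)

end Crest.Agent.R017

end
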