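import Crest.Agent.R017.Arith1

/-! # Row 17: multiplicative arithmetic in `O` -/

set_option autoImplicit false

noncomputable section

open scoped BigOperators ComplexConjugate
open Complex

namespace Crest.Agent.R017

/-! ### divisor bounds -/
theorem a2_prod_pf_le {t : O} (ht : t ≠ 0) : ∏ p ∈ pf t, Nr p ≤ Nr t := by
  rw [← Nr_prod]
  exact Nr_le_of_dvd ht (rad_dvd ht)

theorem a2_pow_card {ε A : ℝ} (hε : 0 < ε) (hA : 0 ≤ A) :
    ∃ C : ℝ, ∀ t : O, t ≠ 0 → A ^ (pf t).card ≤ C * Nr t ^ ε := by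
  set B := max A 1 with hB
  have hB1 : 1 ≤ B := le_max_right _ _
  set Y := B ^ ε⁻¹ with hY
  refine ⟨B ^ (box Y).card, fun t ht => ?_⟩
  have h1 : ∀ p ∈ pf t, A ≤ (if p ∈ box Y then B else 1) * Nr p ^ ε := by
    intro p hp
    have hp0 : p ≠ 0 := ((mem_pf ht).1 hp).1.1.ne_zero
    have h2 : 1 ≤ Nr p ^ ε := Real.one_le_rpow (one_le_Nr hp0) hε.le
    split_ifs with h
    · calc A ≤ B * 1 := by rw [mul_one]; exact le_max_left _ _
        _ ≤ _ := by gcongr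
    · rw [mem_box, not_and, not_le] at h
      have h3 : Y ^ ε ≤ Nr p ^ ε := Real.rpow_le_rpow (by positivity) (h hp0).le hε.le
      rw [hY, Real.rpow_inv_rpow (by linarith) hε.ne'] at h3
      rw [one_mul]
      exact (le_max_left _ _).trans h3
  calc A ^ (pf t).card = ∏ p ∈ pf t, A := by rw [Finset.prod_const]
    _ ≤ ∏ p ∈ pf t, (if p ∈ box Y then B else 1) * Nr p ^ ε :=
        Finset.prod_le_prod (fun _ _ => hA) h1
    _ = B ^ (pf t ∩ box Y).card * (∏ p ∈ pf t, Nr p) ^ ε := by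
        rw [Finset.prod_mul_distrib, Finset.prod_ite_mem, Finset.prod_const,
          Real.finsetProd_rpow _ _ fun p _ => Nr_nonneg p]
    _ ≤ _ := by
        gcongr
        · exact Real.rpow_nonneg (Finset.prod_nonneg fun p _ => Nr_nonneg p) _
        · exact Finset.inter_subset_right
        · exact Finset.prod_nonneg fun p _ => Nr_nonneg p
        · exact a2_prod_pf_le ht

open Classical in
theorem a2_smooth_box {σ : ℝ} (hσ : 0 < σ) (Y : ℝ) (P : Finset O) (hP : ∀ p ∈ P, 3 ≤ Nr p) :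
    ∑ x ∈ (box Y).filter (fun x => ∀ p, PP p → p ∣ x → p ∈ P), Nr x ^ (-σ) ≤
      25 * ((1 - (3 : ℝ) ^ (-σ))⁻¹) ^ P.card := by
  have h3 : (3 : ℝ) ^ (-σ) < 1 := Real.rpow_lt_one_of_one_lt_of_neg (by norm_num) (by linarith)
  have hnn : ∀ x : O, 0 ≤ Nr x ^ (-σ) := fun x => Real.rpow_nonneg (Nr_nonneg x) _
  induction P using Finset.induction_on with
  | empty =>
    have h1 : ∀ x ∈ (box Y).filter (fun x => ∀ p, PP p → p ∣ x → p ∈ (∅ : Finset O)),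
        x ≠ 0 ∧ Nr x = 1 := by
      intro x hx
      obtain ⟨hx1, hx2⟩ := Finset.mem_filter.1 hx
      have hx0 := (mem_box.1 hx1).1
      refine ⟨hx0, isUnit_iff_Nr.1 ?_⟩
      by_contra hu
      obtain ⟨q, hq, hqx⟩ := WfDvdMonoid.exists_irreducible_factor hu hx0
      obtain ⟨p, hp, hqp⟩ := exists_PP hq.prime
      exact Finset.notMem_empty _ (hx2 p hp (hqp.symm.dvd.trans hqx))
    calc _ = ∑ x ∈ (box Y).filter (fun x => ∀ p, PP p → p ∣ x → p ∈ (∅ : Finset O)), (1 : ℝ) :=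
          Finset.sum_congr rfl fun x hx => by rw [(h1 x hx).2, Real.one_rpow]
      _ ≤ ((box 1).card : ℝ) := by
          rw [Finset.sum_const, nsmul_eq_mul, mul_one, Nat.cast_le]
          exact Finset.card_le_card fun x hx => mem_box.2 ⟨(h1 x hx).1, (h1 x hx).2.le⟩
      _ ≤ _ := by simpa using card_box_le (Y := 1) zero_le_one
  | insert q P hq ih =>
    have ih' := ih fun p hp => hP p (Finset.mem_insert_of_mem hp)
    have hq3 := hP q (Finset.mem_insert_self _ _)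
    have hq0 : q ≠ 0 := by
      rintro rfl
      rw [Nr_zero] at hq3
      linarith
    set T := (box Y).filter (fun x => ∀ p, PP p → p ∣ x → p ∈ insert q P) with hT
    have h0 : ∑ x ∈ T.filter (fun x => ¬ q ∣ x), Nr x ^ (-σ) ≤
        25 * ((1 - (3 : ℝ) ^ (-σ))⁻¹) ^ P.card := by
      refine le_trans (Finset.sum_le_sum_of_subset_of_nonneg (fun x hx => ?_) fun x _ _ => hnn x) ih'
      obtain ⟨hx1, hx2⟩ := Finset.mem_filter.1 hx
      obtain ⟨hx3, hx4⟩ := Finset.mem_filter.1 hx1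
      refine Finset.mem_filter.2 ⟨hx3, fun p hp hpx => ?_⟩
      rcases Finset.mem_insert.1 (hx4 p hp hpx) with h | h
      · exact absurd (h ▸ hpx) hx2
      · exact h
    have h1 : ∑ x ∈ T.filter (fun x => q ∣ x), Nr x ^ (-σ) ≤
        (3 : ℝ) ^ (-σ) * ∑ x ∈ T, Nr x ^ (-σ) := by
      have hsub : T.filter (fun x => q ∣ x) ⊆ T.image (fun y => q * y) := by
        intro x hx
        obtain ⟨hx1, y, rfl⟩ := Finset.mem_filter.1 hx
        obtain ⟨hx3, hx4⟩ := Finset.mem_filter.1 hx1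
        obtain ⟨hx5, hx6⟩ := mem_box.1 hx3
        refine Finset.mem_image.2 ⟨y, Finset.mem_filter.2 ⟨mem_box.2 ⟨right_ne_zero_of_mul hx5,
          (Nr_le_of_dvd hx5 (dvd_mul_left y q)).trans hx6⟩, fun p hp hpy => ?_⟩, rfl⟩
        exact hx4 p hp (hpy.mul_left q)
      refine (Finset.sum_le_sum_of_subset_of_nonneg hsub fun x _ _ => hnn x).trans ?_
      rw [Finset.sum_image fun x _ y _ h => mul_left_cancel₀ hq0 h, Finset.mul_sum]
      refine Finset.sum_le_sum fun y _ => ?_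
      rw [Nr_mul, Real.mul_rpow (Nr_nonneg _) (Nr_nonneg _)]
      exact mul_le_mul_of_nonneg_right
        (Real.rpow_le_rpow_of_nonpos (by norm_num) hq3 (by linarith)) (hnn y)
    have h2 := Finset.sum_filter_add_sum_filter_not T (fun x => q ∣ x) (fun x => Nr x ^ (-σ))
    rw [Finset.card_insert_of_notMem hq, pow_succ, ← mul_assoc, ← div_eq_mul_inv,
      le_div_iff₀ (by linarith)]
    linarith

theorem a2_smooth_sum {ε σ : ℝ} (hε : 0 < ε) (hσ : 0 < σ) :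
    ∃ C : ℝ, ∀ t : O, t ≠ 0 → ∀ S : Finset O, (∀ x ∈ S, x ≠ 0 ∧ rad x ∣ t) →
      ∑ x ∈ S, Nr x ^ (-σ) ≤ C * Nr t ^ ε := by
  classical
  have h3 : (3 : ℝ) ^ (-σ) < 1 := Real.rpow_lt_one_of_one_lt_of_neg (by norm_num) (by linarith)
  obtain ⟨C, hC⟩ := a2_pow_card (A := (1 - (3 : ℝ) ^ (-σ))⁻¹) hε (inv_nonneg.2 (by linarith))
  refine ⟨25 * C, fun t ht S hS => ?_⟩
  have h1 := a2_smooth_box hσ (∑ x ∈ S, Nr x) (pf t)
    fun p hp => three_le_Nr_prime ((mem_pf ht).1 hp).1.1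
  refine le_trans (Finset.sum_le_sum_of_subset_of_nonneg (fun x hx => ?_)
    fun x _ _ => Real.rpow_nonneg (Nr_nonneg x) _) (h1.trans ?_)
  · obtain ⟨hx0, hxt⟩ := hS x hx
    refine Finset.mem_filter.2 ⟨mem_box.2 ⟨hx0,
      Finset.single_le_sum (f := Nr) (fun y _ => Nr_nonneg y) hx⟩, fun p hp hpx => ?_⟩
    exact (mem_pf ht).2 ⟨hp, ((prime_dvd_rad hx0 hp.1).2 hpx).trans hxt⟩
  · have := hC t ht
    linarith

theorem a2_smooth_card {ε : ℝ} (hε : 0 < ε) :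
    ∃ C : ℝ, ∀ t : O, t ≠ 0 → ∀ Y : ℝ, 1 ≤ Y → ∀ S : Finset O,
      (∀ x ∈ S, x ≠ 0 ∧ rad x ∣ t ∧ Nr x ≤ Y) → (S.card : ℝ) ≤ C * (Nr t * Y) ^ ε := by
  obtain ⟨C, hC⟩ := a2_smooth_sum hε hε
  refine ⟨C, fun t ht Y hY S hS => ?_⟩
  have h1 := hC t ht S fun x hx => ⟨(hS x hx).1, (hS x hx).2.1⟩
  have hY0 : 0 ≤ Y ^ ε := Real.rpow_nonneg (by linarith) _
  calc (S.card : ℝ) = ∑ x ∈ S, (1 : ℝ) := by simp
    _ ≤ ∑ x ∈ S, Nr x ^ (-ε) * Y ^ ε := by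
        refine Finset.sum_le_sum fun x hx => ?_
        obtain ⟨hx0, -, hx2⟩ := hS x hx
        have h2 := Nr_pos hx0
        rw [Real.rpow_neg h2.le, inv_mul_eq_div, one_le_div (Real.rpow_pos_of_pos h2 _)]
        exact Real.rpow_le_rpow h2.le hx2 hε.le
    _ ≤ C * Nr t ^ ε * Y ^ ε := by rw [← Finset.sum_mul]; gcongr
    _ = _ := by rw [Real.mul_rpow (Nr_nonneg _) (by linarith), mul_assoc]

theorem a2_card_div {ε : ℝ} (hε : 0 < ε) :
    ∃ C : ℝ, ∀ t : O, t ≠ 0 → ∀ S : Finset O, (∀ d ∈ S, d ∣ t) → (S.card : ℝ) ≤ C * Nr t ^ ε := by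
  obtain ⟨C, hC⟩ := a2_smooth_card (half_pos hε)
  refine ⟨C, fun t ht S hS => ?_⟩
  have h1 := hC t ht (Nr t) (one_le_Nr ht) S fun d hd => by
    have hd0 : d ≠ 0 := ne_zero_of_dvd_ne_zero ht (hS d hd)
    exact ⟨hd0, (rad_dvd hd0).trans (hS d hd), Nr_le_of_dvd ht (hS d hd)⟩
  rwa [Real.mul_rpow (Nr_nonneg _) (Nr_nonneg _), ← Real.rpow_add (Nr_pos ht), add_halves] at h1

theorem card_pdiv_le {ε : ℝ} (hε : 0 < ε) :
    ∃ C : ℝ, ∀ t : O, t ≠ 0 → ((pdiv t).card : ℝ) ≤ C * Nr t ^ ε := by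
  obtain ⟨C, hC⟩ := a2_card_div hε
  exact ⟨C, fun t ht => hC t ht _ fun d hd => ((mem_pdiv ht).1 hd).2⟩
open Classical in
theorem card_div_le {ε : ℝ} (hε : 0 < ε) :
    ∃ C : ℝ, ∀ t : O, t ≠ 0 → (((box (Nr t)).filter (fun d => d ∣ t)).card : ℝ) ≤ C * Nr t ^ ε := by
  obtain ⟨C, hC⟩ := a2_card_div hε
  exact ⟨C, fun t ht => hC t ht _ fun d hd => (Finset.mem_filter.1 hd).2⟩
theorem pow_card_pf_le {ε A : ℝ} (hε : 0 < ε) (hA : 0 ≤ A) :
    ∃ C : ℝ, ∀ t : O, t ≠ 0 → A ^ (pf t).card ≤ C * Nr t ^ ε := a2_pow_card hε hA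
theorem card_pf_le {t : O} (ht : t ≠ 0) : ((pf t).card : ℝ) ≤ Real.log (Nr t) := by
  rw [Real.le_log_iff_exp_le (Nr_pos ht)]
  refine le_trans ?_ (a2_prod_pf_le ht)
  calc Real.exp ((pf t).card : ℝ) = ∏ p ∈ pf t, Real.exp 1 := by
        rw [Finset.prod_const, ← Real.exp_nat_mul, mul_one]
    _ ≤ _ := Finset.prod_le_prod (fun _ _ => (Real.exp_pos _).le) fun p hp =>
        le_trans (by linarith [Real.exp_one_lt_d9]) (three_le_Nr_prime ((mem_pf ht).1 hp).1.1)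
/-- Sum over the elements composed of primes dividing `t` (Rankin). -/
theorem smooth_sum_le {ε σ : ℝ} (hε : 0 < ε) (hσ : 0 < σ) :
    ∃ C : ℝ, ∀ t : O, t ≠ 0 → ∀ S : Finset O, (∀ x ∈ S, x ≠ 0 ∧ rad x ∣ t) →
      ∑ x ∈ S, Nr x ^ (-σ) ≤ C * Nr t ^ ε := a2_smooth_sum hε hσ
theorem smooth_card_le {ε : ℝ} (hε : 0 < ε) :
    ∃ C : ℝ, ∀ t : O, t ≠ 0 → ∀ Y : ℝ, 1 ≤ Y → ∀ S : Finset O,
      (∀ x ∈ S, x ≠ 0 ∧ rad x ∣ t ∧ Nr x ≤ Y) → (S.card : ℝ) ≤ C * (Nr t * Y) ^ ε := a2_smooth_card hε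

end Crest.Agent.R017

end
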