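import Crest.Agent.R017.Arith2

/-! # Row 17: multiplicative arithmetic in `O` -/

set_option autoImplicit false

noncomputable section

open scoped BigOperators ComplexConjugate
open Complex

namespace Crest.Agent.R017

/-- Powerful elements: every prime divisor occurs at least twice. -/
def Pow2 (s : O) : Prop := ∀ p : O, Prime p → p ∣ s → p ^ 2 ∣ s

theorem a3_mul {p x y : O} (hp : Prime p) (hx : x ≠ 0) (hy : y ≠ 0) :
    multiplicity p (x * y) = multiplicity p x + multiplicity p y :=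
  multiplicity_mul hp (.of_prime_left hp (mul_ne_zero hx hy))

theorem a3_pow {p x : O} (hp : Prime p) (hx : x ≠ 0) (k : ℕ) :
    multiplicity p (x ^ k) = k * multiplicity p x :=
  (FiniteMultiplicity.of_prime_left hp hx).multiplicity_pow hp

theorem a3_pow_dvd {p x : O} (hp : Prime p) (hx : x ≠ 0) (k : ℕ) :
    p ^ k ∣ x ↔ k ≤ multiplicity p x :=
  (FiniteMultiplicity.of_prime_left hp hx).pow_dvd_iff_le_multiplicity

theorem a3_dvd_iff {x y : O} (hx : x ≠ 0) (hy : y ≠ 0) :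
    x ∣ y ↔ ∀ p : O, Prime p → multiplicity p x ≤ multiplicity p y := by
  rw [UniqueFactorizationMonoid.dvd_iff_emultiplicity_le hx]
  refine forall_congr' fun p => forall_congr' fun hp => ?_
  rw [(FiniteMultiplicity.of_prime_left hp hx).emultiplicity_eq_multiplicity,
    (FiniteMultiplicity.of_prime_left hp hy).emultiplicity_eq_multiplicity, Nat.cast_le]

theorem a3_assoc {x y : O} (hx : x ≠ 0) (hy : y ≠ 0)
    (h : ∀ p : O, Prime p → multiplicity p x = multiplicity p y) : Associated x y :=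
  associated_of_dvd_dvd ((a3_dvd_iff hx hy).mpr fun p hp => (h p hp).le)
    ((a3_dvd_iff hy hx).mpr fun p hp => (h p hp).ge)

theorem a3_ext {x y : O} (hx : Prim x) (hy : Prim y)
    (h : ∀ p : O, Prime p → multiplicity p x = multiplicity p y) : x = y :=
  hx.eq_of_associated hy (a3_assoc hx.ne_zero hy.ne_zero h)

theorem a3_sqf {x : O} (hx : x ≠ 0) : Squarefree x ↔ ∀ p : O, Prime p → multiplicity p x ≤ 1 := by
  rw [squarefree_iff_no_irreducibles hx]
  refine forall_congr' fun p => ?_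
  rw [irreducible_iff_prime]
  refine forall_congr' fun hp => ?_
  rw [← sq, a3_pow_dvd hp hx]
  omega

theorem a3_pow2 {x : O} (hx : x ≠ 0) :
    Pow2 x ↔ ∀ p : O, Prime p → multiplicity p x = 0 ∨ 2 ≤ multiplicity p x := by
  refine forall_congr' fun p => forall_congr' fun hp => ?_
  rw [multiplicity_eq_zero, a3_pow_dvd hp hx, imp_iff_not_or]

theorem a3_coprime {x y : O} (hx : x ≠ 0) :
    IsCoprime x y ↔ ∀ p : O, Prime p → multiplicity p x = 0 ∨ multiplicity p y = 0 := by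
  rw [← isRelPrime_iff_isCoprime, UniqueFactorizationMonoid.isRelPrime_iff_no_prime_factors hx]
  refine forall_congr' fun p => ?_
  rw [multiplicity_eq_zero, multiplicity_eq_zero]
  tauto

theorem a3_rad {x p : O} (hx : x ≠ 0) (hp : Prime p) :
    multiplicity p (rad x) = 0 ↔ multiplicity p x = 0 := by
  rw [multiplicity_eq_zero, multiplicity_eq_zero, prime_dvd_rad hx hp]

theorem a3_rad_dvd {x t : O} (hx : x ≠ 0) (ht : t ≠ 0) :
    rad x ∣ t ↔ ∀ p : O, Prime p → multiplicity p t = 0 → multiplicity p x = 0 := by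
  rw [a3_dvd_iff (rad_ne_zero x) ht]
  refine forall_congr' fun p => forall_congr' fun hp => ?_
  have h1 := (a3_sqf (rad_ne_zero x)).mp (squarefree_rad x) p hp
  have h2 := a3_rad hx hp
  omega

theorem a3_prod {p : O} (hp : Prime p) (s : Finset O) (f : O → O) (hf : ∀ x ∈ s, f x ≠ 0) :
    multiplicity p (∏ x ∈ s, f x) = ∑ x ∈ s, multiplicity p (f x) := by
  induction s using Finset.induction with
  | empty =>
    rw [Finset.prod_empty, Finset.sum_empty, multiplicity_eq_zero]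
    exact hp.not_dvd_one
  | insert a s has ih =>
    rw [Finset.prod_insert has, Finset.sum_insert has, a3_mul hp (hf a (Finset.mem_insert_self _ _))
      (Finset.prod_ne_zero_iff.mpr fun x hx => hf x (Finset.mem_insert_of_mem hx)),
      ih fun x hx => hf x (Finset.mem_insert_of_mem hx)]

/-- An element with prescribed multiplicities. -/
theorem a3_build {n : O} (hn : n ≠ 0) (t : O) (g : ℕ → ℕ → ℕ) (hg : ∀ l, g 0 l = 0) :
    ∃ m : O, m ≠ 0 ∧ (Prim n → Prim m) ∧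
      ∀ q : O, Prime q → multiplicity q m = g (multiplicity q n) (multiplicity q t) := by
  have hne : ∀ p ∈ pf n, p ^ g (multiplicity p n) (multiplicity p t) ≠ 0 := fun p hp =>
    pow_ne_zero _ ((mem_pf hn).mp hp).1.1.ne_zero
  refine ⟨∏ p ∈ pf n, p ^ g (multiplicity p n) (multiplicity p t),
    Finset.prod_ne_zero_iff.mpr hne, fun h => ?_, fun q hq => ?_⟩
  · refine Finset.prod_induction _ Prim (fun _ _ => Prim.mul) prim_one fun p hp => Prim.pow ?_ _
    obtain ⟨⟨-, h1 | rfl⟩, h2⟩ := (mem_pf hn).mp hp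
    · exact h1
    · exact absurd h2 h.not_lam_dvd
  · obtain ⟨q', hq', hqq⟩ := exists_PP hq
    rw [a3_prod hq _ _ hne, ← multiplicity_eq_of_associated_left (c := n) hqq,
      ← multiplicity_eq_of_associated_left (c := t) hqq, Finset.sum_eq_single q']
    · rw [← multiplicity_eq_of_associated_left hqq, multiplicity_pow_self_of_prime hq'.1]
    · intro p hp hpq
      have hp' := ((mem_pf hn).mp hp).1
      rw [multiplicity_eq_zero]
      intro h
      exact hpq (hp'.eq_of_associated hq'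
        (((hq.associated_of_dvd hp'.1 (hq.dvd_of_dvd_pow h)).symm).trans hqq))
    · intro h
      have h1 : multiplicity q' n = 0 :=
        multiplicity_eq_zero.mpr fun h2 => h ((mem_pf hn).mpr ⟨hq', h2⟩)
      rw [h1, hg, pow_zero, multiplicity_eq_zero]
      exact hq.not_dvd_one

theorem a3_sq_cube {x : O} (hx : x ≠ 0) (h : Pow2 x) : ∃ a b : O, x = a ^ 2 * b ^ 3 := by
  obtain ⟨a, ha0, -, hav⟩ := a3_build hx 1 (fun k _ => (k - 3 * (k % 2)) / 2) (by simp)
  obtain ⟨b, hb0, -, hbv⟩ := a3_build hx 1 (fun k _ => k % 2) (by simp)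
  obtain ⟨u, hu⟩ : Associated (a ^ 2 * b ^ 3) x := by
    refine a3_assoc (mul_ne_zero (pow_ne_zero _ ha0) (pow_ne_zero _ hb0)) hx fun p hp => ?_
    have h1 := (a3_pow2 hx).mp h p hp
    rw [a3_mul hp (pow_ne_zero _ ha0) (pow_ne_zero _ hb0), a3_pow hp ha0, a3_pow hp hb0, hav p hp,
      hbv p hp]
    omega
  refine ⟨a * ↑u⁻¹, b * u, ?_⟩
  have h1 : (↑u⁻¹ : O) * u = 1 := u.inv_mul
  rw [← hu]
  linear_combination (-(a ^ 2 * b ^ 3 * u) * (↑u⁻¹ * u + 1)) * h1

theorem Pow2.rad_sq_dvd {s : O} (hs : s ≠ 0) (h : Pow2 s) : rad s ^ 2 ∣ s := by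
  refine (a3_dvd_iff (pow_ne_zero 2 (rad_ne_zero s)) hs).mpr fun p hp => ?_
  rw [a3_pow hp (rad_ne_zero s)]
  have h1 := (a3_sqf (rad_ne_zero s)).mp (squarefree_rad s) p hp
  have h2 := (a3_pow2 hs).mp h p hp
  have h3 := a3_rad hs hp
  omega
theorem pow2_sum_le {σ : ℝ} (hσ : 1 / 2 < σ) :
    ∃ C : ℝ, ∀ S : Finset O, (∀ x ∈ S, x ≠ 0 ∧ Pow2 x) → ∑ x ∈ S, Nr x ^ (-σ) ≤ C := by
  classical
  have hs : Summable fun y : O × O => Nr y.1 ^ (-(2 * σ)) * Nr y.2 ^ (-(3 * σ)) :=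
    (summable_Nr_rpow (σ := 2 * σ) (by linarith)).mul_of_nonneg
      (summable_Nr_rpow (σ := 3 * σ) (by linarith))
      (fun x => Real.rpow_nonneg (Nr_nonneg x) _) (fun x => Real.rpow_nonneg (Nr_nonneg x) _)
  refine ⟨∑' y : O × O, Nr y.1 ^ (-(2 * σ)) * Nr y.2 ^ (-(3 * σ)), fun S hS => ?_⟩
  have hex : ∀ x : O, ∃ y : O × O, x ≠ 0 ∧ Pow2 x → x = y.1 ^ 2 * y.2 ^ 3 := by
    intro x
    by_cases hx : x ≠ 0 ∧ Pow2 x
    · obtain ⟨a, b, h⟩ := a3_sq_cube hx.1 hx.2
      exact ⟨(a, b), fun _ => h⟩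
    · exact ⟨0, fun h => absurd h hx⟩
  choose φ hφ using hex
  have hinj : Set.InjOn φ S := fun x hx y hy h => by rw [hφ x (hS x hx), hφ y (hS y hy), h]
  calc ∑ x ∈ S, Nr x ^ (-σ)
      = ∑ x ∈ S, Nr (φ x).1 ^ (-(2 * σ)) * Nr (φ x).2 ^ (-(3 * σ)) := by
        refine Finset.sum_congr rfl fun x hx => ?_
        conv_lhs => rw [hφ x (hS x hx)]
        rw [Nr_mul, Nr_pow, Nr_pow, Real.mul_rpow (pow_nonneg (Nr_nonneg _) _)
          (pow_nonneg (Nr_nonneg _) _), ← Real.rpow_natCast, ← Real.rpow_natCast,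
          ← Real.rpow_mul (Nr_nonneg _), ← Real.rpow_mul (Nr_nonneg _)]
        norm_num
    _ = ∑ y ∈ S.image φ, Nr y.1 ^ (-(2 * σ)) * Nr y.2 ^ (-(3 * σ)) :=
        (Finset.sum_image (f := fun y : O × O => Nr y.1 ^ (-(2 * σ)) * Nr y.2 ^ (-(3 * σ)))
          hinj).symm
    _ ≤ _ := hs.sum_le_tsum _ fun y _ =>
        mul_nonneg (Real.rpow_nonneg (Nr_nonneg _) _) (Real.rpow_nonneg (Nr_nonneg _) _)
/-- Unique factorisation `n = n₀ s` into a squarefree part and a coprime powerful part. -/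
theorem exists_sqf_pow2 {n : O} (hn : Prim n) :
    ∃! p : O × O, Prim p.1 ∧ Prim p.2 ∧ Squarefree p.1 ∧ Pow2 p.2 ∧ IsCoprime p.1 p.2 ∧
      n = p.1 * p.2 := by
  obtain ⟨a, ha0, ha, hav⟩ := a3_build hn.ne_zero 1 (fun k _ => if k = 1 then 1 else 0) (by simp)
  obtain ⟨b, hb0, hb, hbv⟩ := a3_build hn.ne_zero 1 (fun k _ => if k = 1 then 0 else k) (by simp)
  refine ⟨(a, b), ⟨ha hn, hb hn, (a3_sqf ha0).mpr fun p hp => ?_, (a3_pow2 hb0).mpr fun p hp => ?_,
    (a3_coprime ha0).mpr fun p hp => ?_, a3_ext hn ((ha hn).mul (hb hn)) fun p hp => ?_⟩, ?_⟩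
  · rw [hav p hp]; split_ifs <;> omega
  · rw [hbv p hp]; split_ifs <;> omega
  · rw [hav p hp, hbv p hp]; split_ifs <;> omega
  · rw [a3_mul hp ha0 hb0, hav p hp, hbv p hp]; split_ifs <;> omega
  · rintro ⟨c, d⟩ ⟨hc, hd, h1, h2, h3, h4⟩
    have key : ∀ p : O, Prime p →
        multiplicity p c = multiplicity p a ∧ multiplicity p d = multiplicity p b := by
      intro p hp
      have k1 := (a3_sqf hc.ne_zero).mp h1 p hp
      have k2 := (a3_pow2 hd.ne_zero).mp h2 p hp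
      have k3 := (a3_coprime hc.ne_zero).mp h3 p hp
      have k4 := a3_mul hp hc.ne_zero hd.ne_zero
      rw [← h4] at k4
      rw [hav p hp, hbv p hp]
      dsimp only at *
      split_ifs <;> omega
    exact Prod.ext (a3_ext hc (ha hn) fun p hp => (key p hp).1)
      (a3_ext hd (hb hn) fun p hp => (key p hp).2)
/-- Unique factorisation of a primary `n` into its `t`-part and a part prime to `t`. -/
theorem exists_part {n t : O} (hn : Prim n) (ht : t ≠ 0) :
    ∃! p : O × O, Prim p.1 ∧ Prim p.2 ∧ rad p.1 ∣ t ∧ IsCoprime p.2 t ∧ n = p.1 * p.2 := by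
  obtain ⟨a, ha0, ha, hav⟩ := a3_build hn.ne_zero t (fun k l => if l = 0 then 0 else k) (by simp)
  obtain ⟨b, hb0, hb, hbv⟩ := a3_build hn.ne_zero t (fun k l => if l = 0 then k else 0) (by simp)
  refine ⟨(a, b), ⟨ha hn, hb hn, (a3_rad_dvd ha0 ht).mpr fun p hp => ?_,
    (a3_coprime hb0).mpr fun p hp => ?_, a3_ext hn ((ha hn).mul (hb hn)) fun p hp => ?_⟩, ?_⟩
  · rw [hav p hp]; split_ifs <;> omega
  · rw [hbv p hp]; split_ifs <;> omega
  · rw [a3_mul hp ha0 hb0, hav p hp, hbv p hp]; split_ifs <;> omega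
  · rintro ⟨c, d⟩ ⟨hc, hd, h1, h3, h4⟩
    have key : ∀ p : O, Prime p →
        multiplicity p c = multiplicity p a ∧ multiplicity p d = multiplicity p b := by
      intro p hp
      have k1 := (a3_rad_dvd hc.ne_zero ht).mp h1 p hp
      have k3 := (a3_coprime hd.ne_zero).mp h3 p hp
      have k4 := a3_mul hp hc.ne_zero hd.ne_zero
      rw [← h4] at k4
      rw [hav p hp, hbv p hp]
      dsimp only at *
      split_ifs <;> omega
    exact Prod.ext (a3_ext hc (ha hn) fun p hp => (key p hp).1)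
      (a3_ext hd (hb hn) fun p hp => (key p hp).2)
/-- `n = n₀ j²` with `n₀` squarefree. -/
theorem exists_sqf_sq {n : O} (hn : Prim n) :
    ∃! p : O × O, Prim p.1 ∧ Prim p.2 ∧ Squarefree p.1 ∧ n = p.1 * p.2 ^ 2 := by
  obtain ⟨a, ha0, ha, hav⟩ := a3_build hn.ne_zero 1 (fun k _ => k % 2) (by simp)
  obtain ⟨b, hb0, hb, hbv⟩ := a3_build hn.ne_zero 1 (fun k _ => k / 2) (by simp)
  refine ⟨(a, b), ⟨ha hn, hb hn, (a3_sqf ha0).mpr fun p hp => ?_,
    a3_ext hn ((ha hn).mul ((hb hn).pow 2)) fun p hp => ?_⟩, ?_⟩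
  · rw [hav p hp]; omega
  · rw [a3_mul hp ha0 (pow_ne_zero _ hb0), a3_pow hp hb0, hav p hp, hbv p hp]; omega
  · rintro ⟨c, d⟩ ⟨hc, hd, h1, h4⟩
    have key : ∀ p : O, Prime p →
        multiplicity p c = multiplicity p a ∧ multiplicity p d = multiplicity p b := by
      intro p hp
      have k1 := (a3_sqf hc.ne_zero).mp h1 p hp
      have k4 := a3_mul hp hc.ne_zero (pow_ne_zero 2 hd.ne_zero)
      rw [← h4, a3_pow hp hd.ne_zero] at k4
      rw [hav p hp, hbv p hp]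
      dsimp only at *
      omega
    exact Prod.ext (a3_ext hc (ha hn) fun p hp => (key p hp).1)
      (a3_ext hd (hb hn) fun p hp => (key p hp).2)
/-- Removing the largest sixth power. -/
theorem exists_six {r : O} (hr : Prim r) :
    ∃! p : O × O, Prim p.1 ∧ Prim p.2 ∧ (∀ q : O, Prime q → ¬ q ^ 6 ∣ p.2) ∧ r = p.1 ^ 6 * p.2 := by
  obtain ⟨a, ha0, ha, hav⟩ := a3_build hr.ne_zero 1 (fun k _ => k / 6) (by simp)
  obtain ⟨b, hb0, hb, hbv⟩ := a3_build hr.ne_zero 1 (fun k _ => k % 6) (by simp)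
  refine ⟨(a, b), ⟨ha hr, hb hr, fun p hp => ?_,
    a3_ext hr (((ha hr).pow 6).mul (hb hr)) fun p hp => ?_⟩, ?_⟩
  · rw [a3_pow_dvd hp hb0, hbv p hp]; omega
  · rw [a3_mul hp (pow_ne_zero _ ha0) hb0, a3_pow hp ha0, hav p hp, hbv p hp]; omega
  · rintro ⟨c, d⟩ ⟨hc, hd, h1, h4⟩
    have key : ∀ p : O, Prime p →
        multiplicity p c = multiplicity p a ∧ multiplicity p d = multiplicity p b := by
      intro p hp
      have k1 := h1 p hp
      rw [a3_pow_dvd hp hd.ne_zero] at k1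
      have k4 := a3_mul hp (pow_ne_zero 6 hc.ne_zero) hd.ne_zero
      rw [← h4, a3_pow hp hc.ne_zero] at k4
      rw [hav p hp, hbv p hp]
      dsimp only at *
      omega
    exact Prod.ext (a3_ext hc (ha hr) fun p hp => (key p hp).1)
      (a3_ext hd (hb hr) fun p hp => (key p hp).2)
theorem cube_unique {n₀ n₁ j₀ j₁ : O} (h₀ : Prim n₀) (h₁ : Prim n₁) (hj₀ : Prim j₀) (hj₁ : Prim j₁)
    (s₀ : Squarefree n₀) (s₁ : Squarefree n₁) (h : n₀ * j₀ ^ 3 = n₁ * j₁ ^ 3) :
    n₀ = n₁ ∧ j₀ = j₁ := by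
  have key : ∀ p : O, Prime p →
      multiplicity p n₀ = multiplicity p n₁ ∧ multiplicity p j₀ = multiplicity p j₁ := by
    intro p hp
    have k0 := (a3_sqf h₀.ne_zero).mp s₀ p hp
    have k1 := (a3_sqf h₁.ne_zero).mp s₁ p hp
    have k2 := a3_mul hp h₀.ne_zero (pow_ne_zero 3 hj₀.ne_zero)
    have k3 := a3_mul hp h₁.ne_zero (pow_ne_zero 3 hj₁.ne_zero)
    rw [h, a3_pow hp hj₀.ne_zero] at k2
    rw [a3_pow hp hj₁.ne_zero] at k3
    omega
  exact ⟨a3_ext h₀ h₁ fun p hp => (key p hp).1, a3_ext hj₀ hj₁ fun p hp => (key p hp).2⟩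

end Crest.Agent.R017

end
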