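import Crest.Agent.R017.Basic2

/-! # Row 17: arithmetic of `O` (norm, units, primary elements, boxes, residue systems) -/

set_option autoImplicit false

noncomputable section

open scoped BigOperators ComplexConjugate
open Complex

namespace Crest.Agent.R017

/-! ### residue systems -/

/-- the chosen representative of the class of `y` -/
def b3_r (n y : O) : O := (Quotient.out (Ideal.Quotient.mk (Ideal.span {n}) y) : O) % n

theorem b3_mk_eq {n x y : O} :
    Ideal.Quotient.mk (Ideal.span {n}) x = Ideal.Quotient.mk (Ideal.span {n}) y ↔ n ∣ x - y := by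
  rw [Ideal.Quotient.eq, Ideal.mem_span_singleton]

theorem b3_r_congr {n x y : O} (h : n ∣ x - y) : b3_r n x = b3_r n y := by
  rw [b3_r, b3_r, b3_mk_eq.2 h]

theorem b3_r_dvd (n y : O) : n ∣ b3_r n y - y := by
  have h1 : n ∣ (Quotient.out (Ideal.Quotient.mk (Ideal.span {n}) y) : O) - y :=
    b3_mk_eq.1 (Ideal.Quotient.mk_out _)
  rw [b3_r, EuclideanDomain.mod_eq_sub_mul_div, sub_right_comm]
  exact h1.sub (dvd_mul_right _ _)

theorem b3_mem_reps {n : O} (hn : n ≠ 0) {x : O} : x ∈ reps n ↔ x = b3_r n x := by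
  rw [reps, Finset.mem_filter]
  refine ⟨fun h => h.2, fun h => ⟨?_, h⟩⟩
  rw [Finset.mem_insert, mem_box]
  refine (eq_or_ne x 0).imp_right fun h0 => ⟨h0, ?_⟩
  have : nm (b3_r n x) < nm n := EuclideanDomain.mod_lt _ hn
  rw [← h] at this
  exact Nat.cast_le.2 this.le

theorem b3_r_mem {n : O} (hn : n ≠ 0) (y : O) : b3_r n y ∈ reps n :=
  (b3_mem_reps hn).2 (b3_r_congr (b3_r_dvd n y)).symm

theorem b3_eq_of_dvd {n : O} (hn : n ≠ 0) {x y : O} (hx : x ∈ reps n) (hy : y ∈ reps n)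
    (h : n ∣ x - y) : x = y := by
  rw [(b3_mem_reps hn).1 hx, (b3_mem_reps hn).1 hy]
  exact b3_r_congr h

theorem b3_sum_map {M ι : Type*} [AddCommMonoid M] {n : O} (hn : n ≠ 0) (f : O → M)
    (hf : ∀ x y, n ∣ x - y → f x = f y) (T : Finset ι) (g : ι → O)
    (h1 : ∀ y, ∃ t ∈ T, n ∣ g t - y) (h2 : ∀ s ∈ T, ∀ t ∈ T, n ∣ g s - g t → s = t) :
    ∑ x ∈ reps n, f x = ∑ t ∈ T, f (g t) := by
  refine (Finset.sum_bij (fun t _ => b3_r n (g t)) (fun t _ => b3_r_mem hn _)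
    (fun s hs t ht h => h2 s hs t ht ?_) (fun x hx => ?_)
    (fun t _ => (hf _ _ (b3_r_dvd n _)).symm)).symm
  · have := (b3_r_dvd n (g t)).sub (b3_r_dvd n (g s))
    rw [← h] at this
    simpa using this
  · obtain ⟨t, ht, h⟩ := h1 x
    exact ⟨t, ht, (b3_r_congr h).trans ((b3_mem_reps hn).1 hx).symm⟩

theorem card_reps {n : O} (hn : n ≠ 0) : (reps n).card = nm n := by
  have h1 : Nat.card (reps n) = Nat.card (O ⧸ Ideal.span {n}) := by
    refine Nat.card_eq_of_bijective (fun x => Ideal.Quotient.mk (Ideal.span {n}) (x : O))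
      ⟨fun x y h => Subtype.ext (b3_eq_of_dvd hn x.2 y.2 (b3_mk_eq.1 h)), fun c => ?_⟩
    obtain ⟨y, rfl⟩ := Ideal.Quotient.mk_surjective c
    exact ⟨⟨_, b3_r_mem hn y⟩, b3_mk_eq.2 (b3_r_dvd n y)⟩
  rw [← Nat.card_eq_finsetCard, h1, ← Submodule.cardQuot_apply, ← Ideal.absNorm_apply,
    Ideal.absNorm_span_singleton, Algebra.norm_apply, nm]
  congr 1
  have h2 := QuadraticAlgebra.det_toLinearMap_eq_norm n
  rw [QuadraticAlgebra.norm_def] at h2
  refine Eq.trans ?_ (h2.trans ?_)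
  · congr 1
  · unfold nz
    ring
theorem reps_existsUnique {n : O} (hn : n ≠ 0) (y : O) : ∃! x, x ∈ reps n ∧ n ∣ x - y := 
  ⟨b3_r n y, ⟨b3_r_mem hn y, b3_r_dvd n y⟩, fun _ hx =>
    ((b3_mem_reps hn).1 hx.1).trans (b3_r_congr hx.2)⟩
theorem b3_ec_eq_one {z : ℂ} : ec z = 1 ↔ ∃ k : ℤ, z.im = k * (Real.sqrt 3 / 2) := by
  have h3 : Real.sqrt 3 ≠ 0 := by positivity
  rw [ec, Complex.exp_eq_one_iff]
  refine exists_congr fun k => ?_
  rw [mul_comm, mul_left_inj' Complex.two_pi_I_ne_zero, ← Complex.ofReal_intCast,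
    Complex.ofReal_inj]
  constructor
  · intro h
    rw [← h]
    field_simp
  · intro h
    rw [h]
    field_simp

theorem b3_emb_re (x : O) : (emb x).re = x.re - x.im / 2 := by
  change ((x.re : ℂ) + (x.im : ℂ) * omC).re = _
  simp [omC]
  ring

theorem b3_emb_im (x : O) : (emb x).im = x.im * (Real.sqrt 3 / 2) := by
  change ((x.re : ℂ) + (x.im : ℂ) * omC).im = _
  simp [omC]

/-- A periodic function has the same sum over every complete residue system. -/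
theorem sum_reps_eq {M : Type*} [AddCommMonoid M] {n : O} (hn : n ≠ 0) (f : O → M)
    (hf : ∀ x y, n ∣ x - y → f x = f y) (S : Finset O) (hS : ∀ y, ∃! x, x ∈ S ∧ n ∣ x - y) :
    ∑ x ∈ reps n, f x = ∑ x ∈ S, f x := 
  b3_sum_map hn f hf S id (fun y => (hS y).exists)
    fun s hs t ht h => (hS t).unique ⟨hs, h⟩ ⟨ht, by simp⟩
theorem sum_reps_associated {M : Type*} [AddCommMonoid M] {n n' : O} (hn : n ≠ 0)
    (h : Associated n n') (f : O → M) (hf : ∀ x y, n ∣ x - y → f x = f y) :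
    ∑ x ∈ reps n, f x = ∑ x ∈ reps n', f x := by
  refine sum_reps_eq hn f hf _ fun y => ?_
  simp only [h.dvd_iff_dvd_left]
  exact reps_existsUnique (h.ne_zero_iff.1 hn) y
theorem sum_reps_affine {M : Type*} [AddCommMonoid M] {n : O} (hn : n ≠ 0) (f : O → M)
    (hf : ∀ x y, n ∣ x - y → f x = f y) {u : O} (hu : IsCoprime u n) (a : O) :
    ∑ x ∈ reps n, f (u * x + a) = ∑ x ∈ reps n, f x := by
  refine (b3_sum_map hn f hf _ (fun x => u * x + a) (fun y => ?_) fun s hs t ht h => ?_).symm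
  · obtain ⟨v, w, e⟩ := hu
    obtain ⟨c, hc⟩ := b3_r_dvd n (v * (y - a))
    refine ⟨_, b3_r_mem hn (v * (y - a)), u * c - w * (y - a), ?_⟩
    linear_combination u * hc + (y - a) * e
  · refine b3_eq_of_dvd hn hs ht (hu.symm.dvd_of_dvd_mul_left ?_)
    convert h using 1
    ring
theorem sum_reps_crt {M : Type*} [AddCommMonoid M] {n₁ n₂ : O} (h₁ : n₁ ≠ 0) (h₂ : n₂ ≠ 0)
    (hc : IsCoprime n₁ n₂) (f : O → M) (hf : ∀ x y, n₁ * n₂ ∣ x - y → f x = f y) :
    ∑ x ∈ reps (n₁ * n₂), f x = ∑ x ∈ reps n₁, ∑ y ∈ reps n₂, f (x * n₂ + y * n₁) := by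
  rw [← Finset.sum_product']
  refine b3_sum_map (mul_ne_zero h₁ h₂) f hf _ (fun p : O × O => p.1 * n₂ + p.2 * n₁)
    (fun y => ?_) fun s hs t ht h => ?_
  · obtain ⟨v, w, e⟩ := hc
    obtain ⟨c, hc⟩ := b3_r_dvd n₁ (w * y)
    obtain ⟨d, hd⟩ := b3_r_dvd n₂ (v * y)
    refine ⟨(_, _), Finset.mk_mem_product (b3_r_mem h₁ (w * y)) (b3_r_mem h₂ (v * y)), c + d, ?_⟩
    linear_combination n₂ * hc + n₁ * hd + y * e
  · rw [Finset.mem_product] at hs ht
    obtain ⟨c, e⟩ := h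
    refine Prod.ext (b3_eq_of_dvd h₁ hs.1 ht.1 (hc.dvd_of_dvd_mul_left ⟨n₂ * c - s.2 + t.2, ?_⟩))
      (b3_eq_of_dvd h₂ hs.2 ht.2 (hc.symm.dvd_of_dvd_mul_left ⟨n₁ * c - s.1 + t.1, ?_⟩))
    · linear_combination e
    · linear_combination e
theorem sum_reps_tower {M : Type*} [AddCommMonoid M] {n₁ n₂ : O} (h₁ : n₁ ≠ 0) (h₂ : n₂ ≠ 0)
    (f : O → M) (hf : ∀ x y, n₁ * n₂ ∣ x - y → f x = f y) :
    ∑ x ∈ reps (n₁ * n₂), f x = ∑ x ∈ reps n₁, ∑ y ∈ reps n₂, f (x + n₁ * y) := by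
  rw [← Finset.sum_product']
  refine b3_sum_map (mul_ne_zero h₁ h₂) f hf _ (fun p : O × O => p.1 + n₁ * p.2)
    (fun y => ?_) fun s hs t ht h => ?_
  · obtain ⟨c, hc⟩ := b3_r_dvd n₁ y
    obtain ⟨d, hd⟩ := b3_r_dvd n₂ (-c)
    refine ⟨(_, _), Finset.mk_mem_product (b3_r_mem h₁ y) (b3_r_mem h₂ (-c)), d, ?_⟩
    linear_combination hc + n₁ * hd
  · rw [Finset.mem_product] at hs ht
    obtain ⟨c, e⟩ := h
    have e1 : s.1 = t.1 := b3_eq_of_dvd h₁ hs.1 ht.1 ⟨n₂ * c - s.2 + t.2, by linear_combination e⟩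
    refine Prod.ext e1 (b3_eq_of_dvd h₂ hs.2 ht.2 ⟨c, mul_left_cancel₀ h₁ ?_⟩)
    linear_combination e - e1
theorem tsum_eq_sum_reps {n : O} (hn : n ≠ 0) (f : O → ℂ) (hf : Summable f) :
    ∑' x : O, f x = ∑ a ∈ reps n, ∑' y : O, f (a + n * y) := by
  have hb : Function.Bijective (fun p : reps n × O => (p.1 : O) + n * p.2) := by
    refine ⟨fun s t h => ?_, fun y => ?_⟩
    · have e1 : (s.1 : O) = t.1 :=
        b3_eq_of_dvd hn s.1.2 t.1.2 ⟨t.2 - s.2, by linear_combination h⟩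
      exact Prod.ext (Subtype.ext e1) (mul_left_cancel₀ hn (by linear_combination h - e1))
    · obtain ⟨c, hc⟩ := b3_r_dvd n y
      exact ⟨(⟨_, b3_r_mem hn y⟩, -c), by linear_combination hc⟩
  rw [← (Equiv.ofBijective _ hb).tsum_eq,
    ← Finset.tsum_subtype (reps n) fun a => ∑' y : O, f (a + n * y)]
  exact ((Equiv.ofBijective _ hb).summable_iff.2 hf).tsum_prod

/-! ### additive characters -/
theorem ec_add (z w : ℂ) : ec (z + w) = ec z * ec w := by
  rw [ec, ec, ec, ← Complex.exp_add, Complex.add_im]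
  congr 1
  push_cast
  ring
theorem ec_emb (x : O) : ec (emb x) = 1 := b3_ec_eq_one.2 ⟨x.im, b3_emb_im x⟩
theorem ec_neg (z : ℂ) : ec (-z) = conj (ec z) := by
  rw [ec, ec, ← Complex.exp_conj]
  congr 1
  simp only [map_mul, Complex.conj_ofReal, Complex.conj_I, map_ofNat, Complex.neg_im]
  push_cast
  ring
theorem norm_ec (z : ℂ) : ‖ec z‖ = 1 := by
  rw [ec, ← Complex.norm_exp_ofReal_mul_I (2 * Real.pi * (2 / Real.sqrt 3 * z.im))]
  congr 2
  push_cast
  ring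
theorem eO_add (x y n : O) : eO (x + y) n = eO x n * eO y n := by
  rw [eO, eO, eO, map_add, add_div, ec_add]
theorem eO_neg (x n : O) : eO (-x) n = conj (eO x n) := by
  rw [eO, eO, map_neg, neg_div, ec_neg]
theorem norm_eO (x n : O) : ‖eO x n‖ = 1 := norm_ec _
theorem eO_of_dvd {x n : O} (h : n ∣ x) : eO x n = 1 := by
  obtain ⟨c, rfl⟩ := h
  rcases eq_or_ne (emb n) 0 with h0 | h0
  · rw [eO, h0, div_zero, ← map_zero emb, ec_emb]
  · rw [eO, map_mul, mul_div_cancel_left₀ _ h0, ec_emb]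
theorem eO_congr {x y n : O} (h : n ∣ x - y) : eO x n = eO y n := by
  rw [← sub_add_cancel x y, eO_add, eO_of_dvd h, one_mul]
theorem eO_mul_cancel {c : O} (hc : c ≠ 0) (x n : O) : eO (c * x) (c * n) = eO x n := by
  rw [eO, eO, map_mul, map_mul, mul_div_mul_left _ _ ((map_ne_zero_iff _ emb_injective).2 hc)]
theorem b3_dvd_of_eO {n h : O} (hn : n ≠ 0) (h1 : eO h n = 1) (h2 : eO (h * om) n = 1) :
    n ∣ h := by
  have h0 : emb n ≠ 0 := (map_ne_zero_iff _ emb_injective).2 hn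
  have h3 : Real.sqrt 3 ≠ 0 := by positivity
  rw [eO, map_mul, emb_om, mul_div_right_comm] at h2
  obtain ⟨k, hk⟩ := b3_ec_eq_one.1 h1
  obtain ⟨l, hl⟩ := b3_ec_eq_one.1 h2
  have e : emb h / emb n = emb ⟨l + k, k⟩ := by
    refine Complex.ext ?_ (by rw [hk, b3_emb_im])
    rw [Complex.mul_im, hk] at hl
    simp only [omC] at hl
    rw [b3_emb_re]
    push_cast
    refine mul_right_cancel₀ h3 ?_
    linear_combination 2 * hl
  refine ⟨⟨l + k, k⟩, emb_injective ?_⟩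
  rw [map_mul, ← e, mul_div_cancel₀ _ h0]

open Classical in
theorem sum_reps_eO {n : O} (hn : n ≠ 0) (h : O) :
    ∑ x ∈ reps n, eO (h * x) n = if n ∣ h then (Nr n : ℂ) else 0 := by
  split_ifs with hd
  · rw [Finset.sum_congr rfl fun x _ => eO_of_dvd (hd.mul_right x), Finset.sum_const, card_reps hn]
    simp [Nr]
  · obtain ⟨y, hy⟩ : ∃ y, eO (h * y) n ≠ 1 := by
      by_contra hc
      push Not at hc
      exact hd (b3_dvd_of_eO hn (by simpa using hc 1) (hc om))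
    have e := sum_reps_affine hn (fun x => eO (h * x) n)
      (fun x z hxz => eO_congr (by rw [← mul_sub]; exact hxz.mul_left h)) isCoprime_one_left y
    simp only [one_mul, mul_add, eO_add, ← Finset.sum_mul] at e
    by_contra hS
    exact hy ((mul_eq_left₀ hS).1 e)
/-- Finite Fourier inversion modulo `n`. -/
theorem gs_inversion {n : O} (hn : n ≠ 0) (f : O → ℂ) (hf : ∀ x y, n ∣ x - y → f x = f y) (x : O) :
    f x = (Nr n : ℂ)⁻¹ * ∑ h ∈ reps n, gs f n h * eO (-(h * x)) n := by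
  classical
  have hN : (Nr n : ℂ) ≠ 0 := Complex.ofReal_ne_zero.2 (Nr_pos hn).ne'
  have e : ∀ y h : O, f y * eO (h * y) n * eO (-(h * x)) n = f y * eO ((y - x) * h) n := by
    intro y h
    rw [mul_assoc, ← eO_add]
    congr 2
    ring
  simp only [gs, Finset.sum_mul, e]
  rw [Finset.sum_comm]
  simp only [← Finset.mul_sum, sum_reps_eO hn]
  rw [Finset.sum_eq_single_of_mem _ (b3_r_mem hn x), if_pos (b3_r_dvd n x), hf _ _ (b3_r_dvd n x)]
  · field_simp
  · intro y hy hne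
    rw [if_neg fun hd => hne (((b3_mem_reps hn).1 hy).trans (b3_r_congr hd)), mul_zero]

end Crest.Agent.R017

end
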