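import Crest.Agent.R017.Defs

/-! # Row 17: arithmetic of `O` (norm, units, primary elements, boxes, residue systems) -/

set_option autoImplicit false

noncomputable section

open scoped BigOperators ComplexConjugate
open Complex

namespace Crest.Agent.R017

theorem b1_Nr_eq (x : O) : Nr x = (nz x : ℝ) := by
  rw [Nr, ← nm_cast]; simp

theorem b1_two_re : (2 : O).re = 2 := rfl
theorem b1_two_im : (2 : O).im = 0 := rfl
theorem b1_three_re : (3 : O).re = 3 := rfl
theorem b1_three_im : (3 : O).im = 0 := rfl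

theorem b1_norm_emb_sq (x : O) : ‖emb x‖ ^ 2 = Nr x := by
  have h : Real.sqrt 3 * Real.sqrt 3 = 3 := Real.mul_self_sqrt (by norm_num)
  rw [b1_Nr_eq, Complex.sq_norm, Complex.normSq_apply]
  simp [emb, omC, nz]
  linear_combination ((x.im : ℝ) ^ 2 / 4) * h

theorem b1_Nr_eq_zero {x : O} : Nr x = 0 ↔ x = 0 := by
  rw [Nr, Nat.cast_eq_zero, nm_eq_zero]

theorem emb_injective : Function.Injective emb := by
  rw [injective_iff_map_eq_zero]
  intro x hx
  have := b1_norm_emb_sq x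
  rw [hx] at this
  exact b1_Nr_eq_zero.mp (by simpa using this.symm)
theorem emb_star (x : O) : emb (star x) = conj (emb x) := by
  apply Complex.ext
  · simp [emb, omC, QuadraticAlgebra.re_star, QuadraticAlgebra.im_star]; ring
  · simp [emb, omC, QuadraticAlgebra.re_star, QuadraticAlgebra.im_star]
theorem emb_om : emb om = omC := by simp [emb, om]
theorem om_cube : om ^ 3 = 1 := by decide
theorem om_sq : om ^ 2 + om + 1 = 0 := by decide
theorem lam_sq : lam ^ 2 = -3 * om := by decide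
theorem norm_emb_sq (x : O) : ‖emb x‖ ^ 2 = Nr x := b1_norm_emb_sq x
theorem norm_emb (x : O) : ‖emb x‖ = Real.sqrt (Nr x) := by
  rw [← norm_emb_sq, Real.sqrt_sq (norm_nonneg _)]
theorem Nr_mul (x y : O) : Nr (x * y) = Nr x * Nr y := by simp [Nr, nm_mul]
theorem Nr_pow (x : O) (k : ℕ) : Nr (x ^ k) = Nr x ^ k := by
  rw [← norm_emb_sq, ← norm_emb_sq, map_pow, norm_pow]; ring
theorem Nr_prod {ι : Type*} (s : Finset ι) (f : ι → O) : Nr (∏ i ∈ s, f i) = ∏ i ∈ s, Nr (f i) := by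
  simp only [← norm_emb_sq, map_prod, norm_prod, Finset.prod_pow]
theorem Nr_one : Nr 1 = 1 := by rw [← norm_emb_sq]; simp
theorem Nr_zero : Nr 0 = 0 := by rw [← norm_emb_sq]; simp
theorem Nr_neg (x : O) : Nr (-x) = Nr x := by rw [← norm_emb_sq, ← norm_emb_sq]; simp
theorem Nr_star (x : O) : Nr (star x) = Nr x := by rw [b1_Nr_eq, b1_Nr_eq, nz_star]
theorem Nr_lam : Nr lam = 3 := by
  rw [b1_Nr_eq, show nz lam = 3 by decide]; simp
theorem Nr_natCast (k : ℕ) : Nr (k : O) = (k : ℝ) ^ 2 := by rw [← norm_emb_sq]; simp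
theorem Nr_nonneg (x : O) : 0 ≤ Nr x := Nat.cast_nonneg _
theorem Nr_eq_zero {x : O} : Nr x = 0 ↔ x = 0 := b1_Nr_eq_zero
theorem Nr_pos {x : O} (h : x ≠ 0) : 0 < Nr x :=
  lt_of_le_of_ne (Nr_nonneg x) fun e => h (Nr_eq_zero.mp e.symm)
theorem one_le_Nr {x : O} (h : x ≠ 0) : 1 ≤ Nr x := by
  have : nm x ≠ 0 := fun e => h (nm_eq_zero.mp e)
  unfold Nr
  exact_mod_cast Nat.one_le_iff_ne_zero.mpr this
theorem Nr_le_of_dvd {x y : O} (hy : y ≠ 0) (h : x ∣ y) : Nr x ≤ Nr y := by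
  obtain ⟨z, rfl⟩ := h
  rw [Nr_mul]
  exact le_mul_of_one_le_right (Nr_nonneg x) (one_le_Nr (right_ne_zero_of_mul hy))

theorem b1_isUnit_iff_nz {x : O} : IsUnit x ↔ nz x = 1 := by
  constructor
  · intro h
    obtain ⟨y, hy⟩ := h.exists_right_inv
    have h1 := nz_mul x y
    rw [hy, show nz 1 = 1 by decide] at h1
    exact Int.eq_one_of_mul_eq_one_right (nz_nonneg x) h1.symm
  · intro h
    refine IsUnit.of_mul_eq_one (star x) ?_
    rw [mul_star_self, h]; simp

theorem isUnit_iff_Nr {x : O} : IsUnit x ↔ Nr x = 1 := by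
  rw [b1_isUnit_iff_nz, b1_Nr_eq]; exact_mod_cast Iff.rfl
theorem isUnit_iff {x : O} :
    IsUnit x ↔ x = 1 ∨ x = -1 ∨ x = om ∨ x = -om ∨ x = om ^ 2 ∨ x = -om ^ 2 := by
  rw [b1_isUnit_iff_nz]
  constructor
  · obtain ⟨a, b⟩ := x
    intro h
    simp only [nz] at h
    have h1 : -1 ≤ a := by nlinarith [sq_nonneg (2 * b - a)]
    have h2 : a ≤ 1 := by nlinarith [sq_nonneg (2 * b - a)]
    have h3 : -1 ≤ b := by nlinarith [sq_nonneg (2 * a - b)]
    have h4 : b ≤ 1 := by nlinarith [sq_nonneg (2 * a - b)]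
    interval_cases a <;> interval_cases b <;> first | decide | (exfalso; omega)
  · rintro (rfl | rfl | rfl | rfl | rfl | rfl) <;> decide
theorem Nr_eq_of_associated {x y : O} (h : Associated x y) : Nr x = Nr y := by
  obtain ⟨u, rfl⟩ := h
  rw [Nr_mul, isUnit_iff_Nr.mp u.isUnit, mul_one]

theorem b1_nz_ne_two (x : O) : nz x ≠ 2 := by
  obtain ⟨a, b⟩ := x
  intro h
  simp only [nz] at h
  have h1 : -1 ≤ a := by nlinarith [sq_nonneg (2 * b - a)]
  have h2 : a ≤ 1 := by nlinarith [sq_nonneg (2 * b - a)]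
  have h3 : -1 ≤ b := by nlinarith [sq_nonneg (2 * a - b)]
  have h4 : b ≤ 1 := by nlinarith [sq_nonneg (2 * a - b)]
  interval_cases a <;> interval_cases b <;> omega

theorem b1_irred {x : O} (h : nz x = 3 ∨ nz x = 4) : Irreducible x := by
  refine ⟨fun hu => by rw [b1_isUnit_iff_nz] at hu; omega, fun a b hab => ?_⟩
  rw [b1_isUnit_iff_nz, b1_isUnit_iff_nz]
  have h1 := nz_mul a b
  rw [← hab] at h1
  have ha := nz_nonneg a
  have hb := nz_nonneg b
  have ha2 := b1_nz_ne_two a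
  by_contra hc
  push Not at hc
  have ha0 : nz a ≠ 0 := fun e => by rw [e] at h1; omega
  have hb0 : nz b ≠ 0 := fun e => by rw [e] at h1; omega
  have hb2 := b1_nz_ne_two b
  have h3 : 3 ≤ nz a := by omega
  have h4 : 3 ≤ nz b := by omega
  have : 9 ≤ nz a * nz b := by nlinarith
  omega

theorem prime_lam : Prime lam := (b1_irred (Or.inl (by decide))).prime
theorem prime_two : Prime (2 : O) := (b1_irred (Or.inr (by decide))).prime
theorem lam_dvd_three : lam ∣ (3 : O) := ⟨⟨2, 1⟩, by decide⟩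
theorem associated_lam_sq : Associated (lam ^ 2) (3 : O) :=
  ⟨(isUnit_iff.mpr (by simp) : IsUnit (-om ^ 2)).unit, by
    rw [IsUnit.unit_spec]; decide⟩
theorem coprime_three_iff {x : O} : IsCoprime x 3 ↔ ¬ lam ∣ x := by
  rw [← prime_lam.irreducible.coprime_iff_not_dvd, isCoprime_comm (x := lam)]
  constructor
  · exact fun h => h.of_isCoprime_of_dvd_right lam_dvd_three
  · exact fun h => (h.pow_right (n := 2)).of_isCoprime_of_dvd_right associated_lam_sq.symm.dvd
theorem coprime_six_iff {x : O} : IsCoprime x 6 ↔ ¬ lam ∣ x ∧ ¬ (2 : O) ∣ x := by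
  rw [show (6 : O) = 3 * 2 by norm_num, IsCoprime.mul_right_iff, coprime_three_iff,
    ← prime_two.irreducible.coprime_iff_not_dvd, isCoprime_comm (x := (2 : O))]

theorem b1_three_dvd {x : O} : (3 : O) ∣ x ↔ (3 : ℤ) ∣ x.re ∧ (3 : ℤ) ∣ x.im := by
  constructor
  · rintro ⟨y, rfl⟩
    simp [QuadraticAlgebra.re_mul, QuadraticAlgebra.im_mul, b1_three_re, b1_three_im]
  · rintro ⟨⟨c, hc⟩, ⟨d, hd⟩⟩
    refine ⟨⟨c, d⟩, ?_⟩
    ext <;> simp [QuadraticAlgebra.re_mul, QuadraticAlgebra.im_mul, b1_three_re, b1_three_im, hc, hd]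

theorem b1_two_dvd {x : O} : (2 : O) ∣ x ↔ (2 : ℤ) ∣ x.re ∧ (2 : ℤ) ∣ x.im := by
  constructor
  · rintro ⟨y, rfl⟩
    simp [QuadraticAlgebra.re_mul, QuadraticAlgebra.im_mul, b1_two_re, b1_two_im]
  · rintro ⟨⟨c, hc⟩, ⟨d, hd⟩⟩
    refine ⟨⟨c, d⟩, ?_⟩
    ext <;> simp [QuadraticAlgebra.re_mul, QuadraticAlgebra.im_mul, b1_two_re, b1_two_im, hc, hd]

theorem b1_lam_dvd {x : O} : lam ∣ x ↔ (3 : ℤ) ∣ x.re + x.im := by
  constructor
  · rintro ⟨y, rfl⟩
    simp only [QuadraticAlgebra.re_mul, QuadraticAlgebra.im_mul, lam]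
    omega
  · rintro ⟨c, hc⟩
    refine ⟨⟨x.re - c, c⟩, ?_⟩
    ext
    · simp [QuadraticAlgebra.re_mul, lam]
    · simp only [QuadraticAlgebra.im_mul, lam]; omega

theorem b1_prim_iff {x : O} : Prim x ↔ (3 : ℤ) ∣ x.re - 1 ∧ (3 : ℤ) ∣ x.im := by
  rw [Prim, b1_three_dvd]
  simp [QuadraticAlgebra.re_one, QuadraticAlgebra.im_one]

/-! ### primary elements -/
theorem prim_one : Prim 1 := by simp [Prim]
theorem Prim.mul {x y : O} (hx : Prim x) (hy : Prim y) : Prim (x * y) := by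
  unfold Prim at *
  rw [show x * y - 1 = x * (y - 1) + (x - 1) by ring]
  exact dvd_add (hy.mul_left x) hx
theorem Prim.pow {x : O} (hx : Prim x) (k : ℕ) : Prim (x ^ k) := by
  induction k with
  | zero => simpa using prim_one
  | succ k ih => rw [pow_succ]; exact ih.mul hx
theorem Prim.of_mul {x y : O} (hx : Prim x) (hxy : Prim (x * y)) : Prim y := by
  unfold Prim at *
  rw [show y - 1 = (x * y - 1) - (x - 1) * y by ring]
  exact dvd_sub hxy (hx.mul_right y)
theorem Prim.ne_zero {x : O} (hx : Prim x) : x ≠ 0 := by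
  rintro rfl
  rw [b1_prim_iff] at hx
  simp at hx
theorem Prim.not_lam_dvd {x : O} (hx : Prim x) : ¬ lam ∣ x := by
  rw [b1_prim_iff] at hx
  rw [b1_lam_dvd]
  omega
theorem Prim.star {x : O} (hx : Prim x) : Prim (star x) := by
  rw [b1_prim_iff] at hx ⊢
  simp only [QuadraticAlgebra.re_star, QuadraticAlgebra.im_star]
  omega
theorem b1_eq_one_of_isUnit {x : O} (hx : Prim x) (h : IsUnit x) : x = 1 := by
  rw [b1_prim_iff] at hx
  rcases isUnit_iff.mp h with rfl | rfl | rfl | rfl | rfl | rfl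
  · rfl
  all_goals exact absurd hx (by decide)
theorem Prim.eq_of_associated {x y : O} (hx : Prim x) (hy : Prim y) (h : Associated x y) :
    x = y := by
  obtain ⟨u, rfl⟩ := h
  rw [b1_eq_one_of_isUnit (hx.of_mul hy) u.isUnit, mul_one]
theorem Prim.eq_one_of_isUnit {x : O} (hx : Prim x) (h : IsUnit x) : x = 1 :=
  b1_eq_one_of_isUnit hx h
/-- Every element prime to `λ` has a primary associate. -/
theorem exists_prim {x : O} (hx : ¬ lam ∣ x) : ∃ u : O, IsUnit u ∧ Prim (u * x) := by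
  rw [b1_lam_dvd] at hx
  have key : ∀ c d : ℤ, c ^ 2 - c * d + d ^ 2 = 1 →
      ((3 : ℤ) ∣ c * x.re - d * x.im - 1 ∧ (3 : ℤ) ∣ c * x.im + d * x.re - d * x.im) →
      ∃ u : O, IsUnit u ∧ Prim (u * x) := by
    intro c d h1 h2
    refine ⟨⟨c, d⟩, b1_isUnit_iff_nz.mpr h1, ?_⟩
    rw [b1_prim_iff]
    simp only [QuadraticAlgebra.re_mul, QuadraticAlgebra.im_mul]
    constructor
    · convert h2.1 using 1; ring
    · convert h2.2 using 1; ring
  have h : (x.re % 3 = 1 ∧ x.im % 3 = 0) ∨ (x.re % 3 = 2 ∧ x.im % 3 = 0) ∨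
      (x.re % 3 = 0 ∧ x.im % 3 = 1) ∨ (x.re % 3 = 0 ∧ x.im % 3 = 2) ∨
      (x.re % 3 = 1 ∧ x.im % 3 = 1) ∨ (x.re % 3 = 2 ∧ x.im % 3 = 2) := by omega
  rcases h with h | h | h | h | h | h
  · exact key 1 0 (by norm_num) (by omega)
  · exact key (-1) 0 (by norm_num) (by omega)
  · exact key (-1) (-1) (by norm_num) (by omega)
  · exact key 1 1 (by norm_num) (by omega)
  · exact key 0 (-1) (by norm_num) (by omega)
  · exact key 0 1 (by norm_num) (by omega)
/-- Every non-zero element is `unit * λ^k * primary`. -/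
theorem exists_decomp {x : O} (hx : x ≠ 0) :
    ∃ (u : O) (k : ℕ) (n : O), IsUnit u ∧ Prim n ∧ x = u * lam ^ k * n := by
  obtain ⟨k, y, hy, rfl⟩ := WfDvdMonoid.max_power_factor hx prime_lam.irreducible
  obtain ⟨u, hu, hp⟩ := exists_prim hy
  obtain ⟨v, hv⟩ := hu.exists_left_inv
  refine ⟨v, k, u * y, IsUnit.of_mul_eq_one u hv, hp, ?_⟩
  linear_combination (-(lam ^ k * y)) * hv
theorem b1_nz_mod_three {x : O} (hx : ¬ lam ∣ x) : nz x % 3 = 1 := by
  rw [b1_lam_dvd] at hx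
  have h1 : nz x = (x.re + x.im) ^ 2 - 3 * (x.re * x.im) := by unfold nz; ring
  have h2 : (x.re + x.im) ^ 2 % 3 = 1 := by
    generalize x.re + x.im = s at hx
    have : s % 3 = 1 ∨ s % 3 = 2 := by omega
    rcases this with h | h <;> simp [pow_two, Int.mul_emod, h]
  omega
theorem Prim.nm_mod_three {x : O} (hx : Prim x) : nm x % 3 = 1 := by
  have h1 := b1_nz_mod_three hx.not_lam_dvd
  have h2 := nm_cast x
  omega
theorem nm_mod_six {x : O} (hx : IsCoprime x 6) : nm x % 6 = 1 := by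
  obtain ⟨h3, h2⟩ := coprime_six_iff.mp hx
  have h1 := b1_nz_mod_three h3
  have h4 := nm_cast x
  rw [b1_two_dvd] at h2
  have h5 : nz x % 2 = 1 := by
    have : (x.re % 2 = 1 ∧ x.im % 2 = 0) ∨ (x.re % 2 = 0 ∧ x.im % 2 = 1) ∨
        (x.re % 2 = 1 ∧ x.im % 2 = 1) := by omega
    unfold nz
    rcases this with h | h | h <;>
      simp [pow_two, Int.add_emod, Int.sub_emod, Int.mul_emod, h.1, h.2]
  omega

theorem b1_factor {n : O} (hn : Prim n) (h1 : n ≠ 1) :
    ∃ p m : O, Prime p ∧ Prim p ∧ Prim m ∧ n = p * m ∧ nm m < nm n := by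
  have hu : ¬IsUnit n := fun h => h1 (hn.eq_one_of_isUnit h)
  obtain ⟨q, hq, m, hm⟩ := WfDvdMonoid.exists_irreducible_factor hu hn.ne_zero
  have hl : ¬lam ∣ q := fun h => hn.not_lam_dvd (hm ▸ h.mul_right m)
  obtain ⟨u, hu, hp⟩ := exists_prim hl
  obtain ⟨v, hv⟩ := hu.exists_left_inv
  have hpr : Prime (u * q) := (associated_unit_mul_right q u hu).prime hq.prime
  have he : n = u * q * (v * m) := by rw [hm]; linear_combination (-(q * m)) * hv
  have hm' : Prim (v * m) := hp.of_mul (he ▸ hn)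
  refine ⟨u * q, v * m, hpr, hp, hm', he, ?_⟩
  have h2 : nm n = nm (u * q) * nm (v * m) := by rw [← nm_mul, ← he]
  have h3 : nm (v * m) ≠ 0 := fun e => hm'.ne_zero (nm_eq_zero.mp e)
  have h4 : nm (u * q) ≠ 0 := fun e => hp.ne_zero (nm_eq_zero.mp e)
  have h5 : nm (u * q) ≠ 1 := fun e => hpr.not_isUnit (b1_isUnit_iff_nz.mpr (by
    rw [← nm_cast, e]; rfl))
  rw [h2]
  exact lt_mul_of_one_lt_left (Nat.pos_of_ne_zero h3) (by omega)

/-- Induction over primary elements through primary primes. -/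
theorem Prim.induction {P : O → Prop} (h1 : P 1)
    (hp : ∀ p n : O, Prime p → Prim p → Prim n → P n → P (p * n)) {n : O} (hn : Prim n) : P n := by
  induction hk : nm n using Nat.strong_induction_on generalizing n with
  | _ k ih =>
    by_cases h : n = 1
    · rwa [h]
    · obtain ⟨p, m, h2, h3, h4, h5, h6⟩ := b1_factor hn h
      rw [h5]
      exact hp p m h2 h3 h4 (ih (nm m) (hk ▸ h6) h4 rfl)
/-- Induction over primary squarefree elements. -/
theorem Prim.sqf_induction {P : O → Prop} (h1 : P 1)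
    (hp : ∀ p n : O, Prime p → Prim p → Prim n → Squarefree n → ¬ p ∣ n → P n → P (p * n))
    {n : O} (hn : Prim n) (hs : Squarefree n) : P n := by
  refine Prim.induction (P := fun n => Squarefree n → P n) (fun _ => h1) ?_ hn hs
  intro p m h2 h3 h4 ih hs
  have h5 : Squarefree m := hs.of_mul_right
  refine hp p m h2 h3 h4 h5 (fun hd => h2.not_isUnit (hs p (mul_dvd_mul_left p hd))) (ih h5)

end Crest.Agent.R017

end
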