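import Crest.Agent.R017.Basic1

/-! # Row 17: arithmetic of `O` (norm, units, primary elements, boxes, residue systems) -/

set_option autoImplicit false

noncomputable section

open scoped BigOperators ComplexConjugate
open Complex

namespace Crest.Agent.R017

theorem b2_Nr (x : O) : Nr x = (nz x : ℝ) := by
  rw [Nr, ← nm_cast, Int.cast_natCast]

theorem b2_re (x : O) : 3 * x.re ^ 2 ≤ 4 * nz x := by
  unfold nz
  nlinarith [sq_nonneg (x.re - 2 * x.im)]

theorem b2_im (x : O) : 3 * x.im ^ 2 ≤ 4 * nz x := by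
  unfold nz
  nlinarith [sq_nonneg (2 * x.re - x.im)]

theorem b2_add (x y : O) : Nr (x + y) ≤ 2 * Nr x + 2 * Nr y := by
  have h : nz (x + y) + nz (x - y) = 2 * nz x + 2 * nz y := by
    simp only [nz, QuadraticAlgebra.re_add, QuadraticAlgebra.im_add, QuadraticAlgebra.re_sub,
      QuadraticAlgebra.im_sub]
    ring
  have h' : nz (x + y) ≤ 2 * nz x + 2 * nz y := by linarith [nz_nonneg (x - y)]
  simp only [b2_Nr]
  exact_mod_cast h'

theorem b2_mod (a : O) {q : O} (hq : q ≠ 0) : ∃ r : O, Nr r < Nr q ∧ q ∣ a - r :=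
  ⟨a - q * ediv a q, by simp only [b2_Nr]; exact_mod_cast nz_mod_lt a hq, ediv a q, by ring⟩

theorem b2_card_le {S : Finset O} {Z : ℝ} (hZ : 0 ≤ Z) (h : ∀ x ∈ S, Nr x ≤ Z) :
    (S.card : ℝ) ≤ 11 * Z + 1 := by
  set m := Nat.sqrt ⌊4 * Z / 3⌋₊
  have hm : (m : ℝ) ^ 2 ≤ 4 * Z / 3 :=
    le_trans (by exact_mod_cast Nat.sqrt_le' _) (Nat.floor_le (by positivity))
  have key : ∀ a : ℤ, ∀ x ∈ S, 3 * a ^ 2 ≤ 4 * nz x → a ∈ Finset.Icc (-(m : ℤ)) m := by
    intro a x hx ha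
    have h1 : (3 : ℝ) * a ^ 2 ≤ 4 * nz x := by exact_mod_cast ha
    have h2 := h x hx
    rw [b2_Nr] at h2
    have h3 : a.natAbs ^ 2 ≤ ⌊4 * Z / 3⌋₊ := Nat.le_floor (by
      push_cast
      rw [Nat.cast_natAbs, Int.cast_abs, sq_abs]
      linarith)
    have h4 : a.natAbs ≤ m := Nat.le_sqrt'.2 h3
    rw [Finset.mem_Icc]
    omega
  have h1 := Finset.card_le_card_of_injOn (s := S)
    (t := Finset.Icc (-(m : ℤ)) m ×ˢ Finset.Icc (-(m : ℤ)) m) (fun x => (x.re, x.im))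
    (fun x hx => Finset.mem_coe.2
      (Finset.mem_product.2 ⟨key _ x hx (b2_re x), key _ x hx (b2_im x)⟩))
    fun x _ y _ e => QuadraticAlgebra.ext (congrArg Prod.fst e) (congrArg Prod.snd e)
  have h2 : (Finset.Icc (-(m : ℤ)) m).card = 2 * m + 1 := by
    rw [Int.card_Icc]
    omega
  rw [Finset.card_product, h2] at h1
  have h3 : S.card ≤ 8 * m ^ 2 + 1 := by nlinarith [Nat.le_self_pow two_ne_zero m]
  have h4 : (S.card : ℝ) ≤ 8 * m ^ 2 + 1 := by exact_mod_cast h3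
  linarith

/-! ### boxes and lattice point counts -/
theorem mem_box {Y : ℝ} {x : O} : x ∈ box Y ↔ x ≠ 0 ∧ Nr x ≤ Y := by
  rw [box, Finset.mem_filter, and_iff_right_iff_imp]
  rintro ⟨-, h⟩
  have h1 : nz x ≤ ⌈Y⌉₊ := by
    have := h.trans (Nat.le_ceil Y)
    rw [b2_Nr] at this
    exact_mod_cast this
  have key : ∀ a : ℤ, 3 * a ^ 2 ≤ 4 * nz x → a ∈ Finset.Icc (-(2 * ⌈Y⌉₊ : ℤ)) (2 * ⌈Y⌉₊) := by
    intro a ha
    have h2 := Int.le_self_sq a
    have h3 := Int.le_self_sq (-a)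
    rw [neg_sq] at h3
    rw [Finset.mem_Icc]
    omega
  exact Finset.mem_image.2 ⟨(x.re, x.im),
    Finset.mem_product.2 ⟨key _ (b2_re x), key _ (b2_im x)⟩, rfl⟩
theorem box_mono {Y Z : ℝ} (h : Y ≤ Z) : box Y ⊆ box Z := fun _ hx =>
  mem_box.2 ⟨(mem_box.1 hx).1, (mem_box.1 hx).2.trans h⟩
theorem box_eq_empty {Y : ℝ} (h : Y < 1) : box Y = ∅ :=
  Finset.eq_empty_of_forall_notMem fun _ hx => by
    linarith [one_le_Nr (mem_box.1 hx).1, (mem_box.1 hx).2]
theorem card_box_le {Y : ℝ} (hY : 0 ≤ Y) : ((box Y).card : ℝ) ≤ 25 * Y := by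
  rcases lt_or_ge Y 1 with h | h
  · rw [box_eq_empty h, Finset.card_empty, Nat.cast_zero]
    positivity
  · linarith [b2_card_le hY fun x (hx : x ∈ box Y) => (mem_box.1 hx).2]
theorem le_card_box {Y : ℝ} (hY : 1 ≤ Y) : Y ≤ ((box Y).card : ℝ) := by
  set m := Nat.sqrt ⌊Y⌋₊
  have hm : (m : ℝ) ^ 2 ≤ Y :=
    le_trans (by exact_mod_cast Nat.sqrt_le' _) (Nat.floor_le (by linarith))
  have hm' : Y ≤ ((m + 1) * (m + 1) : ℕ) :=
    (Nat.lt_floor_add_one Y).le.trans (by exact_mod_cast Nat.lt_succ_sqrt ⌊Y⌋₊)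
  have h1 := Finset.card_le_card_of_injOn
    (s := Finset.range (m + 1) ×ˢ Finset.range (m + 1)) (t := box Y)
    (fun p => if p = (0, 0) then (⟨-1, 0⟩ : O) else ⟨p.1, p.2⟩) (fun p hp => by
      obtain ⟨a, b⟩ := p
      simp only [Finset.coe_product, Finset.coe_range, Set.mem_prod, Set.mem_Iio] at hp
      rw [Finset.mem_coe, mem_box, b2_Nr]
      beta_reduce
      split_ifs with h
      · exact ⟨fun e => by simpa using congrArg QuadraticAlgebra.re e, by simpa [nz] using hY⟩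
      · refine ⟨fun e => h ?_, le_trans ?_ hm⟩
        · have e1 := congrArg QuadraticAlgebra.re e
          have e2 := congrArg QuadraticAlgebra.im e
          simp only [QuadraticAlgebra.re_zero, QuadraticAlgebra.im_zero, Nat.cast_eq_zero] at e1 e2
          rw [e1, e2]
        · have ha : (a : ℤ) ≤ m := by omega
          have hb : (b : ℤ) ≤ m := by omega
          have : nz ⟨a, b⟩ ≤ (m : ℤ) ^ 2 := by
            simp only [nz]
            rcases le_total (a : ℤ) b with h | h <;>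
              nlinarith [Int.natCast_nonneg a, Int.natCast_nonneg b]
          exact_mod_cast this)
    fun p _ q _ e => by
      have e1 := congrArg QuadraticAlgebra.re e
      have e2 := congrArg QuadraticAlgebra.im e
      by_cases hp : p = (0, 0) <;> by_cases hq : q = (0, 0) <;>
        simp only [hp, hq, if_true, if_false] at e1 e2
      · rw [hp, hq]
      · omega
      · omega
      · exact Prod.ext (by omega) (by omega)
  rw [Finset.card_product, Finset.card_range] at h1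
  exact hm'.trans (by exact_mod_cast h1)
open Classical in
theorem card_box_class_le {q : O} (hq : q ≠ 0) (a : O) {Y : ℝ} (hY : 0 ≤ Y) :
    (((box Y).filter (fun x => q ∣ x - a)).card : ℝ) ≤ 60 * (1 + Y / Nr q) := by
  obtain ⟨r, hr, c, hc⟩ := b2_mod a hq
  have hN := Nr_pos hq
  set S := (box Y).filter (fun x => q ∣ x - a)
  have h1 : ∀ x ∈ S, q * ((x - r) / q) = x - r := fun x hx => by
    obtain ⟨d, hd⟩ := (Finset.mem_filter.1 hx).2
    exact EuclideanDomain.mul_div_cancel' hq ⟨d + c, by linear_combination hd + hc⟩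
  have h2 := b2_card_le (S := S.image fun x => (x - r) / q) (Z := 2 + 2 * (Y / Nr q))
    (by positivity) fun y hy => by
      obtain ⟨x, hx, rfl⟩ := Finset.mem_image.1 hy
      have h3 := b2_add x (-r)
      rw [← sub_eq_add_neg, ← h1 x hx, Nr_mul, Nr_neg] at h3
      have h4 := (mem_box.1 (Finset.mem_filter.1 hx).1).2
      have h5 : Nr q * (Y / Nr q) = Y := mul_div_cancel₀ _ hN.ne'
      refine le_of_mul_le_mul_left ?_ hN
      linarith
  rw [Finset.card_image_of_injOn fun x hx y hy (e : (x - r) / q = (y - r) / q) => by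
    linear_combination h1 y hy - h1 x hx + q * e] at h2
  linarith [div_nonneg hY hN.le]
open Classical in
theorem le_card_box_class {q : O} (hq : q ≠ 0) (a : O) {Y : ℝ} (hY : 16 * Nr q ≤ Y) :
    Y / (8 * Nr q) ≤ (((box Y).filter (fun x => q ∣ x - a)).card : ℝ) := by
  obtain ⟨r, hr, c, hc⟩ := b2_mod a hq
  have hN := Nr_pos hq
  have h5 : Nr q * (Y / Nr q) = Y := mul_div_cancel₀ _ hN.ne'
  have hT : 16 ≤ Y / Nr q := (le_div_iff₀ hN).2 hY
  have h1 := le_card_box (Y := Y / Nr q / 2 - 1) (by linarith)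
  have h2 := Finset.card_le_card_of_injOn (s := box (Y / Nr q / 2 - 1))
    (t := (box Y).filter (fun x => q ∣ x - a)) (fun y => r + q * y) (fun y hy => by
      obtain ⟨h0, hy⟩ := mem_box.1 hy
      refine Finset.mem_coe.2 (Finset.mem_filter.2 ⟨mem_box.2 ⟨fun e => ?_, ?_⟩,
        y - c, by linear_combination -hc⟩)
      · have e' : r = -(q * y) := by linear_combination e
        rw [e', Nr_neg, Nr_mul] at hr
        nlinarith [one_le_Nr h0]
      · have h3 := b2_add r (q * y)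
        rw [Nr_mul] at h3
        nlinarith [mul_le_mul_of_nonneg_left hy hN.le])
    fun x _ y _ e => mul_left_cancel₀ hq (add_left_cancel e)
  have h3 : ((box (Y / Nr q / 2 - 1)).card : ℝ) ≤ ((box Y).filter (fun x => q ∣ x - a)).card := by
    exact_mod_cast h2
  rw [mul_comm, ← div_div]
  linarith
theorem b2_shell {σ Y : ℝ} (hσ : 0 ≤ σ) (hY : 0 < Y) {S : Finset O}
    (hS : ∀ x ∈ S, Y < Nr x ∧ Nr x ≤ 2 * Y) : ∑ x ∈ S, Nr x ^ (-σ) ≤ 50 * Y ^ (1 - σ) := by
  have h1 : S ⊆ box (2 * Y) := fun x hx =>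
    mem_box.2 ⟨fun h => by linarith [(hS x hx).1, Nr_eq_zero.2 h], (hS x hx).2⟩
  have h2 : (S.card : ℝ) ≤ 25 * (2 * Y) :=
    le_trans (by exact_mod_cast Finset.card_le_card h1) (card_box_le (by positivity))
  have h3 := Finset.sum_le_card_nsmul S (fun x => Nr x ^ (-σ)) (Y ^ (-σ)) fun x hx =>
    Real.rpow_le_rpow_of_nonpos hY (hS x hx).1.le (by linarith)
  rw [nsmul_eq_mul] at h3
  rw [sub_eq_add_neg, Real.rpow_add hY, Real.rpow_one]
  nlinarith [Real.rpow_pos_of_pos hY (-σ)]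

theorem b2_split {σ Y : ℝ} (hσ : 0 ≤ σ) (hY : 0 < Y) :
    ∑ x ∈ box (2 * Y), Nr x ^ (-σ) ≤ ∑ x ∈ box Y, Nr x ^ (-σ) + 50 * Y ^ (1 - σ) := by
  rw [← Finset.sum_sdiff (box_mono (by linarith : Y ≤ 2 * Y)), add_comm]
  refine add_le_add le_rfl (b2_shell hσ hY fun x hx => ?_)
  rw [Finset.mem_sdiff, mem_box, mem_box] at hx
  exact ⟨not_le.1 fun h => hx.2 ⟨hx.1.1, h⟩, hx.1.2⟩

theorem b2_tail {σ : ℝ} (hσ : 1 < σ) : ∃ C : ℝ, 0 ≤ C ∧ ∀ Y : ℝ, 0 < Y → ∀ S : Finset O,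
    ∑ x ∈ S, (if Y < Nr x then Nr x ^ (-σ) else 0) ≤ C * Y ^ (1 - σ) := by
  have hr : (2 : ℝ) ^ (1 - σ) < 1 := Real.rpow_lt_one_of_one_lt_of_neg one_lt_two (by linarith)
  obtain ⟨C, hC0, hC⟩ : ∃ C : ℝ, 0 ≤ C ∧ 50 + C * 2 ^ (1 - σ) = C :=
    ⟨50 / (1 - 2 ^ (1 - σ)), div_nonneg (by norm_num) (by linarith), by
      have : (1 : ℝ) - 2 ^ (1 - σ) ≠ 0 := by linarith
      field_simp
      ring⟩
  have key : ∀ (n : ℕ) (Y : ℝ), 0 < Y → ∀ S : Finset O, (∀ x ∈ S, Y < Nr x ∧ Nr x ≤ 2 ^ n * Y) →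
      ∑ x ∈ S, Nr x ^ (-σ) ≤ C * Y ^ (1 - σ) := by
    intro n
    induction n with
    | zero =>
      intro Y hY S hS
      rw [Finset.eq_empty_of_forall_notMem (s := S) fun x hx => by linarith [hS x hx],
        Finset.sum_empty]
      positivity
    | succ n ih =>
      intro Y hY S hS
      rw [← Finset.sum_filter_add_sum_filter_not S fun x => Nr x ≤ 2 * Y]
      have h1 := b2_shell (σ := σ) (by linarith) hY (S := S.filter fun x => Nr x ≤ 2 * Y)
        fun x hx => ⟨(hS x (Finset.mem_filter.1 hx).1).1, (Finset.mem_filter.1 hx).2⟩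
      have h2 := ih (2 * Y) (by positivity) (S.filter fun x => ¬ Nr x ≤ 2 * Y) fun x hx =>
        ⟨not_le.1 (Finset.mem_filter.1 hx).2, by
          rw [← mul_assoc, ← pow_succ]
          exact (hS x (Finset.mem_filter.1 hx).1).2⟩
      rw [Real.mul_rpow zero_le_two hY.le] at h2
      calc _ ≤ (50 + C * 2 ^ (1 - σ)) * Y ^ (1 - σ) := by linarith
        _ = _ := by rw [hC]
  refine ⟨C, hC0, fun Y hY S => ?_⟩
  obtain ⟨n, hn⟩ := pow_unbounded_of_one_lt ((∑ x ∈ S, Nr x) / Y) one_lt_two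
  rw [div_lt_iff₀ hY] at hn
  rw [← Finset.sum_filter]
  exact key n Y hY _ fun x hx => ⟨(Finset.mem_filter.1 hx).2,
    (Finset.single_le_sum (fun y _ => Nr_nonneg y) (Finset.mem_filter.1 hx).1).trans hn.le⟩

theorem b2_ite_nonneg (σ Y : ℝ) (x : O) : 0 ≤ (if Y < Nr x then Nr x ^ (-σ) else 0) := by
  split_ifs
  · exact Real.rpow_nonneg (Nr_nonneg x) _
  · exact le_rfl

theorem summable_Nr_rpow {σ : ℝ} (hσ : 1 < σ) : Summable (fun x : O => Nr x ^ (-σ)) := by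
  obtain ⟨C, -, hC⟩ := b2_tail hσ
  refine (summable_of_sum_le (b2_ite_nonneg σ (1 / 2)) (hC (1 / 2) one_half_pos)).congr fun x => ?_
  split_ifs with h
  · rfl
  · by_cases hx : x = 0
    · rw [hx, Nr_zero, Real.zero_rpow (by linarith)]
    · exact absurd (by linarith [one_le_Nr hx]) h
theorem sum_box_rpow_le {σ : ℝ} (hσ : σ < 1) :
    ∃ C : ℝ, ∀ Y : ℝ, 1 ≤ Y → ∑ x ∈ box Y, Nr x ^ (-σ) ≤ C * Y ^ (1 - σ) := by
  rcases lt_or_ge σ 0 with h0 | h0
  · refine ⟨25, fun Y hY => ?_⟩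
    have h3 := Finset.sum_le_card_nsmul (box Y) (fun x => Nr x ^ (-σ)) (Y ^ (-σ)) fun x hx =>
      Real.rpow_le_rpow (Nr_nonneg x) (mem_box.1 hx).2 (by linarith)
    rw [nsmul_eq_mul] at h3
    rw [sub_eq_add_neg, Real.rpow_add (by linarith), Real.rpow_one]
    nlinarith [Real.rpow_pos_of_pos (by linarith : 0 < Y) (-σ), card_box_le (by linarith : 0 ≤ Y)]
  have hr : (1 : ℝ) < 2 ^ (1 - σ) := Real.one_lt_rpow one_lt_two (by linarith)
  obtain ⟨C, hC0, hC⟩ : ∃ C : ℝ, 0 ≤ C ∧ C + 50 = C * 2 ^ (1 - σ) :=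
    ⟨50 / (2 ^ (1 - σ) - 1), div_nonneg (by norm_num) (by linarith), by
      have : (2 : ℝ) ^ (1 - σ) - 1 ≠ 0 := by linarith
      field_simp
      ring⟩
  have key : ∀ (n : ℕ) (Y : ℝ), 0 < Y → Y < 2 ^ n →
      ∑ x ∈ box Y, Nr x ^ (-σ) ≤ C * Y ^ (1 - σ) := by
    intro n
    induction n with
    | zero =>
      intro Y hY h
      rw [box_eq_empty (by simpa using h), Finset.sum_empty]
      positivity
    | succ n ih =>
      intro Y hY h
      obtain ⟨Z, rfl⟩ : ∃ Z, Y = 2 * Z := ⟨Y / 2, by ring⟩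
      have hZ : 0 < Z := by linarith
      have h1 := ih Z hZ (by rw [pow_succ] at h; linarith)
      have h2 := b2_split h0 hZ
      rw [Real.mul_rpow zero_le_two hZ.le, ← mul_assoc, ← hC]
      linarith
  refine ⟨C, fun Y hY => ?_⟩
  obtain ⟨n, hn⟩ := pow_unbounded_of_one_lt Y one_lt_two
  exact key n Y (by linarith) hn
theorem sum_box_inv_le : ∃ C : ℝ, ∀ Y : ℝ, 1 ≤ Y → ∑ x ∈ box Y, (Nr x)⁻¹ ≤ C * (1 + Real.log Y) := by
  have key : ∀ (n : ℕ) (Y : ℝ), 0 < Y → Y < 2 ^ n → ∑ x ∈ box Y, Nr x ^ (-(1 : ℝ)) ≤ 50 * n := by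
    intro n
    induction n with
    | zero =>
      intro Y hY h
      rw [box_eq_empty (by simpa using h), Finset.sum_empty]
      positivity
    | succ n ih =>
      intro Y hY h
      obtain ⟨Z, rfl⟩ : ∃ Z, Y = 2 * Z := ⟨Y / 2, by ring⟩
      have hZ : 0 < Z := by linarith
      have h1 := ih Z hZ (by rw [pow_succ] at h; linarith)
      have h2 := b2_split zero_le_one hZ
      rw [sub_self, Real.rpow_zero] at h2
      push_cast
      linarith
  refine ⟨100, fun Y hY => ?_⟩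
  obtain ⟨n, h1, h2⟩ := exists_nat_pow_near hY one_lt_two
  have h3 := key (n + 1) Y (by linarith) h2
  have h4 := Real.log_le_log (by positivity) h1
  rw [Real.log_pow] at h4
  simp only [Real.rpow_neg_one] at h3
  push_cast at h3
  nlinarith [Real.log_two_gt_d9, Nat.cast_nonneg (α := ℝ) n]
theorem tsum_tail_rpow_le {σ : ℝ} (hσ : 1 < σ) : ∃ C : ℝ, ∀ Y : ℝ, 0 < Y →
    ∑' x : O, (if Y < Nr x then Nr x ^ (-σ) else 0) ≤ C * Y ^ (1 - σ) := by
  obtain ⟨C, -, hC⟩ := b2_tail hσ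
  exact ⟨C, fun Y hY => Real.tsum_le_of_sum_le (b2_ite_nonneg σ Y) (hC Y hY)⟩

end Crest.Agent.R017

end
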