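import Crest.Agent.R017.Sieve

/-! # Row 17: from `ZF` to Dirichlet characters -/

set_option autoImplicit false

namespace Crest.Agent.R017

open Filter Topology

theorem bq_nm_natCast (l : ℕ) : nm (l : O) = l ^ 2 := by
  have := Nr_natCast l
  unfold Nr at this
  exact_mod_cast this

theorem bq_mul_star (x : O) : x * star x = ((nm x : ℕ) : O) := by
  rw [mul_star_self, ← nm_cast, Int.cast_natCast]

theorem bq_coprime_iff (x : O) (M : ℕ) : IsCoprime x (M : O) ↔ (nm x).Coprime M := by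
  constructor
  · intro h
    have h1 : IsCoprime (star x) (M : O) := by
      have := h.map (starRingEnd O)
      rwa [map_natCast] at this
    have h2 := h.mul_left h1
    rw [bq_mul_star] at h2
    obtain ⟨a, b, hab⟩ := h2
    have h3 := congrArg QuadraticAlgebra.re hab
    simp only [QuadraticAlgebra.re_add, QuadraticAlgebra.re_mul, QuadraticAlgebra.re_natCast,
      QuadraticAlgebra.im_natCast, QuadraticAlgebra.re_one] at h3
    rw [← Nat.isCoprime_iff_coprime]
    exact ⟨a.re, b.re, by linear_combination h3⟩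
  · intro h
    have h1 := (Nat.isCoprime_iff_coprime.2 h).map (Int.castRingHom O)
    simp only [eq_intCast, Int.cast_natCast] at h1
    rw [← bq_mul_star] at h1
    exact h1.of_mul_left_left

theorem bq_nm_congr {M : ℕ} {x y : O} (h : (M : O) ∣ x - y) : ((nm x : ℕ) : ZMod M) = (nm y : ℕ) := by
  obtain ⟨z, hz⟩ := h
  have hx : x = y + M * z := by linear_combination hz
  have h1 : (M : ℤ) ∣ nz x - nz y := by
    rw [hx]
    simp only [nz, QuadraticAlgebra.re_add, QuadraticAlgebra.im_add, QuadraticAlgebra.re_mul,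
      QuadraticAlgebra.im_mul, QuadraticAlgebra.re_natCast, QuadraticAlgebra.im_natCast]
    exact ⟨2 * y.re * z.re + M * z.re ^ 2 - (y.re * z.im + y.im * z.re + M * z.re * z.im) +
      2 * y.im * z.im + M * z.im ^ 2, by ring⟩
  have h2 := (ZMod.intCast_eq_intCast_iff_dvd_sub (nz y) (nz x) M).2 h1
  rw [← nm_cast, ← nm_cast, Int.cast_natCast, Int.cast_natCast] at h2
  exact h2.symm

theorem bq_isCh {M : ℕ} (hM : M ≠ 0) (h3 : 3 ∣ M) (χ : DirichletCharacter ℂ M) :
    IsCh (M : O) (fun x => χ (nm x : ℕ)) where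
  ne := fun h => by
    have := bq_nm_natCast M
    rw [h, nm_eq_zero.2 rfl] at this
    exact pow_ne_zero 2 hM this.symm
  three := by
    obtain ⟨k, rfl⟩ := h3
    exact ⟨(k : O), by push_cast; ring⟩
  one := by
    have : nm 1 = 1 := by simpa using bq_nm_natCast 1
    simp [this]
  mul := fun x y => by simp [nm_mul]
  per := fun x y h => by simp only [bq_nm_congr h]
  zero := fun x => by
    rw [bq_coprime_iff, ← ZMod.isUnit_iff_coprime]
    exact ⟨fun h hu => (hu.map χ).ne_zero h, fun h => χ.map_nonunit h⟩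

/-- The non-trivial character modulo `3`. -/
def bq_psiZ : MulChar (ZMod 3) ℤ where
  toFun a := if a = 1 then 1 else if a = 2 then -1 else 0
  map_one' := rfl
  map_mul' := by decide
  map_nonunit' := by decide

noncomputable def bq_psi : DirichletCharacter ℂ 3 := bq_psiZ.ringHomComp (Int.castRingHom ℂ)

theorem bq_psi_one {l : ℕ} (h : l % 3 = 1) : bq_psi (l : ZMod 3) = 1 := by
  have : (l : ZMod 3) = 1 := by
    rw [← ZMod.natCast_mod, h, Nat.cast_one]
  rw [this, map_one]

theorem bq_psi_two {l : ℕ} (h : l % 3 = 2) : bq_psi (l : ZMod 3) = -1 := by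
  have : (l : ZMod 3) = 2 := by
    rw [← ZMod.natCast_mod, h, Nat.cast_ofNat]
  rw [this]
  have h2 : bq_psiZ 2 = -1 := by decide
  simp [bq_psi, h2]

theorem bq_natCast_ne_zero {l : ℕ} (hl : l ≠ 0) : (l : O) ≠ 0 := fun h => by
  have := bq_nm_natCast l
  rw [h, nm_eq_zero.2 rfl] at this
  exact pow_ne_zero 2 hl this.symm

theorem bq_pf_split {l : ℕ} (hl : l.Prime) (h1 : l % 3 = 1) :
    ∃ p q : O, p ≠ q ∧ nm p = l ∧ nm q = l ∧ pf (l : O) = {p, q} := by
  obtain ⟨p, hp, hP, hn⟩ := a4_split hl h1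
  have hn' : nm (star p) = l := by rw [nm, nz_star, ← nm, hn]
  have hp' : Prime (star p) := a4_prime_of_nm (hn' ▸ hl)
  have e : (l : O) = p * star p := by rw [bq_mul_star, hn]
  refine ⟨p, star p, fun h => ?_, hn, hn', ?_⟩
  · have h2 : p.im = 0 := by
      have := congrArg QuadraticAlgebra.im h
      rw [QuadraticAlgebra.im_star] at this
      omega
    have h3 : l = p.re.natAbs * p.re.natAbs := by
      rw [← hn, nm, nz, h2, ← Int.natAbs_mul]
      congr 1
      ring
    exact hl.prime.not_isSquare ⟨_, h3⟩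
  · ext r
    rw [mem_pf (bq_natCast_ne_zero hl.ne_zero), Finset.mem_insert, Finset.mem_singleton, e]
    constructor
    · rintro ⟨hr, hd⟩
      rcases hr.1.dvd_or_dvd hd with h | h
      · exact Or.inl (hr.eq_of_associated ⟨hp, Or.inl hP⟩ (hr.1.associated_of_dvd hp h))
      · exact Or.inr (hr.eq_of_associated ⟨hp', Or.inl hP.star⟩ (hr.1.associated_of_dvd hp' h))
    · rintro (rfl | rfl)
      · exact ⟨⟨hp, Or.inl hP⟩, dvd_mul_right _ _⟩
      · exact ⟨⟨hp', Or.inl hP.star⟩, dvd_mul_left _ _⟩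

theorem bq_nm_mod (x : O) : nm x % 3 ≠ 2 := by
  have h1 : nz x % 3 ≠ 2 := by
    have e : nz x = (x.re + x.im) ^ 2 - 3 * (x.re * x.im) := by unfold nz; ring
    rw [e]
    generalize x.re + x.im = t
    generalize x.re * x.im = u
    have h2 : t ^ 2 % 3 = 0 ∨ t ^ 2 % 3 = 1 := by
      have : t % 3 = 0 ∨ t % 3 = 1 ∨ t % 3 = 2 := by omega
      rcases this with h | h | h <;> simp [pow_two, Int.mul_emod, h]
    omega
  have := nm_cast x
  omega

theorem bq_pf_inert {l : ℕ} (hl : l.Prime) (h2 : l % 3 = 2) : pf (l : O) = {-(l : O)} := by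
  have hp : Prime (l : O) := by
    rw [← irreducible_iff_prime]
    refine ⟨fun hu => ?_, fun a b e => ?_⟩
    · rw [a4_nm_unit, bq_nm_natCast] at hu
      have := hl.one_lt
      nlinarith
    · by_contra hc
      push Not at hc
      have hbc : nm a * nm b = l ^ 2 := by rw [← nm_mul, ← e, bq_nm_natCast]
      have h3 : nm a = l :=
        ((Nat.Prime.mul_eq_prime_sq_iff hl (fun h => hc.1 (a4_nm_unit.2 h))
          (fun h => hc.2 (a4_nm_unit.2 h))).1 hbc).1
      exact bq_nm_mod a (h3 ▸ h2)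
  have hP : Prim (-(l : O)) := by
    obtain ⟨k, hk⟩ : ∃ k, l = 3 * k + 2 := ⟨l / 3, by omega⟩
    exact ⟨-((k : O) + 1), by rw [hk]; push_cast; ring⟩
  ext r
  rw [mem_pf hp.ne_zero, Finset.mem_singleton]
  constructor
  · rintro ⟨hr, hd⟩
    exact hr.eq_of_associated ⟨hp.neg, Or.inl hP⟩
      (hr.1.associated_of_dvd hp.neg (dvd_neg.2 hd))
  · rintro rfl
    exact ⟨⟨hp.neg, Or.inl hP⟩, neg_dvd.2 dvd_rfl⟩

theorem bq_local {M : ℕ} (hM : M ≠ 0) (h3 : 3 ∣ M) (χ : DirichletCharacter ℂ M) {l : ℕ}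
    (hl : l.Prime) (s : ℂ) :
    ∏ p ∈ pf (l : O), (1 - χ (nm p : ℕ) * (Nr p : ℂ) ^ (-s)) =
      (1 - χ l * (l : ℂ) ^ (-s)) *
        (1 - (χ * DirichletCharacter.changeLevel h3 bq_psi) l * (l : ℂ) ^ (-s)) := by
  by_cases hc : l.Coprime M
  · have hψ : DirichletCharacter.changeLevel h3 bq_psi (l : ZMod M) = bq_psi (l : ZMod 3) := by
      have := DirichletCharacter.changeLevel_eq_cast_of_dvd' bq_psi h3 (a := (l : ℤ))
        (Nat.isCoprime_iff_coprime.2 hc)
      simpa using this
    rw [MulChar.mul_apply, hψ]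
    have h0 : l % 3 ≠ 0 := fun h => by
      have h4 : 3 ∣ l := Nat.dvd_of_mod_eq_zero h
      have := Nat.dvd_gcd h4 h3
      rw [hc] at this
      omega
    rcases (by omega : l % 3 = 1 ∨ l % 3 = 2) with h | h
    · obtain ⟨p, q, hpq, hp, hq, e⟩ := bq_pf_split hl h
      rw [e, Finset.prod_pair hpq, bq_psi_one h, Nr, Nr, hp, hq, mul_one]
      simp
    · have hn : nm (-(l : O)) = l * l := by
        have := Nr_neg (l : O)
        unfold Nr at this
        rw [← pow_two, ← bq_nm_natCast]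
        exact_mod_cast this
      rw [bq_pf_inert hl h, Finset.prod_singleton, bq_psi_two h, Nr, hn, Complex.ofReal_natCast,
        Nat.cast_mul, Nat.cast_mul, Complex.natCast_mul_natCast_cpow, map_mul]
      ring
  · have h0 : χ (l : ZMod M) = 0 := χ.map_nonunit (by rwa [ZMod.isUnit_iff_coprime])
    rw [MulChar.mul_apply, h0]
    simp only [zero_mul, sub_zero, mul_one]
    refine Finset.prod_eq_one fun p hp => ?_
    have h1 : l ∣ M := by
      by_contra h2
      exact hc ((Nat.Prime.coprime_iff_not_dvd hl).2 h2)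
    have h2 : χ (nm p : ℕ) = 0 := ((bq_isCh hM h3 χ).zero p).2 fun h =>
      (a1_of_mem_pf hp).1.1.not_isUnit (h.isUnit_of_dvd' dvd_rfl
        ((a1_of_mem_pf hp).2.trans (Nat.cast_dvd_cast h1)))
    rw [h2, zero_mul, sub_zero]

open Classical in
theorem bq_tendsto {η : O → ℂ} (hη : ∀ n, ‖η n‖ ≤ 1) {s : ℂ} (hs : 1 < s.re) :
    Tendsto (fun n : ℕ => Dser (fun x => if ∀ p ∈ (Nat.primesBelow n).biUnion (fun l : ℕ => pf (l : O)),
      ¬ p ∣ x then η x else 0) s) atTop (𝓝 (η 1)) := by
  rw [← l2_delta η s]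
  unfold Dser
  refine tendsto_tsum_of_dominated_convergence (summable_Nr_rpow hs) (fun x => ?_) ?_
  · by_cases hx : Prim x
    · simp only [if_pos hx]
      refine Tendsto.mul_const _ ?_
      by_cases h1 : x = 1
      · subst h1
        rw [if_pos rfl]
        refine tendsto_const_nhds.congr fun n => ?_
        rw [if_pos]
        intro p hp hd
        obtain ⟨l, -, hl⟩ := Finset.mem_biUnion.1 hp
        exact (a1_of_mem_pf hl).1.1.not_isUnit (isUnit_of_dvd_one hd)
      · rw [if_neg h1]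
        have h2 : nm x ≠ 1 := fun h => h1 (hx.eq_one_of_isUnit (a4_nm_unit.2 h))
        obtain ⟨l, hl, hd⟩ := Nat.exists_prime_and_dvd h2
        have h3 : ¬ IsCoprime x (l : O) := by
          rw [bq_coprime_iff]
          intro h
          exact (Nat.Prime.coprime_iff_not_dvd hl).1 h.symm hd
        obtain ⟨p, hp, hpx, hpl⟩ : ∃ p : O, Prime p ∧ p ∣ x ∧ p ∣ (l : O) := by
          by_contra hc
          push Not at hc
          exact h3 (isCoprime_of_prime_dvd (fun h => hx.ne_zero h.1) hc)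
        obtain ⟨q, hq, hpq⟩ := exists_PP hp
        refine tendsto_const_nhds.congr' ?_
        filter_upwards [eventually_gt_atTop l] with n hn
        rw [if_neg]
        intro h
        exact h q (Finset.mem_biUnion.2 ⟨l, Nat.mem_primesBelow.2 ⟨hn, hl⟩,
          (mem_pf (bq_natCast_ne_zero hl.ne_zero)).2 ⟨hq, hpq.symm.dvd.trans hpl⟩⟩)
          (hpq.symm.dvd.trans hpx)
    · simp only [if_neg hx]
      exact tendsto_const_nhds
  · refine Eventually.of_forall fun n x => ?_
    have h0 : 0 ≤ Nr x ^ (-s.re) := Real.rpow_nonneg (Nr_nonneg x) _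
    by_cases hx : Prim x
    · rw [if_pos hx, norm_mul, Complex.norm_cpow_eq_rpow_re_of_pos (Nr_pos hx.ne_zero), Complex.neg_re]
      refine mul_le_of_le_one_left h0 ?_
      beta_reduce
      split_ifs
      · exact hη x
      · simp
    · rw [if_neg hx, norm_zero]
      exact h0

theorem bq_factor_ne {M : ℕ} (χ : DirichletCharacter ℂ M) {l : ℕ} (hl : l.Prime) {s : ℂ}
    (hs : 1 < s.re) : 1 - χ l * (l : ℂ) ^ (-s) ≠ 0 := by
  intro h
  have h1 : ‖χ l * (l : ℂ) ^ (-s)‖ < 1 := by
    rw [norm_mul, Complex.norm_natCast_cpow_of_pos hl.pos]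
    refine lt_of_le_of_lt (mul_le_of_le_one_left (by positivity) (χ.norm_le_one _)) ?_
    exact Real.rpow_lt_one_of_one_lt_of_neg (by exact_mod_cast hl.one_lt)
      (by rw [Complex.neg_re]; linarith)
  rw [← sub_eq_zero.1 h] at h1
  simp at h1

theorem bq_Dser {M : ℕ} (hM : M ≠ 0) (h3 : 3 ∣ M) (χ : DirichletCharacter ℂ M) {s : ℂ}
    (hs : 1 < s.re) : Dser (fun x => χ (nm x : ℕ)) s =
      LSeries (χ ·) s * LSeries ((χ * DirichletCharacter.changeLevel h3 bq_psi) ·) s := by
  classical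
  have hch := bq_isCh hM h3 χ
  have t := (bq_tendsto hch.norm_le hs).mul ((χ.LSeries_eulerProduct hs).mul
    ((χ * DirichletCharacter.changeLevel h3 bq_psi).LSeries_eulerProduct hs))
  have h1 := hch.one
  rw [h1, one_mul] at t
  refine tendsto_nhds_unique (tendsto_const_nhds.congr fun n => ?_) t
  have e := l2_euler hch hs ((Nat.primesBelow n).biUnion (fun l : ℕ => pf (l : O))) (by
    intro p hp
    obtain ⟨l, -, hl⟩ := Finset.mem_biUnion.1 hp
    exact (a1_of_mem_pf hl).1)
  rw [Finset.prod_biUnion] at e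
  · rw [e, mul_assoc, ← Finset.prod_mul_distrib, ← Finset.prod_mul_distrib, Finset.prod_eq_one,
      mul_one]
    intro l hl
    have hl' := (Nat.mem_primesBelow.1 hl).2
    rw [bq_local hM h3 χ hl' s, ← mul_inv]
    exact mul_inv_cancel₀ (mul_ne_zero (bq_factor_ne χ hl' hs)
      (bq_factor_ne (χ * DirichletCharacter.changeLevel h3 bq_psi) hl' hs))
  · intro l hl l' hl' hne
    refine Finset.disjoint_left.2 fun p hp hp' => ?_
    have hc : l.Coprime l' := (Nat.coprime_primes (Nat.mem_primesBelow.1 hl).2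
      (Nat.mem_primesBelow.1 hl').2).2 hne
    exact (a1_of_mem_pf hp).1.1.not_isUnit ((Nat.Coprime.cast hc : IsCoprime (l : O) (l' : O)).isUnit_of_dvd'
      (a1_of_mem_pf hp).2 (a1_of_mem_pf hp').2)

theorem bq_Lf {M : ℕ} [NeZero M] (h3 : 3 ∣ M) (χ : DirichletCharacter ℂ M) {s : ℂ} (hs : s ≠ 1) :
    Lf (fun x => χ (nm x : ℕ)) s =
      χ.LFunction s * (χ * DirichletCharacter.changeLevel h3 bq_psi).LFunction s := by
  have hch := bq_isCh (NeZero.ne M) h3 χ
  have hpc : IsPreconnected ({1}ᶜ : Set ℂ) :=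
    (isConnected_compl_singleton_of_one_lt_rank (Complex.rank_real_complex ▸ Nat.one_lt_ofNat) _)
      |>.isPreconnected
  have hU : IsOpen {w : ℂ | 1 < w.re} := isOpen_lt continuous_const Complex.continuous_re
  refine AnalyticOnNhd.eqOn_of_preconnected_of_eventuallyEq (𝕜 := ℂ)
    (f := Lf (fun x => χ (nm x : ℕ)))
    (g := fun s => χ.LFunction s * (χ * DirichletCharacter.changeLevel h3 bq_psi).LFunction s)
    ?_ ?_ hpc (z₀ := 2) (by simp) ?_ hs
  · refine DifferentiableOn.analyticOnNhd (fun w hw => ?_) isOpen_compl_singleton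
    exact (hch.Lf_differentiableAt (Or.inl hw)).differentiableWithinAt
  · refine DifferentiableOn.analyticOnNhd (fun w hw => ?_) isOpen_compl_singleton
    exact ((χ.differentiableAt_LFunction w (Or.inl hw)).mul
      (DirichletCharacter.differentiableAt_LFunction _ w (Or.inl hw))).differentiableWithinAt
  · filter_upwards [hU.mem_nhds (show (2 : ℂ) ∈ {w : ℂ | 1 < w.re} by simp)] with w hw
    rw [hch.Lf_eq hw, bq_Dser (NeZero.ne M) h3 χ hw, DirichletCharacter.LFunction_eq_LSeries _ hw,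
      DirichletCharacter.LFunction_eq_LSeries _ hw]

theorem dirichlet_of_ZF {θ : ℝ} (hθ : 0 ≤ θ) (h : ZF θ) {N : ℕ} [NeZero N]
    (χ : DirichletCharacter ℂ N) (s : ℂ) (hχs : χ ≠ 1 ∨ s ≠ 1) (hs : θ < s.re) :
    χ.LFunction s ≠ 0 := by
  have _ := hθ
  by_cases hs1 : s = 1
  · subst hs1
    exact DirichletCharacter.LFunction_apply_one_ne_zero (hχs.resolve_right (not_not.2 rfl))
  have : NeZero (3 * N) := ⟨mul_ne_zero (by norm_num) (NeZero.ne N)⟩
  have h1 := h _ _ (bq_isCh (NeZero.ne (3 * N)) (dvd_mul_right 3 N)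
    (DirichletCharacter.changeLevel (dvd_mul_left N 3) χ)) s hs (Or.inl hs1)
  rw [bq_Lf (dvd_mul_right 3 N) _ hs1, DirichletCharacter.LFunction_changeLevel _ χ hχs] at h1
  exact left_ne_zero_of_mul (left_ne_zero_of_mul h1)

end Crest.Agent.R017
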