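import Crest.Agent.R017.CFSqf

/-! # Row 17: the dual mean value estimate with the full theta coefficient -/

set_option autoImplicit false

noncomputable section

open scoped BigOperators ComplexConjugate
open Complex MeasureTheory

namespace Crest.Agent.R017

/-- The decomposition of a row. -/
theorem cf_decomp {Q t k h : O} (hQ : Q ≠ 0) (h72 : (72 : O) ∣ Q) (ht : t ≠ 0) (hk : k ≠ 0)
    (hh : h ≠ 0) : ∃ h3 s h1 : O, h3 ≠ 0 ∧ rad h3 ∣ Q * rad t * rad k ∧ s ≠ 0 ∧ Pow2 s ∧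
      Adm (Q * (h3 * s * t) * k) h1 ∧ h = h1 * (h3 * s) := by
  have hM : Q * rad t * rad k ≠ 0 := mul_ne_zero (mul_ne_zero hQ (rad_ne_zero t)) (rad_ne_zero k)
  obtain ⟨u, j, n, hu, hn, rfl⟩ := exists_decomp hh
  obtain ⟨⟨p1, p2⟩, ⟨q1, q2, q3, q4, rfl⟩, -⟩ := exists_part hn hM
  obtain ⟨⟨h1, s⟩, ⟨r1, r2, r3, r4, r5, rfl⟩, -⟩ := exists_sqf_pow2 q2
  dsimp only at *
  have hl : lam ∣ Q := lam_dvd_three.trans (dvd_trans (Dvd.intro 24 (by norm_num)) h72)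
  have h3 : ∀ p : O, Prime p → p ∣ u * lam ^ j * p1 → p ∣ Q * rad t * rad k := by
    intro p hp hd
    rcases hp.dvd_or_dvd hd with hd | hd
    · rcases hp.dvd_or_dvd hd with hd | hd
      · exact absurd (isUnit_of_dvd_unit hd hu) hp.not_isUnit
      · exact (((hp.dvd_of_dvd_pow hd).trans hl).mul_right _).mul_right _
    · exact ((prime_dvd_rad q1.ne_zero hp).2 hd).trans q3
  refine ⟨u * lam ^ j * p1, s, h1,
    mul_ne_zero (mul_ne_zero hu.ne_zero (pow_ne_zero _ prime_lam.ne_zero)) q1.ne_zero,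
    a1_rad_dvd_of h3, r2.ne_zero, r4, ⟨r1, r3, ?_⟩, by ring⟩
  refine isCoprime_of_prime_dvd (fun h => r1.ne_zero h.1) fun p hp hd hd' => ?_
  have n1 : ¬ p ∣ Q * rad t * rad k := fun h =>
    hp.not_isUnit (q4.isUnit_of_dvd' (hd.mul_right _) h)
  have n2 : ¬ p ∣ s := fun h => hp.not_isUnit (r5.isUnit_of_dvd' hd h)
  rcases hp.dvd_or_dvd hd' with h | h
  · rcases hp.dvd_or_dvd h with h | h
    · exact n1 ((h.mul_right _).mul_right _)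
    · rcases hp.dvd_or_dvd h with h | h
      · rcases hp.dvd_or_dvd h with h | h
        · exact n1 (h3 p hp h)
        · exact n2 h
      · exact n1 ((((prime_dvd_rad ht hp).2 h).mul_left _).mul_right _)
  · exact n1 (((prime_dvd_rad hk hp).2 h).mul_left _)

theorem cf_shift (A : ℝ) (ψ a : O → ℂ) (B X τ : ℝ) (t k g h : O) :
    CFull A ψ a B X τ (t * k ^ 6) (h * g) = CFull A ψ a B X τ (g * t * k ^ 6) h := by
  unfold CFull
  rw [show h * g * (t * k ^ 6) = h * (g * t * k ^ 6) by ring]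

open Classical in
theorem cf_split {Q t k : O} (hQ : Q ≠ 0) (h72 : (72 : O) ∣ Q) (ht : t ≠ 0) (hk : k ≠ 0) (H : ℝ)
    (F : O → ℝ) (hF : ∀ h, 0 ≤ F h) :
    ∑ h ∈ box H, F h ≤ ∑ h3 ∈ (box H).filter (fun y => rad y ∣ Q * rad t * rad k),
      ∑ s ∈ (box H).filter (fun y => Pow2 y),
        ∑ h1 ∈ (box (H / Nr (h3 * s))).filter (fun y => Adm (Q * (h3 * s * t) * k) y),
          F (h1 * (h3 * s)) := by
  rw [Finset.sum_sigma', Finset.sum_sigma']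
  refine le_trans (Finset.sum_le_sum_of_subset_of_nonneg ?_ fun h _ _ => hF h)
    (Finset.sum_image_le_of_nonneg
      (g := fun y : (_ : (_ : O) × O) × O => y.2 * (y.1.1 * y.1.2)) fun h _ => hF h)
  intro h hh
  obtain ⟨h0, hH⟩ := mem_box.1 hh
  obtain ⟨h3, s, h1, a1, a2, a3, a4, a5, rfl⟩ := cf_decomp hQ h72 ht hk h0
  refine Finset.mem_image.2 ⟨⟨⟨h3, s⟩, h1⟩, ?_, rfl⟩
  simp only [Finset.mem_sigma, Finset.mem_filter, mem_box]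
  refine ⟨⟨⟨⟨a1, (Nr_le_of_dvd h0 ⟨h1 * s, by ring⟩).trans hH⟩, a2⟩,
    ⟨a3, (Nr_le_of_dvd h0 ⟨h1 * h3, by ring⟩).trans hH⟩, a4⟩, ⟨a5.1.ne_zero, ?_⟩, a5⟩
  rw [le_div_iff₀ (Nr_pos (mul_ne_zero a1 a3)), ← Nr_mul]
  exact hH

/-- The bracket after rescaling; `w = N(s)^{-1/2}`. -/
theorem cf_bracket {X H H' B T T' Kk w : ℝ} (hX : 0 ≤ X) (hH : 0 ≤ H) (hH' : 0 ≤ H') (hB : 0 ≤ B)
    (_hT : 0 ≤ T) (hT' : 0 ≤ T') (hK : 0 ≤ Kk) (hw0 : 0 ≤ w) (hw1 : w ≤ 1) (h1 : H' ≤ w ^ 2 * H)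
    (h2 : H' * T' ≤ w * (H * T)) :
    X * H' + H' ^ 2 * T' ^ 2 * Kk * B + X ^ (5 / 4 : ℝ) * H' ^ (1 / 2 : ℝ) * B +
        X ^ (1 / 2 : ℝ) * B ^ 2 * H' * T' ≤
      w * (X * H + H ^ 2 * T ^ 2 * Kk * B + X ^ (5 / 4 : ℝ) * H ^ (1 / 2 : ℝ) * B +
        X ^ (1 / 2 : ℝ) * B ^ 2 * H * T) := by
  have hw2 : w ^ 2 ≤ w := by nlinarith
  have e1 : X * H' ≤ w * (X * H) :=
    calc X * H' ≤ X * (w * H) := by
          gcongr; exact h1.trans (mul_le_mul_of_nonneg_right hw2 hH)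
      _ = _ := by ring
  have e2 : H' ^ 2 * T' ^ 2 * Kk * B ≤ w * (H ^ 2 * T ^ 2 * Kk * B) :=
    calc H' ^ 2 * T' ^ 2 * Kk * B = (H' * T') ^ 2 * Kk * B := by ring
      _ ≤ (w * (H * T)) ^ 2 * Kk * B := by gcongr
      _ = w ^ 2 * (H ^ 2 * T ^ 2 * Kk * B) := by ring
      _ ≤ _ := by gcongr
  have e3 : H' ^ (1 / 2 : ℝ) ≤ w * H ^ (1 / 2 : ℝ) := by
    rw [← Real.sqrt_eq_rpow, ← Real.sqrt_eq_rpow]
    refine (Real.sqrt_le_sqrt h1).trans_eq ?_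
    rw [Real.sqrt_mul (sq_nonneg w), Real.sqrt_sq hw0]
  have e4 : X ^ (5 / 4 : ℝ) * H' ^ (1 / 2 : ℝ) * B ≤ w * (X ^ (5 / 4 : ℝ) * H ^ (1 / 2 : ℝ) * B) :=
    calc _ ≤ X ^ (5 / 4 : ℝ) * (w * H ^ (1 / 2 : ℝ)) * B := by gcongr
      _ = _ := by ring
  have e5 : X ^ (1 / 2 : ℝ) * B ^ 2 * H' * T' ≤ w * (X ^ (1 / 2 : ℝ) * B ^ 2 * H * T) :=
    calc X ^ (1 / 2 : ℝ) * B ^ 2 * H' * T' = X ^ (1 / 2 : ℝ) * B ^ 2 * (H' * T') := by ring
      _ ≤ X ^ (1 / 2 : ℝ) * B ^ 2 * (w * (H * T)) := by gcongr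
      _ = _ := by ring
  linarith

theorem cf_rad {g s t : O} (hg : g ≠ 0) (hs : s ≠ 0) (hp : Pow2 s) (ht : t ≠ 0) :
    Nr (rad (g * s * t)) ≤ Nr g * Real.sqrt (Nr s) * Nr (rad t) := by
  have h1 : rad (g * s * t) ∣ rad g * rad s * rad t :=
    (rad_mul_dvd (mul_ne_zero hg hs) ht).trans (mul_dvd_mul_right (rad_mul_dvd hg hs) _)
  have h2 := Nr_le_of_dvd (mul_ne_zero (mul_ne_zero (rad_ne_zero g) (rad_ne_zero s))
    (rad_ne_zero t)) h1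
  rw [Nr_mul, Nr_mul] at h2
  have h3 : Nr (rad g) ≤ Nr g := Nr_le_of_dvd hg (rad_dvd hg)
  have h4 : Nr (rad s) ≤ Real.sqrt (Nr s) := by
    refine Real.le_sqrt_of_sq_le ?_
    rw [← Nr_pow]
    exact Nr_le_of_dvd hs (hp.rad_sq_dvd hs)
  have := Nr_nonneg (rad t)
  have := Nr_nonneg (rad s)
  have := Nr_nonneg g
  refine h2.trans ?_
  gcongr

open Classical in
theorem cf_pow2 {ε : ℝ} (hε : 0 < ε) : ∃ C : ℝ, 0 ≤ C ∧ ∀ x H : ℝ, 1 ≤ x → H ≤ x →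
    ∑ s ∈ (box H).filter (fun y => Pow2 y), (Real.sqrt (Nr s))⁻¹ ≤ C * x ^ ε := by
  obtain ⟨C, hC⟩ := pow2_sum_le (σ := 1 / 2 + ε) (by linarith)
  refine ⟨|C|, abs_nonneg _, fun x H hx hH => ?_⟩
  have h1 := hC ((box H).filter (fun y => Pow2 y)) fun y hy =>
    ⟨(mem_box.1 (Finset.mem_filter.1 hy).1).1, (Finset.mem_filter.1 hy).2⟩
  have hxe : 0 ≤ x ^ ε := by positivity
  calc _ ≤ ∑ s ∈ (box H).filter (fun y => Pow2 y), Nr s ^ (-(1 / 2 + ε)) * x ^ ε := by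
        refine Finset.sum_le_sum fun s hs => ?_
        obtain ⟨s0, s1⟩ := mem_box.1 (Finset.mem_filter.1 hs).1
        have hN := Nr_pos s0
        have e : (Real.sqrt (Nr s))⁻¹ = Nr s ^ (-(1 / 2 + ε)) * Nr s ^ ε := by
          rw [← Real.rpow_add hN, Real.sqrt_eq_rpow, ← Real.rpow_neg hN.le]
          congr 1; ring
        rw [e]
        gcongr
        exact s1.trans hH
    _ ≤ C * x ^ ε := by rw [← Finset.sum_mul]; gcongr
    _ ≤ |C| * x ^ ε := by gcongr; exact le_abs_self C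

open Classical in
theorem cf_card {Q : O} (hQ : Q ≠ 0) {ε : ℝ} (hε : 0 < ε) : ∃ C : ℝ, 0 ≤ C ∧ ∀ (x H : ℝ) (t k : O),
    1 ≤ x → H ≤ x → Nr (rad t) ≤ x → Nr (rad k) ≤ x →
      (((box H).filter (fun y => rad y ∣ Q * rad t * rad k)).card : ℝ) ≤ C * x ^ (3 * ε) := by
  obtain ⟨C, hC⟩ := smooth_card_le hε
  have hN := Nr_nonneg Q
  refine ⟨|C| * Nr Q ^ ε, by positivity, fun x H t k hx hH h1 h2 => ?_⟩
  have hM : Q * rad t * rad k ≠ 0 := mul_ne_zero (mul_ne_zero hQ (rad_ne_zero t)) (rad_ne_zero k)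
  refine (hC _ hM x hx _ fun y hy => ⟨(mem_box.1 (Finset.mem_filter.1 hy).1).1,
    (Finset.mem_filter.1 hy).2, (mem_box.1 (Finset.mem_filter.1 hy).1).2.trans hH⟩).trans ?_
  have := Nr_nonneg (rad t)
  have := Nr_nonneg (rad k)
  have hx0 : 0 ≤ x := by linarith
  rw [Nr_mul, Nr_mul]
  calc C * (Nr Q * Nr (rad t) * Nr (rad k) * x) ^ ε ≤ |C| * (Nr Q * x * x * x) ^ ε := by
        gcongr; exact le_abs_self C
    _ = |C| * Nr Q ^ ε * x ^ (3 * ε) := by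
        rw [show Nr Q * x * x * x = Nr Q * x ^ (3 : ℝ) by norm_cast; ring,
          Real.mul_rpow hN (by positivity), ← Real.rpow_mul hx0]
        ring

theorem cf {Q : O} (hQ : Q ≠ 0) (h72 : (72 : O) ∣ Q) {A ε : ℝ} (hA : 0 < A) (hε : 0 < ε) :
    ∃ C : ℝ, 0 ≤ C ∧ ∀ (x H X B τ : ℝ) (ψ a : O → ℂ) (t k : O), 1 ≤ x → IsCh Q ψ → t ≠ 0 → k ≠ 0 →
      0 < H → H ≤ x → x⁻¹ ≤ X → X ≤ x → 1 ≤ B → B ≤ x → Nr (rad t) ≤ x → Nr (rad k) ≤ x → Dy Q B a →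
      NS H (CFull A ψ a B X τ (t * k ^ 6)) ≤
        C * x ^ ε * (1 + |τ|) ^ C * (∑ b ∈ box B, ‖a b‖ ^ 2) *
          (X * H + H ^ 2 * Nr (rad t) ^ 2 * Nr (rad k) * B + X ^ (5 / 4 : ℝ) * H ^ (1 / 2 : ℝ) * B +
            X ^ (1 / 2 : ℝ) * B ^ 2 * H * Nr (rad t)) := by
  classical
  have he : 0 < ε / 6 := by positivity
  obtain ⟨C₀, hC₀, H₀⟩ := cf_sqf hQ h72 hA he
  obtain ⟨C₁, hC₁, H₁⟩ := cf_pow2 he
  obtain ⟨C₂, hC₂, H₂⟩ := cf_card hQ he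
  refine ⟨C₀ + C₀ * C₁ * C₂, by positivity,
    fun x H X B τ ψ a t k hx hψ ht hk hH hHx hX hXx hB hBx htx hkx ha => ?_⟩
  have hx0 : 0 < x := by linarith
  have hX0 : 0 < X := (inv_pos.2 hx0).trans_le hX
  have hx2 : x ≤ x ^ 2 := by nlinarith
  have hT := Nr_nonneg (rad t)
  have hK := Nr_nonneg (rad k)
  have hB0 : 0 ≤ B := by linarith
  obtain ⟨Z, hZ⟩ : ∃ Z : ℝ, Z = X * H + H ^ 2 * Nr (rad t) ^ 2 * Nr (rad k) * B +
      X ^ (5 / 4 : ℝ) * H ^ (1 / 2 : ℝ) * B + X ^ (1 / 2 : ℝ) * B ^ 2 * H * Nr (rad t) := ⟨_, rfl⟩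
  have hZ0 : 0 ≤ Z := by rw [hZ]; positivity
  obtain ⟨L, hL⟩ : ∃ L : ℝ, L = ∑ b ∈ box B, ‖a b‖ ^ 2 := ⟨_, rfl⟩
  have hL0 : 0 ≤ L := by rw [hL]; positivity
  obtain ⟨E, hE⟩ : ∃ E : ℝ, E = C₀ * (x ^ 2) ^ (ε / 6) * (1 + |τ|) ^ C₀ * L := ⟨_, rfl⟩
  have hE0 : 0 ≤ E := by rw [hE]; positivity
  have key : ∀ h3 ∈ (box H).filter (fun y => rad y ∣ Q * rad t * rad k),
      ∀ s ∈ (box H).filter (fun y => Pow2 y),
        ∑ h1 ∈ (box (H / Nr (h3 * s))).filter (fun y => Adm (Q * (h3 * s * t) * k) y),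
          ‖CFull A ψ a B X τ (t * k ^ 6) (h1 * (h3 * s))‖ ^ 2 ≤
            E * Z * (Real.sqrt (Nr s))⁻¹ := by
    intro g hg s hs
    have g0 := (mem_box.1 (Finset.mem_filter.1 hg).1).1
    have s0 := (mem_box.1 (Finset.mem_filter.1 hs).1).1
    have sp := (Finset.mem_filter.1 hs).2
    have g1 := one_le_Nr g0
    have s1 := one_le_Nr s0
    have hN : 0 < Nr (g * s) := Nr_pos (mul_ne_zero g0 s0)
    have hr1 : 1 ≤ Real.sqrt (Nr s) := Real.one_le_sqrt.2 s1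
    have hr0 : 0 < Real.sqrt (Nr s) := by linarith
    have hr2 : Real.sqrt (Nr s) ^ 2 = Nr s := Real.sq_sqrt (by linarith)
    rcases lt_or_ge (H / Nr (g * s)) 1 with h1 | h1
    · rw [box_eq_empty h1, Finset.filter_empty, Finset.sum_empty]
      positivity
    have hgs : Nr g * Nr s ≤ H := by rwa [le_div_iff₀ hN, one_mul, Nr_mul] at h1
    have hrad := cf_rad g0 s0 sp ht
    have hrs : Real.sqrt (Nr s) ≤ Nr s := by nlinarith
    simp only [cf_shift]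
    refine (H₀ (x ^ 2) (H / Nr (g * s)) X B τ ψ a (g * s * t) k (hx.trans hx2) hψ
      (mul_ne_zero (mul_ne_zero g0 s0) ht) hk (div_pos hH hN)
      ((div_le_self hH.le (one_le_Nr (mul_ne_zero g0 s0))).trans (hHx.trans hx2))
      ((inv_anti₀ hx0 hx2).trans hX) (hXx.trans hx2) hB (hBx.trans hx2) ?_ (hkx.trans hx2)
      ha).trans ?_
    · calc Nr (rad (g * s * t)) ≤ Nr g * Nr s * Nr (rad t) := hrad.trans (by gcongr)
        _ ≤ x * x := by gcongr; exact hgs.trans hHx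
        _ = x ^ 2 := by ring
    rw [← hL, ← hE, mul_assoc E, mul_comm Z, hZ]
    refine mul_le_mul_of_nonneg_left (cf_bracket hX0.le hH.le (div_pos hH hN).le hB0 hT
      (Nr_nonneg _) hK (inv_pos.2 hr0).le (inv_le_one_of_one_le₀ hr1) ?_ ?_) hE0
    · rw [inv_pow, hr2, Nr_mul, inv_mul_eq_div]
      gcongr
      exact le_mul_of_one_le_left (by linarith) g1
    · calc H / Nr (g * s) * Nr (rad (g * s * t))
          ≤ H / Nr (g * s) * (Nr g * Real.sqrt (Nr s) * Nr (rad t)) := by gcongr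
        _ = (Real.sqrt (Nr s))⁻¹ * (H * Nr (rad t)) := by
          rw [Nr_mul]
          obtain ⟨r, hr⟩ : ∃ r, r = Real.sqrt (Nr s) := ⟨_, rfl⟩
          rw [← hr] at hr2 hr0 ⊢
          rw [← hr2]
          field_simp
  unfold NS
  refine (cf_split hQ h72 ht hk H (fun h => ‖CFull A ψ a B X τ (t * k ^ 6) h‖ ^ 2)
    fun h => by positivity).trans ?_
  refine (Finset.sum_le_card_nsmul _ _ (E * Z * (C₁ * x ^ (ε / 6))) fun g hg => ?_).trans ?_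
  · refine (Finset.sum_le_sum (key g hg)).trans ?_
    rw [← Finset.mul_sum]
    exact mul_le_mul_of_nonneg_left (H₁ x H hx hHx) (by positivity)
  rw [nsmul_eq_mul, ← hL, ← hZ]
  have e1 : x ^ ε = x ^ (3 * (ε / 6)) * (x ^ 2) ^ (ε / 6) * x ^ (ε / 6) := by
    rw [show (x ^ 2 : ℝ) = x ^ (2 : ℝ) by norm_cast, ← Real.rpow_mul hx0.le, ← Real.rpow_add hx0,
      ← Real.rpow_add hx0]
    congr 1; ring
  have e2 : (1 + |τ|) ^ C₀ ≤ (1 + |τ|) ^ (C₀ + C₀ * C₁ * C₂) :=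
    Real.rpow_le_rpow_of_exponent_le (by linarith [abs_nonneg τ])
      (le_add_of_nonneg_right (by positivity))
  calc _ ≤ C₂ * x ^ (3 * (ε / 6)) * (E * Z * (C₁ * x ^ (ε / 6))) :=
        mul_le_mul_of_nonneg_right (H₂ x H t k hx hHx htx hkx) (by positivity)
    _ = C₀ * C₁ * C₂ * x ^ ε * (1 + |τ|) ^ C₀ * L * Z := by rw [hE, e1]; ring
    _ ≤ (C₀ + C₀ * C₁ * C₂) * x ^ ε * (1 + |τ|) ^ (C₀ + C₀ * C₁ * C₂) * L * Z := by
        gcongr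
        exact le_add_of_nonneg_left hC₀

end Crest.Agent.R017

end
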