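import Crest.Agent.R017.CFBil1

/-! # Row 17: the bilinear bound with a divisibility condition -/

set_option autoImplicit false

noncomputable section

open scoped BigOperators ComplexConjugate
open Complex MeasureTheory

namespace Crest.Agent.R017

theorem cd_mult_zero {p e u : O} (k : ℕ) (hp : Prime p) (he : Prim e) (hpe : p ∣ e) (hu : IsUnit u) :
    multiplicity p (u * lam ^ k) = 0 := by
  rw [multiplicity_eq_zero]
  intro h
  rcases hp.dvd_or_dvd h with h | h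
  · exact hp.not_unit (isUnit_of_dvd_unit h hu)
  · have h1 : p ∣ lam := hp.dvd_of_dvd_pow h
    have h2 : Associated p lam := hp.associated_of_dvd prime_lam h1
    exact he.not_lam_dvd (h2.symm.dvd.trans hpe)

theorem cd_K_nonneg {K : ℝ} {T : O → ℂ} (hT : TS K T) : 0 ≤ K := by
  have h := hT.1 1 0 1 1 isUnit_one prim_one squarefree_one prim_one
  simp only [Nr_one, Real.sqrt_one, Nat.cast_zero, zero_div, Real.rpow_zero, mul_one] at h
  exact (norm_nonneg _).trans h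

open Classical in
theorem cd_TS {K : ℝ} {T : O → ℂ} (hT : TS K T) {e₁ e₂ : O} (h₁ : Prim e₁) (s₁ : Squarefree e₁)
    (h₂ : Prim e₂) :
    TS K (fun c => if IsCoprime c e₁ then T (e₁ * e₂ ^ 3 * c) / (Real.sqrt (Nr e₂) : ℂ) else 0) := by
  have hK := cd_K_nonneg hT
  have hN : 0 < Real.sqrt (Nr e₂) := Real.sqrt_pos.2 (Nr_pos h₂.ne_zero)
  refine ⟨fun u k n j hu hn sn hj => ?_, fun u k N hu hN' hno => ?_⟩
  · dsimp only
    split_ifs with hc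
    · have hc' : IsCoprime e₁ n := by
        have : IsCoprime n e₁ := by
          have h3 : n ∣ u * lam ^ k * (n * j ^ 3) := Dvd.intro (u * lam ^ k * j ^ 3) (by ring)
          exact hc.of_isCoprime_of_dvd_left h3
        exact this.symm
      have hsq : Squarefree (e₁ * n) := (squarefree_mul_iff).2 ⟨hc'.isRelPrime, s₁, sn⟩
      have h := hT.1 u k (e₁ * n) (e₂ * j) hu (h₁.mul hn) hsq (h₂.mul hj)
      have e : e₁ * e₂ ^ 3 * (u * lam ^ k * (n * j ^ 3)) = u * lam ^ k * (e₁ * n * (e₂ * j) ^ 3) := by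
        ring
      rw [e, norm_div, Complex.norm_real, Real.norm_of_nonneg hN.le, div_le_iff₀ hN]
      refine h.trans (le_of_eq ?_)
      rw [Nr_mul, Real.sqrt_mul (Nr_nonneg _)]
      ring
    · rw [norm_zero]
      positivity
  · dsimp only
    split_ifs with hc
    · have e : e₁ * e₂ ^ 3 * (u * lam ^ k * N) = u * lam ^ k * (e₁ * e₂ ^ 3 * N) := by ring
      rw [e, hT.2 u k _ hu ((h₁.mul (h₂.pow 3)).mul hN'), zero_div]
      rintro ⟨n, j, hn, sn, hj, hE⟩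
      apply hno
      have hc' : IsCoprime N e₁ :=
        hc.of_isCoprime_of_dvd_left (Dvd.intro_left (u * lam ^ k) rfl)
      obtain ⟨n', n0, pn, mn⟩ := a3_build hN'.ne_zero N (fun a _ => a % 3) (by simp)
      obtain ⟨j', j0, pj, mj⟩ := a3_build hN'.ne_zero N (fun a _ => a / 3) (by simp)
      refine ⟨n', j', pn hN', ?_, pj hN', ?_⟩
      · rw [a3_sqf n0]
        intro p hp
        rw [mn p hp]
        have q1 := (a3_coprime hN'.ne_zero).1 hc' p hp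
        have q2 := (a3_sqf hn.ne_zero).1 sn p hp
        have q3 := congrArg (multiplicity p) hE
        rw [a3_mul hp (mul_ne_zero h₁.ne_zero (h₂.pow 3).ne_zero) hN'.ne_zero,
          a3_mul hp h₁.ne_zero (h₂.pow 3).ne_zero, a3_pow hp h₂.ne_zero,
          a3_mul hp hn.ne_zero (hj.pow 3).ne_zero, a3_pow hp hj.ne_zero] at q3
        omega
      · refine a3_ext hN' ((pn hN').mul ((pj hN').pow 3)) fun p hp => ?_
        rw [a3_mul hp n0 (pow_ne_zero 3 j0), a3_pow hp j0, mn p hp, mj p hp]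
        omega
    · rfl

theorem cd_split {K : ℝ} {T : O → ℂ} (hT : TS K T) {e c : O} (he : Prim e) (se : Squarefree e)
    (hc : c ≠ 0) (hec : e ∣ c) (hTc : T c ≠ 0) :
    ∃ e₁ e₂ c' : O, Prim e₁ ∧ Prim e₂ ∧ e₁ * e₂ = e ∧ IsCoprime c' e₁ ∧ c = e₁ * e₂ ^ 3 * c' := by
  obtain ⟨u, k, N, hu, hN, hE⟩ := exists_decomp hc
  have hex : ∃ n j : O, Prim n ∧ Squarefree n ∧ Prim j ∧ N = n * j ^ 3 := by
    by_contra hno
    exact hTc (hE ▸ hT.2 u k N hu hN hno)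
  obtain ⟨n, j, hn, sn, hj, hNE⟩ := hex
  obtain ⟨e₁, z₁, p₁, m₁⟩ := a3_build he.ne_zero c (fun a b => if b = 1 then a else 0) (by simp)
  obtain ⟨e₂, z₂, p₂, m₂⟩ := a3_build he.ne_zero c (fun a b => if b = 1 then 0 else a) (by simp)
  have key : ∀ p : O, Prime p → multiplicity p e ≤ 1 ∧ multiplicity p e ≤ multiplicity p c ∧
      (multiplicity p e = 0 ∨ multiplicity p c ≤ 1 ∨ 3 ≤ multiplicity p c) := by
    intro p hp
    refine ⟨(a3_sqf he.ne_zero).1 se p hp, (a3_dvd_iff he.ne_zero hc).1 hec p hp, ?_⟩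
    by_cases h0 : multiplicity p e = 0
    · exact Or.inl h0
    · right
      have hpe : p ∣ e := by
        by_contra h
        exact h0 (multiplicity_eq_zero.2 h)
      have hul : u * lam ^ k ≠ 0 := mul_ne_zero hu.ne_zero (pow_ne_zero _ prime_lam.ne_zero)
      have q2 := (a3_sqf hn.ne_zero).1 sn p hp
      have q3 : multiplicity p c = multiplicity p n + 3 * multiplicity p j := by
        rw [hE, a3_mul hp hul hN.ne_zero, cd_mult_zero k hp he hpe hu, hNE,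
          a3_mul hp hn.ne_zero (hj.pow 3).ne_zero, a3_pow hp hj.ne_zero, zero_add]
      omega
  have hm : e₁ * e₂ ^ 3 ≠ 0 := mul_ne_zero z₁ (pow_ne_zero _ z₂)
  have hdvd : e₁ * e₂ ^ 3 ∣ c := by
    rw [a3_dvd_iff hm hc]
    intro p hp
    rw [a3_mul hp z₁ (pow_ne_zero _ z₂), a3_pow hp z₂, m₁ p hp, m₂ p hp]
    have := key p hp
    split_ifs <;> omega
  obtain ⟨c', hc'⟩ := hdvd
  have c0 : c' ≠ 0 := by
    rintro rfl
    exact hc (by rw [hc', mul_zero])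
  refine ⟨e₁, e₂, c', p₁ he, p₂ he, ?_, ?_, hc'⟩
  · refine a3_ext ((p₁ he).mul (p₂ he)) he fun p hp => ?_
    rw [a3_mul hp z₁ z₂, m₁ p hp, m₂ p hp]
    split_ifs <;> omega
  · rw [a3_coprime c0]
    intro p hp
    have q := congrArg (multiplicity p) hc'
    rw [a3_mul hp hm c0, a3_mul hp z₁ (pow_ne_zero _ z₂), a3_pow hp z₂, m₁ p hp, m₂ p hp] at q
    rw [m₁ p hp]
    have := key p hp
    split_ifs at q ⊢ <;> omega

theorem cd_uniq {e e₁ e₂ f₁ f₂ c d : O} (se : Squarefree e) (h₁ : Prim e₁) (h₂ : Prim e₂)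
    (g₁ : Prim f₁) (g₂ : Prim f₂) (hc : c ≠ 0) (hd : d ≠ 0) (he : e₁ * e₂ = e) (hf : f₁ * f₂ = e)
    (cc : IsCoprime c e₁) (cd : IsCoprime d f₁) (h : e₁ * e₂ ^ 3 * c = f₁ * f₂ ^ 3 * d) :
    e₁ = f₁ ∧ e₂ = f₂ ∧ c = d := by
  have e0 : e ≠ 0 := se.ne_zero
  have a1 : e₁ = f₁ := by
    refine a3_ext h₁ g₁ fun p hp => ?_
    have q1 := (a3_sqf e0).1 se p hp
    have q2 := congrArg (multiplicity p) he
    have q3 := congrArg (multiplicity p) hf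
    have q4 := congrArg (multiplicity p) h
    have q5 := (a3_coprime hc).1 cc p hp
    have q6 := (a3_coprime hd).1 cd p hp
    rw [a3_mul hp h₁.ne_zero h₂.ne_zero] at q2
    rw [a3_mul hp g₁.ne_zero g₂.ne_zero] at q3
    rw [a3_mul hp (h₁.mul (h₂.pow 3)).ne_zero hc, a3_mul hp h₁.ne_zero (h₂.pow 3).ne_zero,
      a3_pow hp h₂.ne_zero, a3_mul hp (g₁.mul (g₂.pow 3)).ne_zero hd,
      a3_mul hp g₁.ne_zero (g₂.pow 3).ne_zero, a3_pow hp g₂.ne_zero] at q4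
    omega
  subst a1
  have a2 : e₂ = f₂ := mul_left_cancel₀ h₁.ne_zero (he.trans hf.symm)
  subst a2
  exact ⟨rfl, rfl, mul_left_cancel₀ (h₁.mul (h₂.pow 3)).ne_zero h⟩

open Classical in
/-- The splittings `e = e₁ e₂`. -/
def cd_S (e : O) : Finset (O × O) := (pdiv e ×ˢ pdiv e).filter (fun s => s.1 * s.2 = e)

theorem cd_mem_S {e : O} (he : Prim e) {s : O × O} :
    s ∈ cd_S e ↔ Prim s.1 ∧ Prim s.2 ∧ s.1 * s.2 = e := by
  simp only [cd_S, Finset.mem_filter, Finset.mem_product, mem_pdiv he.ne_zero]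
  constructor
  · rintro ⟨⟨⟨a, _⟩, b, _⟩, c⟩
    exact ⟨a, b, c⟩
  · rintro ⟨a, b, c⟩
    exact ⟨⟨⟨a, Dvd.intro _ c⟩, b, Dvd.intro_left _ c⟩, c⟩

theorem cd_card_S (e : O) : ((cd_S e).card : ℝ) ≤ ((pdiv e).card : ℝ) ^ 2 := by
  have : (cd_S e).card ≤ (pdiv e).card ^ 2 := by
    unfold cd_S
    refine (Finset.card_filter_le _ _).trans (le_of_eq ?_)
    rw [Finset.card_product, sq]
  exact_mod_cast this

open Classical in
theorem cd_sum {K : ℝ} {T : O → ℂ} (hT : TS K T) {e : O} (he : Prim e) (se : Squarefree e)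
    (Y : ℝ) (F : O → ℂ) :
    ∑ c ∈ (box Y).filter (fun c => e ∣ c), T c * F c =
      ∑ s ∈ cd_S e, ∑ c ∈ box (Y / (Nr s.1 * Nr s.2 ^ 3)),
        if IsCoprime c s.1 then T (s.1 * s.2 ^ 3 * c) * F (s.1 * s.2 ^ 3 * c) else 0 := by
  simp_rw [← Finset.sum_filter]
  rw [Finset.sum_sigma']
  symm
  refine Finset.sum_of_injOn (fun x => x.1.1 * x.1.2 ^ 3 * x.2) ?_ ?_ ?_ ?_
  · rintro ⟨⟨e₁, e₂⟩, c⟩ hx ⟨⟨f₁, f₂⟩, d⟩ hy h
    simp only [Finset.coe_sigma, Set.mem_sigma_iff, Finset.mem_coe, cd_mem_S he, Finset.mem_filter,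
      mem_box] at hx hy h
    obtain ⟨a, b, c⟩ := cd_uniq se hx.1.1 hx.1.2.1 hy.1.1 hy.1.2.1 hx.2.1.1 hy.2.1.1 hx.1.2.2 hy.1.2.2
      hx.2.2 hy.2.2 h
    subst a b c
    rfl
  · rintro ⟨⟨e₁, e₂⟩, c⟩ hx
    simp only [Finset.coe_sigma, Set.mem_sigma_iff, Finset.mem_coe, cd_mem_S he, Finset.mem_filter,
      mem_box] at hx ⊢
    obtain ⟨⟨h₁, h₂, hE⟩, ⟨c0, hc⟩, _⟩ := hx
    have hpos : 0 < Nr e₁ * Nr e₂ ^ 3 := mul_pos (Nr_pos h₁.ne_zero) (pow_pos (Nr_pos h₂.ne_zero) 3)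
    refine ⟨⟨mul_ne_zero (h₁.mul (h₂.pow 3)).ne_zero c0, ?_⟩, ?_⟩
    · rw [Nr_mul, Nr_mul, Nr_pow, mul_comm]
      exact (le_div_iff₀ hpos).1 hc
    · rw [← hE]
      exact Dvd.intro (e₂ ^ 2 * c) (by ring)
  · intro c hc hno
    rw [Finset.mem_filter, mem_box] at hc
    by_contra hne
    have hTc : T c ≠ 0 := left_ne_zero_of_mul hne
    obtain ⟨e₁, e₂, c', h₁, h₂, hE, hcop, hc'⟩ := cd_split hT he se hc.1.1 hc.2 hTc
    apply hno
    refine ⟨⟨(e₁, e₂), c'⟩, ?_, hc'.symm⟩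
    simp only [Finset.coe_sigma, Set.mem_sigma_iff, Finset.mem_coe, cd_mem_S he, Finset.mem_filter,
      mem_box]
    have hpos : 0 < Nr e₁ * Nr e₂ ^ 3 := mul_pos (Nr_pos h₁.ne_zero) (pow_pos (Nr_pos h₂.ne_zero) 3)
    refine ⟨⟨h₁, h₂, hE⟩, ⟨?_, ?_⟩, hcop⟩
    · rintro rfl
      exact hc.1.1 (by rw [hc', mul_zero])
    · rw [le_div_iff₀ hpos]
      have := hc.1.2
      rw [hc', Nr_mul, Nr_mul, Nr_pow, mul_comm] at this
      exact this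
  · intro x _
    rfl

theorem cd_bracket {H Y B x y : ℝ} (hH : 0 ≤ H) (hY : 0 ≤ Y) (hB : 0 ≤ B) (hx : 1 ≤ x) (hy : 1 ≤ y) :
    x * y * y * (H * (Y / (x * y ^ 3)) + (Y / (x * y ^ 3)) ^ 2 +
        H * (Y / (x * y ^ 3)) ^ (3 / 4 : ℝ) * B ^ (5 / 4 : ℝ) +
        (Y / (x * y ^ 3)) ^ (3 / 2 : ℝ) * B ^ (3 / 2 : ℝ)) ≤
      H * Y + Y ^ 2 + H * Y ^ (3 / 4 : ℝ) * B ^ (5 / 4 : ℝ) * (x * y) ^ (1 / 4 : ℝ) +
        Y ^ (3 / 2 : ℝ) * B ^ (3 / 2 : ℝ) := by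
  set m := x * y ^ 3 with hm
  have hy3 : 1 ≤ y ^ 3 := one_le_pow₀ hy
  have hm1 : 1 ≤ m := one_le_mul_of_one_le_of_one_le hx hy3
  have hm0 : 0 < m := lt_of_lt_of_le one_pos hm1
  have hx0 : 0 < x := lt_of_lt_of_le one_pos hx
  have hy0 : 0 < y := lt_of_lt_of_le one_pos hy
  have hw : x * y * y ≤ m := by
    rw [hm]
    have : x * y * y * 1 ≤ x * y * y * y := mul_le_mul_of_nonneg_left hy (by positivity)
    nlinarith
  have r1 : x * y * y / m ≤ 1 := (div_le_one hm0).2 hw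
  have r2 : x * y * y / m ^ 2 ≤ 1 := (div_le_one (by positivity)).2 (by nlinarith)
  have r4 : x * y * y / m ^ (3 / 2 : ℝ) ≤ 1 := by
    refine (div_le_one (by positivity)).2 (hw.trans ?_)
    calc m = m ^ (1 : ℝ) := (Real.rpow_one m).symm
      _ ≤ m ^ (3 / 2 : ℝ) := Real.rpow_le_rpow_of_exponent_le hm1 (by norm_num)
  have r3 : x * y * y / m ^ (3 / 4 : ℝ) ≤ (x * y) ^ (1 / 4 : ℝ) := by
    rw [div_le_iff₀ (by positivity)]
    refine le_of_pow_le_pow_left₀ (n := 4) (by norm_num) (by positivity) ?_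
    have e1 : ((x * y) ^ (1 / 4 : ℝ)) ^ 4 = x * y := by
      rw [← Real.rpow_natCast, ← Real.rpow_mul (by positivity)]
      norm_num
    have e2 : (m ^ (3 / 4 : ℝ)) ^ 4 = m ^ 3 := by
      rw [← Real.rpow_natCast, ← Real.rpow_mul (by positivity), ← Real.rpow_natCast]
      norm_num
    rw [mul_pow ((x * y) ^ (1 / 4 : ℝ)), e1, e2, hm]
    have h2 : 1 ≤ y ^ 2 := one_le_pow₀ hy
    have : (x * y * y) ^ 4 * 1 ≤ (x * y * y) ^ 4 * y ^ 2 := mul_le_mul_of_nonneg_left h2 (by positivity)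
    calc (x * y * y) ^ 4 = (x * y * y) ^ 4 * 1 := (mul_one _).symm
      _ ≤ (x * y * y) ^ 4 * y ^ 2 := this
      _ = x * y * (x * y ^ 3) ^ 3 := by ring
  rw [Real.div_rpow hY hm0.le, Real.div_rpow hY hm0.le]
  have t1 : x * y * y * (H * (Y / m)) ≤ H * Y := by
    calc x * y * y * (H * (Y / m)) = (H * Y) * (x * y * y / m) := by ring
      _ ≤ (H * Y) * 1 := mul_le_mul_of_nonneg_left r1 (by positivity)
      _ = _ := mul_one _
  have t2 : x * y * y * (Y / m) ^ 2 ≤ Y ^ 2 := by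
    calc x * y * y * (Y / m) ^ 2 = Y ^ 2 * (x * y * y / m ^ 2) := by ring
      _ ≤ Y ^ 2 * 1 := mul_le_mul_of_nonneg_left r2 (by positivity)
      _ = _ := mul_one _
  have t3 : x * y * y * (H * (Y ^ (3 / 4 : ℝ) / m ^ (3 / 4 : ℝ)) * B ^ (5 / 4 : ℝ)) ≤
      H * Y ^ (3 / 4 : ℝ) * B ^ (5 / 4 : ℝ) * (x * y) ^ (1 / 4 : ℝ) := by
    calc _ = H * Y ^ (3 / 4 : ℝ) * B ^ (5 / 4 : ℝ) * (x * y * y / m ^ (3 / 4 : ℝ)) := by ring
      _ ≤ _ := mul_le_mul_of_nonneg_left r3 (by positivity)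
  have t4 : x * y * y * (Y ^ (3 / 2 : ℝ) / m ^ (3 / 2 : ℝ) * B ^ (3 / 2 : ℝ)) ≤
      Y ^ (3 / 2 : ℝ) * B ^ (3 / 2 : ℝ) := by
    calc _ = Y ^ (3 / 2 : ℝ) * B ^ (3 / 2 : ℝ) * (x * y * y / m ^ (3 / 2 : ℝ)) := by ring
      _ ≤ Y ^ (3 / 2 : ℝ) * B ^ (3 / 2 : ℝ) * 1 := mul_le_mul_of_nonneg_left r4 (by positivity)
      _ = _ := mul_one _
  rw [mul_add, mul_add, mul_add]
  linarith

open Classical in
theorem cd_piece {ε : ℝ} (hε : 0 < ε) : ∃ C : ℝ, 0 ≤ C ∧ ∀ (H Y B K : ℝ) (T a : O → ℂ) (e₁ e₂ : O),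
    1 ≤ H → 1 ≤ Y → 1 ≤ B → TS K T → Prim e₁ → Squarefree e₁ → Prim e₂ →
    Nr (e₁ * e₂) * ∑ h ∈ sbox H, ‖∑ c ∈ box (Y / (Nr e₁ * Nr e₂ ^ 3)),
        if IsCoprime c e₁ then T (e₁ * e₂ ^ 3 * c) *
          (rho h (e₁ * e₂ ^ 3 * c) * ∑ b ∈ sbox B, a b * kap b (e₁ * e₂ ^ 3 * c)) else 0‖ ^ 2 ≤
      C * (H * Y * B) ^ ε * K ^ 2 * (∑ b ∈ sbox B, ‖a b‖ ^ 2) *
        (H * Y + Y ^ 2 + H * Y ^ (3 / 4 : ℝ) * B ^ (5 / 4 : ℝ) * Nr (e₁ * e₂) ^ (1 / 4 : ℝ) +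
          Y ^ (3 / 2 : ℝ) * B ^ (3 / 2 : ℝ)) := by
  obtain ⟨C, hC, hb⟩ := cf_bil_one hε
  refine ⟨C, hC, fun H Y B K T a e₁ e₂ hH hY hB hT h₁ s₁ h₂ => ?_⟩
  have hx := one_le_Nr h₁.ne_zero
  have hy := one_le_Nr h₂.ne_zero
  have hH0 : 0 ≤ H := le_trans zero_le_one hH
  have hY0 : 0 ≤ Y := le_trans zero_le_one hY
  have hB0 : 0 ≤ B := le_trans zero_le_one hB
  have hA0 : 0 ≤ ∑ b ∈ sbox B, ‖a b‖ ^ 2 := Finset.sum_nonneg fun _ _ => by positivity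
  have hN0 := Nr_nonneg (e₁ * e₂)
  set Y' := Y / (Nr e₁ * Nr e₂ ^ 3) with hY'
  by_cases hY1 : Y' < 1
  · rw [box_eq_empty hY1]
    simp only [Finset.sum_empty, norm_zero, ne_eq, OfNat.ofNat_ne_zero, not_false_eq_true, zero_pow,
      Finset.sum_const_zero, mul_zero]
    positivity
  push Not at hY1
  have hm1 : 1 ≤ Nr e₁ * Nr e₂ ^ 3 := one_le_mul_of_one_le_of_one_le hx (one_le_pow₀ hy)
  have hYY : Y' ≤ Y := div_le_self hY0 hm1
  set m := e₁ * e₂ ^ 3 with hm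
  set T' : O → ℂ := fun c => if IsCoprime c e₁ then T (m * c) / (Real.sqrt (Nr e₂) : ℂ) else 0 with hT'
  set a' : O → ℂ := fun b => a b * kap b m with ha'
  have hb' := hb H Y' B K T' a' hH hY1 hB (cd_TS hT h₁ s₁ h₂)
  have hs0 : 0 < Real.sqrt (Nr e₂) := Real.sqrt_pos.2 (Nr_pos h₂.ne_zero)
  have hsC : (Real.sqrt (Nr e₂) : ℂ) ≠ 0 := by exact_mod_cast hs0.ne'
  have hterm : ∀ h : O, (∑ c ∈ box Y', if IsCoprime c e₁ then T (m * c) *
      (rho h (m * c) * ∑ b ∈ sbox B, a b * kap b (m * c)) else 0) =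
      (Real.sqrt (Nr e₂) : ℂ) * rho h m *
        ∑ c ∈ box Y', T' c * rho h c * ∑ b ∈ sbox B, a' b * kap b c := by
    intro h
    rw [Finset.mul_sum]
    refine Finset.sum_congr rfl fun c _ => ?_
    simp only [hT', ha']
    split_ifs with hc
    · simp_rw [rho_mul_right h m c, kap_mul_right _ m c, ← mul_assoc]
      field_simp
    · simp
  have hle : ∑ h ∈ sbox H, ‖∑ c ∈ box Y', if IsCoprime c e₁ then T (m * c) *
      (rho h (m * c) * ∑ b ∈ sbox B, a b * kap b (m * c)) else 0‖ ^ 2 ≤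
      Nr e₂ * ∑ h ∈ sbox H, ‖∑ c ∈ box Y', T' c * rho h c * ∑ b ∈ sbox B, a' b * kap b c‖ ^ 2 := by
    rw [Finset.mul_sum]
    refine Finset.sum_le_sum fun h _ => ?_
    rw [hterm h, norm_mul, norm_mul, Complex.norm_real, Real.norm_of_nonneg hs0.le, mul_pow, mul_pow,
      Real.sq_sqrt (Nr_nonneg _)]
    have : ‖rho h m‖ ^ 2 ≤ 1 := pow_le_one₀ (norm_nonneg _) (norm_rho_le _ _)
    refine mul_le_mul_of_nonneg_right ?_ (by positivity)
    calc Nr e₂ * ‖rho h m‖ ^ 2 ≤ Nr e₂ * 1 := mul_le_mul_of_nonneg_left this (Nr_nonneg _)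
      _ = _ := mul_one _
  have hA : ∑ b ∈ sbox B, ‖a' b‖ ^ 2 ≤ ∑ b ∈ sbox B, ‖a b‖ ^ 2 := by
    refine Finset.sum_le_sum fun b _ => ?_
    refine pow_le_pow_left₀ (norm_nonneg _) ?_ 2
    simp only [ha', norm_mul]
    exact mul_le_of_le_one_right (norm_nonneg _) (norm_kap_le _ _)
  have hP : (H * Y' * B) ^ ε ≤ (H * Y * B) ^ ε := by
    have hY'0 : 0 ≤ Y' := le_trans zero_le_one hY1
    refine Real.rpow_le_rpow (by positivity) ?_ hε.le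
    gcongr
  have hbr := cd_bracket hH0 hY0 hB0 hx hy
  rw [← hY'] at hbr
  have hY'0 : 0 ≤ Y' := le_trans zero_le_one hY1
  have hA'0 : 0 ≤ ∑ b ∈ sbox B, ‖a' b‖ ^ 2 := Finset.sum_nonneg fun _ _ => by positivity
  set R' := H * Y' + Y' ^ 2 + H * Y' ^ (3 / 4 : ℝ) * B ^ (5 / 4 : ℝ) +
    Y' ^ (3 / 2 : ℝ) * B ^ (3 / 2 : ℝ) with hR'
  have hR0 : 0 ≤ R' := by positivity
  rw [Nr_mul]
  calc Nr e₁ * Nr e₂ * _ ≤ Nr e₁ * Nr e₂ * (Nr e₂ * (C * (H * Y' * B) ^ ε * K ^ 2 *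
        (∑ b ∈ sbox B, ‖a' b‖ ^ 2) * R')) :=
        mul_le_mul_of_nonneg_left (hle.trans (mul_le_mul_of_nonneg_left hb' (Nr_nonneg _)))
          (by positivity)
    _ = C * (H * Y' * B) ^ ε * K ^ 2 * (∑ b ∈ sbox B, ‖a' b‖ ^ 2) * (Nr e₁ * Nr e₂ * Nr e₂ * R') := by
        ring
    _ ≤ _ := by gcongr

open Classical in
theorem cf_bil {ε : ℝ} (hε : 0 < ε) : ∃ C : ℝ, 0 ≤ C ∧ ∀ (H Y B K : ℝ) (T a : O → ℂ) (e : O),
    1 ≤ H → 1 ≤ Y → 1 ≤ B → TS K T → Prim e → Squarefree e →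
    Nr e * ∑ h ∈ sbox H, ‖∑ c ∈ (box Y).filter (fun c => e ∣ c),
        T c * rho h c * ∑ b ∈ sbox B, a b * kap b c‖ ^ 2 ≤
      C * (H * Y * B) ^ ε * K ^ 2 * (∑ b ∈ sbox B, ‖a b‖ ^ 2) *
        (H * Y + Y ^ 2 + H * Y ^ (3 / 4 : ℝ) * B ^ (5 / 4 : ℝ) * Nr e ^ (1 / 4 : ℝ) +
          Y ^ (3 / 2 : ℝ) * B ^ (3 / 2 : ℝ)) := by
  obtain ⟨C, hC, hb⟩ := cd_piece (half_pos hε)
  obtain ⟨D, hD⟩ := card_pdiv_le (show 0 < ε / 8 by positivity)
  refine ⟨C * D ^ 4, by positivity, fun H Y B K T a e hH hY hB hT he se => ?_⟩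
  have hH0 : 0 ≤ H := le_trans zero_le_one hH
  have hY0 : 0 ≤ Y := le_trans zero_le_one hY
  have hB0 : 0 ≤ B := le_trans zero_le_one hB
  have hA0 : 0 ≤ ∑ b ∈ sbox B, ‖a b‖ ^ 2 := Finset.sum_nonneg fun _ _ => by positivity
  have hN0 := Nr_nonneg e
  set R := H * Y + Y ^ 2 + H * Y ^ (3 / 4 : ℝ) * B ^ (5 / 4 : ℝ) * Nr e ^ (1 / 4 : ℝ) +
          Y ^ (3 / 2 : ℝ) * B ^ (3 / 2 : ℝ) with hR
  have hR0 : 0 ≤ R := by positivity
  by_cases hYe : Y < Nr e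
  · have hemp : (box Y).filter (fun c => e ∣ c) = ∅ := by
      rw [Finset.filter_eq_empty_iff]
      intro c hc hec
      rw [mem_box] at hc
      have := Nr_le_of_dvd hc.1 hec
      linarith [hc.2]
    rw [hemp]
    simp only [Finset.sum_empty, norm_zero, ne_eq, OfNat.ofNat_ne_zero, not_false_eq_true, zero_pow,
      Finset.sum_const_zero, mul_zero]
    positivity
  push Not at hYe
  set X : O × O → O → ℂ := fun s h => ∑ c ∈ box (Y / (Nr s.1 * Nr s.2 ^ 3)),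
    if IsCoprime c s.1 then T (s.1 * s.2 ^ 3 * c) *
      (rho h (s.1 * s.2 ^ 3 * c) * ∑ b ∈ sbox B, a b * kap b (s.1 * s.2 ^ 3 * c)) else 0 with hX
  have hsum : ∀ h : O, ∑ c ∈ (box Y).filter (fun c => e ∣ c),
      T c * rho h c * ∑ b ∈ sbox B, a b * kap b c = ∑ s ∈ cd_S e, X s h := by
    intro h
    simp_rw [mul_assoc]
    exact cd_sum hT he se Y (fun c => rho h c * ∑ b ∈ sbox B, a b * kap b c)
  have hCS : ∀ h : O, ‖∑ s ∈ cd_S e, X s h‖ ^ 2 ≤ (cd_S e).card * ∑ s ∈ cd_S e, ‖X s h‖ ^ 2 := by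
    intro h
    exact (pow_le_pow_left₀ (norm_nonneg _) (norm_sum_le _ _) 2).trans sq_sum_le_card_mul_sum_sq
  set W := C * (H * Y * B) ^ (ε / 2) * K ^ 2 * (∑ b ∈ sbox B, ‖a b‖ ^ 2) * R with hW
  have hW0 : 0 ≤ W := by positivity
  have hpiece : ∀ s ∈ cd_S e, Nr e * ∑ h ∈ sbox H, ‖X s h‖ ^ 2 ≤ W := by
    intro s hs
    obtain ⟨h₁, h₂, hE⟩ := (cd_mem_S he).1 hs
    have s₁ : Squarefree s.1 := Squarefree.squarefree_of_dvd (Dvd.intro _ hE) se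
    have := hb H Y B K T a s.1 s.2 hH hY hB hT h₁ s₁ h₂
    rw [hE] at this
    exact this
  have hcard : ((cd_S e).card : ℝ) ^ 2 ≤ D ^ 4 * (H * Y * B) ^ (ε / 2) := by
    have h1 := hD e he.ne_zero
    have h2 : Nr e ≤ H * Y * B := by
      calc Nr e ≤ 1 * Y * 1 := by linarith
        _ ≤ H * Y * B := by gcongr
    calc ((cd_S e).card : ℝ) ^ 2 ≤ (((pdiv e).card : ℝ) ^ 2) ^ 2 :=
          pow_le_pow_left₀ (by positivity) (cd_card_S e) 2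
      _ = ((pdiv e).card : ℝ) ^ 4 := by ring
      _ ≤ (D * Nr e ^ (ε / 8)) ^ 4 := pow_le_pow_left₀ (by positivity) h1 4
      _ = D ^ 4 * Nr e ^ (ε / 2) := by
          rw [mul_pow, ← Real.rpow_natCast (Nr e ^ (ε / 8)), ← Real.rpow_mul hN0]
          congr 2
          push_cast
          ring
      _ ≤ _ := mul_le_mul_of_nonneg_left (Real.rpow_le_rpow hN0 h2 (half_pos hε).le) (by positivity)
  have hpos : 0 < H * Y * B := by positivity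
  calc Nr e * ∑ h ∈ sbox H, ‖∑ c ∈ (box Y).filter (fun c => e ∣ c),
        T c * rho h c * ∑ b ∈ sbox B, a b * kap b c‖ ^ 2
      ≤ Nr e * ∑ h ∈ sbox H, ((cd_S e).card * ∑ s ∈ cd_S e, ‖X s h‖ ^ 2) := by
        refine mul_le_mul_of_nonneg_left (Finset.sum_le_sum fun h _ => ?_) hN0
        rw [hsum h]
        exact hCS h
    _ = (cd_S e).card * ∑ s ∈ cd_S e, Nr e * ∑ h ∈ sbox H, ‖X s h‖ ^ 2 := by
        rw [← Finset.mul_sum, Finset.sum_comm, ← Finset.mul_sum]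
        ring
    _ ≤ (cd_S e).card * ((cd_S e).card * W) := by
        refine mul_le_mul_of_nonneg_left ?_ (by positivity)
        have := Finset.sum_le_card_nsmul _ _ _ hpiece
        rwa [nsmul_eq_mul] at this
    _ = ((cd_S e).card : ℝ) ^ 2 * W := by ring
    _ ≤ D ^ 4 * (H * Y * B) ^ (ε / 2) * W := mul_le_mul_of_nonneg_right hcard hW0
    _ = _ := by
        have : (H * Y * B) ^ ε = (H * Y * B) ^ (ε / 2) * (H * Y * B) ^ (ε / 2) := by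
          rw [← Real.rpow_add hpos]
          congr 1
          ring
        rw [this, hW]
        ring

end Crest.Agent.R017

end
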