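import Crest.Agent.R017.CFDefs
import Crest.Agent.R017.QLS

/-! # Row 17: a bilinear bound with theta-like coefficients -/

set_option autoImplicit false

noncomputable section

open scoped BigOperators ComplexConjugate
open Complex MeasureTheory

namespace Crest.Agent.R017

/-- the inner sum -/
def cb_A (a : O → ℂ) (B : ℝ) (c : O) : ℂ := ∑ b ∈ sbox B, a b * kap b c

/-- the mass of the coefficients -/
def cb_al (a : O → ℂ) (B : ℝ) : ℝ := ∑ b ∈ sbox B, ‖a b‖ ^ 2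

theorem cb_al_nonneg (a : O → ℂ) (B : ℝ) : 0 ≤ cb_al a B :=
  Finset.sum_nonneg fun _ _ => sq_nonneg _

theorem cb_A_mul (a : O → ℂ) (B : ℝ) (f c : O) :
    cb_A a B (f * c) = cb_A (fun b => a b * kap b f) B c :=
  Finset.sum_congr rfl fun b _ => by rw [kap_mul_right, mul_assoc]

theorem cb_al_le (a : O → ℂ) (B : ℝ) (f : O) : cb_al (fun b => a b * kap b f) B ≤ cb_al a B := by
  refine Finset.sum_le_sum fun b _ => pow_le_pow_left₀ (norm_nonneg _) ?_ 2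
  rw [norm_mul]
  exact mul_le_of_le_one_right (norm_nonneg _) (norm_kap_le _ _)

theorem cb_sbox_subset (B : ℝ) : sbox B ⊆ box B := by
  classical
  unfold sbox
  convert Finset.filter_subset _ _

theorem cb_A_le (a : O → ℂ) {B : ℝ} (hB : 0 ≤ B) (c : O) :
    ‖cb_A a B c‖ ^ 2 ≤ 25 * B * cb_al a B := by
  refine (pow_le_pow_left₀ (norm_nonneg _) (norm_sum_le _ _) 2).trans
    (sq_sum_le_card_mul_sum_sq.trans ?_)
  refine mul_le_mul ?_ (cb_al_le a B c) (Finset.sum_nonneg fun _ _ => sq_nonneg _) (by positivity)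
  exact le_trans (by exact_mod_cast Finset.card_le_card (cb_sbox_subset B)) (card_box_le hB)

theorem cb_fib {ι γ : Type} [DecidableEq γ] (R : Finset O) (P : Finset ι) (g : ι → γ)
    (T : Finset γ) (hg : ∀ p ∈ P, g p ∈ T) (w : γ → ℝ) (hw : ∀ i ∈ T, 0 < w i) (x : O → ι → ℂ) :
    ∑ h ∈ R, ‖∑ p ∈ P, x h p‖ ^ 2 ≤ (∑ i ∈ T, (w i)⁻¹) *
      ∑ i ∈ T, w i * ∑ h ∈ R, ‖∑ p ∈ P.filter (fun p => g p = i), x h p‖ ^ 2 := by
  simp only [Finset.mul_sum R]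
  rw [Finset.sum_comm, Finset.mul_sum]
  refine Finset.sum_le_sum fun h _ => ?_
  rw [← Finset.sum_fiberwise_of_maps_to hg]
  refine (pow_le_pow_left₀ (norm_nonneg _) (norm_sum_le _ _) 2).trans ?_
  refine Finset.sum_sq_le_sum_mul_sum_of_sq_le_mul _ (fun i hi => inv_nonneg.2 (hw i hi).le)
    (fun i hi => mul_nonneg (hw i hi).le (sq_nonneg _)) fun i hi => le_of_eq ?_
  have := hw i hi
  field_simp

theorem cb_fib1 {ι γ : Type} [DecidableEq γ] (R : Finset O) (P : Finset ι) (g : ι → γ)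
    (T : Finset γ) (hg : ∀ p ∈ P, g p ∈ T) (x : O → ι → ℂ) {X : ℝ} (hX0 : 0 ≤ X)
    (hX : ∀ i, (P.filter (fun p => g p = i)).Nonempty →
      ∑ h ∈ R, ‖∑ p ∈ P.filter (fun p => g p = i), x h p‖ ^ 2 ≤ X) :
    ∑ h ∈ R, ‖∑ p ∈ P, x h p‖ ^ 2 ≤ (T.card : ℝ) ^ 2 * X := by
  refine (cb_fib R P g T hg (fun _ => 1) (fun _ _ => one_pos) x).trans ?_
  simp only [inv_one, one_mul, Finset.sum_const, nsmul_eq_mul, mul_one]
  rw [sq, mul_assoc, ← nsmul_eq_mul T.card X]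
  refine mul_le_mul_of_nonneg_left (Finset.sum_le_card_nsmul _ _ _ fun i _ => ?_) (Nat.cast_nonneg _)
  rcases (P.filter (fun p => g p = i)).eq_empty_or_nonempty with h | h
  · simpa [h] using hX0
  · exact hX i h

theorem cb_log {δ : ℝ} (hδ : 0 < δ) : ∃ C : ℝ, 0 ≤ C ∧ ∀ Y : ℝ, 1 ≤ Y →
    ∃ L : ℕ, (L : ℝ) ≤ C * Y ^ δ ∧ ∀ i : ℕ, 2 ^ i ≤ Y → i < L := by
  have h2 : 0 < Real.log 2 := Real.log_pos one_lt_two
  refine ⟨1 / (δ * Real.log 2) + 1, by positivity, fun Y hY =>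
    ⟨⌊Y ^ δ / (δ * Real.log 2)⌋₊ + 1, ?_, fun i hi => Nat.lt_succ_of_le (Nat.le_floor ?_)⟩⟩
  · have := Nat.floor_le (show 0 ≤ Y ^ δ / (δ * Real.log 2) by positivity)
    have := Real.one_le_rpow hY hδ.le
    push_cast
    rw [add_mul, one_div, inv_mul_eq_div]
    linarith
  · have h1 := Real.log_le_log (by positivity) hi
    rw [Real.log_pow] at h1
    rw [mul_comm, ← div_div, div_right_comm, le_div_iff₀ h2]
    exact h1.trans (Real.log_le_rpow_div (by linarith) hδ)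

theorem cb_one {δ : ℝ} (hδ : 0 < δ) : ∃ C : ℝ, 0 ≤ C ∧ ∀ (H Z B κ : ℝ) (P : Finset (O × O))
    (t : O × O → ℂ) (a : O → ℂ) (j : O), 1 ≤ H → 1 ≤ Z → 1 ≤ B → 0 ≤ κ →
    (∀ p ∈ P, p.1 ∈ sbox Z ∧ p.2 = j ∧ ‖t p‖ ^ 2 ≤ κ) →
    ∑ h ∈ sbox H, ‖∑ p ∈ P, t p * rho h (p.1 * p.2 ^ 3) * cb_A a B (p.1 * p.2 ^ 3)‖ ^ 2 ≤
      C * (H * Z * B) ^ δ * κ * cb_al a B * ((H + Z) * (Z + B ^ 2)) := by
  classical
  obtain ⟨C₁, h₁, H₁⟩ := qls hδ
  obtain ⟨C₂, h₂, H₂⟩ := ls_kap hδ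
  refine ⟨C₁ * C₂, by positivity, fun H Z B κ P t a j hH hZ hB hκ hP => ?_⟩
  set a' : O → ℂ := fun b => a b * kap b (j ^ 3) with ha'
  set β : O → ℂ := fun n => if (n, j) ∈ P then t (n, j) * cb_A a' B n else 0 with hβ
  have h1 : ∀ h, ∑ p ∈ P, t p * rho h (p.1 * p.2 ^ 3) * cb_A a B (p.1 * p.2 ^ 3) =
      (∑ n ∈ sbox Z, β n * rho h n) * rho h (j ^ 3) := by
    intro h
    simp only [hβ, ite_mul, zero_mul, Finset.sum_mul]
    rw [← Finset.sum_filter]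
    refine Finset.sum_nbij' Prod.fst (fun n => (n, j)) (fun p hp => ?_) (fun n hn => ?_)
      (fun p hp => ?_) (fun n _ => rfl) fun p hp => ?_
    · obtain ⟨h1, rfl, -⟩ := hP p hp
      exact Finset.mem_filter.2 ⟨h1, hp⟩
    · exact (Finset.mem_filter.1 hn).2
    · obtain ⟨-, rfl, -⟩ := hP p hp
      rfl
    · obtain ⟨-, rfl, -⟩ := hP p hp
      rw [rho_mul_right, mul_comm p.1, cb_A_mul]
      ring
  have h2 : ∑ n ∈ sbox Z, ‖β n‖ ^ 2 ≤ κ * (C₂ * B ^ δ * (Z + B ^ 2) * cb_al a B) := by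
    calc _ ≤ ∑ n ∈ sbox Z, κ * ‖cb_A a' B n‖ ^ 2 := by
          refine Finset.sum_le_sum fun n _ => ?_
          simp only [hβ]
          split_ifs with h
          · rw [norm_mul, mul_pow]
            exact mul_le_mul_of_nonneg_right (hP _ h).2.2 (sq_nonneg _)
          · simpa using by positivity
      _ ≤ κ * ∑ n ∈ box Z, ‖cb_A a' B n‖ ^ 2 := by
          rw [← Finset.mul_sum]
          exact mul_le_mul_of_nonneg_left (Finset.sum_le_sum_of_subset_of_nonneg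
            (cb_sbox_subset Z) fun _ _ _ => sq_nonneg _) hκ
      _ ≤ _ := mul_le_mul_of_nonneg_left ((H₂ Z B a' hZ hB).trans
          (mul_le_mul_of_nonneg_left (cb_al_le a B _) (by positivity))) hκ
  calc _ ≤ ∑ h ∈ sbox H, ‖∑ n ∈ sbox Z, β n * rho h n‖ ^ 2 := by
        refine Finset.sum_le_sum fun h _ => pow_le_pow_left₀ (norm_nonneg _) ?_ 2
        rw [h1, norm_mul]
        exact mul_le_of_le_one_right (norm_nonneg _) (norm_rho_le _ _)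
    _ ≤ C₁ * (H * Z) ^ δ * (H + Z) * (κ * (C₂ * B ^ δ * (Z + B ^ 2) * cb_al a B)) :=
        (H₁ H Z β hH hZ).trans (mul_le_mul_of_nonneg_left h2 (by positivity))
    _ = _ := by rw [Real.mul_rpow (x := H * Z) (by positivity) (by positivity)]; ring

theorem cb_two {δ : ℝ} (hδ : 0 < δ) : ∃ C : ℝ, 0 ≤ C ∧ ∀ (H N B κ : ℝ) (P : Finset (O × O))
    (t : O × O → ℂ) (a : O → ℂ), 1 ≤ H → 1 ≤ N → 0 ≤ B → 0 ≤ κ →
    (∀ p ∈ P, p.1 * p.2 ∈ box N ∧ Prim p.2 ∧ ‖t p‖ ^ 2 ≤ κ) →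
    ∑ h ∈ sbox H, ‖∑ p ∈ P, t p * rho h (p.1 * p.2 ^ 3) * cb_A a B (p.1 * p.2 ^ 3)‖ ^ 2 ≤
      C * ((H * N) ^ δ) ^ 3 * κ * cb_al a B * ((H + N) * N * B) := by
  classical
  obtain ⟨C₁, h₁, H₁⟩ := qls_bdd hδ
  obtain ⟨C₂, H₂⟩ := card_pdiv_le hδ
  refine ⟨C₁ * C₂ ^ 2 * 25, by positivity, fun H N B κ P t a hH hN hB hκ hP => ?_⟩
  have hα := cb_al_nonneg a B
  set β : O → ℂ := fun m => ∑ p ∈ P.filter (fun p => p.1 * p.2 = m),
    t p * cb_A a B (p.1 * p.2 ^ 3) with hβ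
  have h1 : ∀ h, ∑ p ∈ P, t p * rho h (p.1 * p.2 ^ 3) * cb_A a B (p.1 * p.2 ^ 3) =
      ∑ m ∈ box N, β m * rho h m := by
    intro h
    rw [← Finset.sum_fiberwise_of_maps_to (g := fun p : O × O => p.1 * p.2) fun p hp => (hP p hp).1]
    refine Finset.sum_congr rfl fun m _ => ?_
    rw [hβ, Finset.sum_mul]
    refine Finset.sum_congr rfl fun p hp => ?_
    rw [← (Finset.mem_filter.1 hp).2, rho_mul_right, rho_mul_right, rho_pow_right _ _ three_ne_zero]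
    rcases rho_cases h p.2 with h' | h' | h' <;> rw [h'] <;> ring
  have h2 : ∀ m ∈ box N, ‖β m‖ ≤ |C₂| * (H * N) ^ δ * Real.sqrt (κ * (25 * B * cb_al a B)) := by
    intro m hm
    obtain ⟨hm0, hmN⟩ := mem_box.1 hm
    refine (norm_sum_le _ _).trans ((Finset.sum_le_card_nsmul _ _
      (Real.sqrt (κ * (25 * B * cb_al a B))) fun p hp => ?_).trans ?_)
    · refine Real.le_sqrt_of_sq_le ?_
      rw [norm_mul, mul_pow]
      exact mul_le_mul (hP p (Finset.mem_filter.1 hp).1).2.2 (cb_A_le a hB _) (sq_nonneg _) hκ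
    · rw [nsmul_eq_mul]
      refine mul_le_mul_of_nonneg_right (le_trans ?_ ((H₂ m hm0).trans ?_)) (Real.sqrt_nonneg _)
      · refine Nat.cast_le.2 (Finset.card_le_card_of_injOn Prod.snd (fun p hp => ?_)
          fun p hp q hq hpq => ?_)
        · obtain ⟨hp, h⟩ := Finset.mem_filter.1 hp
          exact (mem_pdiv hm0).2 ⟨(hP p hp).2.1, Dvd.intro_left _ h⟩
        · obtain ⟨-, h⟩ := Finset.mem_filter.1 hp
          obtain ⟨hq, h'⟩ := Finset.mem_filter.1 hq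
          refine Prod.ext (mul_right_cancel₀ (hP q hq).2.1.ne_zero ?_) hpq
          rw [h', ← h, hpq]
      · have := Nr_nonneg m
        gcongr
        · exact le_abs_self _
        · nlinarith
  simp only [h1]
  refine (H₁ H N _ β hH hN h2).trans (le_of_eq ?_)
  rw [mul_pow, mul_pow, sq_abs, Real.sq_sqrt (by positivity)]
  ring

theorem cb_le_of_sq {a b c : ℝ} (h : a ^ 2 = b) (h' : b ≤ c ^ 2) (hc : 0 ≤ c) :
    a ≤ c := abs_le_of_sq_le_sq' (h ▸ h') hc |>.2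

theorem cb_large {δ : ℝ} (hδ : 0 < δ) : ∃ C : ℝ, 0 ≤ C ∧ ∀ (H Y B M κ : ℝ) (P : Finset (O × O))
    (t : O × O → ℂ) (a : O → ℂ), 1 ≤ H → 1 ≤ Y → 1 ≤ B → 0 < M → M ^ 4 * B = Y → 0 ≤ κ →
    (∀ p ∈ P, Prim p.1 ∧ Squarefree p.1 ∧ Prim p.2 ∧ Nr p.1 * Nr p.2 ^ 3 ≤ Y ∧
      ‖t p‖ ^ 2 ≤ κ * Nr p.2) → (∀ p ∈ P, M < Nr p.2) →
    ∑ h ∈ sbox H, ‖∑ p ∈ P, t p * rho h (p.1 * p.2 ^ 3) * cb_A a B (p.1 * p.2 ^ 3)‖ ^ 2 ≤
      C * ((H * Y * B) ^ δ) ^ 5 * κ * cb_al a B *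
        (H * Y + Y ^ 2 + H * (M ^ 3 * B ^ 2) + Y * B ^ 2 * M ^ 2) := by
  classical
  obtain ⟨C₂, h₂, H₂⟩ := cb_two hδ
  obtain ⟨C₄, h₄, H₄⟩ := cb_log hδ
  refine ⟨C₄ ^ 2 * (C₂ * (2 ^ δ) ^ 3 * 4), by positivity,
    fun H Y B M κ P t a hH hY hB hM hMY hκ hP hj => ?_⟩
  have hα := cb_al_nonneg a B
  set α := cb_al a B
  set Φ := H * Y + Y ^ 2 + H * (M ^ 3 * B ^ 2) + Y * B ^ 2 * M ^ 2 with hΦ
  have hΦ0 : 0 ≤ Φ := by positivity
  have hHY : Y ≤ H * Y := le_mul_of_one_le_left (by linarith) hH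
  have hW : H * Y ≤ H * Y * B := le_mul_of_one_le_right (by positivity) hB
  set E := (H * Y * B) ^ δ with hE
  have hE1 : 1 ≤ E := Real.one_le_rpow (by linarith) hδ.le
  have hYE : Y ^ δ ≤ E := Real.rpow_le_rpow (by linarith) (by linarith) hδ.le
  obtain ⟨L, hL, hL'⟩ := H₄ Y hY
  refine (cb_fib1 _ _ (fun p : O × O => Nat.log 2 (nm (p.1 * p.2))) (Finset.range L)
    (fun p hp => ?_) _ (X := C₂ * (2 ^ δ * E) ^ 3 * κ * α * (4 * Φ)) (by positivity) ?_).trans ?_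
  · obtain ⟨h1, -, h2, h3, -⟩ := hP p hp
    refine Finset.mem_range.2 (hL' _ ?_)
    have h4 : ((2 : ℝ) ^ Nat.log 2 (nm (p.1 * p.2))) ≤ Nr (p.1 * p.2) := by
      unfold Nr
      exact_mod_cast Nat.pow_log_le_self 2 (nm_eq_zero.not.2 (h1.mul h2).ne_zero)
    refine h4.trans (le_trans ?_ h3)
    rw [Nr_mul]
    exact mul_le_mul_of_nonneg_left (le_self_pow₀ (one_le_Nr h2.ne_zero) three_ne_zero)
      (Nr_nonneg _)
  · intro i ⟨p₀, hp₀⟩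
    set x : ℝ := 2 ^ i with hx
    have hx1 : 1 ≤ x := one_le_pow₀ one_le_two
    have key : ∀ p ∈ P.filter (fun p : O × O => Nat.log 2 (nm (p.1 * p.2)) = i),
        p.1 * p.2 ∈ box (2 * x) ∧ M < Nr p.2 ∧ x * Nr p.2 ^ 2 ≤ Y := by
      intro p hp
      obtain ⟨hp, hi⟩ := Finset.mem_filter.1 hp
      obtain ⟨h1, -, h2, h3, -⟩ := hP p hp
      have h4 : x ≤ Nr (p.1 * p.2) := by
        rw [hx, ← hi, Nr]
        exact_mod_cast Nat.pow_log_le_self 2 (nm_eq_zero.not.2 (h1.mul h2).ne_zero)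
      have h5 : Nr (p.1 * p.2) ≤ 2 * x := by
        rw [hx, ← hi, Nr, ← pow_succ']
        exact_mod_cast (Nat.lt_pow_succ_log_self one_lt_two _).le
      refine ⟨mem_box.2 ⟨(h1.mul h2).ne_zero, h5⟩, hj p hp, le_trans ?_ h3⟩
      rw [Nr_mul] at h4
      calc _ ≤ Nr p.1 * Nr p.2 * Nr p.2 ^ 2 := by gcongr
        _ = _ := by ring
    obtain ⟨-, k1, k2⟩ := key p₀ hp₀
    have k3 : 1 ≤ Nr p₀.2 := one_le_Nr
      (hP p₀ (Finset.mem_filter.1 hp₀).1).2.2.1.ne_zero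
    have hxY : x ≤ Y := le_trans (le_mul_of_one_le_right (by linarith) (one_le_pow₀ k3)) k2
    have hxM : x ≤ M ^ 2 * B := by
      have : x * M ^ 2 ≤ M ^ 2 * B * M ^ 2 := by
        calc x * M ^ 2 ≤ x * Nr p₀.2 ^ 2 := by gcongr
          _ ≤ Y := k2
          _ = _ := by rw [← hMY]; ring
      exact le_of_mul_le_mul_right this (by positivity)
    set q := Real.sqrt (Y / x) with hq
    have hq0 : 0 ≤ q := Real.sqrt_nonneg _
    have hq2 : (x * q) ^ 2 = x * Y := by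
      rw [mul_pow, hq, Real.sq_sqrt (by positivity)]
      field_simp
    have hq3 : x * q ≤ Y := cb_le_of_sq hq2 (by rw [sq]; gcongr) (by linarith)
    have hq4 : x * q ≤ M ^ 3 * B := cb_le_of_sq hq2 (by
      calc x * Y ≤ M ^ 2 * B * Y := by gcongr
        _ = _ := by rw [← hMY]; ring) (by positivity)
    refine (H₂ H (2 * x) B (κ * q) _ t a hH (by linarith) (by linarith) (by positivity)
      fun p hp => ?_).trans ?_
    · obtain ⟨h1, -, h2⟩ := key p hp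
      obtain ⟨-, -, h3, -, h4⟩ := hP p (Finset.mem_filter.1 hp).1
      refine ⟨h1, h3, h4.trans (mul_le_mul_of_nonneg_left (Real.le_sqrt_of_sq_le ?_) hκ)⟩
      rw [le_div_iff₀ (by linarith), mul_comm]
      exact h2
    · have h1 : (H * (2 * x)) ^ δ ≤ 2 ^ δ * E := by
        rw [hE, ← Real.mul_rpow (by norm_num) (by positivity)]
        have : H * x ≤ H * Y := by gcongr
        exact Real.rpow_le_rpow (by positivity) (by linarith) hδ.le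
      have h2 : q * ((H + 2 * x) * (2 * x) * B) ≤ 4 * Φ := by
        have e1 : H * (x * q) * B ≤ H * (M ^ 3 * B) * B := by gcongr
        have e2 : x * (x * q) * B ≤ M ^ 2 * B * Y * B := by gcongr
        have e3 : 0 ≤ H * Y + Y ^ 2 := by positivity
        have e4 : 0 ≤ H * (M ^ 3 * B) * B := by positivity
        rw [hΦ]
        linarith
      calc _ = C₂ * ((H * (2 * x)) ^ δ) ^ 3 * κ * α * (q * ((H + 2 * x) * (2 * x) * B)) := by ring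
        _ ≤ _ := by gcongr
  · rw [Finset.card_range]
    calc _ ≤ (C₄ * E) ^ 2 * (C₂ * (2 ^ δ * E) ^ 3 * κ * α * (4 * Φ)) := by
          gcongr
          exact hL.trans (by gcongr)
      _ = _ := by ring

theorem cb_small {δ : ℝ} (hδ : 0 < δ) : ∃ C : ℝ, 0 ≤ C ∧ ∀ (H Y B M κ : ℝ) (P : Finset (O × O))
    (t : O × O → ℂ) (a : O → ℂ), 1 ≤ H → 1 ≤ Y → 1 ≤ B → 0 < M → M ^ 4 * B = Y → 0 ≤ κ →
    (∀ p ∈ P, Prim p.1 ∧ Squarefree p.1 ∧ Prim p.2 ∧ Nr p.1 * Nr p.2 ^ 3 ≤ Y ∧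
      ‖t p‖ ^ 2 ≤ κ * Nr p.2) → (∀ p ∈ P, Nr p.2 ≤ M) → 1 ≤ M →
    ∑ h ∈ sbox H, ‖∑ p ∈ P, t p * rho h (p.1 * p.2 ^ 3) * cb_A a B (p.1 * p.2 ^ 3)‖ ^ 2 ≤
      C * ((H * Y * B) ^ δ) ^ 5 * κ * cb_al a B *
        (H * Y + Y ^ 2 + H * (M ^ 3 * B ^ 2) + Y * B ^ 2 * M ^ 2) := by
  classical
  obtain ⟨C₁, h₁, H₁⟩ := cb_one hδ
  obtain ⟨C₃, h₃, H₃⟩ := q_sum_inv hδ
  refine ⟨C₁ * C₃ * (C₃ + 25), by positivity,
    fun H Y B M κ P t a hH hY hB hM hMY hκ hP hj hM1 => ?_⟩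
  have hα := cb_al_nonneg a B
  set α := cb_al a B
  set Φ := H * Y + Y ^ 2 + H * (M ^ 3 * B ^ 2) + Y * B ^ 2 * M ^ 2 with hΦ
  have hΦ0 : 0 ≤ Φ := by positivity
  have hHY : Y ≤ H * Y := le_mul_of_one_le_left (by linarith) hH
  have hW : H * Y ≤ H * Y * B := le_mul_of_one_le_right (by positivity) hB
  set E := (H * Y * B) ^ δ with hE
  have hE1 : 1 ≤ E := Real.one_le_rpow (by linarith) hδ.le
  have hYE : Y ^ δ ≤ E := Real.rpow_le_rpow (by linarith) (by linarith) hδ.le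
  have hE35 : E ^ 3 ≤ E ^ 5 := pow_le_pow_right₀ hE1 (by norm_num)
  have hMB : M ^ 4 ≤ Y := hMY ▸ le_mul_of_one_le_right (by positivity) hB
  have hΛ : ∑ j ∈ box M, (Nr j)⁻¹ ≤ C₃ * E := (H₃ M hM1).trans (by
    gcongr
    exact Real.rpow_le_rpow hM.le (by linarith [le_self_pow₀ hM1 four_ne_zero]) hδ.le)
  refine (cb_fib _ _ Prod.snd (box M) (fun p hp => ?_) Nr
    (fun j hj => Nr_pos (mem_box.1 hj).1) _).trans ?_
  · exact mem_box.2 ⟨(hP p hp).2.2.1.ne_zero, hj p hp⟩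
  have h1 : ∀ j ∈ box M, Nr j * ∑ h ∈ sbox H, ‖∑ p ∈ P.filter (fun p => p.2 = j),
      t p * rho h (p.1 * p.2 ^ 3) * cb_A a B (p.1 * p.2 ^ 3)‖ ^ 2 ≤
      C₁ * E * κ * α * (Φ * (Nr j)⁻¹ + H * B ^ 2 * M ^ 2) := by
    intro j hj
    obtain ⟨hj0, hjM⟩ := mem_box.1 hj
    have hj1 := one_le_Nr hj0
    set y := Nr j
    have hy3 : 1 ≤ y ^ 3 := one_le_pow₀ hj1
    have hZY : Y / y ^ 3 ≤ Y := div_le_self (by linarith) hy3
    have hZ : 1 ≤ Y / y ^ 3 := (one_le_div (by positivity)).2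
      ((pow_le_pow_left₀ (by linarith) hjM 3).trans
        ((pow_le_pow_right₀ hM1 (by norm_num)).trans hMB))
    refine (mul_le_mul_of_nonneg_left (H₁ H (Y / y ^ 3) B (κ * y) _ t a j hH hZ hB
      (by positivity) fun p hp => ?_) (by linarith)).trans ?_
    · obtain ⟨hp', rfl⟩ := Finset.mem_filter.1 hp
      obtain ⟨h1, h2, -, h3, h4⟩ := hP p hp'
      exact ⟨q_mem_sbox.2 ⟨h1, h2, (le_div_iff₀ (by positivity)).2 h3⟩, rfl, h4⟩
    · have h2 : y ^ 2 * ((H + Y / y ^ 3) * (Y / y ^ 3 + B ^ 2)) ≤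
          Φ * y⁻¹ + H * B ^ 2 * M ^ 2 := by
        have e0 : y ^ 2 * ((H + Y / y ^ 3) * (Y / y ^ 3 + B ^ 2)) =
            (H * Y + Y * (Y / y ^ 3) + Y * B ^ 2 * 1) * y⁻¹ + H * B ^ 2 * y ^ 2 := by
          field_simp
          ring
        rw [e0, hΦ]
        have e1 : Y * (Y / y ^ 3) ≤ Y ^ 2 := by rw [sq]; gcongr
        have e2 : Y * B ^ 2 * 1 ≤ Y * B ^ 2 * M ^ 2 := by gcongr; exact one_le_pow₀ hM1
        have e3 : 0 ≤ H * (M ^ 3 * B ^ 2) := by positivity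
        exact add_le_add (mul_le_mul_of_nonneg_right (by linarith) (by positivity)) (by gcongr)
      calc _ = C₁ * (H * (Y / y ^ 3) * B) ^ δ * κ * α *
            (y ^ 2 * ((H + Y / y ^ 3) * (Y / y ^ 3 + B ^ 2))) := by ring
        _ ≤ _ := by rw [hE]; gcongr
  have h2 : ∑ j ∈ box M, (Φ * (Nr j)⁻¹ + H * B ^ 2 * M ^ 2) ≤ (C₃ + 25) * E * Φ := by
    rw [Finset.sum_add_distrib, ← Finset.mul_sum, Finset.sum_const, nsmul_eq_mul]
    have e1 : Φ * ∑ j ∈ box M, (Nr j)⁻¹ ≤ Φ * (C₃ * E) := by gcongr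
    have e2 : ((box M).card : ℝ) * (H * B ^ 2 * M ^ 2) ≤ 25 * M * (H * B ^ 2 * M ^ 2) := by
      gcongr
      exact card_box_le hM.le
    have e3 : M * (H * B ^ 2 * M ^ 2) ≤ Φ := by
      have : 0 ≤ H * Y + Y ^ 2 + Y * B ^ 2 * M ^ 2 := by positivity
      rw [hΦ]
      linarith
    have e4 : Φ ≤ E * Φ := le_mul_of_one_le_left hΦ0 hE1
    linarith
  calc _ ≤ C₃ * E * (C₁ * E * κ * α * ((C₃ + 25) * E * Φ)) := by
        refine mul_le_mul hΛ ((Finset.sum_le_sum h1).trans ?_) (Finset.sum_nonneg fun j _ =>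
          mul_nonneg (Nr_nonneg _) (Finset.sum_nonneg fun _ _ => sq_nonneg _)) (by positivity)
        rw [← Finset.mul_sum]
        gcongr
    _ = C₁ * C₃ * (C₃ + 25) * E ^ 3 * κ * α * Φ := by ring
    _ ≤ _ := by gcongr

theorem cb_core {δ : ℝ} (hδ : 0 < δ) : ∃ C : ℝ, 0 ≤ C ∧ ∀ (H Y B M κ : ℝ) (P : Finset (O × O))
    (t : O × O → ℂ) (a : O → ℂ), 1 ≤ H → 1 ≤ Y → 1 ≤ B → 0 < M → M ^ 4 * B = Y → 0 ≤ κ →
    (∀ p ∈ P, Prim p.1 ∧ Squarefree p.1 ∧ Prim p.2 ∧ Nr p.1 * Nr p.2 ^ 3 ≤ Y ∧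
      ‖t p‖ ^ 2 ≤ κ * Nr p.2) →
    ∑ h ∈ sbox H, ‖∑ p ∈ P, t p * rho h (p.1 * p.2 ^ 3) * cb_A a B (p.1 * p.2 ^ 3)‖ ^ 2 ≤
      C * ((H * Y * B) ^ δ) ^ 5 * κ * cb_al a B *
        (H * Y + Y ^ 2 + H * (M ^ 3 * B ^ 2) + Y * B ^ 2 * M ^ 2) := by
  classical
  obtain ⟨C₁, h₁, H₁⟩ := cb_large hδ
  obtain ⟨C₂, h₂, H₂⟩ := cb_small hδ
  refine ⟨4 * (C₁ + C₂), by positivity, fun H Y B M κ P t a hH hY hB hM hMY hκ hP => ?_⟩
  have hα := cb_al_nonneg a B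
  refine (cb_fib1 _ P (fun p => decide (Nr p.2 ≤ M)) Finset.univ (fun _ _ => Finset.mem_univ _) _
    (X := (C₁ + C₂) * ((H * Y * B) ^ δ) ^ 5 * κ * cb_al a B *
      (H * Y + Y ^ 2 + H * (M ^ 3 * B ^ 2) + Y * B ^ 2 * M ^ 2))
    (by positivity) ?_).trans (le_of_eq (by simp; ring))
  rintro (_ | _) ⟨p₀, hp₀⟩
  · refine (H₁ H Y B M κ _ t a hH hY hB hM hMY hκ (fun p hp => hP p (Finset.mem_filter.1 hp).1)
      fun p hp => by simpa using (Finset.mem_filter.1 hp).2).trans ?_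
    gcongr
    linarith
  · refine (H₂ H Y B M κ _ t a hH hY hB hM hMY hκ (fun p hp => hP p (Finset.mem_filter.1 hp).1)
      (fun p hp => by simpa using (Finset.mem_filter.1 hp).2)
      ((one_le_Nr (hP p₀ (Finset.mem_filter.1 hp₀).1).2.2.1.ne_zero).trans
        (by simpa using (Finset.mem_filter.1 hp₀).2))).trans ?_
    gcongr
    linarith

theorem cb_shrink {g Y s : ℝ} (hg : 1 ≤ g) (hY : 0 ≤ Y) (hs : 1 / 3 ≤ s) :
    g ^ (1 / 3 : ℝ) * (Y / g) ^ s ≤ Y ^ s := by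
  rw [Real.div_rpow hY (by linarith), ← mul_div_assoc, div_le_iff₀ (by positivity), mul_comm]
  gcongr

theorem cb_root {Y B : ℝ} (hY : 0 < Y) (hB : 0 < B) : ∃ M : ℝ, 0 < M ∧ M ^ 4 * B = Y ∧
    M ^ 3 * B ^ 2 = Y ^ (3 / 4 : ℝ) * B ^ (5 / 4 : ℝ) ∧
    Y * B ^ 2 * M ^ 2 = Y ^ (3 / 2 : ℝ) * B ^ (3 / 2 : ℝ) := by
  obtain ⟨y, hy, rfl⟩ : ∃ y : ℝ, 0 < y ∧ Y = y ^ 4 :=
    ⟨Y ^ (4⁻¹ : ℝ), by positivity, (Real.rpow_inv_natCast_pow hY.le four_ne_zero).symm⟩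
  obtain ⟨b, hb, rfl⟩ : ∃ b : ℝ, 0 < b ∧ B = b ^ 4 :=
    ⟨B ^ (4⁻¹ : ℝ), by positivity, (Real.rpow_inv_natCast_pow hB.le four_ne_zero).symm⟩
  have h : ∀ (z s : ℝ) (k : ℕ), 0 < z → 4 * s = k → (z ^ 4) ^ s = z ^ k := by
    intro z s k hz hk
    rw [← Real.rpow_natCast, ← Real.rpow_mul hz.le, ← Real.rpow_natCast, ← hk]
    norm_num
  rw [h y _ 3 hy (by norm_num), h b _ 5 hb (by norm_num), h y _ 6 hy (by norm_num),
    h b _ 6 hb (by norm_num)]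
  refine ⟨y / b, by positivity, ?_, ?_, ?_⟩ <;> field_simp

theorem cb_piece {δ : ℝ} (hδ : 0 < δ) : ∃ C : ℝ, 0 ≤ C ∧ ∀ (H Y B K : ℝ) (T a : O → ℂ) (u : O)
    (k : ℕ) (S : Finset O) (pp : O → O × O), 1 ≤ H → 1 ≤ B → TS K T → IsUnit u → 3 ^ k ≤ Y →
    (∀ c ∈ S, Prim (pp c).1 ∧ Squarefree (pp c).1 ∧ Prim (pp c).2 ∧
      c = u * lam ^ k * ((pp c).1 * (pp c).2 ^ 3) ∧ 3 ^ k * (Nr (pp c).1 * Nr (pp c).2 ^ 3) ≤ Y) →
    ∑ h ∈ sbox H, ‖∑ c ∈ S, T c * rho h c * cb_A a B c‖ ^ 2 ≤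
      C * ((H * Y * B) ^ δ) ^ 5 * K ^ 2 * cb_al a B * (H * Y + Y ^ 2 +
        H * Y ^ (3 / 4 : ℝ) * B ^ (5 / 4 : ℝ) + Y ^ (3 / 2 : ℝ) * B ^ (3 / 2 : ℝ)) := by
  obtain ⟨C₁, h₁, H₁⟩ := cb_core hδ
  refine ⟨C₁, h₁, fun H Y B K T a u k S pp hH hB hT hu hY hS => ?_⟩
  set g : ℝ := 3 ^ k with hg
  have hg1 : 1 ≤ g := one_le_pow₀ (by norm_num)
  have hY' : 1 ≤ Y / g := (one_le_div (by positivity)).2 hY
  obtain ⟨M, hM, hM1, hM2, hM3⟩ := cb_root (Y := Y / g) (B := B) (by positivity) (by positivity)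
  have hc : ∀ c ∈ S, u * lam ^ k * ((pp c).1 * (pp c).2 ^ 3) = c := fun c hc =>
    (hS c hc).2.2.2.1.symm
  have h1 := H₁ H (Y / g) B M (K ^ 2 * g ^ (1 / 3 : ℝ)) (S.image pp)
    (fun p => T (u * lam ^ k * (p.1 * p.2 ^ 3))) (fun b => a b * kap b (u * lam ^ k)) hH hY' hB hM
    hM1 (by positivity) fun p hp => ?_
  · refine le_trans (Finset.sum_le_sum fun h _ => pow_le_pow_left₀ (norm_nonneg _) ?_ 2)
      (h1.trans ?_)
    · rw [Finset.sum_image fun c hc' c' hc'' h => by rw [← hc c hc', ← hc c' hc'', h]]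
      refine le_trans (le_of_eq ?_) (mul_le_of_le_one_left (norm_nonneg _)
        (norm_rho_le h (u * lam ^ k)))
      rw [← norm_mul, Finset.mul_sum]
      refine congrArg _ (Finset.sum_congr rfl fun c hc' => ?_)
      have e := rho_mul_right h (u * lam ^ k) ((pp c).1 * (pp c).2 ^ 3)
      rw [← cb_A_mul, hc c hc'] at *
      rw [e]
      ring
    · have h2 : g ^ (1 / 3 : ℝ) * (H * (Y / g) + (Y / g) ^ 2 + H * (M ^ 3 * B ^ 2) +
          Y / g * B ^ 2 * M ^ 2) ≤ H * Y + Y ^ 2 +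
          H * Y ^ (3 / 4 : ℝ) * B ^ (5 / 4 : ℝ) + Y ^ (3 / 2 : ℝ) * B ^ (3 / 2 : ℝ) := by
        have e1 := cb_shrink hg1 (Y := Y) (s := 1) (by linarith) (by norm_num)
        have e2 := cb_shrink hg1 (Y := Y) (s := 2) (by linarith) (by norm_num)
        have e3 := cb_shrink hg1 (Y := Y) (s := 3 / 4) (by linarith) (by norm_num)
        have e4 := cb_shrink hg1 (Y := Y) (s := 3 / 2) (by linarith) (by norm_num)
        simp only [Real.rpow_one, Real.rpow_two] at e1 e2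
        rw [hM2, hM3]
        have e1' := mul_le_mul_of_nonneg_left e1 (show 0 ≤ H by linarith)
        have e3' := mul_le_mul_of_nonneg_left e3 (show 0 ≤ H * B ^ (5 / 4 : ℝ) by positivity)
        have e4' := mul_le_mul_of_nonneg_left e4 (show 0 ≤ B ^ (3 / 2 : ℝ) by positivity)
        linarith
      have h3 := cb_al_le a B (u * lam ^ k)
      have h4 := cb_al_nonneg (fun b => a b * kap b (u * lam ^ k)) B
      have h5 : Y / g ≤ Y := div_le_self (by linarith) hg1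
      have h6 : 0 ≤ Y := by linarith
      calc _ = C₁ * ((H * (Y / g) * B) ^ δ) ^ 5 * K ^ 2 *
            cb_al (fun b => a b * kap b (u * lam ^ k)) B * (g ^ (1 / 3 : ℝ) *
            (H * (Y / g) + (Y / g) ^ 2 + H * (M ^ 3 * B ^ 2) + Y / g * B ^ 2 * M ^ 2)) := by ring
        _ ≤ _ := by gcongr; exact mul_nonneg (by positivity) (cb_al_nonneg _ _)
  · obtain ⟨c, hc', rfl⟩ := Finset.mem_image.1 hp
    obtain ⟨h1, h2, h3, -, h4⟩ := hS c hc'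
    refine ⟨h1, h2, h3, (le_div_iff₀' (by positivity)).2 h4,
      (pow_le_pow_left₀ (norm_nonneg _) (hT.1 u k _ _ hu h1 h2 h3) 2).trans (le_of_eq ?_)⟩
    rw [mul_pow, mul_pow, Real.sq_sqrt (Nr_nonneg _), hg, ← Real.rpow_natCast (3 : ℝ) k,
      ← Real.rpow_natCast (_ ^ _) 2, ← Real.rpow_mul (by norm_num), ← Real.rpow_mul (by norm_num)]
    congr 3
    push_cast
    ring

theorem cb_dec {K : ℝ} {T : O → ℂ} (hT : TS K T) : ∃ (f : O → O × ℕ) (pp : O → O × O),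
    ∀ c, c ≠ 0 → T c ≠ 0 → IsUnit (f c).1 ∧ Prim (pp c).1 ∧ Squarefree (pp c).1 ∧ Prim (pp c).2 ∧
      c = (f c).1 * lam ^ (f c).2 * ((pp c).1 * (pp c).2 ^ 3) ∧
      3 ^ (f c).2 * (Nr (pp c).1 * Nr (pp c).2 ^ 3) = Nr c := by
  have hdec : ∀ c : O, ∃ (f : O × ℕ) (p : O × O), c ≠ 0 → T c ≠ 0 → IsUnit f.1 ∧ Prim p.1 ∧
      Squarefree p.1 ∧ Prim p.2 ∧ c = f.1 * lam ^ f.2 * (p.1 * p.2 ^ 3) ∧
      3 ^ f.2 * (Nr p.1 * Nr p.2 ^ 3) = Nr c := by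
    intro c
    by_cases hc : c = 0
    · exact ⟨0, 0, fun h => absurd hc h⟩
    obtain ⟨u, k, N, hu, hN, rfl⟩ := exists_decomp hc
    by_cases h : ∃ n j : O, Prim n ∧ Squarefree n ∧ Prim j ∧ N = n * j ^ 3
    · obtain ⟨n, j, h1, h2, h3, rfl⟩ := h
      refine ⟨(u, k), (n, j), fun _ _ => ⟨hu, h1, h2, h3, rfl, ?_⟩⟩
      rw [Nr_mul, Nr_mul, Nr_mul, isUnit_iff_Nr.1 hu, one_mul, Nr_pow, Nr_pow, Nr_lam]
    · exact ⟨0, 0, fun _ h' => absurd (hT.2 u k N hu hN h) h'⟩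
  choose f pp hdec using hdec
  exact ⟨f, pp, hdec⟩

theorem cf_bil_one {ε : ℝ} (hε : 0 < ε) : ∃ C : ℝ, 0 ≤ C ∧ ∀ (H Y B K : ℝ) (T a : O → ℂ),
    1 ≤ H → 1 ≤ Y → 1 ≤ B → TS K T →
    ∑ h ∈ sbox H, ‖∑ c ∈ box Y, T c * rho h c * ∑ b ∈ sbox B, a b * kap b c‖ ^ 2 ≤
      C * (H * Y * B) ^ ε * K ^ 2 * (∑ b ∈ sbox B, ‖a b‖ ^ 2) *
        (H * Y + Y ^ 2 + H * Y ^ (3 / 4 : ℝ) * B ^ (5 / 4 : ℝ) + Y ^ (3 / 2 : ℝ) * B ^ (3 / 2 : ℝ)) := by
  classical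
  obtain ⟨C₁, h₁, H₁⟩ := cb_piece (δ := ε / 7) (by positivity)
  obtain ⟨C₂, h₂, H₂⟩ := cb_log (δ := ε / 7) (by positivity)
  refine ⟨(25 * C₂) ^ 2 * C₁, by positivity, fun H Y B K T a hH hY hB hT => ?_⟩
  obtain ⟨L, hL, hL'⟩ := H₂ Y hY
  have hα := cb_al_nonneg a B
  have hHY : Y ≤ H * Y := le_mul_of_one_le_left (by linarith) hH
  have hW : H * Y ≤ H * Y * B := le_mul_of_one_le_right (by positivity) hB
  set E := (H * Y * B) ^ (ε / 7) with hE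
  have hE0 : 0 ≤ E := by positivity
  have hYE : Y ^ (ε / 7) ≤ E := Real.rpow_le_rpow (by linarith) (by linarith) (by positivity)
  have hE7 : (H * Y * B) ^ ε = E ^ 7 := by
    rw [hE, ← Real.rpow_natCast, ← Real.rpow_mul (by positivity)]
    norm_num
  set Φ := H * Y + Y ^ 2 + H * Y ^ (3 / 4 : ℝ) * B ^ (5 / 4 : ℝ) +
    Y ^ (3 / 2 : ℝ) * B ^ (3 / 2 : ℝ) with hΦ
  have hΦ0 : 0 ≤ Φ := by positivity
  obtain ⟨f, pp, hdec⟩ := cb_dec hT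
  obtain ⟨S, hS⟩ : ∃ S, S = (box Y).filter fun c => T c ≠ 0 := ⟨_, rfl⟩
  have hS' : ∀ c ∈ S, IsUnit (f c).1 ∧ Prim (pp c).1 ∧ Squarefree (pp c).1 ∧ Prim (pp c).2 ∧
      c = (f c).1 * lam ^ (f c).2 * ((pp c).1 * (pp c).2 ^ 3) ∧
      3 ^ (f c).2 * (Nr (pp c).1 * Nr (pp c).2 ^ 3) ≤ Y := by
    intro c hc
    rw [hS, Finset.mem_filter, mem_box] at hc
    obtain ⟨h3, h4, h5, h6, h7, h8⟩ := hdec c hc.1.1 hc.2
    exact ⟨h3, h4, h5, h6, h7, h8.trans_le hc.1.2⟩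
  have hone : ∀ c ∈ S, 1 ≤ Nr (pp c).1 * Nr (pp c).2 ^ 3 := fun c hc =>
    one_le_mul_of_one_le_of_one_le (one_le_Nr (hS' c hc).2.1.ne_zero)
      (one_le_pow₀ (one_le_Nr (hS' c hc).2.2.2.1.ne_zero))
  have h0 : ∀ h : O, ∑ c ∈ box Y, T c * rho h c * ∑ b ∈ sbox B, a b * kap b c =
      ∑ c ∈ S, T c * rho h c * cb_A a B c := fun h => by
    rw [hS, Finset.sum_filter_of_ne]
    · rfl
    · exact fun c _ hc h' => hc (by rw [h', zero_mul, zero_mul])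
  simp only [h0]
  refine (cb_fib1 _ S f (box 1 ×ˢ Finset.range L) (fun c hc => ?_) _
    (X := C₁ * E ^ 5 * K ^ 2 * cb_al a B * Φ) (by positivity) ?_).trans ?_
  · obtain ⟨h1, -, -, -, -, h2⟩ := hS' c hc
    refine Finset.mem_product.2 ⟨mem_box.2 ⟨h1.ne_zero, (isUnit_iff_Nr.1 h1).le⟩,
      Finset.mem_range.2 (hL' _ (le_trans ?_ h2))⟩
    exact (pow_le_pow_left₀ (by norm_num) (by norm_num) _).trans
      (le_mul_of_one_le_right (by positivity) (hone c hc))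
  · rintro ⟨u, k⟩ ⟨c₀, hc₀⟩
    obtain ⟨hc₀, hf₀⟩ := Finset.mem_filter.1 hc₀
    have hu : IsUnit u := by simpa [hf₀] using (hS' c₀ hc₀).1
    have hY' : 3 ^ k ≤ Y := by
      refine le_trans ?_ (hS' c₀ hc₀).2.2.2.2.2
      rw [hf₀]
      exact le_mul_of_one_le_right (by positivity) (hone c₀ hc₀)
    refine H₁ H Y B K T a u k _ pp hH hB hT hu hY' fun c hc => ?_
    obtain ⟨hc, hf⟩ := Finset.mem_filter.1 hc
    have := (hS' c hc).2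
    rwa [hf] at this
  · have h1 : ((box 1 ×ˢ Finset.range L).card : ℝ) ≤ 25 * (C₂ * E) := by
      rw [Finset.card_product, Finset.card_range, Nat.cast_mul]
      exact mul_le_mul (by simpa using card_box_le zero_le_one) (hL.trans (by gcongr))
        (Nat.cast_nonneg _) (by norm_num)
    calc _ ≤ (25 * (C₂ * E)) ^ 2 * (C₁ * E ^ 5 * K ^ 2 * cb_al a B * Φ) := by gcongr
      _ = _ := by rw [hE7, cb_al]; ring

end Crest.Agent.R017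

end
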