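import Crest.Agent.R017.Kernel1

/-! # Row 17: the kernel of the dual forms -/

set_option autoImplicit false

noncomputable section

open scoped BigOperators ComplexConjugate
open Complex MeasureTheory

namespace Crest.Agent.R017

theorem k2_KT_one (r : O) : KT 1 1 r = 1 := by
  rw [k1_KT_left prim_one isCoprime_one_left squarefree_one, mu_one, chi_unit_left isUnit_one,
    mul_one]

theorem k2_prim_prod (S : Finset O) (hS : ∀ p ∈ S, Prime p ∧ Prim p) (a : O → ℕ) :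
    Prim (∏ p ∈ S, p ^ a p) :=
  Finset.prod_induction _ Prim (fun _ _ => Prim.mul) prim_one fun p hp => (hS p hp).2.pow _

theorem k2_coprime {p q : O} (hp : Prime p ∧ Prim p) (hq : Prime q ∧ Prim q) (h : p ≠ q) :
    IsCoprime p q := a1_coprime ⟨hp.1, Or.inl hp.2⟩ ⟨hq.1, Or.inl hq.2⟩ h

theorem k2_KT_prod (S : Finset O) (hS : ∀ p ∈ S, Prime p ∧ Prim p) (a b : O → ℕ) (r : O) :
    KT (∏ p ∈ S, p ^ a p) (∏ p ∈ S, p ^ b p) r = ∏ p ∈ S, KT (p ^ a p) (p ^ b p) r := by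
  induction S using Finset.induction_on with
  | empty => simp [k2_KT_one]
  | insert q S hq ih =>
    have hS' : ∀ p ∈ S, Prime p ∧ Prim p := fun p hp => hS p (Finset.mem_insert_of_mem hp)
    have hq' := hS q (Finset.mem_insert_self _ _)
    rw [Finset.prod_insert hq, Finset.prod_insert hq, Finset.prod_insert hq,
      KT_mul (hq'.2.pow _) (k2_prim_prod S hS' a) (hq'.2.pow _) (k2_prim_prod S hS' b), ih hS']
    rw [← pow_add, ← Finset.prod_mul_distrib]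
    refine IsCoprime.prod_right fun p hp => ?_
    rw [← pow_add]
    exact (k2_coprime hq' (hS' p hp) fun h => hq (h ▸ hp)).pow

theorem k2_mem {T p : O} (hT : Prim T) (hp : p ∈ pf T) : Prime p ∧ Prim p :=
  ⟨(a1_of_mem_pf hp).1.1, a1_prim_of_mem_pf hT hp⟩

theorem k2_eq_prod {N T : O} (hN : Prim N) (hT : T ≠ 0) (h : N ∣ T) :
    N = ∏ p ∈ pf T, p ^ multiplicity p N := by
  refine hN.eq_prod_pf.trans (Finset.prod_subset (fun p hp => ?_) fun p hp hp' => ?_)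
  · exact (mem_pf hT).2 ⟨(a1_of_mem_pf hp).1, (a1_of_mem_pf hp).2.trans h⟩
  · rw [multiplicity_eq_zero.2 fun hd => hp' ((mem_pf hN.ne_zero).2 ⟨(a1_of_mem_pf hp).1, hd⟩),
      pow_zero]

theorem k2_KT_eq {N M : O} (hN : Prim N) (hM : Prim M) (r : O) :
    KT N M r = ∏ p ∈ pf (N * M), KT (p ^ multiplicity p N) (p ^ multiplicity p M) r := by
  have h0 := (hN.mul hM).ne_zero
  rw [← k2_KT_prod _ (fun p hp => k2_mem (hN.mul hM) hp), ← k2_eq_prod hN h0 (dvd_mul_right _ _),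
    ← k2_eq_prod hM h0 (dvd_mul_left _ _)]

theorem k2_pos {N M p : O} (hN : Prim N) (hM : Prim M) (hp : p ∈ pf (N * M)) :
    0 < multiplicity p N + multiplicity p M := by
  have h1 := (k2_mem (hN.mul hM) hp).1
  rw [← a3_mul h1 hN.ne_zero hM.ne_zero]
  exact (a3_pow_dvd h1 (hN.mul hM).ne_zero 1).1 (by simpa using (a1_of_mem_pf hp).2)

theorem k2_mult_self {p : O} (hp : Prime p) (a : ℕ) : multiplicity p (p ^ a) = a :=
  multiplicity_pow_self_of_prime hp a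

theorem k2_vth {p : O} (hp : Prime p) (hpp : Prim p) (a : ℕ) (h : vth (p ^ a) ≠ 0)
    (h2 : ¬ (2 : O) ∣ p) : a % 3 < 2 ∧ ‖vth (p ^ a)‖ ^ 2 = Nr p ^ (a / 3) := by
  have h1 : a % 3 < 2 := by
    by_contra hc
    refine h (vth_eq_zero (hpp.pow a) (Or.inr ?_))
    rintro ⟨n, j, hn, hs, hj, he⟩
    have h3 := congrArg (multiplicity p) he
    rw [k2_mult_self hp, a3_mul hp hn.ne_zero (hj.pow 3).ne_zero, a3_pow hp hj.ne_zero] at h3
    have := (a3_sqf hn.ne_zero).1 hs p hp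
    omega
  refine ⟨h1, ?_⟩
  have h3 : p ^ a = p ^ (a % 3) * (p ^ (a / 3)) ^ 3 := by
    rw [← pow_mul, ← pow_add]; congr 1; omega
  have hs : Squarefree (p ^ (a % 3)) := by
    rcases (by omega : a % 3 = 0 ∨ a % 3 = 1) with h4 | h4 <;> rw [h4]
    · simp
    · simpa using hp.squarefree
  rw [h3, norm_vth (hpp.pow _) hs (hpp.pow _), Real.sq_sqrt (Nr_nonneg _), Nr_pow]
  rw [← pow_add]
  exact fun hd => h2 (prime_two.dvd_of_dvd_pow hd)

/-- The local table. -/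
theorem k2_local {p : O} (hp : Prime p) (hpp : Prim p) {a b : ℕ} (hab : 0 < a + b) {r : O}
    (h : KT (p ^ a) (p ^ b) r ≠ 0) :
    a % 3 < 2 ∧ b % 3 < 2 ∧ p ^ (a + b - 1) ∣ r ∧ ∃ e : ℕ, ‖KT (p ^ a) (p ^ b) r‖ ^ 2 ≤ Nr p ^ e ∧
      ((a % 6 ≠ b % 6 ∧ ¬ p ^ (a + b) ∣ r ∧ e + 1 = a / 3 + b / 3 + a + b) ∨
        (a % 6 = b % 6 ∧ p ^ (a + b) ∣ r ∧ e = a / 3 + b / 3 + a + b) ∨
        (a % 6 = b % 6 ∧ ¬ p ^ (a + b) ∣ r ∧ e + 2 = a / 3 + b / 3 + a + b)) := by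
  classical
  have h2 : ¬ (2 : O) ∣ p := by
    intro hd
    refine h (k1_KT_even (hpp.pow a) (hpp.pow b) ?_ r)
    rcases Nat.eq_zero_or_pos a with ha | ha
    · exact Or.inr (hd.trans (dvd_pow_self p (by omega)))
    · exact Or.inl (hd.trans (dvd_pow_self p ha.ne'))
  have h2p : ∀ k : ℕ, ¬ (2 : O) ∣ p ^ k := fun k hd => h2 (prime_two.dvd_of_dvd_pow hd)
  have h6 := k1_six hpp h2
  have hp0 := hp.ne_zero
  have hP := Nr_pos hp0
  have hP1 := one_le_Nr hp0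
  obtain ⟨c, hc⟩ : ∃ c, a + b = c + 1 := ⟨a + b - 1, by omega⟩
  have hc' : a + b - 1 = c := by omega
  have hf : (fun h => conj (chi (p ^ a) h) * chi (p ^ b) h) = fun h => chi p h ^ (5 * a + b) := by
    funext x
    rw [conj_chi, chi_pow_left hp0, chi_pow_left hp0, ← pow_mul, ← pow_add, mul_comm a 5]
  have hW : p ^ a * p ^ b = p * p ^ c := by rw [← pow_add, hc, pow_succ']
  have hper : ∀ x y, p ∣ x - y → chi p x ^ (5 * a + b) = chi p y ^ (5 * a + b) := fun x y hxy => by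
    rw [chi_congr' hp0 hxy]
  have hKT : KT (p ^ a) (p ^ b) r = vth (p ^ a) * conj (vth (p ^ b)) * (ks (p ^ a) (p ^ b) *
      (if p ^ c ∣ r then (Nr (p ^ c) : ℂ) * gs (fun h => chi p h ^ (5 * a + b)) p (r / p ^ c)
        else 0) / (Real.sqrt (Nr (p * p ^ c)) : ℂ)) := by
    rw [KT, KG, hf, hW, gs_tower hp0 (pow_ne_zero c hp0) hper]
  have hva : vth (p ^ a) ≠ 0 := fun h0 => h (by rw [hKT, h0, zero_mul, zero_mul])
  have hvb : vth (p ^ b) ≠ 0 := fun h0 => h (by rw [hKT, h0, map_zero, mul_zero, zero_mul])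
  obtain ⟨ha3, hna⟩ := k2_vth hp hpp a hva h2
  obtain ⟨hb3, hnb⟩ := k2_vth hp hpp b hvb h2
  have hd : p ^ c ∣ r := by
    by_contra hd
    exact h (by rw [hKT, if_neg hd, mul_zero, zero_div, mul_zero])
  rw [if_pos hd] at hKT
  set g := gs (fun h => chi p h ^ (5 * a + b)) p (r / p ^ c) with hg
  have hg0 : g ≠ 0 := fun h0 => h (by rw [hKT, h0]; simp)
  have hr : p ^ c * (r / p ^ c) = r := EuclideanDomain.mul_div_cancel' (pow_ne_zero c hp0) hd
  have hiff : p ∣ r / p ^ c ↔ p ^ (a + b) ∣ r := by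
    rw [hc, pow_succ]
    conv_rhs => rw [← hr]
    exact (mul_dvd_mul_iff_left (pow_ne_zero c hp0)).symm
  have hnorm : ‖KT (p ^ a) (p ^ b) r‖ ^ 2 * Nr p = Nr p ^ (a / 3 + b / 3 + c) * ‖g‖ ^ 2 := by
    rw [hKT, norm_mul, norm_mul, norm_div, norm_mul, norm_mul, Complex.norm_conj,
      norm_ks (h2p a) (h2p b), Complex.norm_real, Complex.norm_real, Real.norm_eq_abs,
      Real.norm_eq_abs, abs_of_nonneg (Nr_nonneg _), abs_of_nonneg (Real.sqrt_nonneg _), mul_pow,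
      mul_pow, hna, hnb, div_pow, Real.sq_sqrt (Nr_nonneg _), Nr_mul, Nr_pow]
    field_simp
    ring
  refine ⟨ha3, hb3, hc' ▸ hd, ?_⟩
  by_cases h6d : 6 ∣ 5 * a + b
  · have hmod : a % 6 = b % 6 := by omega
    obtain ⟨t, ht⟩ := h6d
    have hf2 : (fun h => chi p h ^ (5 * a + b)) = fun x => if p ∣ x then 0 else 1 := by
      funext x
      rw [ht, pow_mul, chi_pow_six hp0]
      by_cases hx : p ∣ x
      · rw [if_neg, if_pos hx, zero_pow (by omega)]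
        exact fun hco => hp.not_isUnit (hco.isUnit_of_dvd' dvd_rfl (hx.mul_left 6))
      · rw [if_pos (h6.mul_right ((hp.irreducible.coprime_iff_not_dvd).2 hx)), if_neg hx, one_pow]
    rw [hf2, gs_coprime_prime hp] at hg
    by_cases hpd : p ∣ r / p ^ c
    · refine ⟨a / 3 + b / 3 + a + b, ?_, Or.inr (Or.inl ⟨hmod, hiff.1 hpd, rfl⟩)⟩
      rw [if_pos hpd] at hg
      have hgn : ‖g‖ = Nr p - 1 := by
        rw [hg, ← Complex.ofReal_one, ← Complex.ofReal_sub, Complex.norm_real, Real.norm_eq_abs,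
          abs_of_nonneg (by linarith)]
      refine le_of_mul_le_mul_right ?_ hP
      rw [hnorm, hgn, show a / 3 + b / 3 + a + b = a / 3 + b / 3 + c + 1 by omega,
        pow_succ (Nr p), mul_assoc]
      exact mul_le_mul_of_nonneg_left (by nlinarith) (pow_nonneg hP.le _)
    · refine ⟨a / 3 + b / 3 + c - 1, ?_, Or.inr (Or.inr ⟨hmod, fun h => hpd (hiff.2 h), by omega⟩)⟩
      rw [if_neg hpd] at hg
      refine le_of_mul_le_mul_right ?_ hP
      rw [hnorm, hg, norm_neg, norm_one, one_pow, mul_one, ← pow_succ,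
        show a / 3 + b / 3 + c - 1 + 1 = a / 3 + b / 3 + c by omega]
  · have hmod : a % 6 ≠ b % 6 := by omega
    rw [gs_chi_pow h6 hp.squarefree h6d] at hg
    have hchi : chi p (r / p ^ c) ≠ 0 := fun h0 => hg0 (by
      rw [hg, h0, zero_pow (by omega), map_zero, zero_mul])
    have hnd : ¬ p ∣ r / p ^ c := fun hx => hchi ((chi_eq_zero hp0).2 fun hco =>
      hp.not_isUnit (hco.isUnit_of_dvd' dvd_rfl (hx.mul_left 6)))
    refine ⟨a / 3 + b / 3 + c, ?_, Or.inl ⟨hmod, fun h => hnd (hiff.2 h), by omega⟩⟩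
    refine le_of_mul_le_mul_right ?_ hP
    rw [hnorm, hg, norm_mul, Complex.norm_conj, norm_pow, norm_chi hchi, one_pow, one_mul,
      norm_gs_chi_pow h6 hp.squarefree h6d, Real.sq_sqrt hP.le]

theorem k2_ne {N M r : O} (hN : Prim N) (hM : Prim M) (h : KT N M r ≠ 0) {p : O}
    (hp : p ∈ pf (N * M)) : KT (p ^ multiplicity p N) (p ^ multiplicity p M) r ≠ 0 := by
  rw [k2_KT_eq hN hM] at h
  exact Finset.prod_ne_zero_iff.1 h p hp

theorem k2_prod_dvd {T z : O} (hT : Prim T) (a : O → ℕ) (h : ∀ p ∈ pf T, p ^ a p ∣ z) :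
    ∏ p ∈ pf T, p ^ a p ∣ z :=
  Finset.prod_dvd_of_coprime
    (fun _ hp _ hq hpq => (k2_coprime (k2_mem hT hp) (k2_mem hT hq) hpq).pow) h

theorem k2_sq {x y : ℝ} (hy : 0 ≤ y) (h : x ^ 2 ≤ y ^ 2) : x ≤ y := by
  by_contra hc
  nlinarith

theorem k2_arith {a b e v κ : ℕ} (hpos : 0 < a + b) (ha : a % 3 < 2) (hb : b % 3 < 2)
    (hd : a + b - 1 ≤ v) (hv : v ≤ 6 * κ + 5)
    (hc : (a % 6 ≠ b % 6 ∧ ¬ a + b ≤ v ∧ e + 1 = a / 3 + b / 3 + a + b) ∨
        (a % 6 = b % 6 ∧ a + b ≤ v ∧ e = a / 3 + b / 3 + a + b) ∨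
        (a % 6 = b % 6 ∧ ¬ a + b ≤ v ∧ e + 2 = a / 3 + b / 3 + a + b)) :
    e ≤ a + b + 2 * κ ∧ (v = 1 → e = 0) := by
  obtain ⟨α, hα⟩ : ∃ α, a = 6 * α ∨ a = 6 * α + 1 ∨ a = 6 * α + 3 ∨ a = 6 * α + 4 :=
    ⟨a / 6, by omega⟩
  obtain ⟨β, hβ⟩ : ∃ β, b = 6 * β ∨ b = 6 * β + 1 ∨ b = 6 * β + 3 ∨ b = 6 * β + 4 :=
    ⟨b / 6, by omega⟩
  rcases hα with rfl | rfl | rfl | rfl <;> rcases hβ with rfl | rfl | rfl | rfl <;> omega

/-- the global bound from local exponents -/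
theorem k2_bound {N M r : O} (hN : Prim N) (hM : Prim M) (E : O → ℕ)
    (hE : ∀ p ∈ pf (N * M), ∀ e a b : ℕ, a = multiplicity p N → b = multiplicity p M → 0 < a + b →
      a % 3 < 2 → b % 3 < 2 → p ^ (a + b - 1) ∣ r →
      ((a % 6 ≠ b % 6 ∧ ¬ p ^ (a + b) ∣ r ∧ e + 1 = a / 3 + b / 3 + a + b) ∨
        (a % 6 = b % 6 ∧ p ^ (a + b) ∣ r ∧ e = a / 3 + b / 3 + a + b) ∨
        (a % 6 = b % 6 ∧ ¬ p ^ (a + b) ∣ r ∧ e + 2 = a / 3 + b / 3 + a + b)) → e ≤ E p) :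
    ‖KT N M r‖ ^ 2 ≤ ∏ p ∈ pf (N * M), Nr p ^ E p := by
  rw [k2_KT_eq hN hM, norm_prod, ← Finset.prod_pow]
  refine Finset.prod_le_prod (fun _ _ => by positivity) fun p hp => ?_
  have h1 := k2_mem (hN.mul hM) hp
  by_cases h : KT (p ^ multiplicity p N) (p ^ multiplicity p M) r = 0
  · rw [h, norm_zero, zero_pow two_ne_zero]
    exact pow_nonneg (Nr_nonneg _) _
  · obtain ⟨ha, hb, hd, e, he, hc⟩ := k2_local h1.1 h1.2 (k2_pos hN hM hp) h
    exact he.trans (pow_le_pow_right₀ (one_le_Nr h1.1.ne_zero)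
      (hE p hp e _ _ rfl rfl (k2_pos hN hM hp) ha hb hd hc))

theorem KT_dvd {N M r : O} (hN : Prim N) (hM : Prim M) (hr : r ≠ 0) (h : KT N M r ≠ 0) :
    N * M ∣ r * rad (N * M) := by
  have h0 := (hN.mul hM).ne_zero
  conv_lhs => rw [(hN.mul hM).eq_prod_pf]
  refine k2_prod_dvd (hN.mul hM) _ fun p hp => ?_
  have h1 := k2_mem (hN.mul hM) hp
  have hpos := k2_pos hN hM hp
  obtain ⟨-, -, hd, -⟩ := k2_local h1.1 h1.2 hpos (k2_ne hN hM h hp)
  rw [a3_mul h1.1 hN.ne_zero hM.ne_zero, show multiplicity p N + multiplicity p M =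
    multiplicity p N + multiplicity p M - 1 + 1 by omega, pow_succ]
  exact mul_dvd_mul hd ((prime_dvd_rad h0 h1.1).2 (a1_of_mem_pf hp).2)
/-- On the `r`-part a squarefree second argument divides the first. -/
theorem KT_dvd_of_sqf {N M r : O} (hN : Prim N) (hM : Prim M) (hs : Squarefree M) (hr : r ≠ 0)
    (hrad : rad (N * M) ∣ r) (h : KT N M r ≠ 0) : M ∣ N := by
  have h0 := (hN.mul hM).ne_zero
  conv_lhs => rw [k2_eq_prod hM h0 (dvd_mul_left _ _)]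
  refine k2_prod_dvd (hN.mul hM) _ fun p hp => ?_
  have h1 := k2_mem (hN.mul hM) hp
  have hpos := k2_pos hN hM hp
  obtain ⟨-, -, -, e, -, hc⟩ := k2_local h1.1 h1.2 hpos (k2_ne hN hM h hp)
  have hb := (a3_sqf hM.ne_zero).1 hs p h1.1
  have hpr : p ∣ r := ((prime_dvd_rad h0 h1.1).2 (a1_of_mem_pf hp).2).trans hrad
  have hv := (a3_pow_dvd h1.1 hr 1).1 (by simpa using hpr)
  rw [a3_pow_dvd h1.1 hr] at hc
  rw [a3_pow_dvd h1.1 hN.ne_zero]
  omega
/-- Size on the `r`-part in terms of the largest sixth power dividing `r`. -/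
theorem norm_KT_le_six {N M k r' : O} (hN : Prim N) (hM : Prim M) (hk : k ≠ 0) (hr : r' ≠ 0)
    (h6 : ∀ p : O, Prime p → ¬ p ^ 6 ∣ r') :
    ‖KT N M (k ^ 6 * r')‖ ≤ Real.sqrt (Nr (N * M)) * Nr k := by
  have h0 := (hN.mul hM).ne_zero
  have hr0 : k ^ 6 * r' ≠ 0 := mul_ne_zero (pow_ne_zero _ hk) hr
  have h1 := k2_bound (r := k ^ 6 * r') hN hM
    (fun p => multiplicity p (N * M) + 2 * multiplicity p k) (by
      intro p hp e a b ha hb hpos ha3 hb3 hd hc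
      have h1 := (k2_mem (hN.mul hM) hp).1
      have h2 := h6 p h1
      rw [a3_pow_dvd h1 hr] at h2
      rw [a3_pow_dvd h1 hr0, a3_mul h1 (pow_ne_zero _ hk) hr, a3_pow h1 hk] at hd hc
      rw [a3_mul h1 hN.ne_zero hM.ne_zero, ← ha, ← hb]
      exact (k2_arith hpos ha3 hb3 hd (by omega) hc).1)
  have h2 : ∏ p ∈ pf (N * M), Nr p ^ (multiplicity p (N * M) + 2 * multiplicity p k) =
      Nr (N * M) * Nr (∏ p ∈ pf (N * M), p ^ multiplicity p k) ^ 2 := by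
    conv_rhs => rw [(hN.mul hM).eq_prod_pf.trans rfl]
    rw [← (hN.mul hM).eq_prod_pf]
    conv_rhs => enter [1]; rw [(hN.mul hM).eq_prod_pf]
    rw [Nr_prod, Nr_prod, ← Finset.prod_pow, ← Finset.prod_mul_distrib]
    refine Finset.prod_congr rfl fun p _ => ?_
    rw [Nr_pow, Nr_pow]; ring
  have h3 : Nr (∏ p ∈ pf (N * M), p ^ multiplicity p k) ≤ Nr k :=
    Nr_le_of_dvd hk (k2_prod_dvd (hN.mul hM) _ fun p _ => pow_multiplicity_dvd p k)
  refine (k2_sq (mul_nonneg (Real.sqrt_nonneg _) (Nr_nonneg _))) ?_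
  rw [mul_pow, Real.sq_sqrt (Nr_nonneg _)]
  refine h1.trans (h2.trans_le ?_)
  exact mul_le_mul_of_nonneg_left (pow_le_pow_left₀ (Nr_nonneg _) h3 2) (Nr_nonneg _)
open Classical in
/-- Refined size on the `r`-part: with `N = n j³`, `M = m i³`, the local factor at `p` is at most
`1` if `p ∥ r`, `p^{(v N + v M)/2}` if `p⁶ ∤ r`, and `p^{(v N + v M + v j + v i)/2}` in general. -/
theorem norm_KT_le_fine {n j m i r : O} (hn : Prim n) (hj : Prim j) (hm : Prim m) (hi : Prim i)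
    (hsn : Squarefree n) (hsm : Squarefree m) (hr : r ≠ 0) (hrad : rad (n * j * m * i) ∣ r) :
    ‖KT (n * j ^ 3) (m * i ^ 3) r‖ ≤
      Real.sqrt (∏ p ∈ (pf r).filter (fun p => p ^ 2 ∣ r), Nr p ^ multiplicity p (n * j ^ 3)) *
      Real.sqrt (∏ p ∈ (pf r).filter (fun p => p ^ 6 ∣ r), Nr p ^ multiplicity p j) *
      (Real.sqrt (∏ p ∈ (pf r).filter (fun p => p ^ 2 ∣ r), Nr p ^ multiplicity p (m * i ^ 3)) *
      Real.sqrt (∏ p ∈ (pf r).filter (fun p => p ^ 6 ∣ r), Nr p ^ multiplicity p i)) := by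
  have hN := hn.mul (hj.pow 3)
  have hM := hm.mul (hi.pow 3)
  have h00 : n * j * m * i ≠ 0 := (((hn.mul hj).mul hm).mul hi).ne_zero
  have hpr : ∀ p ∈ pf (n * j ^ 3 * (m * i ^ 3)), p ∣ r := by
    intro p hp
    have h1 := (k2_mem (hN.mul hM) hp).1
    refine ((prime_dvd_rad h00 h1).2 (h1.dvd_of_dvd_pow (n := 3) ?_)).trans hrad
    exact (a1_of_mem_pf hp).2.trans ⟨n ^ 2 * m ^ 2, by ring⟩
  have h1 := k2_bound (r := r) hN hM
    (fun p => (if p ^ 2 ∣ r then multiplicity p (n * j ^ 3) else 0) +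
      (if p ^ 6 ∣ r then multiplicity p j else 0) +
      ((if p ^ 2 ∣ r then multiplicity p (m * i ^ 3) else 0) +
      (if p ^ 6 ∣ r then multiplicity p i else 0))) (by
      intro p hp e a b ha hb hpos ha3 hb3 hd hc
      have h1 := (k2_mem (hN.mul hM) hp).1
      have hv := (a3_pow_dvd h1 hr 1).1 (by simpa using hpr p hp)
      have s1 := (a3_sqf hn.ne_zero).1 hsn p h1
      have s2 := (a3_sqf hm.ne_zero).1 hsm p h1
      rw [a3_pow_dvd h1 hr] at hd hc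
      simp only [a3_pow_dvd h1 hr, ← ha, ← hb]
      rw [a3_mul h1 hn.ne_zero (hj.pow 3).ne_zero, a3_pow h1 hj.ne_zero] at ha
      rw [a3_mul h1 hm.ne_zero (hi.pow 3).ne_zero, a3_pow h1 hi.ne_zero] at hb
      have k1 := fun hv => k2_arith (κ := 0) hpos ha3 hb3 hd hv hc
      split_ifs <;> omega)
  have hnn : ∀ (S : Finset O) (a : O → ℕ), 0 ≤ ∏ p ∈ S, Nr p ^ a p := fun S a =>
    Finset.prod_nonneg fun p _ => pow_nonneg (Nr_nonneg _) _
  refine k2_sq (by positivity) (h1.trans ?_)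
  rw [mul_pow, mul_pow, mul_pow, Real.sq_sqrt (hnn _ _), Real.sq_sqrt (hnn _ _),
    Real.sq_sqrt (hnn _ _), Real.sq_sqrt (hnn _ _), Finset.prod_filter, Finset.prod_filter,
    Finset.prod_filter, Finset.prod_filter, ← Finset.prod_mul_distrib, ← Finset.prod_mul_distrib,
    ← Finset.prod_mul_distrib]
  refine le_trans (Finset.prod_le_prod_of_subset_of_one_le (t := pf r) (fun p hp => ?_)
    (fun p _ => pow_nonneg (Nr_nonneg _) _) fun p hp _ => ?_) (le_of_eq ?_)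
  · exact (mem_pf hr).2 ⟨(a1_of_mem_pf hp).1, hpr p hp⟩
  · exact one_le_pow₀ (one_le_Nr (a1_of_mem_pf hp).1.1.ne_zero)
  · refine Finset.prod_congr rfl fun p _ => ?_
    split_ifs <;> simp [pow_add]
/-- The zero frequency. -/
theorem KT_zero {N M : O} (hN : Prim N) (hM : Prim M) (h : KT N M 0 ≠ 0) :
    ∃ n g u v : O, Prim n ∧ Prim g ∧ Prim u ∧ Prim v ∧ Squarefree n ∧ Squarefree g ∧
      N = n * (g * u ^ 2) ^ 3 ∧ M = n * (g * v ^ 2) ^ 3 := by
  have h0 := (hN.mul hM).ne_zero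
  have key : ∀ q : O, Prime q →
      multiplicity q N % 3 < 2 ∧ multiplicity q N % 6 = multiplicity q M % 6 := by
    intro q hq
    obtain ⟨p, hp, hqp⟩ := exists_PP hq
    rw [← multiplicity_eq_of_associated_left hqp, ← multiplicity_eq_of_associated_left hqp]
    by_cases hd : p ∣ N * M
    · have hm := (mem_pf h0).2 ⟨hp, hd⟩
      have h1 := k2_mem (hN.mul hM) hm
      obtain ⟨ha, -, -, e, -, hc⟩ := k2_local h1.1 h1.2 (k2_pos hN hM hm) (k2_ne hN hM h hm)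
      refine ⟨ha, ?_⟩
      rcases hc with hc | hc | hc
      · exact absurd (dvd_zero _) hc.2.1
      · exact hc.1
      · exact hc.1
    · rw [multiplicity_eq_zero.2 fun h => hd (h.mul_right M),
        multiplicity_eq_zero.2 fun h => hd (h.mul_left N)]
      omega
  obtain ⟨n, hn0, hn, hn'⟩ := a3_build hN.ne_zero 0 (fun x _ => x % 3) fun _ => rfl
  obtain ⟨g, hg0, hg, hg'⟩ := a3_build hN.ne_zero 0 (fun x _ => x / 3 % 2) fun _ => rfl
  obtain ⟨u, hu0, hu, hu'⟩ := a3_build hN.ne_zero 0 (fun x _ => x / 6) fun _ => rfl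
  obtain ⟨v, hv0, hv, hv'⟩ := a3_build hM.ne_zero 0 (fun x _ => x / 6) fun _ => rfl
  refine ⟨n, g, u, v, hn hN, hg hN, hu hN, hv hM, (a3_sqf hn0).2 fun q hq => ?_,
    (a3_sqf hg0).2 fun q hq => ?_,
    a3_ext hN ((hn hN).mul (((hg hN).mul ((hu hN).pow 2)).pow 3)) fun q hq => ?_,
    a3_ext hM ((hn hN).mul (((hg hN).mul ((hv hM).pow 2)).pow 3)) fun q hq => ?_⟩
  · have := key q hq
    rw [hn' q hq]; omega
  · rw [hg' q hq]; omega
  · rw [a3_mul hq hn0 (pow_ne_zero _ (mul_ne_zero hg0 (pow_ne_zero _ hu0))),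
      a3_pow hq (mul_ne_zero hg0 (pow_ne_zero _ hu0)), a3_mul hq hg0 (pow_ne_zero _ hu0),
      a3_pow hq hu0, hn' q hq, hg' q hq, hu' q hq]
    omega
  · have := key q hq
    rw [a3_mul hq hn0 (pow_ne_zero _ (mul_ne_zero hg0 (pow_ne_zero _ hv0))),
      a3_pow hq (mul_ne_zero hg0 (pow_ne_zero _ hv0)), a3_mul hq hg0 (pow_ne_zero _ hv0),
      a3_pow hq hv0, hn' q hq, hg' q hq, hv' q hq]
    omega

end Crest.Agent.R017

end
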