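import Crest.Agent.R017.LS
import Crest.Agent.R017.Sieve
import Crest.Agent.R017.Kernel

/-! # Row 17: the dual mean value estimate: definitions -/

set_option autoImplicit false

noncomputable section

open scoped BigOperators ComplexConjugate
open Complex MeasureTheory

namespace Crest.Agent.R017

/-- `a` is supported on admissible `b` with `B / 2 < N b ≤ B`. -/
def Dy (Q : O) (B : ℝ) (a : O → ℂ) : Prop := ∀ b, a b ≠ 0 → Adm Q b ∧ B / 2 < Nr b ∧ Nr b ≤ B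

open Classical in
/-- The dual sum with the full theta coefficient. -/
def CFull (A : ℝ) (ψ a : O → ℂ) (B X τ : ℝ) (t h : O) : ℂ :=
  ∑ b ∈ box B, a b *
    sm A (fun N => if b ∣ N then vth N * ψ N * conj (chi N (h * t)) else 0) (Nr b * X) τ

/-- Size and support of theta-like coefficients. -/
def TS (K : ℝ) (T : O → ℂ) : Prop :=
  (∀ (u : O) (k : ℕ) (n j : O), IsUnit u → Prim n → Squarefree n → Prim j →
    ‖T (u * lam ^ k * (n * j ^ 3))‖ ≤ K * (3 : ℝ) ^ ((k : ℝ) / 6) * Real.sqrt (Nr j)) ∧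
  ∀ (u : O) (k : ℕ) (N : O), IsUnit u → Prim N →
    (¬ ∃ n j : O, Prim n ∧ Squarefree n ∧ Prim j ∧ N = n * j ^ 3) → T (u * lam ^ k * N) = 0

/-- The analytic properties of the dual weight. -/
def VW (m V : ℝ → ℝ → ℂ) : Prop :=
  (∀ τ, Integrable (m τ)) ∧ (∃ C : ℝ, ∀ τ, ∫ t, ‖m τ t‖ ≤ C) ∧
  (∀ τ y, 0 < y → V τ y = ∫ t : ℝ, m τ t * (y : ℂ) ^ (-(t * I))) ∧
  ∀ k : ℕ, ∃ C : ℝ, ∀ τ y, 0 < y → ‖V τ y‖ ≤ C * (1 + |τ|) ^ (4 * k) * y ^ (-(1 / 2 + k : ℝ))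

end Crest.Agent.R017

end
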