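import Crest.Agent.R017.CFVorD

/-! # Row 17: the Voronoi formula applied to one term of the dual sum -/

set_option autoImplicit false

noncomputable section

open scoped BigOperators ComplexConjugate
open Complex MeasureTheory

namespace Crest.Agent.R017

theorem cv_scalar {N Y : ℝ} (hN : 0 < N) (hY : 0 < Y) (τ : ℝ) :
    (N : ℂ) ^ (τ * I) * ((N * Y : ℝ) : ℂ) ^ (1 - τ * I) = N * Y * (Y : ℂ) ^ (-(τ * I)) := by
  have n0 : (N : ℂ) ≠ 0 := by exact_mod_cast hN.ne'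
  have y0 : (Y : ℂ) ≠ 0 := by exact_mod_cast hY.ne'
  rw [Complex.ofReal_mul, Complex.mul_cpow_ofReal_nonneg hN.le hY.le, ← mul_assoc,
    ← Complex.cpow_add _ _ n0, add_sub_cancel, Complex.cpow_one, sub_eq_add_neg, Complex.cpow_add _ _ y0,
    Complex.cpow_one, mul_assoc]

open Classical in
theorem cv_expand {T₁ m z b : O} {l : O → ℂ} (e1 : ∀ c, chi T₁ c = chi m c * psi0 z c)
    (e2 : ∀ c, gs (chi m) (rad m) c = conj (chi m c) * gs (chi m) (rad m) 1)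
    (e3 : gs (chi m) (rad m) 1 ≠ 0) (e4 : ∀ c, psi0 z c = ∑ d ∈ pdiv z, l d * gs (psi0 d) d c)
    (hb : Prim b) (sb : Squarefree b) (x κ : ℂ) (h c : O) :
    x * ((if b ∣ c then 1 else 0) * (κ * (conj (chi h c) * conj (chi T₁ c)))) =
      ∑ p ∈ pdiv z ×ˢ pdiv b, κ * l p.1 / (gs (chi m) (rad m) 1 * Nr b) *
        (x * (conj (chi h c) * gs (psi0 p.2) p.2 c * (gs (chi m) (rad m) c * gs (psi0 p.1) p.1 c))) := by
  have b0 : (Nr b : ℂ) ≠ 0 := by exact_mod_cast (Nr_pos hb.ne_zero).ne'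
  have e5 : (if b ∣ c then 1 else 0 : ℂ) = (Nr b : ℂ)⁻¹ * ∑ d ∈ pdiv b, gs (psi0 d) d c := by
    rw [cv_ram_sum hb sb]; split_ifs
    · rw [inv_mul_cancel₀ b0]
    · rw [mul_zero]
  have e6 : conj (psi0 z c) = psi0 z c := by unfold psi0; split_ifs <;> simp
  rw [e1, map_mul, e6, e4, e5, e2 c, Finset.sum_product]
  simp only [Finset.mul_sum, Finset.sum_mul]
  refine Finset.sum_congr rfl fun d _ => Finset.sum_congr rfl fun b₁ _ => ?_
  field_simp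

theorem cv_ineq {e d q r t k K : ℝ} (e0 : 0 < e) (d0 : 1 ≤ d) (q1 : 1 ≤ q) (er : e ≤ r) (r1 : r ≤ t)
    (r2 : r * d ≤ t * k) (a1 : q ≤ K) (a2 : q ^ 2 ≤ K) :
    e ≤ q * (r * d) ∧ q * (r * d) ≤ K * t * k ∧ 0 ≤ Real.sqrt e / Real.sqrt d ∧
      (Real.sqrt e / Real.sqrt d) ^ 2 ≤ e ∧ (Real.sqrt e / Real.sqrt d) ^ 2 * (q * (r * d)) ≤ K * e * t ∧
      (Real.sqrt e / Real.sqrt d) ^ 2 * (q * (r * d)) ^ 2 ≤ K * e * t ^ 2 * k := by
  have r0 : 0 < r := e0.trans_le er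
  have t0 : 0 < t := r0.trans_le r1
  have K0 : 0 < K := by linarith
  have d1 : 0 < d := by linarith
  rw [div_pow, Real.sq_sqrt e0.le, Real.sq_sqrt d1.le]
  refine ⟨?_, ?_, by positivity, div_le_self e0.le d0, ?_, ?_⟩
  · calc e ≤ 1 * (r * 1) := by linarith
      _ ≤ _ := by gcongr
  · rw [mul_assoc]; gcongr
  · calc _ = q * e * r := by field_simp
      _ ≤ _ := by gcongr
  · calc _ = q ^ 2 * e * (r * (r * d)) := by field_simp
      _ ≤ K * e * (t * (t * k)) := by gcongr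
      _ = _ := by ring

set_option maxHeartbeats 1600000 in
open Classical in
theorem cf_vor {Q : O} (hQ : Q ≠ 0) (h72 : (72 : O) ∣ Q) {A : ℝ} (hA : 0 < A) :
    ∃ (Q' : O) (K L₀ : ℝ) (m V : ℝ → ℝ → ℂ), Q' ≠ 0 ∧ 1 ≤ K ∧ 1 ≤ L₀ ∧ VW m V ∧
    ∀ ε : ℝ, 0 < ε → ∃ C : ℝ, 0 ≤ C ∧ ∀ (ψ : O → ℂ) (t k : O), IsCh Q ψ → t ≠ 0 → k ≠ 0 →
    ∃ (κ : Type) (S : Finset κ) (e : κ → O) (q w : κ → ℝ) (u₁ u₂ : κ → O → ℂ) (T : κ → O → O → O → ℂ),
      (S.card : ℝ) ≤ C * (Nr (rad t) * Nr (rad k)) ^ ε ∧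
      (∀ i ∈ S, Prim (e i) ∧ Squarefree (e i) ∧ Nr (e i) ≤ q i ∧ q i ≤ K * Nr (rad t) * Nr (rad k) ∧
        0 ≤ w i ∧ w i ^ 2 ≤ Nr (e i) ∧ w i ^ 2 * q i ≤ K * Nr (e i) * Nr (rad t) ∧
        w i ^ 2 * q i ^ 2 ≤ K * Nr (e i) * Nr (rad t) ^ 2 * Nr (rad k)) ∧
      (∀ i x, ‖u₁ i x‖ ≤ 1 ∧ ‖u₂ i x‖ ≤ 1) ∧ (∀ i x y, TS K (T i x y)) ∧
      (∀ i x x' y y', Q' ∣ x - x' → Q' ∣ y - y' → T i x y = T i x' y') ∧
      ∀ (h b : O) (X τ : ℝ), Adm (Q * t * k) h → Adm (Q * t * k * h) b → 0 < X →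
        sm A (fun N => if b ∣ N then vth N * ψ N * conj (chi N (h * (t * k ^ 6))) else 0) (Nr b * X) τ =
          ((Nr b * X : ℝ) : ℂ) ^ (-(τ * I)) * ∑ i ∈ S, ∑ b₁ ∈ pdiv b,
            ((w i * (L₀ * X) / (Real.sqrt (Nr b₁) * (q i * Nr h)) : ℝ) : ℂ) * u₁ i h * u₂ i b₁ *
              ∑' c : O, if c ≠ 0 ∧ e i ∣ c then T i h b₁ c * rho h c * kap b₁ c *
                V τ (Nr c * (L₀ * (Nr b * X)) / (q i * Nr h * Nr b₁) ^ 2) else 0 := by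
  obtain ⟨ι, T, K, hT, ⟨u, k₀, hu, hb⟩, hVor⟩ := vor_frac
  obtain ⟨mm, V, hV, hF⟩ := hVor A hA
  have hc₀ : u * lam ^ k₀ ≠ 0 := mul_ne_zero hu.ne_zero (pow_ne_zero _ prime_lam.ne_zero)
  have hcQ : ∀ p, Prime p → p ∣ u * lam ^ k₀ → p ∣ Q := fun p hp hd => by
    rcases hp.dvd_or_dvd hd with hd | hd
    · exact absurd (isUnit_of_dvd_unit hd hu) hp.not_isUnit
    · exact (hp.dvd_of_dvd_pow hd).trans (lam_dvd_three.trans (Dvd.dvd.trans ⟨24, by norm_num⟩ h72))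
  generalize u * lam ^ k₀ = c₀ at hb hc₀ hcQ
  have hQ7 : 72 * Q ≠ 0 := mul_ne_zero (by decide) hQ
  have hQ8 : c₀ * (72 * Q) ≠ 0 := mul_ne_zero hc₀ hQ7
  obtain ⟨J, a₀, q₀, K₁, co, hK₁, hq, hco, hF0⟩ := cv_F0 hA hT hc₀ hb hQ7
  choose T' hT' pT' HT' using fun α a => VorF.char hA (hT (J α)) hV (hF (J α)) (hq a).1 (hq a).2.1
  have hqQ : ∀ a p, Prime p → p ∣ q₀ a → p ∣ Q := fun a p hp hd => by
    rcases hp.dvd_or_dvd (hd.trans (hq a).2.2) with hd | hd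
    · exact hcQ p hp hd
    · exact (hp.dvd_or_dvd hd).elim (·.trans h72) id
  have K0 : 0 ≤ K := (hT (J 0)).nonneg
  have N1 := one_le_Nr hQ8
  have K10 : (K₁ : ℂ) ≠ 0 := by exact_mod_cast (zero_lt_one.trans_le hK₁).ne'
  have KK : 0 ≤ K₁ * K := mul_nonneg (zero_le_one.trans hK₁) K0
  have hq2 : ∀ a, Nr (q₀ a) ^ 2 ≤ K₁ * K + Nr (c₀ * (72 * Q)) ^ 2 := fun a =>
    le_add_of_nonneg_of_le KK (pow_le_pow_left₀ (Nr_nonneg _) (Nr_le_of_dvd hQ8 (hq a).2.2) 2)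
  have hq1 : ∀ a, Nr (q₀ a) ≤ K₁ * K + Nr (c₀ * (72 * Q)) ^ 2 := fun a =>
    le_trans (by nlinarith [one_le_Nr (hq a).1]) (hq2 a)
  refine ⟨36 * (c₀ * (72 * Q)), K₁ * K + Nr (c₀ * (72 * Q)) ^ 2, Nr c₀, mm, V,
    mul_ne_zero (by decide) hQ8, by nlinarith, one_le_Nr hc₀, hV, fun ε hε => ?_⟩
  have hKle : K₁ * K ≤ K₁ * K + Nr (c₀ * (72 * Q)) ^ 2 := le_add_of_nonneg_right (sq_nonneg _)
  generalize K₁ * K + Nr (c₀ * (72 * Q)) ^ 2 = K' at hq1 hq2 hKle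
  obtain ⟨C, hC⟩ := card_pdiv_le hε
  refine ⟨(reps 9).card * ((reps (9 * (c₀ * (72 * Q)))).card * C ^ 2), by positivity,
    fun ψ t k hψ ht hk => ?_⟩
  obtain ⟨T₁, f, h1, h2, ⟨T₀, eT, cT⟩, fb, fp, fx, ef⟩ :=
    cv_weight h72 hcQ hψ (mul_ne_zero ht (pow_ne_zero 6 hk))
  obtain ⟨m, z, hm, hz, sz, mT, cmz, erad, ec, eg, nG, hmul⟩ := cv_split h1 (cv_six h72 h2)
  obtain ⟨rt, rtk⟩ := cv_prim_dvd ht hk eT cT mT hmul
  obtain ⟨l, hl, el⟩ := cv_cop_expand hz sz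
  have hr := hm.rad
  have r0 := Nr_pos hr.ne_zero
  have m6 : IsCoprime m 6 := (cv_six h72 h2).of_isCoprime_of_dvd_left mT
  have dT : ∀ d ∈ pdiv z, rad m * d ∣ rad T₁ := fun d hd =>
    erad ▸ mul_dvd_mul_left _ ((mem_pdiv hz.ne_zero).1 hd).2
  have G0 : gs (chi m) (rad m) 1 ≠ 0 := fun h => by
    rw [h, norm_zero] at nG; exact (Real.sqrt_pos.2 r0).ne nG
  have ex : ∀ α a d : O, ∃ (u₁ u₂ : O → ℂ) (Θ : O → O → ℂ), (∀ x, ‖u₁ x‖ ≤ 1) ∧ (∀ x, ‖u₂ x‖ ≤ 1) ∧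
      (d ∈ pdiv z → (∀ e ∈ pdiv (rad m), ∀ c, ‖Θ e c‖ ≤
        Real.sqrt (Nr e) * Real.sqrt (Nr (rad m)) * Real.sqrt (Nr d)) ∧
      ∀ (h b : O) (L τ : ℝ), Prim h → Squarefree h → IsCoprime h 6 → Prim b → Squarefree b →
        IsCoprime h b → IsCoprime (h * b) (rad m * d) → IsCoprime (h * b) (q₀ a) → 0 < L →
        PSum A (T (J α)) (fun c => eO (c * a₀ a) (9 * q₀ a) *
          (conj (chi h c) * gs (psi0 b) b c * (gs (chi m) (rad m) c * gs (psi0 d) d c))) L τ =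
        ∑ e ∈ pdiv (rad m), u₁ h * u₂ b * (Real.sqrt (Nr b) : ℂ) * (L : ℂ) ^ (1 - τ * I) /
          ((Nr (q₀ a) * Nr (rad m * d) * Nr h * Nr b : ℝ) : ℂ) *
          ∑' c : O, if c ≠ 0 ∧ e ∣ c then T' α a (h * b * (rad m * d)) c * Θ e c * rho h c * kap b c *
            V τ (Nr c * L / (Nr (q₀ a) * Nr (rad m * d) * Nr h * Nr b) ^ 2) else 0) := fun α a d => by
    by_cases hd : d ∈ pdiv z
    · obtain ⟨d1, d2⟩ := (mem_pdiv hz.ne_zero).1 hd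
      obtain ⟨u₁, u₂, Θ, a1, a2, a3⟩ := cv_term2 hV (hT' α a) (hq a).1 (HT' α a) hm m6 d1
        (sz.squarefree_of_dvd d2) (cmz.of_isCoprime_of_dvd_right d2)
        ((cv_cop_of h1.ne_zero h2 (hqQ a)).of_isCoprime_of_dvd_left ((dT d hd).trans (rad_dvd h1.ne_zero)))
      exact ⟨u₁, u₂, Θ, a1, a2, fun _ => a3⟩
    · exact ⟨0, 0, 0, by simp, by simp, fun h => absurd h hd⟩
  choose u₁ u₂ Θ n1 n2 hΘ using ex
  have t0 := Nr_pos (rad_ne_zero t)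
  have k0 := Nr_pos (rad_ne_zero k)
  have rtk' : Nr (rad T₁) ≤ Nr (rad t) * Nr (rad k) := by
    rw [← Nr_mul]; exact Nr_le_of_dvd (mul_ne_zero (rad_ne_zero t) (rad_ne_zero k)) rtk
  refine ⟨O × O × O × O, reps 9 ×ˢ reps (9 * (c₀ * (72 * Q))) ×ˢ pdiv z ×ˢ pdiv (rad m),
    fun i => i.2.2.2, fun i => Nr (q₀ i.2.1) * Nr (rad m * i.2.2.1),
    fun i => Real.sqrt (Nr i.2.2.2) / Real.sqrt (Nr i.2.2.1),
    fun i x => chi x c₀ * u₁ i.1 i.2.1 i.2.2.1 x, fun i => u₂ i.1 i.2.1 i.2.2.1,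
    fun i x y c => T' i.1 i.2.1 (x * y * (rad m * i.2.2.1)) c * ((K₁ : ℂ) *
      clip (co (f x) i.1 i.2.1 / K₁ * chi T₁ c₀ * (l i.2.2.1 * Θ i.1 i.2.1 i.2.2.1 i.2.2.2 c /
        (gs (chi m) (rad m) 1 * ((Real.sqrt (Nr i.2.2.2) / Real.sqrt (Nr i.2.2.1) : ℝ) : ℂ))))),
    ?_, ?_, fun i x => ⟨nmul (norm_chi_le _ _) (n1 _ _ _ _), n2 _ _ _ _⟩, fun i x y => ?_,
    fun i x x' y y' hx hy => ?_, fun h b X τ hh hb hX => ?_⟩
  · rw [Finset.card_product, Finset.card_product, Finset.card_product, Nat.cast_mul, Nat.cast_mul,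
      Nat.cast_mul, mul_assoc, mul_assoc]
    refine mul_le_mul_of_nonneg_left (mul_le_mul_of_nonneg_left ?_ (Nat.cast_nonneg _)) (Nat.cast_nonneg _)
    have c1 := hC z hz.ne_zero
    have c2 := hC _ hr.ne_zero
    calc _ ≤ C * Nr z ^ ε * (C * Nr (rad m) ^ ε) :=
          mul_le_mul c1 c2 (Nat.cast_nonneg _) ((Nat.cast_nonneg _).trans c1)
      _ = C ^ 2 * Nr (rad T₁) ^ ε := by
          rw [erad, Nr_mul, Real.mul_rpow (Nr_nonneg _) (Nr_nonneg _)]; ring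
      _ ≤ _ := mul_le_mul_of_nonneg_left (Real.rpow_le_rpow (Nr_nonneg _) rtk' hε.le) (sq_nonneg _)
  · rintro ⟨α, a, d, e⟩ hi
    simp only [Finset.mem_product] at hi ⊢
    obtain ⟨-, -, hd, he⟩ := hi
    obtain ⟨d1, d2⟩ := (mem_pdiv hz.ne_zero).1 hd
    obtain ⟨e1, e2⟩ := (mem_pdiv hr.ne_zero).1 he
    have e0 := Nr_pos e1.ne_zero
    have d0 := one_le_Nr d1.ne_zero
    have q1 := one_le_Nr (hq a).1
    have er := Nr_le_of_dvd hr.ne_zero e2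
    have r1 := Nr_le_of_dvd (rad_ne_zero t) rt
    have r2 : Nr (rad m) * Nr d ≤ Nr (rad t) * Nr (rad k) := by
      rw [← Nr_mul]; exact (Nr_le_of_dvd (rad_ne_zero _) (dT d hd)).trans rtk'
    rw [Nr_mul]
    exact ⟨e1, (squarefree_rad m).squarefree_of_dvd e2, cv_ineq e0 d0 q1 er r1 r2 (hq1 a) (hq2 a)⟩
  · refine ((hT' _ _ _).mul (G := K₁) fun c => ?_).mono hKle
    rw [norm_mul, Complex.norm_real, Real.norm_of_nonneg (zero_le_one.trans hK₁)]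
    exact mul_le_of_le_one_right (zero_le_one.trans hK₁) (norm_clip _)
  · have d9 : 9 * q₀ i.2.1 ∣ 36 * (c₀ * (72 * Q)) := mul_dvd_mul ⟨4, by norm_num⟩ (hq _).2.2
    beta_reduce
    rw [fx x x' (Dvd.dvd.trans (Dvd.dvd.mul_right ⟨9, by norm_num⟩ _) hx),
      pT' i.1 i.2.1 (x * y * (rad m * i.2.2.1)) (x' * y' * (rad m * i.2.2.1)) (d9.trans (by
        rw [show x * y * (rad m * i.2.2.1) - x' * y' * (rad m * i.2.2.1) =
          (x - x') * (y * (rad m * i.2.2.1)) + (y - y') * (x' * (rad m * i.2.2.1)) by ring]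
        exact dvd_add (hx.mul_right _) (hy.mul_right _)))]
  obtain ⟨p1, p2, p3⟩ := hh
  obtain ⟨b1, b2, b3⟩ := hb
  have b0 := Nr_pos b1.ne_zero
  have hY : 0 < Nr b * X := mul_pos b0 hX
  have c0 := Nr_pos hc₀
  have hQ' : IsCoprime h Q := p3.of_mul_right_left.of_mul_right_left
  have bQ : IsCoprime b Q := b3.of_mul_right_left.of_mul_right_left.of_mul_right_left
  have cop : IsCoprime (h * b) (Q * t * k) := p3.mul_left b3.of_mul_right_left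
  have cT₁ : IsCoprime (h * b) T₁ :=
    (cop.of_mul_right_left.of_mul_right_right.mul_right
      (cop.of_mul_right_right.pow_right (n := 6))).of_isCoprime_of_dvd_right (eT ▸ dvd_mul_left _ _)
  have s1 : sm A (fun N => if b ∣ N then vth N * ψ N * conj (chi N (h * (t * k ^ 6))) else 0) (Nr b * X) τ =
      sm A (fun N => tau N * ang N * f h N * (fun c => (if b ∣ c then 1 else 0) *
        (chi h c₀ * chi T₁ c₀ * (conj (chi h c) * conj (chi T₁ c)))) (c₀ * N)) (Nr b * X) τ := by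
    unfold sm
    refine tsum_congr fun N => ?_
    by_cases hN : Prim N
    · rw [if_pos hN, if_pos hN]
      beta_reduce
      by_cases hbN : b ∣ N
      · rw [if_pos hbN, if_pos (hbN.mul_left _), ef h N p1 hQ' hN, one_mul]
      · rw [if_neg hbN, if_neg (fun h => hbN ((cv_cop_of b1.ne_zero bQ hcQ).dvd_of_dvd_mul_left h))]
        simp
    · rw [if_neg hN, if_neg hN]
  refine (s1.trans (hF0 (f h) (fun c => (if b ∣ c then 1 else 0) *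
    (chi h c₀ * chi T₁ c₀ * (conj (chi h c) * conj (chi T₁ c)))) 1 _ τ (fb h) (fp h)
    (fun c => nmul (by split_ifs <;> simp) (nmul (nmul (norm_chi_le _ _) (norm_chi_le _ _))
      (nmul (nconj (norm_chi_le _ _)) (nconj (norm_chi_le _ _))))) hY)).trans ?_
  clear s1 hF0 HT' ef
  simp only [Finset.sum_product, Finset.mul_sum]
  refine Finset.sum_congr rfl fun α hα => Finset.sum_congr rfl fun a _ => ?_
  simp only [cv_expand ec eg G0 el b1 b2]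
  rw [PSum_sum _ hA (mul_pos c0 hY) (hT _) _ (fun p hp => ⟨1 * (1 * Nr p.2 * (Nr (rad m) * Nr p.1)),
    fun c => by
      obtain ⟨x1, x2⟩ := Finset.mem_product.1 hp
      have y1 := ((mem_pdiv hz.ne_zero).1 x1).1
      have y2 := ((mem_pdiv b1.ne_zero).1 x2).1
      have z1 := norm_gs_le y1.ne_zero (chr_psi0 y1).norm_le c
      have z2 := norm_gs_le y2.ne_zero (chr_psi0 y2).norm_le c
      have z3 := norm_gs_le hr.ne_zero (norm_chi_le m) c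
      have z4 := nconj (norm_chi_le h c)
      have z5 := Nr_nonneg p.2
      rw [norm_mul, norm_mul, norm_mul, norm_mul, norm_eO]
      gcongr⟩), Finset.sum_product, Finset.mul_sum, Finset.mul_sum]
  refine Finset.sum_congr rfl fun d hd => ?_
  rw [Finset.sum_comm, Finset.mul_sum, Finset.mul_sum]
  refine Finset.sum_congr rfl fun b₁ hb₁ => ?_
  obtain ⟨g1, g2⟩ := (mem_pdiv b1.ne_zero).1 hb₁
  have dv : h * b₁ ∣ h * b := mul_dvd_mul_left h g2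
  obtain ⟨nΘ, eΘ⟩ := hΘ α a d hd
  rw [eΘ h b₁ _ τ p1 p2 (cv_six h72 hQ') g1 (b2.squarefree_of_dvd g2)
    (b3.of_mul_right_right.symm.of_isCoprime_of_dvd_right g2)
    ((cT₁.of_isCoprime_of_dvd_left dv).of_isCoprime_of_dvd_right ((dT d hd).trans (rad_dvd h1.ne_zero)))
    ((cv_cop_of (p1.mul b1).ne_zero (hQ'.mul_left bQ) (hqQ a)).of_isCoprime_of_dvd_left dv)
    (mul_pos c0 hY), Finset.mul_sum, Finset.mul_sum, Finset.mul_sum]
  refine Finset.sum_congr rfl fun e he => ?_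
  have e0 := Real.sqrt_pos.2 (Nr_pos ((mem_pdiv hr.ne_zero).1 he).1.ne_zero)
  have d0' := Nr_pos ((mem_pdiv hz.ne_zero).1 hd).1.ne_zero
  have d0 := Real.sqrt_pos.2 d0'
  have w0 : 0 < Real.sqrt (Nr e) / Real.sqrt (Nr d) := div_pos e0 d0
  have cl : ∀ c, ‖co (f h) α a / K₁ * chi T₁ c₀ * (l d * Θ α a d e c /
      (gs (chi m) (rad m) 1 * ((Real.sqrt (Nr e) / Real.sqrt (Nr d) : ℝ) : ℂ)))‖ ≤ 1 := fun c => by
    refine nmul (nmul ?_ (norm_chi_le _ _)) ?_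
    · rw [norm_div, Complex.norm_real, Real.norm_of_nonneg (zero_le_one.trans hK₁)]
      exact div_le_one_of_le₀ (hco _ (fb h) α hα a) (zero_le_one.trans hK₁)
    · rw [norm_div, norm_mul, norm_mul, nG, Complex.norm_real, Real.norm_of_nonneg w0.le]
      refine div_le_one_of_le₀ ?_ (by positivity)
      calc _ ≤ (Nr d)⁻¹ * (Real.sqrt (Nr e) * Real.sqrt (Nr (rad m)) * Real.sqrt (Nr d)) :=
            mul_le_mul (hl d hd) (nΘ e he c) (norm_nonneg _) (by positivity)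
        _ = _ := by
            have := Real.mul_self_sqrt d0'.le
            generalize Real.sqrt (Nr d) = s at *
            rw [← this]; field_simp
  simp only [clip_eq (cl _)]
  rw [← tsum_mul_left, ← tsum_mul_left, ← tsum_mul_left, ← tsum_mul_left, ← tsum_mul_left, ← tsum_mul_left]
  refine tsum_congr fun c => ?_
  split_ifs
  · have sc := cv_scalar c0 hY τ
    have g0 := Nr_pos g1.ne_zero
    have gs' : (Nr b₁ : ℂ) = (Real.sqrt (Nr b₁) : ℂ) * (Real.sqrt (Nr b₁) : ℂ) := by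
      exact_mod_cast (Real.mul_self_sqrt g0.le).symm
    have z1 := k1_sqrt_ne g1.ne_zero
    have z2 : ((Real.sqrt (Nr e) / Real.sqrt (Nr d) : ℝ) : ℂ) ≠ 0 := by exact_mod_cast w0.ne'
    have z3 : (Nr b : ℂ) ≠ 0 := by exact_mod_cast b0.ne'
    have z4 : (Nr h : ℂ) ≠ 0 := by exact_mod_cast (Nr_pos p1.ne_zero).ne'
    have z5 : ((Nr (q₀ a) * Nr (rad m * d) : ℝ) : ℂ) ≠ 0 := by
      exact_mod_cast (mul_pos (Nr_pos (hq a).1) (Nr_pos (mul_ne_zero hr.ne_zero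
        ((mem_pdiv hz.ne_zero).1 hd).1.ne_zero))).ne'
    generalize Real.sqrt (Nr e) / Real.sqrt (Nr d) = w at z2 ⊢
    generalize Nr (q₀ a) * Nr (rad m * d) = q at z5 ⊢
    generalize V τ _ = v
    generalize ((Nr c₀ * (Nr b * X) : ℝ) : ℂ) ^ (1 - τ * I) = P at sc ⊢
    generalize ((Nr b * X : ℝ) : ℂ) ^ (-(τ * I)) = P' at sc ⊢
    push_cast at sc ⊢
    generalize (Real.sqrt (Nr b₁) : ℂ) = s at gs' z1 ⊢
    rw [gs']
    field_simp
    linear_combination (exp := 1) (co (f h) α a * chi h c₀ * chi T₁ c₀ * l d * u₁ α a d h * u₂ α a d b₁ *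
      T' α a (h * b₁ * (rad m * d)) c * Θ α a d e c * rho h c * kap b₁ c * v) * sc
  · simp

end Crest.Agent.R017

end
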