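import Crest.Agent.R017.CFSqfAux3
import Crest.Agent.R017.CFVor

/-! # Row 17: the dual mean value estimate for squarefree rows -/

set_option autoImplicit false

noncomputable section

open scoped BigOperators ComplexConjugate
open Complex MeasureTheory

namespace Crest.Agent.R017

open Classical in
theorem cq_van (A Y τ : ℝ) (ψ : O → ℂ) {b h t k : O}
    (hc : ¬ (IsCoprime h b ∧ IsCoprime b (t * k))) :
    sm A (fun N => if b ∣ N then vth N * ψ N * conj (chi N (h * (t * k ^ 6))) else 0) Y τ = 0 := by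
  refine (sv_congr fun N hN => ?_).trans (sv_zero A Y τ)
  split_ifs with hb
  · rw [(chi_eq_zero hN.ne_zero).2 fun h1 => hc ?_, map_zero, mul_zero]
    have h2 : IsCoprime b (h * (t * k ^ 6)) := (h1.of_isCoprime_of_dvd_left hb).of_mul_right_right
    refine ⟨h2.of_mul_right_left.symm, IsCoprime.mul_right h2.of_mul_right_right.of_mul_right_left
      (h2.of_mul_right_right.of_mul_right_right.of_isCoprime_of_dvd_right
        (dvd_pow_self k (by norm_num)))⟩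
  · rfl

theorem cq_sq_sum {ι : Type} (s : Finset ι) (f : ι → ℂ) :
    ‖∑ i ∈ s, f i‖ ^ 2 ≤ s.card * ∑ i ∈ s, ‖f i‖ ^ 2 :=
  (pow_le_pow_left₀ (norm_nonneg _) (norm_sum_le _ _) 2).trans sq_sum_le_card_mul_sum_sq

open Classical in
theorem cf_sqf {Q : O} (hQ : Q ≠ 0) (h72 : (72 : O) ∣ Q) {A ε : ℝ} (hA : 0 < A) (hε : 0 < ε) :
    ∃ C : ℝ, 0 ≤ C ∧ ∀ (x H X B τ : ℝ) (ψ a : O → ℂ) (t k : O), 1 ≤ x → IsCh Q ψ → t ≠ 0 → k ≠ 0 →
      0 < H → H ≤ x → x⁻¹ ≤ X → X ≤ x → 1 ≤ B → B ≤ x → Nr (rad t) ≤ x → Nr (rad k) ≤ x → Dy Q B a →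
      ∑ h ∈ (box H).filter (fun h => Adm (Q * t * k) h), ‖CFull A ψ a B X τ (t * k ^ 6) h‖ ^ 2 ≤
        C * x ^ ε * (1 + |τ|) ^ C * (∑ b ∈ box B, ‖a b‖ ^ 2) *
          (X * H + H ^ 2 * Nr (rad t) ^ 2 * Nr (rad k) * B + X ^ (5 / 4 : ℝ) * H ^ (1 / 2 : ℝ) * B +
            X ^ (1 / 2 : ℝ) * B ^ 2 * H * Nr (rad t)) := by
  have hε' : 0 < ε / 7 := by linarith
  obtain ⟨Q', K, L, m, V, hQ', hK, hL, hV, hvor⟩ := cf_vor hQ h72 hA
  obtain ⟨C0, hC0, hvor⟩ := hvor _ hε'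
  obtain ⟨C1, D, hC1, hD, hone⟩ := cq_one hV hQ' hK hL hε'
  obtain ⟨C2, hC2, hdiv⟩ := q_card_pdiv hε'
  refine ⟨C0 ^ 2 * C1 * C2 ^ 2 + D, by positivity, ?_⟩
  intro x H X B τ ψ a t k hx hψ ht hk hH0 hHx hX hXx hB hBx hs hr ha
  have hX0 : 0 < X := lt_of_lt_of_le (by positivity) hX
  have hs0 := Nr_nonneg (rad t)
  have hr0 := Nr_nonneg (rad k)
  change _ ≤ _ * cq_br X H B (Nr (rad t)) (Nr (rad k))
  have hbr := cq_br_nonneg hX0.le hH0.le (by linarith : 0 ≤ B) hs0 hr0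
  set br := cq_br X H B (Nr (rad t)) (Nr (rad k)) with hbrdef
  set A2 := ∑ b ∈ box B, ‖a b‖ ^ 2 with hA2
  have hA20 : 0 ≤ A2 := Finset.sum_nonneg fun b _ => by positivity
  rcases lt_or_ge H 1 with hH | hH
  · rw [box_eq_empty hH, Finset.filter_empty, Finset.sum_empty]
    positivity
  obtain ⟨κ, S, e, q, w, u₁, u₂, T, hS, hi, hu, hT, hper, hform⟩ := hvor ψ t k hψ ht hk
  set y := x ^ (ε / 7) with hy
  have hy0 : 0 ≤ y := by positivity
  have hS' : (S.card : ℝ) ≤ C0 * y ^ 2 := by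
    refine hS.trans (mul_le_mul_of_nonneg_left ?_ hC0)
    rw [sq, hy, ← Real.mul_rpow (by linarith) (by linarith)]
    gcongr
  set a' : O → O → ℂ := fun g b => if g ∣ b ∧ IsCoprime b (t * k) then
    a b * ((Nr b * X : ℝ) : ℂ) ^ (-(τ * I)) else 0 with ha'
  set Z : O → κ → O → ℂ := fun g i h => ∑ b ∈ box B, a' g b *
    cq_R (w i) (q i) L X (u₁ i) (u₂ i) (T i) (e i) (V τ) h b with hZ
  have hexp : ∀ h, Adm (Q * t * k) h →
      CFull A ψ a B X τ (t * k ^ 6) h = ∑ g ∈ pdiv h, mu g * ∑ i ∈ S, Z g i h := by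
    intro h hh
    simp only [hZ, Finset.sum_comm (s := S), Finset.mul_sum (s := box B)]
    rw [Finset.sum_comm]
    refine Finset.sum_congr rfl fun b _ => ?_
    set R := ∑ i ∈ S, cq_R (w i) (q i) L X (u₁ i) (u₂ i) (T i) (e i) (V τ) h b with hR
    have e1 : ∑ g ∈ pdiv h, mu g * ∑ i ∈ S, a' g b *
        cq_R (w i) (q i) L X (u₁ i) (u₂ i) (T i) (e i) (V τ) h b =
        (∑ g ∈ pdiv h, if g ∣ b then mu g else 0) * if IsCoprime b (t * k) then
          a b * (((Nr b * X : ℝ) : ℂ) ^ (-(τ * I)) * R) else 0 := by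
      rw [Finset.sum_mul]
      refine Finset.sum_congr rfl fun g _ => ?_
      rw [← Finset.mul_sum, ← hR]
      by_cases h1 : g ∣ b <;> by_cases h2 : IsCoprime b (t * k) <;> simp [ha', h1, h2, mul_assoc]
    rw [e1, sum_pdiv_mu_dvd hh.1]
    by_cases h0 : a b = 0
    · simp [h0]
    by_cases hc : IsCoprime h b ∧ IsCoprime b (t * k)
    · obtain ⟨⟨b1, b2, b3⟩, -⟩ := ha b h0
      rw [if_pos hc.1, if_pos hc.2, one_mul,
        hform h b X τ hh ⟨b1, b2, IsCoprime.mul_right ?_ hc.1.symm⟩ hX0]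
      · rfl
      · rw [mul_assoc]; exact b3.mul_right hc.2
    · rw [cq_van A _ τ ψ hc, mul_zero]
      by_cases h1 : IsCoprime h b
      · rw [if_neg fun h2 => hc ⟨h1, h2⟩, mul_zero]
      · rw [if_neg h1, zero_mul]
  set Γ := (box x).filter Prim with hΓ
  have each : ∀ h ∈ (box H).filter (fun h => Adm (Q * t * k) h),
      ‖CFull A ψ a B X τ (t * k ^ 6) h‖ ^ 2 ≤
        C2 * y * (C0 * y ^ 2) * ∑ g ∈ Γ, ∑ i ∈ S, ‖Z g i h‖ ^ 2 := by
    intro h hh
    obtain ⟨h1, h2⟩ := Finset.mem_filter.1 hh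
    obtain ⟨h3, h4⟩ := mem_box.1 h1
    rw [hexp h h2, mul_assoc]
    refine (cq_sq_sum _ _).trans (mul_le_mul (hdiv x h h3 (h4.trans hHx)) ?_
      (Finset.sum_nonneg fun g _ => by positivity) (by positivity))
    rw [Finset.mul_sum]
    refine le_trans (Finset.sum_le_sum fun g _ => ?_) (Finset.sum_le_sum_of_subset_of_nonneg
      (s := pdiv h) (fun g hg => ?_) fun g _ _ => by positivity)
    · rw [norm_mul]
      refine (pow_le_pow_left₀ (by positivity)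
        (mul_le_of_le_one_left (norm_nonneg _) (norm_mu_le g)) 2).trans ((cq_sq_sum _ _).trans ?_)
      exact mul_le_mul_of_nonneg_right hS' (by positivity)
    · obtain ⟨g1, g2⟩ := (mem_pdiv h3).1 hg
      exact Finset.mem_filter.2 ⟨mem_box.2 ⟨g1.ne_zero,
        (Nr_le_of_dvd h3 g2).trans (h4.trans hHx)⟩, g1⟩
  set M := C1 * y * (1 + |τ|) ^ D * br with hM
  have hM0 : 0 ≤ M := by positivity
  have blk : ∀ g, ∀ i ∈ S, ∑ h ∈ sbox H, ‖Z g i h‖ ^ 2 ≤ M * ∑ b ∈ box B, ‖a' g b‖ ^ 2 := by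
    intro g i hiS
    obtain ⟨i1, i2, i3, i4, -, i6, i7, i8⟩ := hi i hiS
    refine (hone x H X B τ _ _ (w i) (q i) (u₁ i) (u₂ i) (a' g) (T i) (e i) hH hHx hX hXx hB hBx
      hs0 hs hr0 hr i1 i2 i3 i4 i6 i7 i8 (fun z => (hu i z).1) (fun z => (hu i z).2) (hT i)
      (hper i) fun b hb => ?_).trans (le_of_eq (by rw [hM]; ring))
    have h0 : a b ≠ 0 := fun h0 => hb (by simp [ha', h0])
    exact ⟨(ha b h0).1.1, (ha b h0).1.2.1, (ha b h0).2.1⟩
  have hl2 : ∑ g ∈ Γ, ∑ b ∈ box B, ‖a' g b‖ ^ 2 ≤ C2 * y * A2 := by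
    rw [Finset.sum_comm, hA2, Finset.mul_sum]
    refine Finset.sum_le_sum fun b hb => ?_
    obtain ⟨b1, b2⟩ := mem_box.1 hb
    have b3 : ‖((Nr b * X : ℝ) : ℂ) ^ (-(τ * I))‖ = 1 := by
      rw [w3_cpow (mul_pos (Nr_pos b1) hX0)]
      exact cq_norm_ph _ _
    calc _ ≤ ∑ g ∈ Γ, if g ∣ b then ‖a b‖ ^ 2 else 0 := by
          refine Finset.sum_le_sum fun g _ => ?_
          simp only [ha']
          by_cases h1 : g ∣ b
          · rw [if_pos h1]
            split_ifs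
            · rw [norm_mul, b3, mul_one]
            · simp
          · simp [h1]
      _ = ((Γ.filter fun g => g ∣ b).card : ℝ) * ‖a b‖ ^ 2 := by
          rw [← Finset.sum_filter, Finset.sum_const, nsmul_eq_mul]
      _ ≤ _ := by
          refine mul_le_mul_of_nonneg_right (le_trans (Nat.cast_le.2 (Finset.card_le_card
            fun g hg => ?_)) (hdiv x b b1 (b2.trans hBx))) (by positivity)
          obtain ⟨g1, g2⟩ := Finset.mem_filter.1 hg
          exact (mem_pdiv b1).2 ⟨(Finset.mem_filter.1 g1).2, g2⟩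
  refine (Finset.sum_le_sum each).trans ?_
  rw [← Finset.mul_sum]
  have k1 : ∑ h ∈ (box H).filter (fun h => Adm (Q * t * k) h), ∑ g ∈ Γ, ∑ i ∈ S, ‖Z g i h‖ ^ 2 ≤
      C0 * y ^ 2 * (M * (C2 * y * A2)) := by
    calc _ ≤ ∑ h ∈ sbox H, ∑ g ∈ Γ, ∑ i ∈ S, ‖Z g i h‖ ^ 2 := by
          refine Finset.sum_le_sum_of_subset_of_nonneg (fun h hh => ?_) fun h _ _ => by positivity
          obtain ⟨h1, h2⟩ := Finset.mem_filter.1 hh
          exact q_mem_sbox.2 ⟨h2.1, h2.2.1, (mem_box.1 h1).2⟩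
      _ = ∑ g ∈ Γ, ∑ i ∈ S, ∑ h ∈ sbox H, ‖Z g i h‖ ^ 2 := by
          rw [Finset.sum_comm]
          exact Finset.sum_congr rfl fun g _ => Finset.sum_comm
      _ ≤ ∑ g ∈ Γ, C0 * y ^ 2 * (M * ∑ b ∈ box B, ‖a' g b‖ ^ 2) := by
          refine Finset.sum_le_sum fun g _ => ?_
          refine (Finset.sum_le_card_nsmul _ _ _ (blk g)).trans ?_
          rw [nsmul_eq_mul]
          exact mul_le_mul_of_nonneg_right hS' (by positivity)
      _ ≤ _ := by
          rw [← Finset.mul_sum, ← Finset.mul_sum]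
          gcongr
  refine (mul_le_mul_of_nonneg_left k1 (by positivity)).trans ?_
  have e3 : x ^ ε = y ^ 7 := by
    rw [hy, ← Real.rpow_natCast, ← Real.rpow_mul (by linarith)]; congr 1; push_cast; ring
  have e4 : (1 + |τ|) ^ D ≤ (1 + |τ|) ^ (C0 ^ 2 * C1 * C2 ^ 2 + D) :=
    Real.rpow_le_rpow_of_exponent_le (by linarith [abs_nonneg τ]) (le_add_of_nonneg_left
      (by positivity))
  calc _ = C0 ^ 2 * C1 * C2 ^ 2 * y ^ 7 * (1 + |τ|) ^ D * A2 * br := by rw [hM]; ring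
    _ ≤ _ := by
        rw [e3]
        gcongr
        exact le_add_of_nonneg_right hD

end Crest.Agent.R017

end
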