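import Crest.Agent.R017.CFBil

/-! # Row 17: the dual mean value estimate: the core bound -/

set_option autoImplicit false

noncomputable section

open scoped BigOperators ComplexConjugate
open Complex MeasureTheory

namespace Crest.Agent.R017

/-- the phase `y^{-it}` -/
def cq_ph (t y : ℝ) : ℂ := Complex.exp (-(t * I) * (Real.log y : ℝ))

theorem cq_norm_ph (t y : ℝ) : ‖cq_ph t y‖ = 1 := by
  rw [cq_ph, Complex.norm_exp]; simp

theorem cq_ph_mul (t : ℝ) {x y : ℝ} (hx : 0 < x) (hy : 0 < y) :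
    cq_ph t (x * y) = cq_ph t x * cq_ph t y := by
  rw [cq_ph, cq_ph, cq_ph, ← Complex.exp_add, Real.log_mul hx.ne' hy.ne']
  congr 1; push_cast; ring

theorem cq_cont_ph (y : ℝ) : Continuous fun t : ℝ => cq_ph t y := by
  unfold cq_ph; fun_prop

theorem cq_mink {ι : Type} (s : Finset ι) {m : ℝ → ℂ} (hm : Integrable m) {G : ι → ℝ → ℂ}
    (hG : ∀ i, Continuous (G i)) {M : ℝ} (h : ∀ t, ∑ i ∈ s, ‖G i t‖ ^ 2 ≤ M) :
    ∑ i ∈ s, ‖∫ t, m t * G i t‖ ^ 2 ≤ (∫ t, ‖m t‖) ^ 2 * M := by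
  have hM : 0 ≤ M := le_trans (Finset.sum_nonneg fun i _ => by positivity) (h 0)
  have hb : ∀ i ∈ s, ∀ t, ‖G i t‖ ≤ Real.sqrt M := fun i hi t =>
    Real.le_sqrt_of_sq_le (le_trans (Finset.single_le_sum (f := fun i => ‖G i t‖ ^ 2)
      (fun j _ => by positivity) hi) (h t))
  have hint : ∀ i ∈ s, Integrable fun t => m t * G i t := fun i hi =>
    hm.mul_bdd (hG i).aestronglyMeasurable (Filter.Eventually.of_forall (hb i hi))
  set z : ι → ℂ := fun i => ∫ t, m t * G i t with hz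
  set A := ∑ i ∈ s, ‖z i‖ ^ 2 with hA
  have hA0 : 0 ≤ A := Finset.sum_nonneg fun i _ => by positivity
  have hc0 : 0 ≤ ∫ t, ‖m t‖ := integral_nonneg fun t => norm_nonneg _
  have e1 : (A : ℂ) = ∫ t, ∑ i ∈ s, conj (z i) * (m t * G i t) := by
    rw [integral_finset_sum _ fun i hi => (hint i hi).const_mul _, hA]
    push_cast
    refine Finset.sum_congr rfl fun i _ => ?_
    rw [integral_const_mul, Complex.conj_mul']
  have e2 : ∀ t, ‖∑ i ∈ s, conj (z i) * (m t * G i t)‖ ≤ ‖m t‖ * (Real.sqrt A * Real.sqrt M) := by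
    intro t
    have : ∑ i ∈ s, conj (z i) * (m t * G i t) = m t * ∑ i ∈ s, conj (z i) * G i t := by
      rw [Finset.mul_sum]; exact Finset.sum_congr rfl fun i _ => by ring
    rw [this, norm_mul]
    refine mul_le_mul_of_nonneg_left ((norm_sum_le _ _).trans ?_) (norm_nonneg _)
    simp only [norm_mul, Complex.norm_conj]
    rw [← Real.sqrt_mul hA0]
    refine Real.le_sqrt_of_sq_le ((Finset.sum_mul_sq_le_sq_mul_sq _ _ _).trans ?_)
    exact mul_le_mul_of_nonneg_left (h t) hA0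
  have e3 : A ≤ (∫ t, ‖m t‖) * (Real.sqrt A * Real.sqrt M) := by
    have : A = ‖(A : ℂ)‖ := by rw [Complex.norm_real, Real.norm_of_nonneg hA0]
    rw [← integral_mul_const]
    refine this.trans_le ?_
    rw [e1]
    exact norm_integral_le_of_norm_le (hm.norm.mul_const _) (Filter.Eventually.of_forall e2)
  have h1 := Real.sq_sqrt hA0
  have h2 := Real.sq_sqrt hM
  have h3 := Real.sqrt_nonneg A
  have h4 := Real.sqrt_nonneg M
  rcases h3.eq_or_lt with h0 | h0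
  · have : A = 0 := by rw [← h0] at h1; linarith
    exact this.le.trans (by positivity)
  · have : Real.sqrt A ≤ (∫ t, ‖m t‖) * Real.sqrt M := by
      refine le_of_mul_le_mul_left ?_ h0
      nlinarith
    calc A = Real.sqrt A ^ 2 := h1.symm
      _ ≤ ((∫ t, ‖m t‖) * Real.sqrt M) ^ 2 := pow_le_pow_left₀ h3 this 2
      _ = _ := by rw [mul_pow, h2]

theorem cq_TS_le {K : ℝ} (hK : 0 ≤ K) {T : O → ℂ} (h : TS K T) {c : O} (hc : c ≠ 0) :
    ‖T c‖ ≤ K * Nr c := by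
  obtain ⟨u, k, N, hu, hN, rfl⟩ := exists_decomp hc
  by_cases hex : ∃ n j : O, Prim n ∧ Squarefree n ∧ Prim j ∧ N = n * j ^ 3
  · obtain ⟨n, j, hn, hs, hj, rfl⟩ := hex
    refine (h.1 u k n j hu hn hs hj).trans ?_
    rw [mul_assoc, Nr_mul, Nr_mul, Nr_mul, Nr_pow, Nr_pow, isUnit_iff_Nr.1 hu, Nr_lam, one_mul]
    refine mul_le_mul_of_nonneg_left ?_ hK
    have h1 := one_le_Nr hn.ne_zero
    have h2 := one_le_Nr hj.ne_zero
    have h3 : (3 : ℝ) ^ ((k : ℝ) / 6) ≤ 3 ^ k := by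
      rw [← Real.rpow_natCast]
      refine Real.rpow_le_rpow_of_exponent_le (by norm_num) ?_
      have : (0 : ℝ) ≤ k := Nat.cast_nonneg k
      linarith
    have h4 : Real.sqrt (Nr j) ≤ Nr n * Nr j ^ 3 := by
      have a1 : Real.sqrt (Nr j) ≤ Nr j := Real.sqrt_le_self_iff.2 (Or.inr h2)
      have a2 : Nr j ≤ Nr j ^ 3 := le_self_pow₀ h2 (by norm_num)
      nlinarith
    exact mul_le_mul h3 h4 (Real.sqrt_nonneg _) (by positivity)
  · rw [h.2 u k N hu hN hex, norm_zero]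
    exact mul_nonneg hK (Nr_nonneg _)

theorem cq_TS_mul {K : ℝ} {T f : O → ℂ} (h : TS K T) (hf : ∀ c, ‖f c‖ ≤ 1) :
    TS K (fun c => T c * f c) := by
  refine ⟨fun u k n j hu hn hs hj => le_trans ?_ (h.1 u k n j hu hn hs hj),
    fun u k N hu hN hex => by simp only [h.2 u k N hu hN hex, zero_mul]⟩
  rw [norm_mul]
  exact mul_le_of_le_one_right (norm_nonneg _) (hf _)

open Classical in
/-- a term of the dual sum -/
def cq_f (T : O → ℂ) (e : O) (v : ℝ → ℂ) (P : ℝ) (h b c : O) : ℂ :=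
  if c ≠ 0 ∧ e ∣ c then T c * rho h c * kap b c * v (Nr c * P / (Nr h ^ 2 * Nr b)) else 0

/-- the dual sum -/
def cq_S (T : O → ℂ) (e : O) (v : ℝ → ℂ) (P : ℝ) (h b : O) : ℂ := ∑' c : O, cq_f T e v P h b c

theorem cq_tail_sum {f : O → ℂ} (S : Finset O) {D : ℝ}
    (h : ∀ c, c ∉ S → ‖f c‖ ≤ D * Nr c ^ (-(2 : ℝ))) (hD : 0 ≤ D) :
    ‖∑' c, f c - ∑ c ∈ S, f c‖ ≤ D * ∑' c : O, Nr c ^ (-(2 : ℝ)) := by
  classical
  have hs := (summable_Nr_rpow (σ := 2) (by norm_num)).mul_left D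
  have hb : ∀ c, ‖if c ∈ S then 0 else f c‖ ≤ D * Nr c ^ (-(2 : ℝ)) := by
    intro c
    split_ifs with hc
    · rw [norm_zero]; exact mul_nonneg hD (Real.rpow_nonneg (Nr_nonneg _) _)
    · exact h c hc
  have h1 : Summable fun c => if c ∈ S then 0 else f c := Summable.of_norm_bounded hs hb
  have h2 : HasSum (fun c => if c ∈ S then f c else 0) (∑ c ∈ S, f c) := by
    have := hasSum_sum_of_ne_finset_zero (f := fun c => if c ∈ S then f c else 0) (s := S)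
      (L := SummationFilter.unconditional O) (fun c hc => if_neg hc)
    rwa [Finset.sum_congr rfl fun c hc => if_pos hc] at this
  have h3 := (h2.add h1.hasSum).tsum_eq
  have h4 : (fun c => (if c ∈ S then f c else 0) + if c ∈ S then 0 else f c) = f := by
    funext c; split_ifs <;> simp
  rw [h4] at h3
  rw [h3, add_sub_cancel_left, ← tsum_mul_left]
  exact tsum_of_norm_bounded hs.hasSum hb

theorem cq_f_tail {K C P Y₀ w : ℝ} {T : O → ℂ} (hK : 0 ≤ K) (hT : TS K T) (e : O) {v : ℝ → ℂ}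
    {k : ℕ} (hC : 0 ≤ C) (hv : ∀ y, 0 < y → ‖v y‖ ≤ C * y ^ (-(1 / 2 + ((k + 3 : ℕ) : ℝ))))
    (hP : 0 < P) {h b c : O} (hh : h ≠ 0) (hb : b ≠ 0) (hY : Nr h ^ 2 * Nr b / P ≤ Y₀)
    (hw : 1 ≤ w) (hc : c ∉ box (Y₀ * w)) :
    ‖cq_f T e v P h b c‖ ≤ K * C * Y₀ ^ 3 * (w ^ k)⁻¹ * Nr c ^ (-(2 : ℝ)) := by
  have h1 := Nr_pos hh
  have h2 := Nr_pos hb
  have hY0 : 0 < Y₀ := lt_of_lt_of_le (by positivity) hY
  unfold cq_f
  split_ifs with hc0
  swap
  · rw [norm_zero]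
    have := Real.rpow_nonneg (Nr_nonneg c) (-(2 : ℝ))
    positivity
  have h3 := Nr_pos hc0.1
  have h4 : Y₀ * w < Nr c := by
    by_contra hh
    exact hc (mem_box.2 ⟨hc0.1, not_lt.1 hh⟩)
  set y := Nr c * P / (Nr h ^ 2 * Nr b) with hy
  have hy0 : 0 < y := by positivity
  have h5 : Nr c / Y₀ ≤ y := by
    have : y = Nr c / (Nr h ^ 2 * Nr b / P) := by rw [hy]; field_simp
    rw [this]
    exact div_le_div_of_nonneg_left h3.le (by positivity) hY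
  have h6 : w ≤ Nr c / Y₀ := by rw [le_div_iff₀ hY0]; linarith
  have h7 : y ^ (-(1 / 2 + ((k + 3 : ℕ) : ℝ))) ≤ (w ^ k * (Nr c / Y₀) ^ 3)⁻¹ := by
    have a1 : y ^ (-(1 / 2 + ((k + 3 : ℕ) : ℝ))) ≤ y ^ (-((k + 3 : ℕ) : ℝ)) :=
      Real.rpow_le_rpow_of_exponent_le (by linarith) (by linarith)
    refine a1.trans ?_
    rw [Real.rpow_neg hy0.le, Real.rpow_natCast, pow_add]
    refine inv_anti₀ (by positivity) ?_
    exact mul_le_mul (pow_le_pow_left₀ (by linarith) (h6.trans h5) k)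
      (pow_le_pow_left₀ (by positivity) h5 3) (by positivity) (by positivity)
  have h8 : ‖T c * rho h c * kap b c‖ ≤ K * Nr c := by
    rw [norm_mul, norm_mul]
    exact (mul_le_of_le_one_right (by positivity) (norm_kap_le _ _)).trans
      ((mul_le_of_le_one_right (by positivity) (norm_rho_le _ _)).trans (cq_TS_le hK hT hc0.1))
  rw [norm_mul]
  refine (mul_le_mul h8 ((hv y hy0).trans (mul_le_mul_of_nonneg_left h7 hC)) (norm_nonneg _)
    (by positivity)).trans (le_of_eq ?_)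
  rw [Real.rpow_neg h3.le, Real.rpow_two]
  field_simp

open Classical in
theorem cq_main_eq {m v : ℝ → ℂ} (hm : Integrable m)
    (hv : ∀ y, 0 < y → v y = ∫ t : ℝ, m t * (y : ℂ) ^ (-(t * I))) (T α : O → ℂ) (e : O) {P : ℝ}
    (hP : 0 < P) (Y B : ℝ) {h : O} (hh : h ≠ 0) :
    ∑ b ∈ sbox B, α b * ∑ c ∈ box Y, cq_f T e v P h b c =
      ∫ t : ℝ, m t * (cq_ph t (P / Nr h ^ 2) * ∑ c ∈ (box Y).filter (fun c => e ∣ c),
        (T c * cq_ph t (Nr c)) * rho h c * ∑ b ∈ sbox B, (α b * cq_ph t (Nr b)⁻¹) * kap b c) := by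
  have h1 := Nr_pos hh
  have hint : ∀ y : ℝ, Integrable fun t : ℝ => m t * cq_ph t y := fun y =>
    hm.mul_bdd (c := 1) (cq_cont_ph y).aestronglyMeasurable
      (Filter.Eventually.of_forall fun t => (cq_norm_ph t y).le)
  have e1 : ∀ b ∈ sbox B, α b * ∑ c ∈ box Y, cq_f T e v P h b c =
      ∑ c ∈ (box Y).filter (fun c => e ∣ c), ∫ t : ℝ, (α b * (T c * rho h c * kap b c)) *
        (m t * cq_ph t (Nr c * P / (Nr h ^ 2 * Nr b))) := by
    intro b hb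
    have h2 := Nr_pos (q_mem_sbox.1 hb).1.ne_zero
    rw [Finset.sum_filter, Finset.mul_sum]
    refine Finset.sum_congr rfl fun c hc => ?_
    have hc0 := (mem_box.1 hc).1
    have h3 := Nr_pos hc0
    unfold cq_f
    by_cases hec : e ∣ c
    · rw [if_pos ⟨hc0, hec⟩, if_pos hec, integral_const_mul, hv _ (by positivity)]
      simp only [w3_cpow (show 0 < Nr c * P / (Nr h ^ 2 * Nr b) by positivity), cq_ph]
      ring
    · rw [if_neg fun hh => hec hh.2, if_neg hec, mul_zero]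
  rw [Finset.sum_congr rfl e1, Finset.sum_comm]
  rw [Finset.sum_congr rfl fun c _ =>
    (integral_finset_sum _ fun b _ => (hint _).const_mul _).symm,
    ← integral_finset_sum _ fun c _ => integrable_finset_sum _ fun b _ => (hint _).const_mul _]
  refine integral_congr_ae (Filter.Eventually.of_forall fun t => ?_)
  simp only [Finset.mul_sum]
  refine Finset.sum_congr rfl fun c hc => Finset.sum_congr rfl fun b hb => ?_
  have h2 := Nr_pos (q_mem_sbox.1 hb).1.ne_zero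
  have h3 := Nr_pos (mem_box.1 (Finset.mem_filter.1 hc).1).1
  have : Nr c * P / (Nr h ^ 2 * Nr b) = P / Nr h ^ 2 * (Nr c * (Nr b)⁻¹) := by field_simp
  rw [this, cq_ph_mul t (by positivity) (by positivity), cq_ph_mul t h3 (by positivity)]
  ring

/-- the bracket in the bilinear bound -/
def cq_b0 (H Y B E : ℝ) : ℝ :=
  H * Y + Y ^ 2 + H * Y ^ (3 / 4 : ℝ) * B ^ (5 / 4 : ℝ) * E ^ (1 / 4 : ℝ) +
    Y ^ (3 / 2 : ℝ) * B ^ (3 / 2 : ℝ)

theorem cq_b0_nonneg {H Y B E : ℝ} (hH : 0 ≤ H) (hY : 0 ≤ Y) (hB : 0 ≤ B) (hE : 0 ≤ E) :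
    0 ≤ cq_b0 H Y B E := by unfold cq_b0; positivity

theorem cq_b0_mul {H Y B E w : ℝ} (hH : 0 ≤ H) (hY : 0 ≤ Y) (hB : 0 ≤ B) (hE : 0 ≤ E)
    (hw : 1 ≤ w) : cq_b0 H (Y * w) B E ≤ w ^ 2 * cq_b0 H Y B E := by
  have h1 : w ≤ w ^ 2 := by nlinarith
  have h2 : w ^ (3 / 4 : ℝ) ≤ w ^ 2 := by
    rw [← Real.rpow_two]; exact Real.rpow_le_rpow_of_exponent_le hw (by norm_num)
  have h3 : w ^ (3 / 2 : ℝ) ≤ w ^ 2 := by
    rw [← Real.rpow_two]; exact Real.rpow_le_rpow_of_exponent_le hw (by norm_num)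
  unfold cq_b0
  rw [Real.mul_rpow hY (by linarith), Real.mul_rpow hY (by linarith)]
  have a1 : H * (Y * w) ≤ w ^ 2 * (H * Y) := by
    nlinarith [mul_le_mul_of_nonneg_left h1 (mul_nonneg hH hY)]
  have a2 : H * (Y ^ (3 / 4 : ℝ) * w ^ (3 / 4 : ℝ)) * B ^ (5 / 4 : ℝ) * E ^ (1 / 4 : ℝ) ≤
      w ^ 2 * (H * Y ^ (3 / 4 : ℝ) * B ^ (5 / 4 : ℝ) * E ^ (1 / 4 : ℝ)) := by
    nlinarith [mul_le_mul_of_nonneg_left h2
      (show 0 ≤ H * Y ^ (3 / 4 : ℝ) * B ^ (5 / 4 : ℝ) * E ^ (1 / 4 : ℝ) by positivity)]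
  have a3 : Y ^ (3 / 2 : ℝ) * w ^ (3 / 2 : ℝ) * B ^ (3 / 2 : ℝ) ≤
      w ^ 2 * (Y ^ (3 / 2 : ℝ) * B ^ (3 / 2 : ℝ)) := by
    nlinarith [mul_le_mul_of_nonneg_left h3
      (show 0 ≤ Y ^ (3 / 2 : ℝ) * B ^ (3 / 2 : ℝ) by positivity)]
  nlinarith

open Classical in
theorem cq_main {m V : ℝ → ℝ → ℂ} (hV : VW m V) {ε : ℝ} (hε : 0 < ε) :
    ∃ C : ℝ, 0 ≤ C ∧ ∀ (H Y B P τ K : ℝ) (T α : O → ℂ) (e : O), 1 ≤ H → 0 ≤ Y → 1 ≤ B → 0 < P →
      TS K T → Prim e → Squarefree e →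
      Nr e * ∑ h ∈ sbox H, ‖∑ b ∈ sbox B, α b * ∑ c ∈ box Y, cq_f T e (V τ) P h b c‖ ^ 2 ≤
        C * (H * Y * B) ^ ε * K ^ 2 * (∑ b ∈ sbox B, ‖α b‖ ^ 2) * cq_b0 H Y B (Nr e) := by
  obtain ⟨C, hC, h⟩ := cf_bil hε
  obtain ⟨hm, ⟨Cm, hCm⟩, hv, -⟩ := hV
  refine ⟨Cm ^ 2 * C, by positivity, fun H Y B P τ K T α e hH hY hB hP hT he hes => ?_⟩
  have hb0 := cq_b0_nonneg (by linarith : 0 ≤ H) hY (by linarith : 0 ≤ B) (Nr_nonneg e)
  have hE := Nr_pos he.ne_zero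
  rcases lt_or_ge Y 1 with hY1 | hY1
  · simp only [box_eq_empty hY1, Finset.sum_empty, mul_zero, Finset.sum_const_zero, norm_zero,
      ne_eq, OfNat.ofNat_ne_zero, not_false_eq_true, zero_pow]
    positivity
  set M := C * (H * Y * B) ^ ε * K ^ 2 * (∑ b ∈ sbox B, ‖α b‖ ^ 2) * cq_b0 H Y B (Nr e) with hM
  have hM0 : 0 ≤ M := by positivity
  rw [Finset.sum_congr rfl fun h hh => by
    rw [cq_main_eq (hm τ) (hv τ) T α e hP Y B (q_mem_sbox.1 hh).1.ne_zero]]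
  have key := cq_mink (sbox H) (hm τ) (M := M / Nr e)
    (G := fun h t => cq_ph t (P / Nr h ^ 2) * ∑ c ∈ (box Y).filter (fun c => e ∣ c),
        (T c * cq_ph t (Nr c)) * rho h c * ∑ b ∈ sbox B, (α b * cq_ph t (Nr b)⁻¹) * kap b c)
    (fun h => by
      have := cq_cont_ph
      fun_prop)
    (fun t => by
      have := h H Y B K (fun c => T c * cq_ph t (Nr c)) (fun b => α b * cq_ph t (Nr b)⁻¹) e hH hY1
        hB (cq_TS_mul hT fun c => (cq_norm_ph _ _).le) he hes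
      simp only [norm_mul, cq_norm_ph, one_mul, mul_one] at this ⊢
      rw [le_div_iff₀ hE, mul_comm]
      exact this)
  refine (mul_le_mul_of_nonneg_left key hE.le).trans ?_
  have h0 : 0 ≤ ∫ t, ‖m τ t‖ := integral_nonneg fun t => norm_nonneg _
  have h1 : (∫ t, ‖m τ t‖) ^ 2 ≤ Cm ^ 2 := pow_le_pow_left₀ h0 (hCm τ) 2
  calc Nr e * ((∫ t, ‖m τ t‖) ^ 2 * (M / Nr e)) = (∫ t, ‖m τ t‖) ^ 2 * M := by field_simp
    _ ≤ Cm ^ 2 * M := mul_le_mul_of_nonneg_right h1 hM0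
    _ = _ := by rw [hM]; ring

end Crest.Agent.R017

end
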