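import Crest.Agent.R017.CFSqfAux1

/-! # Row 17: the dual mean value estimate: tails, dyadic rows and residue classes -/

set_option autoImplicit false

noncomputable section

open scoped BigOperators ComplexConjugate
open Complex MeasureTheory

namespace Crest.Agent.R017

theorem cq_card_sbox {Y : ℝ} (hY : 0 ≤ Y) : ((sbox Y).card : ℝ) ≤ 25 * Y := by
  refine le_trans (Nat.cast_le.2 (Finset.card_le_card fun x hx => ?_)) (card_box_le hY)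
  exact mem_box.2 ⟨(q_mem_sbox.1 hx).1.ne_zero, (q_mem_sbox.1 hx).2.2⟩

theorem cq_core {m V : ℝ → ℝ → ℂ} (hV : VW m V) {ε : ℝ} (hε : 0 < ε) :
    ∃ C D : ℝ, 0 ≤ C ∧ 0 ≤ D ∧ ∀ (z H B P τ K : ℝ) (T α : O → ℂ) (e : O), 1 ≤ H → H ≤ z → 1 ≤ B →
      B ≤ z → 0 < P → P⁻¹ ≤ z → Nr e ≤ z → 0 ≤ K → TS K T → Prim e → Squarefree e →
      Nr e * ∑ h ∈ sbox H, ‖∑ b ∈ sbox B, α b * cq_S T e (V τ) P h b‖ ^ 2 ≤
        C * z ^ ε * (1 + |τ|) ^ D * K ^ 2 * (∑ b ∈ sbox B, ‖α b‖ ^ 2) *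
          (cq_b0 H (H ^ 2 * B / P) B (Nr e) + (z ^ 4)⁻¹) := by
  set δ := min (ε / 9) 1 with hδ
  have hδ0 : 0 < δ := lt_min (by linarith) one_pos
  have hδ1 : δ ≤ 1 := min_le_right _ _
  have hδ2 : 9 * δ ≤ ε := by have := min_le_left (ε / 9) 1; linarith
  obtain ⟨C, hC, hmain⟩ := cq_main hV hδ0
  obtain ⟨k, hk⟩ := exists_nat_ge (16 / δ)
  obtain ⟨Cv, hCv⟩ := hV.2.2.2 (k + 3)
  set ζ := ∑' c : O, Nr c ^ (-(2 : ℝ)) with hζ
  have hζ0 : 0 ≤ ζ := tsum_nonneg fun c => Real.rpow_nonneg (Nr_nonneg _) _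
  refine ⟨2 * C + 1250 * (|Cv| * ζ) ^ 2, (8 * (k + 3) : ℕ), by positivity, by positivity, ?_⟩
  intro z H B P τ K T α e hH hHz hB hBz hP hPz hez hK hT he hes
  have hz : 1 ≤ z := hH.trans hHz
  have hz0 : 0 < z := by linarith
  set Y₀ := H ^ 2 * B / P with hY₀
  have hY0 : 0 < Y₀ := by positivity
  have hY4 : Y₀ ≤ z ^ 4 := by
    rw [hY₀, div_eq_mul_inv]
    calc H ^ 2 * B * P⁻¹ ≤ z ^ 2 * z * z := by gcongr
      _ = z ^ 4 := by ring
  set w := z ^ δ with hw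
  have hw1 : 1 ≤ w := Real.one_le_rpow hz hδ0.le
  have hwz : w ≤ z := by
    have := Real.rpow_le_rpow_of_exponent_le hz hδ1
    rwa [Real.rpow_one] at this
  have hwk : z ^ 16 ≤ w ^ k := by
    rw [hw, ← Real.rpow_natCast, ← Real.rpow_natCast, ← Real.rpow_mul hz0.le]
    refine Real.rpow_le_rpow_of_exponent_le hz ?_
    rw [div_le_iff₀ hδ0] at hk
    push_cast
    linarith
  set A := ∑ b ∈ sbox B, ‖α b‖ ^ 2 with hA
  have hA0 : 0 ≤ A := Finset.sum_nonneg fun b _ => by positivity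
  set u := (1 + |τ|) ^ (4 * (k + 3)) with hu
  have hu1 : 1 ≤ u := one_le_pow₀ (by linarith [abs_nonneg τ])
  have hu2 : (1 + |τ|) ^ ((8 * (k + 3) : ℕ) : ℝ) = u ^ 2 := by
    rw [Real.rpow_natCast, hu, ← pow_mul]; congr 1; ring
  rw [hu2]
  set R := K * (|Cv| * u) * (z ^ 4)⁻¹ * ζ with hR
  have hR0 : 0 ≤ R := by positivity
  have tail : ∀ h ∈ sbox H, ∀ b ∈ sbox B,
      ‖cq_S T e (V τ) P h b - ∑ c ∈ box (Y₀ * w), cq_f T e (V τ) P h b c‖ ≤ R := by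
    intro h hh b hb
    obtain ⟨h1, -, h2⟩ := q_mem_sbox.1 hh
    obtain ⟨b1, -, b2⟩ := q_mem_sbox.1 hb
    have h3 := Nr_nonneg h
    have b3 := Nr_nonneg b
    refine (cq_tail_sum (box (Y₀ * w)) (D := K * (|Cv| * u) * Y₀ ^ 3 * (w ^ k)⁻¹)
      (fun c hc => cq_f_tail hK hT e (by positivity) (fun y hy => (hCv τ y hy).trans ?_) hP
        h1.ne_zero b1.ne_zero (by rw [hY₀]; gcongr) hw1 hc) (by positivity)).trans ?_
    · have := Real.rpow_nonneg hy.le (-(1 / 2 + ((k + 3 : ℕ) : ℝ)))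
      gcongr
      exact le_abs_self _
    · rw [hR, mul_assoc (K * (|Cv| * u))]
      gcongr
      rw [← div_eq_mul_inv, div_le_iff₀ (by positivity)]
      calc Y₀ ^ 3 ≤ (z ^ 4) ^ 3 := by gcongr
        _ = (z ^ 4)⁻¹ * z ^ 16 := by field_simp
        _ ≤ _ := by gcongr
  have hsum : (∑ b ∈ sbox B, ‖α b‖) ^ 2 ≤ 25 * z * A := by
    refine sq_sum_le_card_mul_sum_sq.trans (mul_le_mul_of_nonneg_right ?_ hA0)
    exact (cq_card_sbox (by linarith)).trans (by linarith)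
  have each : ∀ h ∈ sbox H, ‖∑ b ∈ sbox B, α b * cq_S T e (V τ) P h b‖ ^ 2 ≤
      2 * ‖∑ b ∈ sbox B, α b * ∑ c ∈ box (Y₀ * w), cq_f T e (V τ) P h b c‖ ^ 2 +
        2 * (25 * z * A * R ^ 2) := by
    intro h hh
    set x := ∑ b ∈ sbox B, α b * ∑ c ∈ box (Y₀ * w), cq_f T e (V τ) P h b c with hx
    set y := ∑ b ∈ sbox B, α b * (cq_S T e (V τ) P h b -
      ∑ c ∈ box (Y₀ * w), cq_f T e (V τ) P h b c) with hy
    have e1 : ∑ b ∈ sbox B, α b * cq_S T e (V τ) P h b = x + y := by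
      rw [hx, hy, ← Finset.sum_add_distrib]
      exact Finset.sum_congr rfl fun b _ => by ring
    have e2 : ‖y‖ ≤ (∑ b ∈ sbox B, ‖α b‖) * R := by
      rw [Finset.sum_mul]
      refine (norm_sum_le _ _).trans (Finset.sum_le_sum fun b hb => ?_)
      rw [norm_mul]
      exact mul_le_mul_of_nonneg_left (tail h hh b hb) (norm_nonneg _)
    have e3 : ‖y‖ ^ 2 ≤ 25 * z * A * R ^ 2 := by
      refine (pow_le_pow_left₀ (norm_nonneg _) e2 2).trans ?_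
      rw [mul_pow]
      exact mul_le_mul_of_nonneg_right hsum (by positivity)
    rw [e1]
    have e4 := pow_le_pow_left₀ (norm_nonneg _) (norm_add_le x y) 2
    nlinarith [sq_nonneg (‖x‖ - ‖y‖)]
  have hE := Nr_nonneg e
  have hb0 := cq_b0_nonneg (by linarith : 0 ≤ H) hY0.le (by linarith : 0 ≤ B) hE
  have hzε : 1 ≤ z ^ ε := Real.one_le_rpow hz hε.le
  have m1 := hmain H (Y₀ * w) B P τ K T α e hH (by positivity) hB hP hT he hes
  have m2 : (H * (Y₀ * w) * B) ^ δ * w ^ 2 ≤ z ^ ε := by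
    have a1 : H * (Y₀ * w) * B ≤ z ^ 7 := by
      calc H * (Y₀ * w) * B ≤ z * (z ^ 4 * z) * z := by gcongr
        _ = z ^ 7 := by ring
    have a2 : (H * (Y₀ * w) * B) ^ δ ≤ w ^ 7 := by
      refine (Real.rpow_le_rpow (by positivity) a1 hδ0.le).trans (le_of_eq ?_)
      rw [hw, ← Real.rpow_natCast, ← Real.rpow_natCast, ← Real.rpow_mul hz0.le,
        ← Real.rpow_mul hz0.le, mul_comm]
    calc _ ≤ w ^ 7 * w ^ 2 := by gcongr
      _ = z ^ (δ * (9 : ℕ)) := by rw [Real.rpow_mul hz0.le, Real.rpow_natCast]; ring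
      _ ≤ z ^ ε := Real.rpow_le_rpow_of_exponent_le hz (by push_cast; linarith)
  have m3 : Nr e * ∑ h ∈ sbox H, ‖∑ b ∈ sbox B, α b *
      ∑ c ∈ box (Y₀ * w), cq_f T e (V τ) P h b c‖ ^ 2 ≤
      C * z ^ ε * u ^ 2 * K ^ 2 * A * (cq_b0 H Y₀ B (Nr e) + (z ^ 4)⁻¹) := by
    refine m1.trans ?_
    have hu3 : 1 ≤ u ^ 2 := one_le_pow₀ hu1
    calc _ ≤ C * (H * (Y₀ * w) * B) ^ δ * K ^ 2 * A * (w ^ 2 * cq_b0 H Y₀ B (Nr e)) := by
          gcongr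
          exact cq_b0_mul (by linarith) hY0.le (by linarith) hE hw1
      _ = C * ((H * (Y₀ * w) * B) ^ δ * w ^ 2) * 1 * K ^ 2 * A * (cq_b0 H Y₀ B (Nr e) + 0) := by
          ring
      _ ≤ _ := by gcongr; positivity
  have m4 : Nr e * (((sbox H).card : ℝ) * (2 * (25 * z * A * R ^ 2))) ≤
      1250 * (|Cv| * ζ) ^ 2 * z ^ ε * u ^ 2 * K ^ 2 * A * (cq_b0 H Y₀ B (Nr e) + (z ^ 4)⁻¹) := by
    have a1 : ((sbox H).card : ℝ) ≤ 25 * z := (cq_card_sbox (by linarith)).trans (by linarith)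
    calc _ ≤ z * (25 * z * (2 * (25 * z * A * R ^ 2))) := by gcongr
      _ = 1250 * (|Cv| * ζ) ^ 2 * z⁻¹ * u ^ 2 * K ^ 2 * A * (0 + (z ^ 4)⁻¹) := by
          rw [hR]; field_simp; ring
      _ ≤ _ := by
          gcongr
          exact (inv_le_one_of_one_le₀ hz).trans hzε
  refine (mul_le_mul_of_nonneg_left (Finset.sum_le_sum each) hE).trans ?_
  rw [Finset.sum_add_distrib, ← Finset.mul_sum, Finset.sum_const, nsmul_eq_mul]
  nlinarith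

/-- the bracket after the weights are removed -/
def cq_b1 (H B P E : ℝ) : ℝ :=
  H / P + H ^ 2 * B / P ^ 2 + H ^ (1 / 2 : ℝ) * B * E ^ (1 / 4 : ℝ) / P ^ (3 / 4 : ℝ) +
    H * B ^ 2 / P ^ (3 / 2 : ℝ)

theorem cq_rp {x : ℝ} (hx : 0 ≤ x) (n : ℕ) {r : ℝ} (h : 4 * r = n) : (x ^ 4) ^ r = x ^ n := by
  rw [← Real.rpow_natCast, ← Real.rpow_mul hx, ← Real.rpow_natCast x n, ← h]; norm_num

theorem cq_root {x : ℝ} (hx : 0 < x) : ∃ y : ℝ, 0 < y ∧ x = y ^ 4 :=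
  ⟨x ^ ((4 : ℕ) : ℝ)⁻¹, Real.rpow_pos_of_pos hx _,
    (Real.rpow_inv_natCast_pow hx.le (by norm_num)).symm⟩

theorem cq_b0_eq {H B P : ℝ} (hH : 0 < H) (hB : 0 < B) (hP : 0 < P) (E : ℝ) :
    cq_b0 H (H ^ 2 * B / P) B E = H ^ 2 * B * cq_b1 H B P E := by
  obtain ⟨η, hη, rfl⟩ := cq_root hH
  obtain ⟨b, hb, rfl⟩ := cq_root hB
  obtain ⟨p, hp, rfl⟩ := cq_root hP
  have e1 : (η ^ 4) ^ 2 * b ^ 4 / p ^ 4 = (η ^ 2 * b / p) ^ 4 := by field_simp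
  unfold cq_b0 cq_b1
  rw [e1, cq_rp (by positivity) 3 (r := 3 / 4) (by norm_num),
    cq_rp (by positivity) 6 (r := 3 / 2) (by norm_num), cq_rp hb.le 5 (by norm_num),
    cq_rp hb.le 6 (by norm_num), cq_rp hη.le 2 (by norm_num), cq_rp hp.le 3 (by norm_num),
    cq_rp hp.le 6 (by norm_num)]
  field_simp

theorem cq_b1_mono {H H' B P E : ℝ} (hH : 0 ≤ H) (h : H ≤ H') (hB : 0 ≤ B) (hP : 0 < P)
    (hE : 0 ≤ E) : cq_b1 H B P E ≤ cq_b1 H' B P E := by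
  unfold cq_b1; gcongr

theorem cq_b1_nonneg {H B P E : ℝ} (hH : 0 ≤ H) (hB : 0 ≤ B) (hP : 0 < P) (hE : 0 ≤ E) :
    0 ≤ cq_b1 H B P E := by unfold cq_b1; positivity

theorem cq_dy {m V : ℝ → ℝ → ℂ} (hV : VW m V) {ε : ℝ} (hε : 0 < ε) :
    ∃ C D : ℝ, 0 ≤ C ∧ 0 ≤ D ∧ ∀ (z H B P τ K : ℝ) (T α : O → ℂ) (e : O), 1 ≤ H → H ≤ z → 1 ≤ B →
      B ≤ z → 0 < P → P⁻¹ ≤ z → Nr e ≤ z → 0 ≤ K → TS K T → Prim e → Squarefree e →
      (∀ b, α b ≠ 0 → B / 2 < Nr b) →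
      Nr e * ∑ h ∈ sbox H, (Nr h ^ 2)⁻¹ *
          ‖∑ b ∈ sbox B, α b / (Real.sqrt (Nr b) : ℂ) * cq_S T e (V τ) P h b‖ ^ 2 ≤
        C * z ^ ε * (1 + |τ|) ^ D * K ^ 2 * (∑ b ∈ sbox B, ‖α b‖ ^ 2) *
          (cq_b1 H B P (Nr e) + (z ^ 4)⁻¹) := by
  obtain ⟨C, D, hC, hD, hcore⟩ := cq_core hV (half_pos hε)
  obtain ⟨C1, hC1, hdy⟩ := q_dyadic (half_pos hε)
  refine ⟨C1 * (8 * C), D, by positivity, hD, ?_⟩
  intro z H B P τ K T α e hH hHz hB hBz hP hPz hez hK hT he hes hα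
  obtain ⟨J, ι, hJ, hι⟩ := hdy H hH
  have hz : 1 ≤ z := hH.trans hHz
  have hE := Nr_nonneg e
  set F : O → ℝ := fun h =>
    ‖∑ b ∈ sbox B, α b / (Real.sqrt (Nr b) : ℂ) * cq_S T e (V τ) P h b‖ ^ 2 with hF
  have hF0 : ∀ h, 0 ≤ F h := fun h => by positivity
  set A := ∑ b ∈ sbox B, ‖α b‖ ^ 2 with hA
  have hA0 : 0 ≤ A := Finset.sum_nonneg fun b _ => by positivity
  have hA1 : ∑ b ∈ sbox B, ‖α b / (Real.sqrt (Nr b) : ℂ)‖ ^ 2 ≤ 2 / B * A := by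
    rw [hA, Finset.mul_sum]
    refine Finset.sum_le_sum fun b _ => ?_
    by_cases h0 : α b = 0
    · simp [h0]
    have h1 := hα b h0
    rw [norm_div, div_pow, Complex.norm_real, Real.norm_of_nonneg (Real.sqrt_nonneg _),
      Real.sq_sqrt (Nr_nonneg b), div_le_iff₀ (by linarith), mul_right_comm]
    refine le_mul_of_one_le_left (by positivity) ?_
    rw [div_mul_eq_mul_div, le_div_iff₀ (by linarith)]
    linarith
  have hb1 := cq_b1_nonneg (by linarith : 0 ≤ H) (by linarith : 0 ≤ B) hP hE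
  set M := 8 * C * z ^ (ε / 2) * (1 + |τ|) ^ D * K ^ 2 * A * (cq_b1 H B P (Nr e) + (z ^ 4)⁻¹)
    with hM
  have hM0 : 0 ≤ M := by positivity
  have blk : ∀ j : ℕ, Nr e * ∑ h ∈ sbox (H / 2 ^ j), 4 / (H / 2 ^ j) ^ 2 * F h ≤ M := by
    intro j
    set G := H / 2 ^ j with hG
    have hGH : G ≤ H := div_le_self (by linarith) (one_le_pow₀ (by norm_num))
    rcases lt_or_ge G 1 with hG1 | hG1
    · have : sbox G = ∅ := by
        refine Finset.eq_empty_of_forall_notMem fun x hx => ?_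
        have := one_le_Nr (q_mem_sbox.1 hx).1.ne_zero
        linarith [(q_mem_sbox.1 hx).2.2]
      rw [this, Finset.sum_empty, mul_zero]
      exact hM0
    have h1 := hcore z G B P τ K T (fun b => α b / (Real.sqrt (Nr b) : ℂ)) e hG1 (hGH.trans hHz)
      hB hBz hP hPz hez hK hT he hes
    rw [cq_b0_eq (by linarith) (by linarith) hP] at h1
    have hb2 := cq_b1_nonneg (by linarith : 0 ≤ G) (by linarith : 0 ≤ B) hP hE
    have hb3 := cq_b1_mono (by linarith : 0 ≤ G) hGH (by linarith : 0 ≤ B) hP hE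
    have h2 : 1 ≤ G ^ 2 * B := one_le_mul_of_one_le_of_one_le (one_le_pow₀ hG1) hB
    have h3 : G ^ 2 * B * cq_b1 G B P (Nr e) + (z ^ 4)⁻¹ ≤
        G ^ 2 * B * (cq_b1 H B P (Nr e) + (z ^ 4)⁻¹) := by
      rw [mul_add]
      gcongr
      exact le_mul_of_one_le_left (by positivity) h2
    rw [← Finset.mul_sum, mul_left_comm]
    refine (mul_le_mul_of_nonneg_left h1 (by positivity)).trans ?_
    calc _ ≤ 4 / G ^ 2 * (C * z ^ (ε / 2) * (1 + |τ|) ^ D * K ^ 2 * (2 / B * A) *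
          (G ^ 2 * B * (cq_b1 H B P (Nr e) + (z ^ 4)⁻¹))) := by gcongr
      _ = M := by rw [hM]; field_simp; ring
  have cover : ∑ h ∈ sbox H, (Nr h ^ 2)⁻¹ * F h ≤
      ∑ j ∈ Finset.range J, ∑ h ∈ sbox (H / 2 ^ j), 4 / (H / 2 ^ j) ^ 2 * F h := by
    classical
    rw [← Finset.sum_fiberwise_of_maps_to (s := sbox H) (t := Finset.range J)
      (g := fun h => ι (Nr h)) fun h hh => Finset.mem_range.2
        (hι _ (one_le_Nr (q_mem_sbox.1 hh).1.ne_zero) (q_mem_sbox.1 hh).2.2).1]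
    refine Finset.sum_le_sum fun j _ => ?_
    refine le_trans (Finset.sum_le_sum fun h hh => ?_) (Finset.sum_le_sum_of_subset_of_nonneg
      (s := (sbox H).filter fun h => ι (Nr h) = j) (fun h hh => ?_) fun h _ _ => by
        have := hF0 h
        positivity)
    · obtain ⟨hh1, rfl⟩ := Finset.mem_filter.1 hh
      have h0 := one_le_Nr (q_mem_sbox.1 hh1).1.ne_zero
      have h1 := (hι _ h0 (q_mem_sbox.1 hh1).2.2).2.1
      refine mul_le_mul_of_nonneg_right ?_ (hF0 h)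
      have h2 : 0 < H / 2 ^ ι (Nr h) := by positivity
      rw [inv_eq_one_div, div_le_div_iff₀ (by positivity) (by positivity)]
      nlinarith
    · obtain ⟨hh1, rfl⟩ := Finset.mem_filter.1 hh
      obtain ⟨a1, a2, a3⟩ := q_mem_sbox.1 hh1
      exact q_mem_sbox.2 ⟨a1, a2, (hι _ (one_le_Nr a1.ne_zero) a3).2.2⟩
  refine (mul_le_mul_of_nonneg_left cover hE).trans ?_
  rw [Finset.mul_sum]
  refine (Finset.sum_le_card_nsmul _ _ M fun j _ => blk j).trans ?_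
  rw [Finset.card_range, nsmul_eq_mul]
  have h4 : (J : ℝ) ≤ C1 * z ^ (ε / 2) := hJ.trans (by gcongr)
  refine (mul_le_mul_of_nonneg_right h4 hM0).trans (le_of_eq ?_)
  have : z ^ ε = z ^ (ε / 2) * z ^ (ε / 2) := by
    rw [← Real.rpow_add (by linarith)]; congr 1; ring
  rw [hM, this]
  ring

theorem cq_cls {m V : ℝ → ℝ → ℂ} (hV : VW m V) {Q' : O} (hQ' : Q' ≠ 0) {ε : ℝ} (hε : 0 < ε) :
    ∃ C D : ℝ, 0 ≤ C ∧ 0 ≤ D ∧ ∀ (z H B P τ K : ℝ) (T : O → O → O → ℂ) (α : O → ℂ) (e : O),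
      1 ≤ H → H ≤ z → 1 ≤ B → B ≤ z → 0 < P → P⁻¹ ≤ z → Nr e ≤ z → 0 ≤ K → (∀ x y, TS K (T x y)) →
      (∀ x x' y y', Q' ∣ x - x' → Q' ∣ y - y' → T x y = T x' y') → Prim e → Squarefree e →
      (∀ b, α b ≠ 0 → B / 2 < Nr b) →
      Nr e * ∑ h ∈ sbox H, (Nr h ^ 2)⁻¹ *
          ‖∑ b ∈ sbox B, α b / (Real.sqrt (Nr b) : ℂ) * cq_S (T h b) e (V τ) P h b‖ ^ 2 ≤
        C * z ^ ε * (1 + |τ|) ^ D * K ^ 2 * (∑ b ∈ sbox B, ‖α b‖ ^ 2) *
          (cq_b1 H B P (Nr e) + (z ^ 4)⁻¹) := by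
  obtain ⟨C, D, hC, hD, hdy⟩ := cq_dy hV hε
  set N : ℝ := ((reps Q').card : ℝ) with hN
  have hN0 : 0 ≤ N := Nat.cast_nonneg _
  refine ⟨N ^ 3 * C, D, by positivity, hD, ?_⟩
  intro z H B P τ K T α e hH hHz hB hBz hP hPz hez hK hT hper he hes hα
  have hz : 1 ≤ z := hH.trans hHz
  have hE := Nr_nonneg e
  set F : O → O → O → ℝ := fun r s h => (Nr h ^ 2)⁻¹ *
    ‖∑ b ∈ sbox B, (if b3_r Q' b = s then α b else 0) / (Real.sqrt (Nr b) : ℂ) *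
      cq_S (T r s) e (V τ) P h b‖ ^ 2 with hF
  have hF0 : ∀ r s h, 0 ≤ F r s h := fun r s h => by positivity
  have hb1 := cq_b1_nonneg (by linarith : 0 ≤ H) (by linarith : 0 ≤ B) hP hE
  set M := C * z ^ ε * (1 + |τ|) ^ D * K ^ 2 * (∑ b ∈ sbox B, ‖α b‖ ^ 2) *
    (cq_b1 H B P (Nr e) + (z ^ 4)⁻¹) with hM
  have blk : ∀ r s, Nr e * ∑ h ∈ sbox H, F r s h ≤ M := by
    intro r s
    refine (hdy z H B P τ K (T r s) (fun b => if b3_r Q' b = s then α b else 0) e hH hHz hB hBz hP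
      hPz hez hK (hT r s) he hes fun b hb => hα b fun h0 => hb (by simp [h0])).trans ?_
    rw [hM]
    gcongr with b hb
    split_ifs
    · exact le_rfl
    · simp
  have each : ∀ h, (Nr h ^ 2)⁻¹ *
      ‖∑ b ∈ sbox B, α b / (Real.sqrt (Nr b) : ℂ) * cq_S (T h b) e (V τ) P h b‖ ^ 2 ≤
      N * ∑ r ∈ reps Q', ∑ s ∈ reps Q', F r s h := by
    intro h
    have h1 := q_split (sbox B) (reps Q') (b3_r Q') (fun b _ => b3_r_mem hQ' b)
      (fun b => α b / (Real.sqrt (Nr b) : ℂ) * cq_S (T h b) e (V τ) P h b)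
    refine (mul_le_mul_of_nonneg_left h1 (by positivity)).trans ?_
    rw [mul_left_comm]
    refine mul_le_mul_of_nonneg_left (le_trans (le_of_eq ?_)
      (Finset.single_le_sum (f := fun r => ∑ s ∈ reps Q', F r s h)
        (fun r _ => Finset.sum_nonneg fun s _ => hF0 r s h) (b3_r_mem hQ' h))) hN0
    rw [Finset.mul_sum]
    refine Finset.sum_congr rfl fun s _ => ?_
    rw [hF]
    congr 3
    refine Finset.sum_congr rfl fun b _ => ?_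
    split_ifs with hb
    · rw [← hb, hper _ h _ b (b3_r_dvd Q' h) (b3_r_dvd Q' b)]
    · simp
  refine (mul_le_mul_of_nonneg_left (Finset.sum_le_sum fun h _ => each h) hE).trans ?_
  rw [← Finset.mul_sum, mul_left_comm, Finset.sum_comm, Finset.mul_sum]
  have h2 : ∀ r ∈ reps Q', Nr e * ∑ h ∈ sbox H, ∑ s ∈ reps Q', F r s h ≤ N * M := by
    intro r _
    rw [Finset.sum_comm, Finset.mul_sum]
    refine (Finset.sum_le_card_nsmul _ _ M fun s _ => blk r s).trans ?_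
    rw [nsmul_eq_mul]
  refine (mul_le_mul_of_nonneg_left (Finset.sum_le_card_nsmul _ _ _ h2) hN0).trans (le_of_eq ?_)
  rw [nsmul_eq_mul, hM]
  ring

end Crest.Agent.R017

end
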