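import Crest.Agent.R017.CFSqfAux2

/-! # Row 17: the dual mean value estimate: one term of the Voronoi formula -/

set_option autoImplicit false

noncomputable section

open scoped BigOperators ComplexConjugate
open Complex MeasureTheory

namespace Crest.Agent.R017

theorem cq_reindex {M : Type} [AddCommMonoid M] (B : ℝ) (G : O → O → M)
    (hG : ∀ b b₁, G b b₁ ≠ 0 → Prim b ∧ Squarefree b) :
    ∑ b ∈ box B, ∑ b₁ ∈ pdiv b, G b b₁ =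
      ∑ b₂ ∈ box B, ∑ b₁ ∈ sbox (B / Nr b₂), if Prim b₂ then G (b₁ * b₂) b₁ else 0 := by
  rw [Finset.sum_sigma', Finset.sum_sigma']
  symm
  refine Finset.sum_bij_ne_zero (fun x _ _ => ⟨x.2 * x.1, x.2⟩) ?_ ?_ ?_ ?_
  · rintro ⟨b₂, b₁⟩ h1 h2
    obtain ⟨a1, a2⟩ := Finset.mem_sigma.1 h1
    obtain ⟨a3, -⟩ := mem_box.1 a1
    obtain ⟨a4, -, a5⟩ := q_mem_sbox.1 a2
    have a6 := mul_ne_zero a4.ne_zero a3
    refine Finset.mem_sigma.2 ⟨mem_box.2 ⟨a6, ?_⟩, (mem_pdiv a6).2 ⟨a4, dvd_mul_right _ _⟩⟩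
    rw [Nr_mul]
    exact (le_div_iff₀ (Nr_pos a3)).1 a5
  · rintro ⟨b₂, b₁⟩ h1 h2 ⟨b₂', b₁'⟩ h1' h2' h
    obtain ⟨e1, e2⟩ := Sigma.mk.inj_iff.1 h
    have e3 : b₁ = b₁' := eq_of_heq e2
    subst e3
    have a4 := (q_mem_sbox.1 (Finset.mem_sigma.1 h1).2).1.ne_zero
    have e4 : b₂ = b₂' := mul_left_cancel₀ a4 e1
    rw [e4]
  · rintro ⟨b, b₁⟩ h1 h2
    obtain ⟨a1, a2⟩ := Finset.mem_sigma.1 h1
    dsimp only at a1 a2 h2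
    obtain ⟨a3, a4⟩ := mem_box.1 a1
    obtain ⟨a5, b₂, rfl⟩ := (mem_pdiv a3).1 a2
    obtain ⟨a6, a7⟩ := hG _ _ h2
    have a8 : Prim b₂ := a5.of_mul a6
    have a9 := one_le_Nr a5.ne_zero
    have a10 := Nr_pos a8.ne_zero
    rw [Nr_mul] at a4
    refine ⟨⟨b₂, b₁⟩, Finset.mem_sigma.2 ⟨mem_box.2 ⟨a8.ne_zero, by nlinarith⟩,
      q_mem_sbox.2 ⟨a5, a7.of_mul_left, (le_div_iff₀ a10).2 a4⟩⟩, ?_, rfl⟩
    simpa only [if_pos a8] using h2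
  · rintro ⟨b₂, b₁⟩ h1 h2
    by_cases hb : Prim b₂
    · simp only [if_pos hb]
    · exact absurd (if_neg hb) h2

theorem cq_cs {ι : Type} (s : Finset ι) (f : ι → ℂ) {β : ι → ℝ} (hβ : ∀ i ∈ s, 0 < β i) :
    ‖∑ i ∈ s, f i‖ ^ 2 ≤ (∑ i ∈ s, (β i)⁻¹) * ∑ i ∈ s, β i * ‖f i‖ ^ 2 := by
  refine (pow_le_pow_left₀ (norm_nonneg _) (norm_sum_le _ _) 2).trans ?_
  refine Finset.sum_sq_le_sum_mul_sum_of_sq_eq_mul s (fun i hi => (inv_pos.2 (hβ i hi)).le)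
    (fun i hi => mul_nonneg (hβ i hi).le (by positivity)) fun i hi => ?_
  have := hβ i hi
  field_simp

/-- the bracket in the final bound -/
def cq_br (X H B s r : ℝ) : ℝ :=
  X * H + H ^ 2 * s ^ 2 * r * B + X ^ (5 / 4 : ℝ) * H ^ (1 / 2 : ℝ) * B +
    X ^ (1 / 2 : ℝ) * B ^ 2 * H * s

theorem cq_br_nonneg {X H B s r : ℝ} (hX : 0 ≤ X) (hH : 0 ≤ H) (hB : 0 ≤ B) (hs : 0 ≤ s)
    (hr : 0 ≤ r) : 0 ≤ cq_br X H B s r := by unfold cq_br; positivity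

theorem cq_num {x z K L X H B β q w E s r : ℝ} (hK : 1 ≤ K) (hL : 1 ≤ L) (hx : 1 ≤ x) (hz : x ≤ z)
    (hX : x⁻¹ ≤ X) (hXx : X ≤ x) (hH : 1 ≤ H) (hB : 0 ≤ B) (hβ : 1 ≤ β) (hβx : β ≤ x) (hE : 1 ≤ E)
    (hEq : E ≤ q) (hs : 0 ≤ s) (hr : 0 ≤ r) (h1 : w ^ 2 ≤ E) (h2 : w ^ 2 * q ≤ K * E * s)
    (h3 : w ^ 2 * q ^ 2 ≤ K * E * s ^ 2 * r) :
    β * (w * (L * X) / q) ^ 2 * (cq_b1 H (B / β) (L * β * X / q ^ 2) E + (z ^ 4)⁻¹) ≤
      E * (2 * K * L ^ 2 * cq_br X H B s r) := by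
  have hX0 : 0 < X := lt_of_lt_of_le (by positivity) hX
  have hq : 1 ≤ q := hE.trans hEq
  have hKL : 1 ≤ K * L ^ 2 := one_le_mul_of_one_le_of_one_le hK (one_le_pow₀ hL)
  have hL2 : L ≤ K * L ^ 2 := by nlinarith
  have hL3 : L ^ 2 ≤ K * L ^ 2 := le_mul_of_one_le_left (by positivity) hK
  have hH2 : 0 ≤ H ^ (1 / 2 : ℝ) := by positivity
  have t1 : β * (w * (L * X) / q) ^ 2 * (H / (L * β * X / q ^ 2)) ≤ E * (K * L ^ 2 * (X * H)) := by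
    calc _ = w ^ 2 * (L * (X * H)) := by field_simp
      _ ≤ _ := by gcongr
  have t2 : β * (w * (L * X) / q) ^ 2 * (H ^ 2 * (B / β) / (L * β * X / q ^ 2) ^ 2) ≤
      E * (K * L ^ 2 * (H ^ 2 * s ^ 2 * r * B)) := by
    calc _ = w ^ 2 * q ^ 2 * (H ^ 2 * B) * (β ^ 2)⁻¹ := by field_simp
      _ ≤ K * E * s ^ 2 * r * (H ^ 2 * B) * L ^ 2 := by
          gcongr
          exact (inv_le_one_of_one_le₀ (one_le_pow₀ hβ)).trans (one_le_pow₀ hL)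
      _ = _ := by ring
  have t5 : β * (w * (L * X) / q) ^ 2 * (z ^ 4)⁻¹ ≤ E * (K * L ^ 2 * (X * H)) := by
    calc _ = w ^ 2 * (L ^ 2 * (β * X ^ 2 * (z ^ 4)⁻¹ * (q ^ 2)⁻¹)) := by field_simp
      _ ≤ E * (K * L ^ 2 * (x * x ^ 2 * (x ^ 4)⁻¹ * 1)) := by
          gcongr
          exact inv_le_one_of_one_le₀ (one_le_pow₀ hq)
      _ = E * (K * L ^ 2 * (x⁻¹ * 1)) := by field_simp
      _ ≤ _ := by gcongr
  obtain ⟨l, hl, rfl⟩ := cq_root (show 0 < L by linarith)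
  obtain ⟨γ, hγ, rfl⟩ := cq_root (show 0 < β by linarith)
  obtain ⟨ξ, hξ, rfl⟩ := cq_root hX0
  obtain ⟨ρ, hρ, rfl⟩ := cq_root (show 0 < q by linarith)
  obtain ⟨η, hη, rfl⟩ := cq_root (show 0 < E by linarith)
  have l1 : 1 ≤ l := (one_le_pow_iff_of_nonneg hl.le (by norm_num)).1 hL
  have γ1 : 1 ≤ γ := (one_le_pow_iff_of_nonneg hγ.le (by norm_num)).1 hβ
  have ρ1 : 1 ≤ ρ := (one_le_pow_iff_of_nonneg hρ.le (by norm_num)).1 hq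
  have ηρ : η ≤ ρ := (pow_le_pow_iff_left₀ hη.le hρ.le (by norm_num)).1 hEq
  have e1 : l ^ 4 * γ ^ 4 * ξ ^ 4 / (ρ ^ 4) ^ 2 = (l * γ * ξ / ρ ^ 2) ^ 4 := by field_simp
  have t3 : γ ^ 4 * (w * (l ^ 4 * ξ ^ 4) / ρ ^ 4) ^ 2 *
      (H ^ (1 / 2 : ℝ) * (B / γ ^ 4) * η / (l * γ * ξ / ρ ^ 2) ^ 3) ≤
      η ^ 4 * (K * (l ^ 4) ^ 2 * (ξ ^ 5 * H ^ (1 / 2 : ℝ) * B)) := by
    calc _ = w ^ 2 * (1 * l ^ 5 * (ξ ^ 5 * H ^ (1 / 2 : ℝ) * B)) * (η / (ρ ^ 2 * γ ^ 3)) := by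
          field_simp
      _ ≤ η ^ 4 * (K * l ^ 8 * (ξ ^ 5 * H ^ (1 / 2 : ℝ) * B)) * 1 := by
          gcongr
          · norm_num
          · rw [div_le_one (by positivity)]
            have a1 : ρ ≤ ρ ^ 2 := le_self_pow₀ ρ1 (by norm_num)
            have a2 : 1 ≤ γ ^ 3 := one_le_pow₀ γ1
            nlinarith
      _ = _ := by ring
  have t4 : γ ^ 4 * (w * (l ^ 4 * ξ ^ 4) / ρ ^ 4) ^ 2 *
      (H * (B / γ ^ 4) ^ 2 / (l * γ * ξ / ρ ^ 2) ^ 6) ≤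
      η ^ 4 * (K * (l ^ 4) ^ 2 * (ξ ^ 2 * B ^ 2 * H * s)) := by
    calc _ = w ^ 2 * ρ ^ 4 * (l ^ 2 * (ξ ^ 2 * B ^ 2 * H)) * (γ ^ 10)⁻¹ := by field_simp
      _ ≤ K * η ^ 4 * s * (l ^ 8 * (ξ ^ 2 * B ^ 2 * H)) * 1 := by
          gcongr
          · norm_num
          · exact inv_le_one_of_one_le₀ (one_le_pow₀ γ1)
      _ = _ := by ring
  unfold cq_b1 cq_br
  rw [e1] at t1 t2 ⊢
  rw [cq_rp (by positivity) 3 (r := 3 / 4) (by norm_num),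
    cq_rp (by positivity) 6 (r := 3 / 2) (by norm_num), cq_rp hη.le 1 (by norm_num),
    cq_rp hξ.le 5 (by norm_num), cq_rp hξ.le 2 (by norm_num), pow_one]
  have p2 : 0 ≤ η ^ 4 * (K * (l ^ 4) ^ 2 * (H ^ 2 * s ^ 2 * r * B)) := by positivity
  have p3 : 0 ≤ η ^ 4 * (K * (l ^ 4) ^ 2 * (ξ ^ 5 * H ^ (1 / 2 : ℝ) * B)) := by positivity
  have p4 : 0 ≤ η ^ 4 * (K * (l ^ 4) ^ 2 * (ξ ^ 2 * B ^ 2 * H * s)) := by positivity
  linarith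

open Classical in
/-- one term of the Voronoi formula -/
def cq_R (w q L X : ℝ) (u₁ u₂ : O → ℂ) (T : O → O → O → ℂ) (e : O) (v : ℝ → ℂ) (h b : O) : ℂ :=
  ∑ b₁ ∈ pdiv b, ((w * (L * X) / (Real.sqrt (Nr b₁) * (q * Nr h)) : ℝ) : ℂ) * u₁ h * u₂ b₁ *
    ∑' c : O, if c ≠ 0 ∧ e ∣ c then T h b₁ c * rho h c * kap b₁ c *
      v (Nr c * (L * (Nr b * X)) / (q * Nr h * Nr b₁) ^ 2) else 0

theorem cq_R_eq {w q L X B : ℝ} (hq : 0 < q) (u₁ u₂ : O → ℂ) (T : O → O → O → ℂ) (e : O)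
    (v : ℝ → ℂ) {h : O} (hh : h ≠ 0) {a : O → ℂ} (ha : ∀ b, a b ≠ 0 → Prim b ∧ Squarefree b) :
    ∑ b ∈ box B, a b * cq_R w q L X u₁ u₂ T e v h b =
      ∑ b₂ ∈ box B, ((w * (L * X) / q / Nr h : ℝ) : ℂ) * u₁ h * ∑ b₁ ∈ sbox (B / Nr b₂),
        ((if Prim b₂ then a (b₁ * b₂) else 0) * u₂ b₁) / (Real.sqrt (Nr b₁) : ℂ) *
          cq_S (T h b₁) e v (L * Nr b₂ * X / q ^ 2) h b₁ := by
  unfold cq_R
  simp only [Finset.mul_sum]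
  rw [cq_reindex B _ fun b b₁ hb => ha b (left_ne_zero_of_mul hb)]
  refine Finset.sum_congr rfl fun b₂ h₂ => Finset.sum_congr rfl fun b₁ h₁ => ?_
  have a1 := Nr_pos hh
  have a2 := Nr_pos (mem_box.1 h₂).1
  have a3 := Nr_pos (q_mem_sbox.1 h₁).1.ne_zero
  have e1 : ∀ c : O, Nr c * (L * (Nr (b₁ * b₂) * X)) / (q * Nr h * Nr b₁) ^ 2 =
      Nr c * (L * Nr b₂ * X / q ^ 2) / (Nr h ^ 2 * Nr b₁) := by
    intro c; rw [Nr_mul]; field_simp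
  split_ifs with hb
  · simp only [e1, cq_S, cq_f]
    push_cast
    ring
  · simp

theorem cq_one {m V : ℝ → ℝ → ℂ} (hV : VW m V) {Q' : O} (hQ' : Q' ≠ 0) {K L : ℝ} (hK : 1 ≤ K)
    (hL : 1 ≤ L) {ε : ℝ} (hε : 0 < ε) :
    ∃ C D : ℝ, 0 ≤ C ∧ 0 ≤ D ∧ ∀ (x H X B τ s r w q : ℝ) (u₁ u₂ a : O → ℂ) (T : O → O → O → ℂ)
      (e : O), 1 ≤ H → H ≤ x → x⁻¹ ≤ X → X ≤ x → 1 ≤ B → B ≤ x → 0 ≤ s → s ≤ x → 0 ≤ r → r ≤ x →
      Prim e → Squarefree e → Nr e ≤ q → q ≤ K * s * r → w ^ 2 ≤ Nr e →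
      w ^ 2 * q ≤ K * Nr e * s → w ^ 2 * q ^ 2 ≤ K * Nr e * s ^ 2 * r →
      (∀ y, ‖u₁ y‖ ≤ 1) → (∀ y, ‖u₂ y‖ ≤ 1) → (∀ x y, TS K (T x y)) →
      (∀ x x' y y', Q' ∣ x - x' → Q' ∣ y - y' → T x y = T x' y') →
      (∀ b, a b ≠ 0 → Prim b ∧ Squarefree b ∧ B / 2 < Nr b) →
      ∑ h ∈ sbox H, ‖∑ b ∈ box B, a b * cq_R w q L X u₁ u₂ T e (V τ) h b‖ ^ 2 ≤
        C * x ^ ε * (1 + |τ|) ^ D * (∑ b ∈ box B, ‖a b‖ ^ 2) * cq_br X H B s r := by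
  have hε' : 0 < ε / 7 := by linarith
  obtain ⟨C, D, hC, hD, hcls⟩ := cq_cls hV hQ' hε'
  obtain ⟨C1, hC1, h1⟩ := q_sum_inv hε'
  obtain ⟨C2, hC2, h2⟩ := q_card_pdiv hε'
  refine ⟨C1 * C2 * (C * (K ^ 2) ^ (ε / 7) * K ^ 2 * (2 * K * L ^ 2)), D, by positivity, hD, ?_⟩
  intro x H X B τ s r w q u₁ u₂ a T e hH hHx hX hXx hB hBx hs hsx hr hrx he hes heq hq w1 w2 w3
    hu₁ hu₂ hT hper ha
  have hx : 1 ≤ x := hH.trans hHx
  have hX0 : 0 < X := lt_of_lt_of_le (by positivity) hX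
  have hE := one_le_Nr he.ne_zero
  have hq1 : 1 ≤ q := hE.trans heq
  have hq2 : q ≤ K * x ^ 2 := by
    refine hq.trans ?_
    rw [mul_assoc, sq]
    gcongr
  set z := K ^ 2 * x ^ 5 with hz
  have hK2 : K ≤ K ^ 2 := le_self_pow₀ hK (by norm_num)
  have hxz : x ≤ z := (le_self_pow₀ hx (by norm_num)).trans
    (le_mul_of_one_le_left (by positivity) (one_le_pow₀ hK))
  have hez : Nr e ≤ z := by
    refine heq.trans (hq2.trans ?_)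
    rw [hz]
    gcongr
    norm_num
  have hbr := cq_br_nonneg hX0.le (by linarith : 0 ≤ H) (by linarith : 0 ≤ B) hs hr
  set α : O → O → ℂ := fun b₂ b₁ => (if Prim b₂ then a (b₁ * b₂) else 0) * u₂ b₁ with hα
  set G : O → O → ℂ := fun b₂ h => ∑ b₁ ∈ sbox (B / Nr b₂), α b₂ b₁ / (Real.sqrt (Nr b₁) : ℂ) *
    cq_S (T h b₁) e (V τ) (L * Nr b₂ * X / q ^ 2) h b₁ with hG
  set M := C * z ^ (ε / 7) * (1 + |τ|) ^ D * K ^ 2 * (2 * K * L ^ 2 * cq_br X H B s r) with hM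
  have hM0 : 0 ≤ M := by positivity
  have blk : ∀ b₂ ∈ box B, ∑ h ∈ sbox H, Nr b₂ * ‖((w * (L * X) / q / Nr h : ℝ) : ℂ) * u₁ h *
      G b₂ h‖ ^ 2 ≤ M * ∑ b₁ ∈ sbox (B / Nr b₂), ‖α b₂ b₁‖ ^ 2 := by
    intro b₂ hb₂
    obtain ⟨n1, n2⟩ := mem_box.1 hb₂
    have n3 := one_le_Nr n1
    have n4 : 1 ≤ B / Nr b₂ := (one_le_div (by linarith)).2 n2
    have n5 : B / Nr b₂ ≤ z := (div_le_self (by linarith) n3).trans (hBx.trans hxz)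
    have n6 : (L * Nr b₂ * X / q ^ 2)⁻¹ ≤ z := by
      calc _ = q ^ 2 * X⁻¹ * (L * Nr b₂)⁻¹ := by field_simp
        _ ≤ (K * x ^ 2) ^ 2 * x * 1 := by
            gcongr
            · exact inv_le_of_inv_le₀ (by linarith) hX
            · exact inv_le_one_of_one_le₀ (one_le_mul_of_one_le_of_one_le hL n3)
        _ = z := by rw [hz]; ring
    have k1 := hcls z H (B / Nr b₂) (L * Nr b₂ * X / q ^ 2) τ K T (α b₂) e hH (hHx.trans hxz) n4 n5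
      (by positivity) n6 hez (by linarith) hT hper he hes (fun b hb => by
        have h0 : a (b * b₂) ≠ 0 := fun h0 => hb (by simp [hα, h0])
        have := (ha _ h0).2.2
        rw [Nr_mul] at this
        rw [div_right_comm, div_lt_iff₀ (by linarith)]
        exact this)
    have k2 := cq_num (w := w) hK hL hx hxz hX hXx hH (by linarith : 0 ≤ B) n3 (n2.trans hBx) hE
      heq hs hr w1 w2 w3
    set A := ∑ b₁ ∈ sbox (B / Nr b₂), ‖α b₂ b₁‖ ^ 2 with hA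
    have hA0 : 0 ≤ A := Finset.sum_nonneg fun b _ => by positivity
    refine le_of_mul_le_mul_left ?_ (show 0 < Nr e by linarith)
    calc _ ≤ Nr e * ∑ h ∈ sbox H, Nr b₂ * (w * (L * X) / q) ^ 2 *
          ((Nr h ^ 2)⁻¹ * ‖G b₂ h‖ ^ 2) := by
          refine mul_le_mul_of_nonneg_left (Finset.sum_le_sum fun h _ => ?_) (by linarith)
          rw [mul_assoc (Nr b₂)]
          refine mul_le_mul_of_nonneg_left ?_ (by linarith)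
          rw [norm_mul, norm_mul, mul_pow, mul_pow, Complex.norm_real, Real.norm_eq_abs, sq_abs,
            div_pow _ (Nr h), div_eq_mul_inv _ (Nr h ^ 2), ← mul_assoc _ (Nr h ^ 2)⁻¹]
          exact mul_le_mul_of_nonneg_right (mul_le_of_le_one_right
            (mul_nonneg (sq_nonneg _) (inv_nonneg.2 (sq_nonneg _)))
            (pow_le_one₀ (norm_nonneg _) (hu₁ h))) (sq_nonneg _)
      _ = Nr b₂ * (w * (L * X) / q) ^ 2 * (Nr e * ∑ h ∈ sbox H,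
          (Nr h ^ 2)⁻¹ * ‖G b₂ h‖ ^ 2) := by rw [← Finset.mul_sum]; ring
      _ ≤ Nr b₂ * (w * (L * X) / q) ^ 2 * (C * z ^ (ε / 7) * (1 + |τ|) ^ D * K ^ 2 * A *
          (cq_b1 H (B / Nr b₂) (L * Nr b₂ * X / q ^ 2) (Nr e) + (z ^ 4)⁻¹)) :=
          mul_le_mul_of_nonneg_left k1 (by positivity)
      _ = C * z ^ (ε / 7) * (1 + |τ|) ^ D * K ^ 2 * A * (Nr b₂ * (w * (L * X) / q) ^ 2 *
          (cq_b1 H (B / Nr b₂) (L * Nr b₂ * X / q ^ 2) (Nr e) + (z ^ 4)⁻¹)) := by ring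
      _ ≤ C * z ^ (ε / 7) * (1 + |τ|) ^ D * K ^ 2 * A *
          (Nr e * (2 * K * L ^ 2 * cq_br X H B s r)) :=
          mul_le_mul_of_nonneg_left k2 (by positivity)
      _ = _ := by rw [hM]; ring
  have hl2 : ∑ b₂ ∈ box B, ∑ b₁ ∈ sbox (B / Nr b₂), ‖α b₂ b₁‖ ^ 2 ≤
      C2 * x ^ (ε / 7) * ∑ b ∈ box B, ‖a b‖ ^ 2 := by
    have e1 := cq_reindex B (fun b _ => ‖a b‖ ^ 2) fun b _ hb => by
      have h0 : a b ≠ 0 := fun h0 => hb (by simp [h0])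
      exact ⟨(ha b h0).1, (ha b h0).2.1⟩
    calc _ ≤ ∑ b₂ ∈ box B, ∑ b₁ ∈ sbox (B / Nr b₂),
          if Prim b₂ then ‖a (b₁ * b₂)‖ ^ 2 else 0 := by
          refine Finset.sum_le_sum fun b₂ _ => Finset.sum_le_sum fun b₁ _ => ?_
          simp only [hα]
          split_ifs
          · rw [norm_mul]
            exact pow_le_pow_left₀ (by positivity)
              (mul_le_of_le_one_right (norm_nonneg _) (hu₂ _)) 2
          · simp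
      _ = ∑ b ∈ box B, ∑ _b₁ ∈ pdiv b, ‖a b‖ ^ 2 := e1.symm
      _ ≤ _ := by
          rw [Finset.mul_sum]
          refine Finset.sum_le_sum fun b hb => ?_
          rw [Finset.sum_const, nsmul_eq_mul]
          exact mul_le_mul_of_nonneg_right
            (h2 x b (mem_box.1 hb).1 ((mem_box.1 hb).2.trans hBx)) (by positivity)
  have hinv : ∑ b ∈ box B, (Nr b)⁻¹ ≤ C1 * x ^ (ε / 7) := (h1 B hB).trans (by gcongr)
  have each : ∀ h ∈ sbox H, ‖∑ b ∈ box B, a b * cq_R w q L X u₁ u₂ T e (V τ) h b‖ ^ 2 ≤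
      C1 * x ^ (ε / 7) * ∑ b₂ ∈ box B, Nr b₂ * ‖((w * (L * X) / q / Nr h : ℝ) : ℂ) * u₁ h *
        G b₂ h‖ ^ 2 := by
    intro h hh
    rw [cq_R_eq (by linarith) u₁ u₂ T e (V τ) (q_mem_sbox.1 hh).1.ne_zero
      fun b hb => ⟨(ha b hb).1, (ha b hb).2.1⟩]
    refine (cq_cs _ _ fun b hb => Nr_pos (mem_box.1 hb).1).trans
      (mul_le_mul_of_nonneg_right hinv (Finset.sum_nonneg fun b _ => ?_))
    have := Nr_nonneg b
    positivity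
  refine (Finset.sum_le_sum each).trans ?_
  rw [← Finset.mul_sum, Finset.sum_comm]
  refine (mul_le_mul_of_nonneg_left (Finset.sum_le_sum blk) (by positivity)).trans ?_
  rw [← Finset.mul_sum]
  refine (mul_le_mul_of_nonneg_left (mul_le_mul_of_nonneg_left hl2 hM0)
    (by positivity)).trans (le_of_eq ?_)
  have e2 : z ^ (ε / 7) = (K ^ 2) ^ (ε / 7) * (x ^ (ε / 7)) ^ 5 := by
    rw [hz, Real.mul_rpow (by positivity) (by positivity), Real.rpow_pow_comm (by linarith)]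
  have e3 : x ^ ε = (x ^ (ε / 7)) ^ 7 := by
    rw [← Real.rpow_natCast, ← Real.rpow_mul (by linarith)]; congr 1; push_cast; ring
  rw [hM, e2, e3]
  ring

end Crest.Agent.R017

end
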