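import Crest.Agent.R017.CFVorG
import Crest.Agent.R017.Voronoi

/-! # Row 17: Voronoi summation with a character weight -/

set_option autoImplicit false

noncomputable section

open scoped BigOperators ComplexConjugate
open Complex MeasureTheory

namespace Crest.Agent.R017

theorem TS.nonneg {K : ℝ} {T : O → ℂ} (h : TS K T) : 0 ≤ K := by
  have := h.1 1 0 1 1 isUnit_one prim_one squarefree_one prim_one
  rw [Nr_one, Real.sqrt_one, Nat.cast_zero, zero_div, Real.rpow_zero, mul_one, mul_one] at this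
  exact (norm_nonneg _).trans this

theorem TS.norm_le {K : ℝ} {T : O → ℂ} (h : TS K T) {c : O} (hc : c ≠ 0) :
    ‖T c‖ ≤ K * Real.sqrt (Nr c) := by
  obtain ⟨u, k, N, hu, hN, rfl⟩ := exists_decomp hc
  by_cases h1 : ∃ n j : O, Prim n ∧ Squarefree n ∧ Prim j ∧ N = n * j ^ 3
  · obtain ⟨n, j, hn, hs, hj, rfl⟩ := h1
    refine (h.1 u k n j hu hn hs hj).trans ?_
    rw [mul_assoc]
    refine mul_le_mul_of_nonneg_left ?_ h.nonneg
    rw [Nr_mul, Nr_mul, isUnit_iff_Nr.1 hu, one_mul, Nr_pow, Nr_lam, Real.sqrt_mul (by positivity)]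
    refine mul_le_mul ?_ (Real.sqrt_le_sqrt (Nr_le_of_dvd (hn.mul (hj.pow 3)).ne_zero
      ((dvd_pow_self j three_ne_zero).mul_left n))) (Real.sqrt_nonneg _) (Real.sqrt_nonneg _)
    rw [Real.sqrt_eq_rpow, ← Real.rpow_natCast, ← Real.rpow_mul (by norm_num)]
    exact Real.rpow_le_rpow_of_exponent_le (by norm_num) (by linarith [Nat.cast_nonneg (α := ℝ) k])
  · rw [h.2 u k N hu hN h1, norm_zero]
    exact mul_nonneg h.nonneg (Real.sqrt_nonneg _)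

theorem TS.mul {K G : ℝ} {T g : O → ℂ} (h : TS K T) (hg : ∀ c, ‖g c‖ ≤ G) :
    TS (G * K) (fun c => T c * g c) := by
  refine ⟨fun u k n j hu hn hs hj => ?_, fun u k N hu hN h1 => by simp only [h.2 u k N hu hN h1, zero_mul]⟩
  rw [norm_mul, mul_comm, mul_assoc G, mul_assoc G]
  exact mul_le_mul (hg _) (h.1 u k n j hu hn hs hj) (norm_nonneg _) ((norm_nonneg _).trans (hg 0))

theorem TS.mono {K K' : ℝ} {T : O → ℂ} (h : TS K T) (hK : K ≤ K') : TS K' T :=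
  ⟨fun u k n j hu hn hs hj => (h.1 u k n j hu hn hs hj).trans (by gcongr), h.2⟩

theorem ts_zero {K : ℝ} (hK : 0 ≤ K) : TS K (fun _ => 0) :=
  ⟨fun _ _ _ _ _ _ _ _ => by rw [norm_zero]; positivity, fun _ _ _ _ _ _ => rfl⟩

theorem cv_norm_ang (c : O) : ‖ang c‖ ≤ 1 := by
  by_cases hc : c = 0
  · simp [ang, hc]
  · exact (norm_ang hc).le

open Classical in
/-- The primal sum. -/
def PSum (A : ℝ) (T g : O → ℂ) (L τ : ℝ) : ℂ :=
  ∑' c : O, if c = 0 then 0 else T c * ang c * g c * (Nr c : ℂ) ^ (-(τ * I)) * (W A (Nr c / L) : ℂ)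

open Classical in
/-- The dual sum. -/
def DSum (V : ℝ → ℝ → ℂ) (T g : O → ℂ) (y τ : ℝ) : ℂ :=
  ∑' c : O, if c = 0 then 0 else T c * g c * V τ (Nr c * y)

open Classical in
theorem summable_PSum {A K G L : ℝ} (hA : 0 < A) (hL : 0 < L) {T g : O → ℂ} (h : TS K T)
    (hg : ∀ c, ‖g c‖ ≤ G) (τ : ℝ) : Summable (fun c : O => if c = 0 then 0 else
      T c * ang c * g c * (Nr c : ℂ) ^ (-(τ * I)) * (W A (Nr c / L) : ℂ)) := by
  refine Summable.of_norm_bounded ((summable_W hA hL (1 / 2)).mul_left (K * G)) fun c => ?_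
  by_cases hc : c = 0
  · simp [hc]
  rw [if_neg hc, if_neg hc, norm_mul, norm_mul, norm_mul, norm_mul,
    Complex.norm_cpow_eq_rpow_re_of_pos (Nr_pos hc), Complex.norm_real,
    Real.norm_of_nonneg (W_pos _ _).le, ← Real.sqrt_eq_rpow]
  have h1 := h.norm_le hc; have h2 := cv_norm_ang c; have h3 := hg c; have h4 := W_pos A (Nr c / L)
  have h5 := h.nonneg
  simp only [neg_re, mul_re, ofReal_re, I_re, mul_zero, ofReal_im, I_im, sub_zero, neg_zero,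
    Real.rpow_zero, mul_one]
  calc _ ≤ K * Real.sqrt (Nr c) * 1 * G * W A (Nr c / L) := by gcongr
    _ = _ := by ring

open Classical in
theorem summable_DSum {m V : ℝ → ℝ → ℂ} (hV : VW m V) {K G y : ℝ} (hy : 0 < y) {T g : O → ℂ} (h : TS K T)
    (hg : ∀ c, ‖g c‖ ≤ G) (τ : ℝ) :
    Summable (fun c : O => if c = 0 then 0 else T c * g c * V τ (Nr c * y)) := by
  obtain ⟨C, hC⟩ := hV.2.2.2 2
  refine Summable.of_norm_bounded ((summable_Nr_rpow (σ := 2) (by norm_num)).mul_left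
    (K * G * (C * (1 + |τ|) ^ (4 * 2) * y ^ (-(1 / 2 + (2 : ℕ) : ℝ))))) fun c => ?_
  have h5 := h.nonneg
  have h6 : 0 ≤ G := (norm_nonneg _).trans (hg 0)
  by_cases hc : c = 0
  · simp [hc, Nr_zero]
  have hN := Nr_pos hc
  rw [if_neg hc, norm_mul, norm_mul]
  have h1 := h.norm_le hc; have h3 := hg c; have h4 := hC τ _ (mul_pos hN hy)
  rw [Real.mul_rpow hN.le hy.le] at h4
  have e : Real.sqrt (Nr c) * Nr c ^ (-(1 / 2 + (2 : ℕ) : ℝ)) = Nr c ^ (-(2 : ℝ)) := by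
    rw [Real.sqrt_eq_rpow, ← Real.rpow_add hN]; norm_num
  calc _ ≤ K * Real.sqrt (Nr c) * G * (C * (1 + |τ|) ^ (4 * 2) *
        (Nr c ^ (-(1 / 2 + (2 : ℕ) : ℝ)) * y ^ (-(1 / 2 + (2 : ℕ) : ℝ)))) := by gcongr
    _ = _ := by rw [← e]; ring

theorem PSum_sum {ι : Type} (S : Finset ι) {A K L : ℝ} (hA : 0 < A) (hL : 0 < L) {T : O → ℂ} (h : TS K T)
    (κ : ι → ℂ) {g : ι → O → ℂ} (hg : ∀ i ∈ S, ∃ G, ∀ c, ‖g i c‖ ≤ G) (τ : ℝ) :
    PSum A T (fun c => ∑ i ∈ S, κ i * g i c) L τ = ∑ i ∈ S, κ i * PSum A T (g i) L τ := by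
  classical
  unfold PSum
  simp_rw [← tsum_mul_left]
  rw [← Summable.tsum_finsetSum fun i hi =>
    (summable_PSum hA hL h (hg i hi).choose_spec τ).mul_left (κ i)]
  refine tsum_congr fun c => ?_
  by_cases hc : c = 0
  · simp [hc]
  · simp only [hc, if_false, Finset.mul_sum, Finset.sum_mul]
    exact Finset.sum_congr rfl fun i _ => by ring

theorem DSum_sum {ι : Type} (S : Finset ι) {m V : ℝ → ℝ → ℂ} (hV : VW m V) {K y : ℝ} (hy : 0 < y)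
    {T : O → ℂ} (h : TS K T) (κ : ι → ℂ) {g : ι → O → ℂ} (hg : ∀ i ∈ S, ∃ G, ∀ c, ‖g i c‖ ≤ G) (τ : ℝ) :
    DSum V T (fun c => ∑ i ∈ S, κ i * g i c) y τ = ∑ i ∈ S, κ i * DSum V T (g i) y τ := by
  classical
  unfold DSum
  simp_rw [← tsum_mul_left]
  rw [← Summable.tsum_finsetSum fun i hi =>
    (summable_DSum hV hy h (hg i hi).choose_spec τ).mul_left (κ i)]
  refine tsum_congr fun c => ?_
  by_cases hc : c = 0
  · simp [hc]
  · simp only [hc, if_false, Finset.mul_sum, Finset.sum_mul]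
    exact Finset.sum_congr rfl fun i _ => by ring

theorem cv_rep (n : O) (hn : n ≠ 0) : ∃ ρ : O → O, (∀ x, n ∣ ρ x - x) ∧ ∀ x y, n ∣ x - y → ρ x = ρ y := by
  refine ⟨fun x => (reps_existsUnique hn x).exists.choose,
    fun x => (reps_existsUnique hn x).exists.choose_spec.2, fun x y h => ?_⟩
  have hx := (reps_existsUnique hn x).exists.choose_spec
  have hy := (reps_existsUnique hn y).exists.choose_spec
  refine (reps_existsUnique hn y).unique ⟨hx.1, ?_⟩ hy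
  have := dvd_add hx.2 h
  rwa [sub_add_sub_cancel] at this

/-- The formula for one reduced fraction `a₀ / (9 q₀) + y / q₁`. -/
def VorF (A K : ℝ) (V : ℝ → ℝ → ℂ) (T : O → ℂ) : Prop :=
  ∀ a₀ q₀ : O, q₀ ≠ 0 → IsCoprime a₀ q₀ → ∃ T' : O → O → ℂ, (∀ γ, TS K (T' γ)) ∧
    (∀ γ γ', 9 * q₀ ∣ γ - γ' → T' γ = T' γ') ∧
    ∀ (q₁ y z : O) (L τ : ℝ), Prim q₁ → IsCoprime q₁ q₀ → q₁ ∣ (9 * q₀) ^ 2 * y * z - 1 → 0 < L →
      PSum A T (fun c => eO (c * a₀) (9 * q₀) * eO (c * y) q₁) L τ =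
        kap q₁ (9 * q₀ * y) * ang q₁ ^ 2 * (L : ℂ) ^ (1 - τ * I) / ((Nr q₀ * Nr q₁ : ℝ) : ℂ) *
          DSum V (T' q₁) (fun c => eO (-c * z) q₁) (L / (Nr q₀ * Nr q₁) ^ 2) τ

theorem vor_frac : ∃ (ι : Type) (T : ι → O → ℂ) (K : ℝ), (∀ i, TS K (T i)) ∧
    (∃ (u : O) (k : ℕ), IsUnit u ∧ ∀ α : O, ∃ (i : ι) (κ : ℂ),
      ∀ N : O, Prim N → (9 : O) ∣ N - α → tau N = κ * T i (u * lam ^ k * N)) ∧
    ∀ A : ℝ, 0 < A → ∃ m V : ℝ → ℝ → ℂ, VW m V ∧ ∀ i, VorF A K V (T i) := by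
  classical
  obtain ⟨ι, T, act, K, h1, h2, h3, h4, h5⟩ := voronoi
  have hT : ∀ i, TS K (T i) := fun i => ⟨h1 i, h2 i⟩
  refine ⟨ι, T, K, hT, h3, fun A hA => ?_⟩
  obtain ⟨m, V, v1, v2, v3, v4, hv⟩ := h5 A hA
  refine ⟨m, V, ⟨v1, v2, v3, v4⟩, fun i a₀ q₀ hq₀ ⟨a', b', hab⟩ => ?_⟩
  obtain ⟨Ξ, x1, x2, x3⟩ := sym_split q₀ hq₀
  have h9 : (9 : O) * q₀ ≠ 0 := mul_ne_zero (by decide) hq₀
  obtain ⟨ρ, r1, r2⟩ := cv_rep _ h9
  -- an inverse of the class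
  let iv : O → O := fun g => if h : ∃ w, 9 * q₀ ∣ g * w - 1 then h.choose else 0
  let F : O → O → ℂ := fun g c =>
    T (act i (a₀ * g) (iv g * ((a₀ * g * (iv g * a') - 1) / q₀)) (q₀ * g) (iv g * a')) c *
      (conj (Ξ g (iv g * a')) * ang q₀ ^ 2 * conj (ang c) * eO (-(c * (iv g * a' * iv g))) (9 * q₀))
  refine ⟨fun γ => F (ρ γ), fun γ => ?_, fun γ γ' h => by simp only [r2 γ γ' h], ?_⟩
  · refine one_mul K ▸ (hT _).mul fun c => ?_
    rw [norm_mul, norm_mul, norm_mul, norm_pow, Complex.norm_conj, Complex.norm_conj, norm_eO]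
    have := x1 (ρ γ) (iv (ρ γ) * a'); have := cv_norm_ang q₀; have := cv_norm_ang c
    calc _ ≤ 1 * 1 ^ 2 * 1 * (1 : ℝ) := by gcongr
      _ = 1 := by norm_num
  intro q₁ y z L τ hq₁ hc hz hL
  set g := ρ q₁ with hg
  have c9 : IsCoprime q₁ (9 * q₀) := by
    refine IsCoprime.mul_right ?_ hc
    rw [show (9 : O) = 3 ^ 2 by norm_num]
    exact (coprime_three_iff.2 hq₁.not_lam_dvd).pow_right
  obtain ⟨e₁, he₁⟩ := r1 q₁
  rw [← hg] at he₁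
  have hex : ∃ w, 9 * q₀ ∣ g * w - 1 := by
    obtain ⟨s, t, hst⟩ := c9
    exact ⟨s, ⟨e₁ * s - t, by linear_combination s * he₁ + hst⟩⟩
  have hiv : 9 * q₀ ∣ g * iv g - 1 := by
    simp only [iv, dif_pos hex]; exact hex.choose_spec
  set w := iv g with hw
  obtain ⟨e₂, he₂⟩ := hiv
  obtain ⟨e₃, he₃⟩ := hz
  -- the matrix
  set a := a₀ * q₁ + 9 * y * q₀ with ha
  set d := w * a' * w * q₁ + 9 * q₀ * z with hd
  have hwq : w * q₁ = 1 + 9 * q₀ * (e₂ - w * e₁) := by linear_combination he₂ - w * he₁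
  have d0 : q₀ ∣ a * d - 1 := by
    refine ⟨-b' + a₀ * a' * (18 * (e₂ - w * e₁) + 81 * q₀ * (e₂ - w * e₁) ^ 2) + 9 * a₀ * q₁ * z + 9 * y * d, ?_⟩
    have : a * d = a₀ * a' * (w * q₁) ^ 2 + q₀ * (9 * a₀ * q₁ * z + 9 * y * d) := by rw [ha, hd]; ring
    rw [this, hwq]; linear_combination hab
  have d1 : q₁ ∣ a * d - 1 := ⟨a₀ * d + 9 * y * q₀ * w * a' * w + e₃, by
    rw [ha, hd]; linear_combination he₃⟩
  obtain ⟨b, hb⟩ := hc.symm.mul_dvd d0 d1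
  have hdet : a * d - b * (q₀ * q₁) = 1 := by linear_combination hb
  have hq : q₀ * q₁ ≠ 0 := mul_ne_zero hq₀ hq₁.ne_zero
  have dd : 9 * q₀ ∣ d - w * a' := ⟨w * a' * (e₂ - w * e₁) + z, by
    rw [hd]; linear_combination (w * a') * hwq⟩
  obtain ⟨e₄, he₄⟩ := id dd
  have hβ : a₀ * g * (w * a') - 1 = q₀ * (-b' + 9 * a₀ * a' * e₂) := by
    linear_combination (a₀ * a') * he₂ + hab
  have hact : act i a b (q₀ * q₁) d =
      act i (a₀ * g) (w * ((a₀ * g * (w * a') - 1) / q₀)) (q₀ * g) (w * a') := by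
    refine h4 _ _ _ _ _ _ _ _ _ ⟨y * q₀ - a₀ * q₀ * e₁, by rw [ha]; linear_combination (-a₀) * he₁⟩ ?_
      ⟨-(q₀ * q₀ * e₁), by linear_combination (-q₀) * he₁⟩ ((dvd_mul_right _ _).trans dd)
    rw [hβ, mul_div_cancel_left₀ _ hq₀]
    -- `b q₁ ≡ β` modulo `9`
    have k1 : b * q₁ = -b' + 9 * a₀ * a' * e₂ + 9 * (a * e₄ + (y - a₀ * e₁) * (w * a')) := by
      refine mul_left_cancel₀ hq₀ ?_
      have : a = a₀ * g + 9 * q₀ * (y - a₀ * e₁) := by rw [ha]; linear_combination (-a₀) * he₁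
      linear_combination -hb + a * he₄ + (w * a') * this + hβ
    exact ⟨w * (a * e₄ + (y - a₀ * e₁) * (w * a')) - b * q₀ * (e₂ - w * e₁), by
      linear_combination w * k1 - b * hwq⟩
  have hcd : IsCoprime (q₀ * q₁) d := ⟨-b, a, by linear_combination hdet⟩
  have hk : conj (kap q₁ d) = kap q₁ (9 * q₀ * y) := by
    have e1 : kap q₁ d * kap q₁ (9 * q₀ * y) = 1 := by
      rw [← kap_mul_right, ← kap_one_right hq₁.not_lam_dvd]
      exact kap_congr' hq₁.ne_zero ⟨w * a' * w * (9 * q₀ * y) + e₃, by rw [hd]; linear_combination he₃⟩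
    have e2 : kap q₁ d ≠ 0 := left_ne_zero_of_mul_eq_one e1
    have e3 := g1_conj_mul (norm_kap e2)
    calc conj (kap q₁ d) = conj (kap q₁ d) * (kap q₁ d * kap q₁ (9 * q₀ * y)) := by rw [e1, mul_one]
      _ = _ := by rw [← mul_assoc, e3, one_mul]
  have key := hv i a b (q₀ * q₁) d L τ hdet hq hL
  have eL : ∀ c, eO (c * a) (9 * (q₀ * q₁)) = eO (c * a₀) (9 * q₀) * eO (c * y) q₁ := fun c => by
    rw [show c * a = q₁ * (c * a₀) + 9 * q₀ * (c * y) by rw [ha]; ring, eO_add,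
      show 9 * (q₀ * q₁) = q₁ * (9 * q₀) by ring, eO_mul_cancel hq₁.ne_zero, mul_comm q₁,
      eO_mul_cancel h9]
  have eR : ∀ c, eO (-(c * d)) (9 * (q₀ * q₁)) =
      eO (-(c * (w * a' * w))) (9 * q₀) * eO (-c * z) q₁ := fun c => by
    rw [show -(c * d) = q₁ * (-(c * (w * a' * w))) + 9 * q₀ * (-c * z) by rw [hd]; ring, eO_add,
      show 9 * (q₀ * q₁) = q₁ * (9 * q₀) by ring, eO_mul_cancel hq₁.ne_zero, mul_comm q₁,
      eO_mul_cancel h9]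
  have hX : Ξ q₁ d = Ξ g (w * a') :=
    x2 _ _ _ _ ⟨-(q₀ * e₁), by linear_combination -he₁⟩ dd
  simp only [eL, eR] at key
  unfold PSum DSum
  rw [key, x3 q₁ d hq₁ hcd, map_mul, hk, hX, hact, ang_mul, Nr_mul, ← tsum_mul_left, ← tsum_mul_left]
  refine tsum_congr fun c => ?_
  by_cases hc0 : c = 0
  · simp [hc0]
  · simp only [hc0, if_false, F, ← hg, ← hw, mul_div_assoc]
    push_cast
    ring

/-- The formula with a character weight. -/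
theorem VorF.char {A K : ℝ} {m V : ℝ → ℝ → ℂ} {T : O → ℂ} (hA : 0 < A) (hT : TS K T) (hV : VW m V)
    (h : VorF A K V T) {a₀ q₀ : O} (hq₀ : q₀ ≠ 0) (hc : IsCoprime a₀ q₀) :
    ∃ T' : O → O → ℂ, (∀ γ, TS K (T' γ)) ∧ (∀ γ γ', 9 * q₀ ∣ γ - γ' → T' γ = T' γ') ∧
    ∀ (q₁ : O) (ω : O → ℂ) (L τ : ℝ), Chr q₁ ω → IsCoprime q₁ q₀ → 0 < L →
      PSum A T (fun c => eO (c * a₀) (9 * q₀) * gs ω q₁ c) L τ =
        kap q₁ (9 * q₀) * conj (ω (9 * q₀) * kap q₁ (9 * q₀)) ^ 2 * ang q₁ ^ 2 * (L : ℂ) ^ (1 - τ * I) /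
          ((Nr q₀ * Nr q₁ : ℝ) : ℂ) *
          DSum V (T' q₁) (fun c => gs (fun x => conj (ω x * kap q₁ x)) q₁ (-c)) (L / (Nr q₀ * Nr q₁) ^ 2) τ := by
  classical
  obtain ⟨T', t1, t2, t3⟩ := h a₀ q₀ hq₀ hc
  refine ⟨T', t1, t2, fun q₁ ω L τ hω hc1 hL => ?_⟩
  have hq₁ := hω.prim
  have h0 := hq₁.ne_zero
  have hy : 0 < L / (Nr q₀ * Nr q₁) ^ 2 := div_pos hL (pow_pos (mul_pos (Nr_pos hq₀) (Nr_pos h0)) 2)
  set E := 9 * q₀ with hE
  have cE : IsCoprime E q₁ := by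
    refine (IsCoprime.mul_right ?_ hc1).symm
    rw [show (9 : O) = 3 ^ 2 by norm_num]
    exact (coprime_three_iff.2 hq₁.not_lam_dvd).pow_right
  have hθ := hω.mul_same (chr_kap hq₁)
  set θ : O → ℂ := fun x => ω x * kap q₁ x with hθd
  -- the involution `y ↦ (E² y)⁻¹` on reduced residues
  have hex : ∀ y, IsCoprime y q₁ → ∃ z, z ∈ reps q₁ ∧ q₁ ∣ E ^ 2 * y * z - 1 := fun y hy => by
    obtain ⟨s, t, hst⟩ := (cE.pow_left (m := 2)).mul_left hy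
    obtain ⟨z, ⟨z1, e, z2⟩, -⟩ := reps_existsUnique h0 s
    exact ⟨z, z1, E ^ 2 * y * e - t, by linear_combination (E ^ 2 * y) * z2 + hst⟩
  have huniq : ∀ y z z', z ∈ reps q₁ → z' ∈ reps q₁ → q₁ ∣ E ^ 2 * y * z - 1 → q₁ ∣ E ^ 2 * y * z' - 1 →
      z = z' := fun y z z' h1 h2 ⟨e, h3⟩ ⟨e', h4⟩ =>
    (reps_existsUnique h0 z').unique ⟨h1, ⟨z' * e - z * e', by linear_combination z' * h3 - z * h4⟩⟩
      ⟨h2, by simp⟩
  have hcop : ∀ y z, q₁ ∣ E ^ 2 * y * z - 1 → IsCoprime z q₁ := fun y z ⟨e, h3⟩ =>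
    ⟨E ^ 2 * y, -e, by linear_combination h3⟩
  let iv : O → O := fun y => if h : IsCoprime y q₁ then (hex y h).choose else 0
  have iv1 : ∀ y, IsCoprime y q₁ → iv y ∈ reps q₁ ∧ q₁ ∣ E ^ 2 * y * iv y - 1 := fun y h => by
    simp only [iv, dif_pos h]; exact (hex y h).choose_spec
  set S := (reps q₁).filter (fun y => IsCoprime y q₁) with hS
  have red : ∀ (φ : O → ℂ), (∀ y, ¬ IsCoprime y q₁ → φ y = 0) → ∀ c,
      gs φ q₁ c = ∑ y ∈ S, φ y * eO (c * y) q₁ := fun φ hφ c => by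
    rw [gs, hS, Finset.sum_filter]
    refine Finset.sum_congr rfl fun y _ => ?_
    split_ifs with h
    · rfl
    · rw [hφ y h, zero_mul]
  have eL : (fun c => eO (c * a₀) E * gs ω q₁ c) =
      fun c => ∑ y ∈ S, ω y * (eO (c * a₀) E * eO (c * y) q₁) := by
    funext c
    rw [red ω hω.zero, Finset.mul_sum]
    exact Finset.sum_congr rfl fun y _ => by ring
  have eR : (fun c => gs (fun x => conj (θ x)) q₁ (-c)) =
      fun c => ∑ z ∈ S, conj (θ z) * eO (-c * z) q₁ := by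
    funext c
    exact red _ hθ.conj.zero _
  rw [eL, eR, PSum_sum S hA hL hT _ (fun y _ => ⟨1, fun c => by rw [norm_mul, norm_eO, norm_eO, one_mul]⟩),
    DSum_sum S hV hy (t1 q₁) _ (fun y _ => ⟨1, fun c => (norm_eO _ _).le⟩), Finset.mul_sum]
  have mS : ∀ y ∈ S, iv y ∈ S := fun y hy => by
    obtain ⟨h1, h2⟩ := iv1 y (Finset.mem_filter.1 hy).2
    exact Finset.mem_filter.2 ⟨h1, hcop _ _ h2⟩
  have inv : ∀ y ∈ S, iv (iv y) = y := fun y hy => by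
    obtain ⟨h1, h2⟩ := iv1 y (Finset.mem_filter.1 hy).2
    obtain ⟨h3, h4⟩ := iv1 _ (hcop _ _ h2)
    exact huniq (iv y) _ _ h3 (Finset.mem_filter.1 hy).1 h4 (by rwa [mul_right_comm])
  refine Finset.sum_nbij' iv iv mS mS inv inv fun y hy => ?_
  obtain ⟨-, h2⟩ := iv1 y (Finset.mem_filter.1 hy).2
  rw [t3 q₁ y (iv y) L τ hq₁ hc1 h2 hL, kap_mul_right]
  have e1 : θ E ^ 2 * θ y * θ (iv y) = 1 := by
    rw [sq, ← hθ.map_mul, ← hθ.map_mul, ← hθ.map_mul, ← sq, ← hθ.map_one]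
    exact hθ.hom.per _ _ h2
  have e2 := g1_conj_mul (hθ.hom.abs E cE)
  have e3 := g1_conj_mul (hθ.hom.abs _ (hcop _ _ h2))
  have e4 : ω y * kap q₁ y = conj (θ E) ^ 2 * conj (θ (iv y)) := by
    calc θ y = (conj (θ E) * θ E) ^ 2 * (conj (θ (iv y)) * θ (iv y)) * θ y := by rw [e2, e3]; ring
      _ = conj (θ E) ^ 2 * conj (θ (iv y)) * (θ E ^ 2 * θ y * θ (iv y)) := by ring
      _ = _ := by rw [e1, mul_one]
  have e5 : ω E * kap q₁ E = θ E := rfl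
  rw [e5]
  linear_combination (kap q₁ E * ang q₁ ^ 2 * (L : ℂ) ^ (1 - τ * I) / ((Nr q₀ * Nr q₁ : ℝ) : ℂ) *
    DSum V (T' q₁) (fun c => eO (-c * iv y) q₁) (L / (Nr q₀ * Nr q₁) ^ 2) τ) * e4

end Crest.Agent.R017

end
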