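import Crest.Agent.R017.CFVorA

/-! # Row 17: Voronoi summation: one term -/

set_option autoImplicit false

noncomputable section

open scoped BigOperators ComplexConjugate
open Complex MeasureTheory

namespace Crest.Agent.R017

theorem PSum_const (A : ℝ) (T g : O → ℂ) (κ : ℂ) (L τ : ℝ) :
    PSum A T (fun c => κ * g c) L τ = κ * PSum A T g L τ := by
  unfold PSum
  rw [← tsum_mul_left]
  refine tsum_congr fun c => ?_
  split_ifs <;> ring

theorem DSum_const (V : ℝ → ℝ → ℂ) (T g : O → ℂ) (κ : ℂ) (y τ : ℝ) :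
    DSum V T (fun c => κ * g c) y τ = κ * DSum V T g y τ := by
  unfold DSum
  rw [← tsum_mul_left]
  refine tsum_congr fun c => ?_
  split_ifs <;> ring

open Classical in
/-- Clipping to the unit disc. -/
def clip (z : ℂ) : ℂ := if ‖z‖ ≤ 1 then z else 0

theorem norm_clip (z : ℂ) : ‖clip z‖ ≤ 1 := by
  unfold clip; split_ifs with h
  · exact h
  · simp

theorem clip_eq {z : ℂ} (h : ‖z‖ ≤ 1) : clip z = z := if_pos h

theorem nmul {a b : ℂ} (ha : ‖a‖ ≤ 1) (hb : ‖b‖ ≤ 1) : ‖a * b‖ ≤ 1 := by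
  rw [norm_mul]; exact mul_le_one₀ ha (norm_nonneg _) hb
theorem nconj {a : ℂ} (ha : ‖a‖ ≤ 1) : ‖conj a‖ ≤ 1 := by rwa [Complex.norm_conj]
theorem npow {a : ℂ} (ha : ‖a‖ ≤ 1) (k : ℕ) : ‖a ^ k‖ ≤ 1 := by
  rw [norm_pow]; exact pow_le_one₀ (norm_nonneg _) ha

theorem cv_chi_kap {h : O} (h6 : IsCoprime h 6) (x : O) : chi h x * kap h x = rho h x := by
  rw [← chi_sq h6, ← chi_cube h6]; ring

theorem cv_psi0_kap {b : O} (hb : Prim b) (x : O) : psi0 b x * kap b x = kap b x := by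
  unfold psi0; split_ifs with h
  · exact one_mul _
  · rw [(chr_kap hb).zero x h, mul_zero]

theorem chr_rho {h : O} (hh : Prim h) (hs : Squarefree h) (h6 : IsCoprime h 6) : Chr h (rho h) := by
  have X := chr_chi hh h6
  rw [rad_eq_self hh hs] at X
  have := X.mul_same (chr_kap hh)
  rwa [show (fun x => chi h x * kap h x) = rho h from funext (cv_chi_kap h6)] at this

theorem chr_chi' {h : O} (hh : Prim h) (hs : Squarefree h) (h6 : IsCoprime h 6) : Chr h (chi h) := by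
  have X := chr_chi hh h6
  rwa [rad_eq_self hh hs] at X

theorem cv_primal {h b r d : O} {ξ : O → ℂ} (hh : Prim h) (sh : Squarefree h) (h6 : IsCoprime h 6)
    (hb : Prim b) (X : Chr r ξ) (hd : Prim d) (hhb : IsCoprime h b) (hrd : IsCoprime r d)
    (hc : IsCoprime (h * b) (r * d)) (c : O) :
    conj (chi h c) * gs (psi0 b) b c * (gs ξ r c * gs (psi0 d) d c) =
      (conj (chi h b) * conj (ξ d) * conj (chi h (r * d)) * conj (ξ (h * b)) * conj (g6 h) /
        (Real.sqrt (Nr h) : ℂ)) *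
        gs (fun x => chi h x * psi0 b x * (ξ x * psi0 d x)) (h * b * (r * d)) c := by
  have Xh := chr_chi' hh sh h6
  have Xb := chr_psi0 hb
  have Xd := chr_psi0 hd
  have sh0 := k1_sqrt_ne hh.ne_zero
  have p1 : psi0 b h = 1 := if_pos hhb
  have p2 : psi0 d r = 1 := if_pos hrd
  have p3 : psi0 b (r * d) = 1 := if_pos hc.of_mul_left_right.symm
  have p4 : psi0 d (h * b) = 1 := if_pos hc.of_mul_right_right
  have c1 := g1_conj_mul (Xh.hom.abs b hhb.symm)
  have c2 := g1_conj_mul (X.hom.abs d hrd.symm)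
  have c3 := g1_conj_mul (Xh.hom.abs (r * d) hc.of_mul_left_left.symm)
  have c4 := g1_conj_mul (X.hom.abs (h * b) hc.of_mul_right_left)
  have c5 := g1_conj_mul (norm_g6 h6 sh)
  have gh : gs (chi h) h 1 = g6 h * (Real.sqrt (Nr h) : ℂ) := by rw [g6, div_mul_cancel₀ _ sh0]
  have e1 := (Xh.mul Xb).gs_mul (X.mul Xd) hc c
  have e2 := Xh.gs_mul Xb hhb c
  have e3 := X.gs_mul Xd hrd c
  rw [e1, e2, e3, k1_gs_chi h6 sh c, gh, p1, p2, p3, p4]
  generalize (Real.sqrt (Nr h) : ℂ) = s at sh0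
  field_simp
  calc _ = conj (chi h c) * gs (psi0 b) b c * gs ξ r c * gs (psi0 d) d c *
      ((conj (chi h b) * chi h b) * (conj (ξ d) * ξ d) * (conj (chi h (r * d)) * chi h (r * d)) *
        (conj (ξ (h * b)) * ξ (h * b)) * (conj (g6 h) * g6 h)) := by
        rw [c1, c2, c3, c4, c5]; ring
    _ = _ := by ring

theorem cv_dualw {h b r d : O} {ξ : O → ℂ} (hh : Prim h) (sh : Squarefree h) (h6 : IsCoprime h 6)
    (hb : Prim b) (sb : Squarefree b) (X : Chr r ξ) (hd : Prim d) (hhb : IsCoprime h b) (hrd : IsCoprime r d)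
    (hc : IsCoprime (h * b) (r * d)) (c : O) :
    gs (fun x => conj (rho h x * kap b x * (ξ x * kap d x))) (h * b * (r * d)) (-c) =
      (conj (rho h (r * d) * kap b (r * d) * (ξ (h * b) * kap d (h * b)) * (rho h b * kap b h) *
          (ξ d * kap d r) * g2 h * g3 b) * (Real.sqrt (Nr h) : ℂ) * (Real.sqrt (Nr b) : ℂ)) *
        (rho h c * kap b c * (gs (fun x => conj (ξ x)) r (-c) * gs (fun x => conj (kap d x)) d (-c))) := by
  have h2 := (coprime_six_iff.1 h6).2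
  have Rh := chr_rho hh sh h6
  have Kb := chr_kap hb
  have Kd := chr_kap hd
  have gr : gs (rho h) h 1 = g2 h * (Real.sqrt (Nr h) : ℂ) := by
    rw [g2, div_mul_cancel₀ _ (k1_sqrt_ne hh.ne_zero)]
  have gk : gs (kap b) b 1 = g3 b * (Real.sqrt (Nr b) : ℂ) := by
    rw [g3, div_mul_cancel₀ _ (k1_sqrt_ne hb.ne_zero)]
  have k1 : gs (kap b) b c = conj (kap b c) * gs (kap b) b 1 := by
    simpa only [pow_one] using gs_kap_pow hb.not_lam_dvd sb (k := 1) (by norm_num) c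
  have e1 := (Rh.mul Kb).gs_mul (X.mul Kd) hc c
  have e2 := Rh.gs_mul Kb hhb c
  have e3 := X.gs_mul Kd hrd c
  rw [← conj_gs, ← conj_gs, ← conj_gs, e1, e2, e3, gs_rho h2 sh c, gr, k1, gk]
  simp only [map_mul, Complex.conj_conj, Complex.conj_ofReal, conj_rho]
  ring

theorem cv_term {A : ℝ} {V : ℝ → ℝ → ℂ} {T : O → ℂ} {T' : O → O → ℂ} {a₀ q₀ E : O}
    (H : ∀ (q₁ : O) (ω : O → ℂ) (L τ : ℝ), Chr q₁ ω → IsCoprime q₁ q₀ → 0 < L →
      PSum A T (fun c => eO (c * a₀) E * gs ω q₁ c) L τ =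
        kap q₁ E * conj (ω E * kap q₁ E) ^ 2 * ang q₁ ^ 2 * (L : ℂ) ^ (1 - τ * I) /
          ((Nr q₀ * Nr q₁ : ℝ) : ℂ) *
          DSum V (T' q₁) (fun c => gs (fun x => conj (ω x * kap q₁ x)) q₁ (-c)) (L / (Nr q₀ * Nr q₁) ^ 2) τ)
    {r d : O} {ξ ξ' : O → ℂ} (X : Chr r ξ) (en : ∀ x, ξ' x = ξ x * kap r x) (hd : Prim d)
    (hrd : IsCoprime r d) (hq : IsCoprime (r * d) q₀) :
    ∃ (u₁ u₂ : O → ℂ) (κ₀ : ℂ), (∀ x, ‖u₁ x‖ ≤ 1) ∧ (∀ x, ‖u₂ x‖ ≤ 1) ∧ ‖κ₀‖ ≤ 1 ∧
      ∀ (h b : O) (L τ : ℝ), Prim h → Squarefree h → IsCoprime h 6 → Prim b → Squarefree b →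
        IsCoprime h b → IsCoprime (h * b) (r * d) → IsCoprime (h * b) q₀ → 0 < L →
        PSum A T (fun c => eO (c * a₀) E *
          (conj (chi h c) * gs (psi0 b) b c * (gs ξ r c * gs (psi0 d) d c))) L τ =
        u₁ h * u₂ b * κ₀ * (Real.sqrt (Nr b) : ℂ) * (L : ℂ) ^ (1 - τ * I) /
          ((Nr q₀ * Nr (h * b * (r * d)) : ℝ) : ℂ) *
          DSum V (T' (h * b * (r * d))) (fun c => rho h c * kap b c *
            (gs (fun x => conj (ξ' x)) r (-c) * gs (fun x => conj (kap d x)) d (-c)))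
            (L / (Nr q₀ * Nr (h * b * (r * d))) ^ 2) τ := by
  have rp := X.prim
  have r0 := rp.ne_zero
  have X' : Chr r ξ' := (funext en : ξ' = _) ▸ X.mul_same (chr_kap rp)
  have n1 := norm_chi_le; have n2 := norm_kap_le; have n3 := norm_rho_le; have n4 := cv_norm_ang
  have n5 := X.norm_le; have n6 := X'.norm_le
  refine ⟨fun h => clip (conj (g6 h) * conj (g2 h) * conj (chi h (r * d) * ξ h) * kap h E *
      conj (rho h E) ^ 2 * ang h ^ 2 * conj (rho h (r * d) * (ξ' h * kap d h))),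
    fun b => clip (conj (g3 b) * conj (ξ b) * kap b E * conj (kap b E) ^ 2 * ang b ^ 2 *
      conj (kap b (r * d) * (ξ' b * kap d b))),
    conj (ξ d) * kap (r * d) E * conj (ξ' E * kap d E) ^ 2 * ang (r * d) ^ 2 * conj (ξ' d * kap d r),
    fun _ => norm_clip _, fun _ => norm_clip _, ?_, ?_⟩
  · exact nmul (nmul (nmul (nmul (nconj (n5 _)) (n2 _ _)) (npow (nconj (nmul (n6 _) (n2 _ _))) _))
      (npow (n4 _) _)) (nconj (nmul (n6 _) (n2 _ _)))
  intro h b L τ hh sh h6 hb sb hhb hc hq' hL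
  have G6 := norm_g6 h6 sh
  have G2 := norm_g2 (coprime_six_iff.1 h6).2 sh
  have G3 := norm_g3 hb.not_lam_dvd sb
  beta_reduce
  rw [clip_eq, clip_eq]
  rotate_left
  · exact nmul (nmul (nmul (nmul (nmul (nconj G3.le) (nconj (n5 _))) (n2 _ _)) (npow (nconj (n2 _ _)) _))
      (npow (n4 _) _)) (nconj (nmul (n2 _ _) (nmul (n6 _) (n2 _ _))))
  · exact nmul (nmul (nmul (nmul (nmul (nmul (nconj G6.le) (nconj G2.le)) (nconj (nmul (n1 _ _) (n5 _))))
      (n2 _ _)) (npow (nconj (n3 _ _)) _)) (npow (n4 _) _)) (nconj (nmul (n3 _ _) (nmul (n6 _) (n2 _ _))))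
  have Xh := chr_chi' hh sh h6
  have Ω := (Xh.mul (chr_psi0 hb)).mul (X.mul (chr_psi0 hd))
  have hb0 : h * b ≠ 0 := mul_ne_zero hh.ne_zero hb.ne_zero
  have eθ : ∀ x, chi h x * psi0 b x * (ξ x * psi0 d x) * kap (h * b * (r * d)) x =
      rho h x * kap b x * (ξ' x * kap d x) := fun x => by
    rw [kap_mul_left hb0 (mul_ne_zero r0 hd.ne_zero), kap_mul_left hh.ne_zero hb.ne_zero,
      kap_mul_left r0 hd.ne_zero, en, ← cv_chi_kap h6]
    conv_rhs => rw [← cv_psi0_kap hb x, ← cv_psi0_kap hd x]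
    ring
  have key := H (h * b * (r * d)) _ L τ Ω (hq'.mul_left hq) hL
  simp only [eθ, cv_dualw hh sh h6 hb sb X' hd hhb hrd hc] at key
  rw [DSum_const] at key
  simp only [cv_primal hh sh h6 hb X hd hhb hrd hc, mul_left_comm (eO _ E)]
  rw [PSum_const, key]
  have x1 : conj (chi h b) * conj (rho h b) * conj (kap b h) = 1 := by
    rw [← map_mul, ← map_mul, ← cubic_recip hh hb, ← chi_cube h6, ← chi_sq h6,
      show chi h b * chi h b ^ 3 * chi h b ^ 2 = chi h b ^ 6 by ring, chi_six, map_one]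
    exact norm_ne_zero_iff.1 (by rw [Xh.hom.abs b hhb.symm]; exact one_ne_zero)
  rw [kap_mul_left hb0 (mul_ne_zero r0 hd.ne_zero), kap_mul_left hh.ne_zero hb.ne_zero, ang_mul (h * b),
    ang_mul h b, X.map_mul h b, X'.map_mul h b, kap_mul_right d h b]
  simp only [map_mul]
  have sh0 := k1_sqrt_ne hh.ne_zero
  generalize DSum V _ _ _ τ = D
  generalize (L : ℂ) ^ (1 - τ * I) = P
  generalize ((Nr q₀ * Nr (h * b * (r * d)) : ℝ) : ℂ) = N
  generalize (Real.sqrt (Nr h) : ℂ) = s at sh0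
  have e : s⁻¹ * s = 1 := inv_mul_cancel₀ sh0
  calc _ = (conj (ξ d) * conj (chi h (r * d)) * conj (ξ h) * conj (ξ b) * conj (g6 h) *
    kap h E * kap b E * kap (r * d) E * conj (rho h E) ^ 2 * conj (kap b E) ^ 2 * conj (ξ' E) ^ 2 *
    conj (kap d E) ^ 2 * ang h ^ 2 * ang b ^ 2 * ang (r * d) ^ 2 * P * conj (rho h (r * d)) *
    conj (kap b (r * d)) * conj (ξ' h) * conj (ξ' b) * conj (kap d h) * conj (kap d b) * conj (ξ' d) *
    conj (kap d r) * conj (g2 h) * conj (g3 b) * (Real.sqrt (Nr b) : ℂ) * D / N) *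
      (conj (chi h b) * conj (rho h b) * conj (kap b h)) * (s⁻¹ * s) := by ring
    _ = _ := by rw [x1, e]; ring

end Crest.Agent.R017

end
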