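import Crest.Agent.R017.CFVorB

/-! # Row 17: Voronoi summation: the part of bounded conductor -/

set_option autoImplicit false

noncomputable section

open scoped BigOperators ComplexConjugate
open Complex MeasureTheory

namespace Crest.Agent.R017

theorem cv_reduce {Q : O} (hQ : Q ≠ 0) (a : O) : ∃ a₀ q₀ : O, q₀ ≠ 0 ∧ IsCoprime a₀ q₀ ∧ q₀ ∣ Q ∧
    ∀ c, eO (-(a * c)) (9 * Q) = eO (c * a₀) (9 * q₀) := by
  classical
  have hg : EuclideanDomain.gcd a Q ≠ 0 := fun h => hQ (EuclideanDomain.gcd_eq_zero_iff.1 h).2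
  obtain ⟨a', ha⟩ := EuclideanDomain.gcd_dvd_left a Q
  obtain ⟨q', hq⟩ := EuclideanDomain.gcd_dvd_right a Q
  have hb := EuclideanDomain.gcd_eq_gcd_ab a Q
  generalize EuclideanDomain.gcd a Q = g at *
  refine ⟨-a', q', fun h => hQ (by rw [hq, h, mul_zero]),
    ⟨-EuclideanDomain.gcdA a Q, EuclideanDomain.gcdB a Q, mul_left_cancel₀ hg ?_⟩,
    ⟨g, by rw [hq]; ring⟩, fun c => ?_⟩
  · linear_combination -hb - EuclideanDomain.gcdA a Q * ha - EuclideanDomain.gcdB a Q * hq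
  · rw [← eO_mul_cancel hg (c * -a')]
    congr 1
    · rw [ha]; ring
    · rw [hq]; ring

theorem cv_F0 {ι : Type} {T : ι → O → ℂ} {K A : ℝ} (hA : 0 < A) (hT : ∀ i, TS K (T i)) {c₀ : O}
    (hc₀ : c₀ ≠ 0) (hb : ∀ α : O, ∃ (i : ι) (κ : ℂ),
      ∀ N : O, Prim N → (9 : O) ∣ N - α → tau N = κ * T i (c₀ * N)) {Q : O} (hQ : Q ≠ 0) :
    ∃ (J : O → ι) (a₀ q₀ : O → O) (K₁ : ℝ) (co : (O → ℂ) → O → O → ℂ), 1 ≤ K₁ ∧
      (∀ a, q₀ a ≠ 0 ∧ IsCoprime (a₀ a) (q₀ a) ∧ q₀ a ∣ c₀ * Q) ∧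
      (∀ f : O → ℂ, (∀ x, ‖f x‖ ≤ 2) → ∀ α ∈ reps 9, ∀ a, ‖co f α a‖ ≤ K₁) ∧
      ∀ (f g : O → ℂ) (G Y τ : ℝ), (∀ x, ‖f x‖ ≤ 2) → (∀ x y, Q ∣ x - y → f x = f y) →
        (∀ x, ‖g x‖ ≤ G) → 0 < Y →
        sm A (fun N => tau N * ang N * f N * g (c₀ * N)) Y τ = (Nr c₀ : ℂ) ^ (τ * I) *
          ∑ α ∈ reps 9, ∑ a ∈ reps (9 * (c₀ * Q)), co f α a *
            PSum A (T (J α)) (fun c => eO (c * a₀ a) (9 * q₀ a) * g c) (Nr c₀ * Y) τ := by
  classical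
  choose J κ hJ using hb
  have hQ3 : c₀ * Q ≠ 0 := mul_ne_zero hc₀ hQ
  have h9 : (9 : O) ≠ 0 := by decide
  have hn : 9 * (c₀ * Q) ≠ 0 := mul_ne_zero h9 hQ3
  choose a₀ q₀ h1 h2 h3 h4 using cv_reduce hQ3
  let F : (O → ℂ) → O → O → ℂ := fun f α c =>
    if c₀ ∣ c ∧ Prim (c / c₀) ∧ (9 : O) ∣ c / c₀ - α then f (c / c₀) else 0
  have Fb : ∀ f : O → ℂ, (∀ x, ‖f x‖ ≤ 2) → ∀ α c, ‖F f α c‖ ≤ 2 := fun f hf α c => by
    simp only [F]; split_ifs
    · exact hf _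
    · simp
  refine ⟨J, a₀, q₀, 1 + 2 * ∑ α ∈ reps 9, ‖κ α‖, fun f α a => κ α * conj (ang c₀) *
    ((Nr (9 * (c₀ * Q)) : ℂ)⁻¹ * gs (F f α) (9 * (c₀ * Q)) a),
    le_add_of_nonneg_right (by positivity), fun a => ⟨h1 a, h2 a, h3 a⟩, fun f hf α hα a => ?_, ?_⟩
  · have e1 : gs (F f α) (9 * (c₀ * Q)) a = 2 * gs (fun c => F f α c / 2) (9 * (c₀ * Q)) a := by
      unfold gs; rw [Finset.mul_sum]; exact Finset.sum_congr rfl fun _ _ => by ring
    have e2 := norm_gs_le hn (f := fun c => F f α c / 2) (fun x => by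
      rw [norm_div, Complex.norm_two]; linarith [Fb f hf α x]) a
    have e3 := Nr_pos hn
    have e4 : ‖κ α‖ ≤ ∑ α ∈ reps 9, ‖κ α‖ :=
      Finset.single_le_sum (f := fun α => ‖κ α‖) (fun _ _ => norm_nonneg _) hα
    beta_reduce
    rw [e1, norm_mul, norm_mul, norm_mul, norm_mul, Complex.norm_conj, norm_ang hc₀, norm_inv,
      Complex.norm_real, Real.norm_of_nonneg e3.le, Complex.norm_two]
    have e5 : (Nr (9 * (c₀ * Q)))⁻¹ * (2 * ‖gs (fun c => F f α c / 2) (9 * (c₀ * Q)) a‖) ≤ 2 := by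
      rw [inv_mul_le_iff₀ e3]; linarith
    nlinarith [norm_nonneg (κ α)]
  intro f g G Y τ hf hp hg hY
  have hN := Nr_pos hc₀
  have hL := mul_pos hN hY
  have Fp : ∀ α x y, 9 * (c₀ * Q) ∣ x - y → F f α x = F f α y := fun α x y ⟨e, he⟩ => by
    have hx : x = y + c₀ * (9 * Q * e) := by linear_combination he
    by_cases hy : c₀ ∣ y
    · obtain ⟨n, rfl⟩ := hy
      rw [hx, ← mul_add]
      simp only [F, dvd_mul_right, true_and, mul_div_cancel_left₀ _ hc₀]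
      rw [hp (n + 9 * Q * e) n ⟨9 * e, by ring⟩]
      refine if_congr (and_congr ?_ ?_) rfl rfl
      · unfold Prim
        rw [show n + 9 * Q * e - 1 = n - 1 + 3 * (3 * Q * e) by ring]
        exact dvd_add_left (dvd_mul_right _ _) |>.trans Iff.rfl
      · rw [show n + 9 * Q * e - α = n - α + 9 * (Q * e) by ring]
        exact dvd_add_left (dvd_mul_right _ _)
    · have : ¬ c₀ ∣ x := fun h => hy ((dvd_add_left (dvd_mul_right _ _)).1 (hx ▸ h))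
      simp only [F, hy, this, false_and, if_false]
  have s1 : ∀ α, ∑ a ∈ reps (9 * (c₀ * Q)), κ α * conj (ang c₀) *
      ((Nr (9 * (c₀ * Q)) : ℂ)⁻¹ * gs (F f α) (9 * (c₀ * Q)) a) *
        PSum A (T (J α)) (fun c => eO (c * a₀ a) (9 * q₀ a) * g c) (Nr c₀ * Y) τ =
      PSum A (T (J α)) (fun c => κ α * conj (ang c₀) * (F f α c * g c)) (Nr c₀ * Y) τ := fun α => by
    rw [← PSum_sum _ hA hL (hT _) _ fun a _ => ⟨G, fun c => by rw [norm_mul, norm_eO, one_mul]; exact hg c⟩]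
    congr 1
    funext c
    rw [gs_inversion hn (F f α) (Fp α) c, Finset.mul_sum, Finset.sum_mul, Finset.mul_sum]
    exact Finset.sum_congr rfl fun a _ => by rw [h4]; ring
  simp only [s1]
  let t : O → O → ℂ := fun α c => if c = 0 then 0 else T (J α) c * ang c *
    (κ α * conj (ang c₀) * (F f α c * g c)) * (Nr c : ℂ) ^ (-(τ * I)) * (W A (Nr c / (Nr c₀ * Y)) : ℂ)
  have ts : ∀ α, Summable (t α) := fun α => summable_PSum hA hL (hT _) (G := ‖κ α‖ * 1 * (2 * G))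
    (fun c => by
      rw [norm_mul, norm_mul, norm_mul, Complex.norm_conj, norm_ang hc₀]
      have := Fb f hf α c; have := hg c
      gcongr) τ
  have e0 : ∑ α ∈ reps 9, PSum A (T (J α)) (fun c => κ α * conj (ang c₀) * (F f α c * g c)) (Nr c₀ * Y) τ =
      ∑' c, ∑ α ∈ reps 9, t α c := (Summable.tsum_finsetSum fun α _ => ts α).symm
  rw [e0, ← (mul_right_injective₀ hc₀).tsum_eq, sm, ← tsum_mul_left]
  · refine tsum_congr fun N => ?_
    by_cases hP : Prim N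
    · obtain ⟨α, ⟨hα, hd⟩, hu⟩ := reps_existsUnique h9 N
      have hd' : (9 : O) ∣ N - α := by rw [← neg_sub]; exact hd.neg_right
      have hN0 := Nr_pos hP.ne_zero
      rw [if_pos hP, Finset.sum_eq_single_of_mem α hα]
      · simp only [t, F, mul_ne_zero hc₀ hP.ne_zero, if_false, dvd_mul_right, mul_div_cancel_left₀ _ hc₀, hP,
          hd', and_self, if_true]
        rw [hJ α N hP hd', ang_mul, Nr_mul, mul_div_mul_left _ _ hN.ne', Complex.ofReal_mul,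
          Complex.mul_cpow_ofReal_nonneg hN.le hN0.le, Complex.cpow_neg (Nr c₀ : ℂ)]
        have e1 := g1_conj_mul (norm_ang hc₀)
        have e2 : (Nr c₀ : ℂ) ^ (τ * I) * ((Nr c₀ : ℂ) ^ (τ * I))⁻¹ = 1 :=
          mul_inv_cancel₀ (Complex.cpow_ne_zero_iff.2 (Or.inl (by exact_mod_cast hN.ne')))
        calc _ = κ α * T (J α) (c₀ * N) * ang N * f N * g (c₀ * N) * (Nr N : ℂ) ^ (-(τ * I)) *
              (W A (Nr N / Y) : ℂ) * (conj (ang c₀) * ang c₀) *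
              ((Nr c₀ : ℂ) ^ (τ * I) * ((Nr c₀ : ℂ) ^ (τ * I))⁻¹) := by rw [e1, e2]; ring
          _ = _ := by ring
      · intro β hβ hne
        have : ¬ (9 : O) ∣ N - β := fun h => hne (hu β ⟨hβ, by rw [← neg_sub]; exact h.neg_right⟩)
        simp [t, F, mul_div_cancel_left₀ _ hc₀, this]
    · rw [if_neg hP, Finset.sum_eq_zero, mul_zero]
      intro α _
      simp [t, F, mul_div_cancel_left₀ _ hc₀, hP]
  · intro c hc
    by_contra h
    refine hc (Finset.sum_eq_zero fun α _ => ?_)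
    have : ¬ c₀ ∣ c := fun ⟨n, hn⟩ => h ⟨n, hn.symm⟩
    simp [t, F, this]

end Crest.Agent.R017

end
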