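import Crest.Agent.R017.CFVorC

/-! # Row 17: Voronoi summation: the weight of one term -/

set_option autoImplicit false

noncomputable section

open scoped BigOperators ComplexConjugate
open Complex MeasureTheory

namespace Crest.Agent.R017

theorem cv_six {Q x : O} (h72 : (72 : O) ∣ Q) (h : IsCoprime x Q) : IsCoprime x 6 :=
  h.of_isCoprime_of_dvd_right (Dvd.dvd.trans ⟨12, by norm_num⟩ h72)

theorem cv_cop_of {x y Q : O} (hx : x ≠ 0) (h : IsCoprime x Q) (hy : ∀ p, Prime p → p ∣ y → p ∣ Q) :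
    IsCoprime x y := by
  rw [← isRelPrime_iff_isCoprime, UniqueFactorizationMonoid.isRelPrime_iff_no_prime_factors hx]
  exact fun p h1 h2 hp => hp.not_isUnit (h.isUnit_of_dvd' h1 (hy p hp h2))

theorem cv_chi_unit {h c : O} (hh : h ≠ 0) (h6 : IsCoprime h 6) (hc : IsCoprime h c) :
    conj (chi h c) * chi h c = 1 :=
  g1_conj_mul (norm_chi fun h0 => (chi_eq_zero hh).1 h0 (h6.mul_right hc))

open Classical in
theorem cv_weight {Q : O} (h72 : (72 : O) ∣ Q) {c₀ : O}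
    (hcQ : ∀ p, Prime p → p ∣ c₀ → p ∣ Q) {ψ : O → ℂ} (hψ : IsCh Q ψ) {s : O} (hs : s ≠ 0) :
    ∃ (T₁ : O) (f : O → O → ℂ), Prim T₁ ∧ IsCoprime T₁ Q ∧ (∃ T₀, s = T₀ * T₁ ∧ IsCoprime T₁ T₀) ∧
      (∀ x N, ‖f x N‖ ≤ 2) ∧ (∀ x N N', 72 * Q ∣ N - N' → f x N = f x N') ∧
      (∀ x x', (4 : O) ∣ x - x' → f x = f x') ∧
      ∀ h N : O, Prim h → IsCoprime h Q → Prim N →
        vth N * ψ N * conj (chi N (h * s)) = tau N * ang N * f h N *
          (chi h c₀ * chi T₁ c₀ * (conj (chi h (c₀ * N)) * conj (chi T₁ (c₀ * N)))) := by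
  have hQ := hψ.ne
  obtain ⟨u, j, n, hu, hn, rfl⟩ := exists_decomp hs
  obtain ⟨⟨n₁, T₁⟩, ⟨h1, h2, h3, h4, rfl⟩, -⟩ := exists_part hn hQ
  simp only at h1 h2 h3 h4 hs ⊢
  have hT : ∀ p, Prime p → p ∣ u * lam ^ j * n₁ → p ∣ Q := fun p hp hd => by
    rcases hp.dvd_or_dvd hd with hd | hd
    · rcases hp.dvd_or_dvd hd with hd | hd
      · exact absurd (isUnit_of_dvd_unit hd hu) hp.not_isUnit
      · exact (hp.dvd_of_dvd_pow hd).trans (lam_dvd_three.trans hψ.three)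
    · exact ((prime_dvd_rad h1.ne_zero hp).2 hd).trans h3
  have hT0 : u * lam ^ j * n₁ ≠ 0 := fun h => hs (by rw [← mul_assoc, h, zero_mul])
  rw [← mul_assoc]
  generalize u * lam ^ j * n₁ = T₀ at hT hT0
  have d4 : (4 : O) ∣ 72 * Q := Dvd.dvd.mul_right ⟨18, by norm_num⟩ _
  refine ⟨T₁, fun x N => if Prim N then
      clip (conj (kap N 2) * gam2 N * ψ N * conj (chi N T₀) * conj (sig N (x * T₁))) else 0, h2, h4,
    ⟨T₀, rfl, cv_cop_of h2.ne_zero h4 hT⟩, fun x N => ?_, fun x N N' hN => ?_, fun x x' hx => ?_,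
    fun h N hh hc hN => ?_⟩
  · beta_reduce
    split_ifs
    · exact (norm_clip _).trans one_le_two
    · simp
  · have e : Prim N ↔ Prim N' := by
      unfold Prim
      rw [show N - 1 = N - N' + (N' - 1) by ring]
      exact dvd_add_right ((hψ.three.mul_left 72).trans hN)
    by_cases hP : Prim N
    · have hP' := e.1 hP
      simp only [if_pos hP, if_pos hP']
      rw [kap_per (r := 2) two_ne_zero hP.ne_zero hP'.ne_zero (Dvd.dvd.trans
          ((mul_dvd_mul_left 9 (rad_dvd two_ne_zero)).trans (Dvd.dvd.mul_right ⟨4, by norm_num⟩ Q)) hN),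
        gam2_per (d4.trans hN), hψ.per N N' ((dvd_mul_left _ _).trans hN),
        chi_per hT0 hP.ne_zero hP'.ne_zero ((mul_dvd_mul_left 72 (a1_rad_dvd_of hT)).trans hN),
        sig_per (d4.trans hN) (y := x * T₁) (y' := x * T₁) (by rw [sub_self]; exact dvd_zero _)]
    · simp only [if_neg hP, if_neg (mt e.2 hP)]
  · funext N
    beta_reduce
    rw [sig_per (x := N) (x' := N) (by rw [sub_self]; exact dvd_zero _) (y := x * T₁) (y' := x' * T₁)
      (by rw [← sub_mul]; exact hx.mul_right _)]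
  · simp only [if_pos hN]
    by_cases h0 : ψ N = 0
    · simp [h0, clip]
    have hNQ : IsCoprime N Q := not_not.1 (mt (hψ.zero N).2 h0)
    have N2 := (coprime_six_iff.1 (cv_six h72 hNQ)).2
    have g6 := cv_six h72 (hc.mul_left h4)
    have H2 := (coprime_six_iff.1 g6).2
    have ns : ‖sig N (h * T₁)‖ = 1 := by rcases sig_cases N2 H2 with e | e <;> simp [e]
    rw [clip_eq (nmul (nmul (nmul (nmul (nconj (norm_kap_le _ _)) (norm_gam2 N2).le) (hψ.norm_le _))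
      (nconj (norm_chi_le _ _))) (nconj ns.le))]
    have e1 := cv_chi_unit hh.ne_zero (cv_six h72 hc) (cv_cop_of hh.ne_zero hc hcQ)
    have e2 := cv_chi_unit h2.ne_zero (cv_six h72 h4) (cv_cop_of h2.ne_zero h4 hcQ)
    rw [show h * (T₀ * T₁) = T₀ * (h * T₁) by ring, chi_mul_right, chi_recip hN (hh.mul h2) N2 H2,
      chi_mul_left hh.ne_zero h2.ne_zero, chi_mul_right, chi_mul_right, vth]
    simp only [map_mul]
    calc _ = tau N * ang N * (conj (kap N 2) * gam2 N * ψ N * conj (chi N T₀) * conj (sig N (h * T₁))) *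
        (conj (chi h N) * conj (chi T₁ N)) * ((conj (chi h c₀) * chi h c₀) *
          (conj (chi T₁ c₀) * chi T₁ c₀)) := by rw [e1, e2]; ring
      _ = _ := by ring

theorem cv_prim_dvd {t k T₀ T₁ m : O} (ht : t ≠ 0) (hk : k ≠ 0) (e : t * k ^ 6 = T₀ * T₁)
    (hc : IsCoprime T₁ T₀) (hm : m ∣ T₁) (h : ∀ p, Prime p → p ∣ m → ¬ 6 ∣ multiplicity p T₁) :
    rad m ∣ rad t ∧ rad T₁ ∣ rad t * rad k := by
  have h0 : T₀ * T₁ ≠ 0 := e ▸ mul_ne_zero ht (pow_ne_zero _ hk)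
  refine ⟨a1_rad_dvd_of fun p hp hd => (prime_dvd_rad ht hp).2 ?_, a1_rad_dvd_of fun p hp hd => ?_⟩
  · by_contra hn
    refine h p hp hd ?_
    have h1 : ¬ p ∣ T₀ := fun h2 => hp.not_isUnit (hc.isUnit_of_dvd' (hd.trans hm) h2)
    have h2 := congrArg (multiplicity p) e
    rw [a3_mul hp ht (pow_ne_zero _ hk), a3_mul hp (left_ne_zero_of_mul h0) (right_ne_zero_of_mul h0),
      a3_pow hp hk, multiplicity_eq_zero.2 hn, multiplicity_eq_zero.2 h1] at h2
    exact ⟨_, by rw [zero_add, zero_add] at h2; exact h2.symm⟩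
  · have : p ∣ t * k ^ 6 := e ▸ hd.mul_left _
    rcases hp.dvd_or_dvd this with h1 | h1
    · exact ((prime_dvd_rad ht hp).2 h1).mul_right _
    · exact ((prime_dvd_rad hk hp).2 (hp.dvd_of_dvd_pow h1)).mul_left _

theorem cv_norm_gs_kap {d : O} (hd : Prim d) (sd : Squarefree d) (c : O) :
    ‖gs (fun x => conj (kap d x)) d (-c)‖ ≤ Real.sqrt (Nr d) := by
  have gk : gs (kap d) d 1 = g3 d * (Real.sqrt (Nr d) : ℂ) := by
    rw [g3, div_mul_cancel₀ _ (k1_sqrt_ne hd.ne_zero)]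
  have k1 : gs (kap d) d c = conj (kap d c) * gs (kap d) d 1 := by
    simpa only [pow_one] using gs_kap_pow hd.not_lam_dvd sd (k := 1) (by norm_num) c
  rw [← conj_gs, Complex.norm_conj, k1, gk, norm_mul, norm_mul, norm_g3 hd.not_lam_dvd sd, one_mul,
    Complex.norm_real, Real.norm_of_nonneg (Real.sqrt_nonneg _)]
  exact mul_le_of_le_one_left (Real.sqrt_nonneg _) (nconj (norm_kap_le _ _))

open Classical in
theorem cv_term2 {A K : ℝ} {mm V : ℝ → ℝ → ℂ} (hV : VW mm V) {T : O → ℂ} {T' : O → O → ℂ}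
    (hT' : ∀ γ, TS K (T' γ)) {a₀ q₀ E : O} (hq₀ : q₀ ≠ 0)
    (H : ∀ (q₁ : O) (ω : O → ℂ) (L τ : ℝ), Chr q₁ ω → IsCoprime q₁ q₀ → 0 < L →
      PSum A T (fun c => eO (c * a₀) E * gs ω q₁ c) L τ =
        kap q₁ E * conj (ω E * kap q₁ E) ^ 2 * ang q₁ ^ 2 * (L : ℂ) ^ (1 - τ * I) /
          ((Nr q₀ * Nr q₁ : ℝ) : ℂ) *
          DSum V (T' q₁) (fun c => gs (fun x => conj (ω x * kap q₁ x)) q₁ (-c)) (L / (Nr q₀ * Nr q₁) ^ 2) τ)
    {m d : O} (hm : Prim m) (m6 : IsCoprime m 6) (hd : Prim d) (sd : Squarefree d)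
    (hrd : IsCoprime (rad m) d) (hq : IsCoprime (rad m * d) q₀) :
    ∃ (u₁ u₂ : O → ℂ) (Θ : O → O → ℂ), (∀ x, ‖u₁ x‖ ≤ 1) ∧ (∀ x, ‖u₂ x‖ ≤ 1) ∧
      (∀ e ∈ pdiv (rad m), ∀ c, ‖Θ e c‖ ≤ Real.sqrt (Nr e) * Real.sqrt (Nr (rad m)) * Real.sqrt (Nr d)) ∧
      ∀ (h b : O) (L τ : ℝ), Prim h → Squarefree h → IsCoprime h 6 → Prim b → Squarefree b →
        IsCoprime h b → IsCoprime (h * b) (rad m * d) → IsCoprime (h * b) q₀ → 0 < L →
        PSum A T (fun c => eO (c * a₀) E *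
          (conj (chi h c) * gs (psi0 b) b c * (gs (chi m) (rad m) c * gs (psi0 d) d c))) L τ =
        ∑ e ∈ pdiv (rad m), u₁ h * u₂ b * (Real.sqrt (Nr b) : ℂ) * (L : ℂ) ^ (1 - τ * I) /
          ((Nr q₀ * Nr (rad m * d) * Nr h * Nr b : ℝ) : ℂ) *
          ∑' c : O, if c ≠ 0 ∧ e ∣ c then T' (h * b * (rad m * d)) c * Θ e c * rho h c * kap b c *
            V τ (Nr c * L / (Nr q₀ * Nr (rad m * d) * Nr h * Nr b) ^ 2) else 0 := by
  have hr := hm.rad
  have r6 : IsCoprime (rad m) 6 := m6.of_isCoprime_of_dvd_left (rad_dvd hm.ne_zero)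
  have hn : Prim (m * rad m ^ 2) := hm.mul (hr.pow 2)
  have er : rad (m * rad m ^ 2) = rad m := hn.rad.eq_of_associated hr (associated_of_dvd_dvd
    (a1_rad_dvd_of fun p hp h => (hp.dvd_or_dvd h).elim (prime_dvd_rad hm.ne_zero hp).2 hp.dvd_of_dvd_pow)
    (rad_dvd_rad hn.ne_zero (dvd_mul_right _ _)))
  obtain ⟨Θ, hΘ, eΘ⟩ := cv_dual hn (m6.mul_left r6.pow_left)
  rw [er] at hΘ eΘ
  obtain ⟨u₁, u₂, κ₀, h1, h2, h3, h4⟩ := cv_term H (chr_chi hm m6) (ξ' := chi (m * rad m ^ 2))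
    (fun x => by rw [chi_mul_left hm.ne_zero (hr.pow 2).ne_zero, chi_pow_left hr.ne_zero, chi_sq r6])
    hd hrd hq
  have nb : ∀ e ∈ pdiv (rad m), ∀ c, ‖κ₀ * (Nr e : ℂ) * Θ e c * gs (fun x => conj (kap d x)) d (-c)‖ ≤
      Real.sqrt (Nr e) * Real.sqrt (Nr (rad m)) * Real.sqrt (Nr d) := fun e he c => by
    have e0 := Nr_pos ((mem_pdiv hr.ne_zero).1 he).1.ne_zero
    have s0 := Real.sqrt_pos.2 e0
    rw [norm_mul, norm_mul, norm_mul, Complex.norm_real, Real.norm_of_nonneg e0.le]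
    calc _ ≤ 1 * Nr e * Real.sqrt (Nr (rad m) / Nr e) * Real.sqrt (Nr d) := by
          gcongr
          · exact hΘ e he c
          · exact cv_norm_gs_kap hd sd c
      _ = _ := by
          rw [Real.sqrt_div (Nr_nonneg _)]
          have := Real.mul_self_sqrt e0.le
          generalize Real.sqrt (Nr e) = s at *
          rw [← this]; field_simp
  refine ⟨u₁, u₂, fun e c => κ₀ * (Nr e : ℂ) * Θ e c * gs (fun x => conj (kap d x)) d (-c), h1, h2, nb,
    fun h b L τ a1 a2 a3 a4 a5 a6 a7 a8 a9 => ?_⟩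
  have eN : Nr q₀ * Nr (h * b * (rad m * d)) = Nr q₀ * Nr (rad m * d) * Nr h * Nr b := by
    rw [Nr_mul _ (rad m * d), Nr_mul h b]; ring
  have y0 : 0 < L / (Nr q₀ * Nr (rad m * d) * Nr h * Nr b) ^ 2 := by
    have := Nr_pos hq₀; have := Nr_pos (hr.mul hd).ne_zero
    have := Nr_pos a1.ne_zero; have := Nr_pos a4.ne_zero
    positivity
  rw [h4 h b L τ a1 a2 a3 a4 a5 a6 a7 a8 a9, eN, ← Finset.mul_sum]
  have e1 := DSum_sum (pdiv (rad m)) hV y0 (hT' (h * b * (rad m * d))) (fun _ => 1)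
    (g := fun e c => if e ∣ c then κ₀ * (Nr e : ℂ) * Θ e c * gs (fun x => conj (kap d x)) d (-c) *
      (rho h c * kap b c) else 0) (fun e he => ⟨Real.sqrt (Nr e) * Real.sqrt (Nr (rad m)) * Real.sqrt (Nr d),
      fun c => by
        split_ifs
        · rw [norm_mul]
          exact (mul_le_of_le_one_right (norm_nonneg _) (nmul (norm_rho_le _ _) (norm_kap_le _ _))).trans
            (nb e he c)
        · rw [norm_zero]; positivity⟩) τ
  have e2 := DSum_const V (T' (h * b * (rad m * d))) (fun c => rho h c * kap b c *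
    (gs (fun x => conj (chi (m * rad m ^ 2) x)) (rad m) (-c) * gs (fun x => conj (kap d x)) d (-c))) κ₀
    (L / (Nr q₀ * Nr (rad m * d) * Nr h * Nr b) ^ 2) τ
  have e3 : (fun c => κ₀ * (rho h c * kap b c *
      (gs (fun x => conj (chi (m * rad m ^ 2) x)) (rad m) (-c) * gs (fun x => conj (kap d x)) d (-c)))) =
      fun c => ∑ e ∈ pdiv (rad m), 1 * if e ∣ c then κ₀ * (Nr e : ℂ) * Θ e c *
        gs (fun x => conj (kap d x)) d (-c) * (rho h c * kap b c) else 0 := by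
    funext c
    rw [eΘ, Finset.sum_mul, Finset.mul_sum, Finset.mul_sum]
    refine Finset.sum_congr rfl fun e _ => ?_
    split_ifs <;> ring
  rw [e3, e1] at e2
  rw [show ∀ a b c d e f : ℂ, a * b * κ₀ * c * d / e * f = a * b * c * d / e * (κ₀ * f) from
    fun _ _ _ _ _ _ => by ring, ← e2]
  congr 1
  refine Finset.sum_congr rfl fun e _ => ?_
  rw [one_mul, DSum]
  refine tsum_congr fun c => ?_
  by_cases c0 : c = 0
  · simp [c0]
  · by_cases ec : e ∣ c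
    · rw [if_neg c0, if_pos ec, if_pos ⟨c0, ec⟩, mul_div_assoc]; ring
    · simp [ec]

end Crest.Agent.R017

end
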