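import Crest.Agent.R017.CFDefs

/-! # Row 17: Gauss sum lemmas for the Voronoi step -/

set_option autoImplicit false

noncomputable section

open scoped BigOperators ComplexConjugate
open Complex MeasureTheory

namespace Crest.Agent.R017

theorem cv_sum_pdiv {p n : O} (hp : Prime p) (hpp : Prim p) (hn : Prim n) (hpn : ¬ p ∣ n) (f : O → ℂ) :
    ∑ d ∈ pdiv (p * n), f d = ∑ d ∈ pdiv n, f d + ∑ d ∈ pdiv n, f (p * d) := by
  classical
  have h0 : p * n ≠ 0 := mul_ne_zero hp.ne_zero hn.ne_zero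
  rw [← Finset.sum_filter_not_add_sum_filter (pdiv (p * n)) (fun d => p ∣ d)]
  congr 1
  · refine Finset.sum_congr ?_ fun _ _ => rfl
    ext d
    rw [Finset.mem_filter, mem_pdiv h0, mem_pdiv hn.ne_zero]
    constructor
    · rintro ⟨⟨h1, h2⟩, h3⟩
      exact ⟨h1, ((hp.coprime_iff_not_dvd.2 h3).symm).dvd_of_dvd_mul_left h2⟩
    · rintro ⟨h1, h2⟩
      exact ⟨⟨h1, h2.mul_left _⟩, fun h => hpn (h.trans h2)⟩
  · symm
    refine Finset.sum_bij (fun d _ => p * d) ?_ ?_ ?_ fun _ _ => rfl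
    · intro d hd
      obtain ⟨h1, h2⟩ := (mem_pdiv hn.ne_zero).1 hd
      exact Finset.mem_filter.2 ⟨(mem_pdiv h0).2 ⟨hpp.mul h1, mul_dvd_mul_left _ h2⟩, dvd_mul_right _ _⟩
    · intro a _ b _ h
      exact mul_left_cancel₀ hp.ne_zero h
    · intro d hd
      obtain ⟨hd, ⟨c, rfl⟩⟩ := Finset.mem_filter.1 hd
      obtain ⟨h1, h2⟩ := (mem_pdiv h0).1 hd
      exact ⟨c, (mem_pdiv hn.ne_zero).2 ⟨hpp.of_mul h1, (mul_dvd_mul_iff_left hp.ne_zero).1 h2⟩, rfl⟩

theorem cv_pdiv_one : pdiv 1 = {1} := by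
  ext d
  rw [mem_pdiv one_ne_zero, Finset.mem_singleton]
  exact ⟨fun h => h.1.eq_one_of_isUnit (isUnit_of_dvd_one h.2), fun h => by subst h; exact ⟨prim_one, dvd_rfl⟩⟩

theorem cv_gs_one (f : O → ℂ) (hf : ∀ x, f x = 1) (c : O) : gs f 1 c = 1 := by
  have := sum_reps_eO (n := 1) one_ne_zero c
  rw [if_pos (one_dvd _), Nr_one] at this
  unfold gs
  simp only [hf, one_mul, this, ofReal_one]

/-- Characters modulo a primary `r`. -/
structure Chr (r : O) (ω : O → ℂ) : Prop where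
  prim : Prim r
  hom : Homog r ω ω
  zero : ∀ y, ¬ IsCoprime y r → ω y = 0

theorem Chr.norm_le {r : O} {ω : O → ℂ} (h : Chr r ω) (y : O) : ‖ω y‖ ≤ 1 := by
  by_cases hy : IsCoprime y r
  · exact (h.hom.abs y hy).le
  · rw [h.zero y hy, norm_zero]; exact zero_le_one

theorem Chr.map_mul {r : O} {ω : O → ℂ} (h : Chr r ω) (x y : O) : ω (x * y) = ω x * ω y := by
  by_cases hx : IsCoprime x r
  · exact h.hom.hom x y hx
  · rw [h.zero x hx, zero_mul, h.zero _ fun hc => hx hc.of_mul_left_left]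

theorem Chr.map_one {r : O} {ω : O → ℂ} (h : Chr r ω) : ω 1 = 1 := by
  have h1 := h.map_mul 1 1
  have h2 : ω 1 ≠ 0 := norm_ne_zero_iff.1 (by rw [h.hom.abs 1 isCoprime_one_left]; exact one_ne_zero)
  rw [mul_one] at h1
  exact mul_left_cancel₀ h2 (by rw [← h1, mul_one])

theorem Chr.mul {r s : O} {ω ξ : O → ℂ} (h : Chr r ω) (h' : Chr s ξ) :
    Chr (r * s) (fun x => ω x * ξ x) where
  prim := h.prim.mul h'.prim
  hom := ⟨fun x y hxy => by
      rw [h.hom.per x y ((dvd_mul_right _ _).trans hxy), h'.hom.per x y ((dvd_mul_left _ _).trans hxy)],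
    fun u x _ => by rw [h.map_mul, h'.map_mul]; ring,
    fun u hu => by rw [norm_mul, h.hom.abs u hu.of_mul_right_left, h'.hom.abs u hu.of_mul_right_right,
      one_mul]⟩
  zero y hy := by
    by_cases h1 : IsCoprime y r
    · rw [h'.zero y fun h2 => hy (h1.mul_right h2), mul_zero]
    · rw [h.zero y h1, zero_mul]

theorem Chr.mul_same {r : O} {ω ξ : O → ℂ} (h : Chr r ω) (h' : Chr r ξ) :
    Chr r (fun x => ω x * ξ x) where
  prim := h.prim
  hom := ⟨fun x y hxy => by rw [h.hom.per x y hxy, h'.hom.per x y hxy],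
    fun u x _ => by rw [h.map_mul, h'.map_mul]; ring,
    fun u hu => by rw [norm_mul, h.hom.abs u hu, h'.hom.abs u hu, one_mul]⟩
  zero y hy := by rw [h.zero y hy, zero_mul]

theorem Chr.conj {r : O} {ω : O → ℂ} (h : Chr r ω) : Chr r (fun x => conj (ω x)) where
  prim := h.prim
  hom := ⟨fun x y hxy => by rw [h.hom.per x y hxy], fun u x _ => by rw [h.map_mul, _root_.map_mul],
    fun u hu => by rw [Complex.norm_conj, h.hom.abs u hu]⟩
  zero y hy := by rw [h.zero y hy, map_zero]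

open Classical in
theorem chr_psi0 {r : O} (hr : Prim r) : Chr r (psi0 r) where
  prim := hr
  hom := ⟨fun x y ⟨c, hc⟩ => by
      have : x = y + r * c := by rw [← hc]; ring
      unfold psi0
      rw [this]
      exact if_congr IsCoprime.add_mul_left_left_iff rfl rfl,
    fun u x hu => by
      unfold psi0
      rw [if_pos hu, one_mul]
      exact if_congr (IsCoprime.mul_left_iff.trans (and_iff_right hu)) rfl rfl,
    fun u hu => by unfold psi0; rw [if_pos hu, norm_one]⟩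
  zero y hy := if_neg hy

theorem chr_kap {r : O} (hr : Prim r) : Chr r (kap r) where
  prim := hr
  hom := by simpa only [pow_one] using homog_kap_pow hr.not_lam_dvd 1
  zero y hy := (kap_eq_zero hr.ne_zero).2 (Or.inr fun h => hy h.symm)

theorem chr_chi {n : O} (hn : Prim n) (h6 : IsCoprime n 6) : Chr (rad n) (chi n) where
  prim := hn.rad
  hom := ⟨fun _ _ h => chi_congr hn.ne_zero h, fun u x _ => chi_mul_right n u x,
    fun _ hu => k1_norm_chi h6 ((coprime_rad_iff hn.ne_zero).1 hu).symm⟩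
  zero _ hy := (chi_eq_zero hn.ne_zero).2 fun h =>
    hy ((coprime_rad_iff hn.ne_zero).2 h.of_mul_right_right.symm)

theorem Chr.gs_mul {r s : O} {ω ξ : O → ℂ} (h : Chr r ω) (h' : Chr s ξ) (hc : IsCoprime r s) (c : O) :
    gs (fun x => ω x * ξ x) (r * s) c = ω s * ξ r * gs ω r c * gs ξ s c :=
  gs_mul_coprime h.prim.ne_zero h'.prim.ne_zero hc h.hom h'.hom c

open Classical in
theorem cv_psi0_mul (a b x : O) : psi0 (a * b) x = psi0 a x * psi0 b x := by
  unfold psi0
  by_cases h1 : IsCoprime x a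
  · rw [if_pos h1, one_mul]
    exact if_congr (IsCoprime.mul_right_iff.trans (and_iff_right h1)) rfl rfl
  · rw [if_neg h1, zero_mul, if_neg fun h => h1 h.of_mul_right_left]

open Classical in
theorem cv_psi0_prime {p : O} (hp : Prime p) : psi0 p = fun x => if p ∣ x then 0 else 1 := by
  funext x
  unfold psi0
  by_cases h : p ∣ x
  · rw [if_pos h, if_neg fun hc => hp.coprime_iff_not_dvd.1 hc.symm h]
  · rw [if_neg h, if_pos (hp.coprime_iff_not_dvd.2 h).symm]

theorem cv_ram_mul {a b : O} (ha : Prim a) (hb : Prim b) (h : IsCoprime a b) (c : O) :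
    gs (psi0 (a * b)) (a * b) c = gs (psi0 a) a c * gs (psi0 b) b c := by
  have := (chr_psi0 ha).gs_mul (chr_psi0 hb) h c
  rw [show psi0 a b = 1 from if_pos h.symm, show psi0 b a = 1 from if_pos h, one_mul, one_mul] at this
  rw [← this]
  congr 1
  funext x
  exact cv_psi0_mul a b x

open Classical in
theorem cv_ram_prime {p : O} (hp : Prime p) (c : O) :
    gs (psi0 p) p c = if p ∣ c then (Nr p : ℂ) - 1 else -1 := by
  rw [cv_psi0_prime hp]; exact gs_coprime_prime hp c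

theorem cv_ram_one (c : O) : gs (psi0 1) 1 c = 1 := cv_gs_one _ (fun _ => if_pos isCoprime_one_right) c

theorem cv_cop_pdiv {p n d : O} (hp : Prime p) (hn : Prim n) (hpn : ¬ p ∣ n) (hd : d ∈ pdiv n) :
    Prim d ∧ IsCoprime p d :=
  ⟨((mem_pdiv hn.ne_zero).1 hd).1,
    hp.coprime_iff_not_dvd.2 fun h => hpn (h.trans ((mem_pdiv hn.ne_zero).1 hd).2)⟩

open Classical in
theorem cv_ram_sum {b : O} (hb : Prim b) (hs : Squarefree b) (c : O) :
    ∑ d ∈ pdiv b, gs (psi0 d) d c = if b ∣ c then (Nr b : ℂ) else 0 := by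
  refine Prim.sqf_induction (P := fun b => ∑ d ∈ pdiv b, gs (psi0 d) d c = if b ∣ c then (Nr b : ℂ) else 0)
    ?_ (fun p n hp hpp hn _ hpn ih => ?_) hb hs
  · simp [cv_pdiv_one, cv_ram_one, Nr_one]
  · rw [cv_sum_pdiv hp hpp hn hpn, Finset.sum_congr rfl fun d hd =>
      cv_ram_mul hpp (cv_cop_pdiv hp hn hpn hd).1 (cv_cop_pdiv hp hn hpn hd).2 c, ← Finset.mul_sum, ih,
      cv_ram_prime hp, Nr_mul]
    have hc := hp.coprime_iff_not_dvd.2 hpn
    by_cases h1 : p ∣ c <;> by_cases h2 : n ∣ c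
    · rw [if_pos h1, if_pos h2, if_pos (hc.mul_dvd h1 h2)]; push_cast; ring
    · rw [if_neg h2, if_neg fun h => h2 ((dvd_mul_left _ _).trans h)]; ring
    · rw [if_neg h1, if_pos h2, if_neg fun h => h1 ((dvd_mul_right _ _).trans h)]; ring
    · rw [if_neg h2, if_neg fun h => h2 ((dvd_mul_left _ _).trans h)]; ring

theorem cv_cop_expand {z : O} (hz : Prim z) (hs : Squarefree z) : ∃ l : O → ℂ,
    (∀ d ∈ pdiv z, ‖l d‖ ≤ (Nr d)⁻¹) ∧ ∀ c, psi0 z c = ∑ d ∈ pdiv z, l d * gs (psi0 d) d c := by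
  classical
  refine Prim.sqf_induction (P := fun z => ∃ l : O → ℂ,
    (∀ d ∈ pdiv z, ‖l d‖ ≤ (Nr d)⁻¹) ∧ ∀ c, psi0 z c = ∑ d ∈ pdiv z, l d * gs (psi0 d) d c)
    ⟨fun _ => 1, ?_, fun c => ?_⟩ (fun p n hp hpp hn _ hpn ⟨l, hl, he⟩ => ?_) hz hs
  · simp [cv_pdiv_one, Nr_one]
  · simp [cv_pdiv_one, cv_ram_one, psi0, isCoprime_one_right]
  · have hP : 0 < Nr p := Nr_pos hp.ne_zero
    have hP1 : 1 ≤ Nr p := one_le_Nr hp.ne_zero
    have h0 : p * n ≠ 0 := mul_ne_zero hp.ne_zero hn.ne_zero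
    refine ⟨fun d => if p ∣ d then -(((Nr p)⁻¹ : ℝ) : ℂ) * l (d / p) else ((1 - (Nr p)⁻¹ : ℝ) : ℂ) * l d,
      fun d hd => ?_, fun c => ?_⟩
    · obtain ⟨h1, h2⟩ := (mem_pdiv h0).1 hd
      by_cases h : p ∣ d
      · obtain ⟨e, rfl⟩ := h
        have he' : e ∈ pdiv n := (mem_pdiv hn.ne_zero).2
          ⟨hpp.of_mul h1, (mul_dvd_mul_iff_left hp.ne_zero).1 h2⟩
        simp only [dvd_mul_right, if_true, mul_div_cancel_left₀ e hp.ne_zero]
        rw [norm_mul, norm_neg, Complex.norm_real, Real.norm_of_nonneg (inv_nonneg.2 hP.le), Nr_mul, mul_inv]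
        exact mul_le_mul_of_nonneg_left (hl e he') (inv_nonneg.2 hP.le)
      · have hd' : d ∈ pdiv n := (mem_pdiv hn.ne_zero).2
          ⟨h1, ((hp.coprime_iff_not_dvd.2 h).symm).dvd_of_dvd_mul_left h2⟩
        simp only [h, if_false]
        have h3 : (Nr p)⁻¹ ≤ 1 := inv_le_one_of_one_le₀ hP1
        rw [norm_mul, Complex.norm_real, Real.norm_of_nonneg (by linarith)]
        exact (mul_le_of_le_one_left (norm_nonneg _) (by linarith [inv_nonneg.2 hP.le])).trans (hl d hd')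
    · rw [cv_sum_pdiv hp hpp hn hpn, cv_psi0_mul, he c, Finset.mul_sum, ← Finset.sum_add_distrib]
      refine Finset.sum_congr rfl fun d hd => ?_
      obtain ⟨h1, h2⟩ := cv_cop_pdiv hp hn hpn hd
      simp only [dvd_mul_right, if_true, mul_div_cancel_left₀ d hp.ne_zero,
        hp.coprime_iff_not_dvd.1 h2, if_false]
      rw [cv_ram_mul hpp h1 h2, cv_ram_prime hp, cv_psi0_prime hp]
      have : (Nr p : ℂ) ≠ 0 := by exact_mod_cast hP.ne'
      by_cases h : p ∣ c <;> simp only [h, if_true, if_false] <;> push_cast <;> field_simp <;> ring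

open Classical in
theorem cv_ram {z : O} (hz : Prim z) (hs : Squarefree z) : ∃ l : O → ℂ,
    (∀ e, ‖l e‖ ≤ 1) ∧ ∀ c, gs (psi0 z) z c = ∑ e ∈ pdiv z, if e ∣ c then (Nr e : ℂ) * l e else 0 := by
  refine Prim.sqf_induction (P := fun z => ∃ l : O → ℂ,
    (∀ e, ‖l e‖ ≤ 1) ∧ ∀ c, gs (psi0 z) z c = ∑ e ∈ pdiv z, if e ∣ c then (Nr e : ℂ) * l e else 0)
    ⟨fun _ => 1, by simp, fun c => ?_⟩ (fun p n hp hpp hn _ hpn ⟨l, hl, he⟩ => ?_) hz hs
  · simp [cv_pdiv_one, cv_ram_one, Nr_one]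
  · refine ⟨fun d => if p ∣ d then l (d / p) else -l d, fun d => ?_, fun c => ?_⟩
    · by_cases h : p ∣ d <;> simp [h, hl]
    · rw [cv_sum_pdiv hp hpp hn hpn, cv_ram_mul hpp hn (hp.coprime_iff_not_dvd.2 hpn), he c,
        Finset.mul_sum, ← Finset.sum_add_distrib, cv_ram_prime hp]
      refine Finset.sum_congr rfl fun d hd => ?_
      obtain ⟨h1, h2⟩ := cv_cop_pdiv hp hn hpn hd
      simp only [dvd_mul_right, if_true, mul_div_cancel_left₀ d hp.ne_zero,
        hp.coprime_iff_not_dvd.1 h2, if_false, Nr_mul]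
      by_cases h3 : p ∣ c <;> by_cases h4 : d ∣ c
      · rw [if_pos h3, if_pos h4, if_pos h4, if_pos (h2.mul_dvd h3 h4)]; push_cast; ring
      · rw [if_neg h4, if_neg h4, if_neg fun h => h4 ((dvd_mul_left _ _).trans h)]; ring
      · rw [if_neg h3, if_pos h4, if_pos h4, if_neg fun h => h3 ((dvd_mul_right _ _).trans h)]; ring
      · rw [if_neg h4, if_neg h4, if_neg fun h => h4 ((dvd_mul_left _ _).trans h)]; ring

theorem cv_induction {P : O → Prop} (h1 : P 1)
    (hs : ∀ (p : O) (a : ℕ) (m : O), Prime p → Prim p → 0 < a → Prim m → ¬ p ∣ m → P m → P (p ^ a * m))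
    {n : O} (hn : Prim n) : P n := by
  induction' hk : nm n using Nat.strong_induction_on with k ih generalizing n
  by_cases h : n = 1
  · exact h ▸ h1
  obtain ⟨p', hp', hd'⟩ := WfDvdMonoid.exists_irreducible_factor
    (fun hu => h (hn.eq_one_of_isUnit hu)) hn.ne_zero
  obtain ⟨p, hp, ha⟩ := exists_PP hp'.prime
  have hd : p ∣ n := ha.symm.dvd.trans hd'
  have hpp : Prim p := hp.2.resolve_right fun h => hn.not_lam_dvd (h ▸ hd)
  have hf := FiniteMultiplicity.of_prime_left hp.1 hn.ne_zero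
  obtain ⟨m, hm, hpm⟩ := hf.exists_eq_pow_mul_and_not_dvd
  have hpos : 0 < multiplicity p n := Nat.pos_of_ne_zero (multiplicity_ne_zero.2 hd)
  have hm' : Prim m := (hpp.pow _).of_mul (hm ▸ hn)
  rw [hm]
  refine hs p _ m hp.1 hpp hpos hm' hpm (ih (nm m) ?_ hm' rfl)
  have h3 : (3 : ℝ) ≤ Nr p := three_le_Nr_prime hp.1
  have h4 : Nr n = Nr p ^ multiplicity p n * Nr m := by
    conv_lhs => rw [hm]
    rw [Nr_mul, Nr_pow]
  have h5 : 1 < Nr p ^ multiplicity p n := one_lt_pow₀ (by linarith) hpos.ne'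
  have h6 : Nr m < Nr n := by rw [h4]; nlinarith [Nr_pos hm'.ne_zero]
  rw [← hk]
  exact_mod_cast (show ((nm m : ℕ) : ℝ) < (nm n : ℕ) from h6)

open Classical in
/-- Primitive part and principal part of `χ_n`. -/
theorem cv_split {n : O} (hn : Prim n) (h6 : IsCoprime n 6) : ∃ m z : O, Prim m ∧ Prim z ∧ Squarefree z ∧
    m ∣ n ∧ IsCoprime (rad m) z ∧ rad n = rad m * z ∧ (∀ c, chi n c = chi m c * psi0 z c) ∧
    (∀ c, gs (chi m) (rad m) c = conj (chi m c) * gs (chi m) (rad m) 1) ∧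
    ‖gs (chi m) (rad m) 1‖ = Real.sqrt (Nr (rad m)) ∧
    ∀ p, Prime p → p ∣ m → ¬ 6 ∣ multiplicity p n := by
  have r1 : rad 1 = 1 := rad_eq_self prim_one squarefree_one
  have c1 : ∀ c, chi 1 c = 1 := chi_unit_left isUnit_one
  revert h6
  refine cv_induction (P := fun n => IsCoprime n 6 → ∃ m z : O, Prim m ∧ Prim z ∧ Squarefree z ∧
    m ∣ n ∧ IsCoprime (rad m) z ∧ rad n = rad m * z ∧ (∀ c, chi n c = chi m c * psi0 z c) ∧
    (∀ c, gs (chi m) (rad m) c = conj (chi m c) * gs (chi m) (rad m) 1) ∧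
    ‖gs (chi m) (rad m) 1‖ = Real.sqrt (Nr (rad m)) ∧
    ∀ p, Prime p → p ∣ m → ¬ 6 ∣ multiplicity p n) (fun _ => ?_) (fun p a n hp hpp ha hn hpn ih h6 => ?_) hn
  · refine ⟨1, 1, prim_one, prim_one, squarefree_one, dvd_rfl, isCoprime_one_right, by rw [mul_one],
      fun c => ?_, fun c => ?_, ?_, fun p hp h => absurd (isUnit_of_dvd_one h) hp.not_isUnit⟩
    · simp [psi0, isCoprime_one_right]
    · rw [r1, cv_gs_one _ c1, cv_gs_one _ c1, c1]; simp
    · rw [r1, cv_gs_one _ c1, Nr_one]; simp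
  obtain ⟨m, z, hm, hz, sz, hmn, hc, hr, he, hg, hN, hv⟩ := ih h6.of_mul_left_right
  have hp6 : IsCoprime p 6 := h6.of_mul_left_left.of_isCoprime_of_dvd_left (dvd_pow_self p ha.ne')
  have hpa : p ^ a ≠ 0 := pow_ne_zero _ hp.ne_zero
  have hcn : IsCoprime p n := hp.coprime_iff_not_dvd.2 hpn
  have rp : rad (p ^ a) = p := by rw [rad_pow ha.ne', rad_eq_self hpp hp.squarefree]
  have hrad : rad (p ^ a * n) = p * rad n := by
    rw [rad_mul_of_coprime hpa hn.ne_zero hcn.pow_left, rp]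
  have hcr : IsCoprime p (rad m * z) := hr ▸ (coprime_rad_iff hn.ne_zero).2 hcn
  have hmult : ∀ q, Prime q → q ∣ m → multiplicity q (p ^ a * n) = multiplicity q n := fun q hq hqm => by
    rw [a3_mul hq hpa hn.ne_zero, multiplicity_eq_zero.2, zero_add]
    exact fun h => hq.not_isUnit (hcn.isUnit_of_dvd' (hq.dvd_of_dvd_pow h) (hqm.trans hmn))
  by_cases h : 6 ∣ a
  · obtain ⟨j, rfl⟩ := h
    refine ⟨m, p * z, hm, hpp.mul hz, ?_, hmn.mul_left _, hcr.of_mul_right_left.symm.mul_right hc,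
      by rw [hrad, hr]; ring, fun c => ?_, hg, hN, fun q hq hqm => by rw [hmult q hq hqm]; exact hv q hq hqm⟩
    · exact squarefree_mul_iff.2 ⟨hcr.of_mul_right_right.isRelPrime, hp.squarefree, sz⟩
    · rw [chi_mul_left hpa hn.ne_zero, he, cv_psi0_mul, chi_pow_left hp.ne_zero, pow_mul,
        chi_pow_six hp.ne_zero]
      have : (if IsCoprime p (6 * c) then (1 : ℂ) else 0) ^ j = psi0 p c := by
        unfold psi0
        by_cases hpc : IsCoprime c p
        · rw [if_pos hpc, if_pos (hp6.mul_right hpc.symm), one_pow]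
        · rw [if_neg hpc, if_neg fun h => hpc h.of_mul_right_right.symm, zero_pow (by omega)]
      rw [this]; ring
  · have hcm : IsCoprime p m := hcn.of_isCoprime_of_dvd_right hmn
    have hrm : rad (p ^ a * m) = p * rad m := by
      rw [rad_mul_of_coprime hpa hm.ne_zero hcm.pow_left, rp]
    have m6 : IsCoprime m 6 := h6.of_mul_left_right.of_isCoprime_of_dvd_left hmn
    have X1 : Chr p (chi (p ^ a)) := by
      have := chr_chi (hpp.pow a) hp6.pow_left
      rwa [rp] at this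
    have X2 := chr_chi hm m6
    have e1 : chi (p ^ a * m) = fun x => chi (p ^ a) x * chi m x :=
      funext fun x => chi_mul_left hpa hm.ne_zero x
    have e2 : chi (p ^ a) = fun x => chi p x ^ a := funext fun x => chi_pow_left hp.ne_zero a x
    have G := X1.gs_mul X2 hcr.of_mul_right_left
    have g1 := gs_chi_pow hp6 hp.squarefree h
    have g2 := norm_gs_chi_pow hp6 hp.squarefree h
    rw [← e2] at g1 g2
    refine ⟨p ^ a * m, z, (hpp.pow a).mul hm, hz, sz, mul_dvd_mul_left _ hmn, ?_, ?_, fun c => ?_,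
      fun c => ?_, ?_, fun q hq hqm => ?_⟩
    · rw [hrm]; exact hcr.of_mul_right_right.mul_left hc
    · rw [hrad, hrm, hr, mul_assoc]
    · rw [chi_mul_left hpa hn.ne_zero, he, e1, mul_assoc]
    · rw [hrm, e1, G, G, g1 c, hg c, map_mul, e2]; ring
    · rw [hrm, e1, G, norm_mul, norm_mul, norm_mul, g2, hN, X1.hom.abs _ hcr.of_mul_right_left.symm,
        X2.hom.abs _ hcr.of_mul_right_left, Nr_mul, Real.sqrt_mul (Nr_nonneg _), one_mul, one_mul]
    · rcases hq.dvd_or_dvd hqm with h1 | h1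
      · have hqp : Associated q p := (hq.irreducible.associated_of_dvd hp.irreducible (hq.dvd_of_dvd_pow h1))
        rw [a3_mul hq hpa hn.ne_zero, multiplicity_eq_zero.2 fun h2 => hpn (hqp.symm.dvd.trans h2), add_zero,
          multiplicity_eq_of_associated_left hqp.symm, k2_mult_self hp]
        exact h
      · rw [hmult q hq h1]; exact hv q hq h1

open Classical in
/-- The dual Gauss sum of an arbitrary `χ_n`. -/
theorem cv_dual {n : O} (hn : Prim n) (h6 : IsCoprime n 6) : ∃ Θ : O → O → ℂ,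
    (∀ e ∈ pdiv (rad n), ∀ c, ‖Θ e c‖ ≤ Real.sqrt (Nr (rad n) / Nr e)) ∧
    ∀ c, gs (fun x => conj (chi n x)) (rad n) (-c) =
      ∑ e ∈ pdiv (rad n), if e ∣ c then (Nr e : ℂ) * Θ e c else 0 := by
  obtain ⟨m, z, hm, hz, sz, hmn, hc, hr, he, hg, hN, -⟩ := cv_split hn h6
  obtain ⟨l, hl, hR⟩ := cv_ram hz sz
  have m6 : IsCoprime m 6 := h6.of_isCoprime_of_dvd_left hmn
  have X1 := chr_chi hm m6
  have X2 := chr_psi0 hz
  refine ⟨fun e c => if e ∣ z then conj (chi m z * psi0 z (rad m) * gs (chi m) (rad m) c * l e) else 0,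
    fun e he' c => ?_, fun c => ?_⟩
  · by_cases h : e ∣ z
    · simp only [h, if_true]
      have e0 : 0 < Nr e := Nr_pos ((mem_pdiv (rad_ne_zero n)).1 he').1.ne_zero
      rw [Complex.norm_conj, norm_mul, norm_mul, norm_mul, hg c, norm_mul, hN, Complex.norm_conj]
      have h1 : Real.sqrt (Nr (rad m)) ≤ Real.sqrt (Nr (rad n) / Nr e) := by
        refine Real.sqrt_le_sqrt ?_
        rw [le_div_iff₀ e0, hr, Nr_mul]
        exact mul_le_mul_of_nonneg_left (Nr_le_of_dvd hz.ne_zero h) (Nr_nonneg _)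
      refine le_trans ?_ h1
      have := X1.norm_le z; have := X2.norm_le (rad m); have := X1.norm_le c; have := hl e
      calc _ ≤ 1 * 1 * (1 * Real.sqrt (Nr (rad m))) * 1 := by gcongr
        _ = _ := by ring
    · simp only [h, if_false, norm_zero]; exact Real.sqrt_nonneg _
  · rw [← conj_gs, show chi n = fun x => chi m x * psi0 z x from funext he, hr, X1.gs_mul X2 hc, hR c,
      Finset.mul_sum, map_sum]
    have hsub : pdiv z ⊆ pdiv (rad m * z) := fun e he' => by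
      obtain ⟨h1, h2⟩ := (mem_pdiv hz.ne_zero).1 he'
      exact (mem_pdiv (mul_ne_zero (rad_ne_zero m) hz.ne_zero)).2 ⟨h1, h2.mul_left _⟩
    rw [← Finset.sum_subset hsub]
    · refine Finset.sum_congr rfl fun e he' => ?_
      simp only [((mem_pdiv hz.ne_zero).1 he').2, if_true]
      by_cases h : e ∣ c
      · simp only [h, if_true, map_mul, Complex.conj_ofReal]; ring
      · simp [h]
    · intro e h1 h2
      have : ¬ e ∣ z := fun h => h2 ((mem_pdiv hz.ne_zero).2
        ⟨((mem_pdiv (mul_ne_zero (rad_ne_zero m) hz.ne_zero)).1 h1).1, h⟩)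
      simp [this]

end Crest.Agent.R017

end
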