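import Crest.Agent.R017.Defs

/-! # Row 17: the linear programme -/

set_option autoImplicit false

noncomputable section

open scoped BigOperators ComplexConjugate
open Complex MeasureTheory

namespace Crest.Agent.R017

/-- The exponent needed for rows of type `(u, w)`. -/
def Dex (s u w : ℝ) : ℝ := (2 / 3 * u + w / 12 - 13 / 600 - s) / (81 / 100)

set_option linter.unusedVariables false

/-- the conclusion of `lp`. -/
def lp_P (c D u w : ℝ) : Prop :=
  ∃ d ν : ℝ, 2 / 3 ≤ d ∧ d ≤ 1 ∧ 1 ≤ ν ∧ ν ≤ 3 / 2 ∧ D ≤ u ∧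
      D ≤ u * d + w * (1 - d) / 2 ∧ D ≤ u * ν - 5 / 6 * (ν - 1) ∧
      D ≤ 2 * u * (ν - d) + w * min (1 / 18) (c * max 0 (1 - 2 * (ν - d)))

theorem lp_cellA {c D u w : ℝ} (d ν μ : ℝ) (h1 : 2 / 3 ≤ d) (h2 : d ≤ 1) (h3 : 1 ≤ ν) (h4 : ν ≤ 3 / 2)
    (hc : 0 ≤ c) (hμ1 : μ ≤ 1 / 18) (hμ2 : μ ≤ c * (1 - 2 * (ν - d))) (hw : 0 ≤ w) (h0 : D ≤ u)
    (hA : D ≤ u * d + w * (1 - d) / 2) (hB : D ≤ u * ν - 5 / 6 * (ν - 1))
    (hC : D ≤ 2 * u * (ν - d) + w * μ) : lp_P c D u w := by
  refine ⟨d, ν, h1, h2, h3, h4, h0, hA, hB, hC.trans ?_⟩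
  have : μ ≤ min (1 / 18) (c * max 0 (1 - 2 * (ν - d))) :=
    le_min hμ1 (hμ2.trans (mul_le_mul_of_nonneg_left (le_max_right _ _) hc))
  have := mul_le_mul_of_nonneg_left this hw
  linarith

theorem lp_cellB {c D u w : ℝ} (d ν : ℝ) (h1 : 2 / 3 ≤ d) (h2 : d ≤ 1) (h3 : 1 ≤ ν) (h4 : ν ≤ 3 / 2)
    (hc : 0 ≤ c) (hw : 0 ≤ w) (h0 : D ≤ u)
    (hA : D ≤ u * d + w * (1 - d) / 2) (hB : D ≤ u * ν - 5 / 6 * (ν - 1))
    (hC : D ≤ 2 * u * (ν - d)) : lp_P c D u w := by
  refine ⟨d, ν, h1, h2, h3, h4, h0, hA, hB, hC.trans ?_⟩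
  have : 0 ≤ min (1 / 18) (c * max 0 (1 - 2 * (ν - d))) :=
    le_min (by norm_num) (mul_nonneg hc (le_max_left _ _))
  have := mul_nonneg hw this
  linarith

theorem lp_a_1 {D u w : ℝ} (hD : D = (2 / 3 * u + w / 12 - 13 / 600 - (0 : ℝ)) / (81 / 100)) (hw : 0 ≤ w) (hwu : w ≤ u)
    (hU : u ≤ (19 / 25 : ℝ)) (h0 : D ≤ u) (hp : 0 < D)
    (k0 : D ≤ u * (12679 / 10000 : ℝ) - 5 / 6 * ((12679 / 10000 : ℝ) - 1)) :
    lp_P (5 / 24 : ℝ) D u w := by
  exact lp_cellA (7879 / 10000 : ℝ) (12679 / 10000 : ℝ) (833 / 100000 : ℝ) (by norm_num) (by norm_num) (by norm_num) (by norm_num) (by norm_num)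
    (by norm_num) (by norm_num) hw h0 (by linarith) (by linarith) (by linarith)

theorem lp_a_2 {D u w : ℝ} (hD : D = (2 / 3 * u + w / 12 - 13 / 600 - (0 : ℝ)) / (81 / 100)) (hw : 0 ≤ w) (hwu : w ≤ u)
    (hU : u ≤ (19 / 25 : ℝ)) (h0 : D ≤ u) (hp : 0 < D)
    (k0 : u * (12679 / 10000 : ℝ) - 5 / 6 * ((12679 / 10000 : ℝ) - 1) ≤ D)
    (k1 : D ≤ u * (11519 / 10000 : ℝ) - 5 / 6 * ((11519 / 10000 : ℝ) - 1)) :
    lp_P (5 / 24 : ℝ) D u w := by
  rcases le_total D (u * (12099 / 10000 : ℝ) - 5 / 6 * ((12099 / 10000 : ℝ) - 1)) with k2 | k2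
  · exact lp_cellA (61 / 80 : ℝ) (12099 / 10000 : ℝ) (2191 / 100000 : ℝ) (by norm_num) (by norm_num) (by norm_num) (by norm_num) (by norm_num)
      (by norm_num) (by norm_num) hw h0 (by linarith) (by linarith) (by linarith)
  · rcases le_total D (u * (11809 / 10000 : ℝ) - 5 / 6 * ((11809 / 10000 : ℝ) - 1)) with k3 | k3
    · exact lp_cellA (7533 / 10000 : ℝ) (11809 / 10000 : ℝ) (377 / 12500 : ℝ) (by norm_num) (by norm_num) (by norm_num) (by norm_num) (by norm_num)
        (by norm_num) (by norm_num) hw h0 (by linarith) (by linarith) (by linarith)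
    · rcases le_total D (u * (729 / 625 : ℝ) - 5 / 6 * ((729 / 625 : ℝ) - 1)) with k4 | k4
      · exact lp_cellA (7459 / 10000 : ℝ) (729 / 625 : ℝ) (207 / 6250 : ℝ) (by norm_num) (by norm_num) (by norm_num) (by norm_num) (by norm_num)
          (by norm_num) (by norm_num) hw h0 (by linarith) (by linarith) (by linarith)
      · rcases le_total D (u * (11591 / 10000 : ℝ) - 5 / 6 * ((11591 / 10000 : ℝ) - 1)) with k5 | k5
        · exact lp_cellA (741 / 1000 : ℝ) (11591 / 10000 : ℝ) (853 / 25000 : ℝ) (by norm_num) (by norm_num) (by norm_num) (by norm_num) (by norm_num)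
            (by norm_num) (by norm_num) hw h0 (by linarith) (by linarith) (by linarith)
        · rcases le_total D (u * (2311 / 2000 : ℝ) - 5 / 6 * ((2311 / 2000 : ℝ) - 1)) with k6 | k6
          · exact lp_cellA (3691 / 5000 : ℝ) (2311 / 2000 : ℝ) (689 / 20000 : ℝ) (by norm_num) (by norm_num) (by norm_num) (by norm_num) (by norm_num)
              (by norm_num) (by norm_num) hw h0 (by linarith) (by linarith) (by linarith)
          · rcases le_total D (u * (11537 / 10000 : ℝ) - 5 / 6 * ((11537 / 10000 : ℝ) - 1)) with k7 | k7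
            · exact lp_cellA (3683 / 5000 : ℝ) (11537 / 10000 : ℝ) (1727 / 50000 : ℝ) (by norm_num) (by norm_num) (by norm_num) (by norm_num) (by norm_num)
                (by norm_num) (by norm_num) hw h0 (by linarith) (by linarith) (by linarith)
            · exact lp_cellA (3679 / 5000 : ℝ) (11519 / 10000 : ℝ) (699 / 20000 : ℝ) (by norm_num) (by norm_num) (by norm_num) (by norm_num) (by norm_num)
                (by norm_num) (by norm_num) hw h0 (by linarith) (by linarith) (by linarith)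

theorem lp_a_3 {D u w : ℝ} (hD : D = (2 / 3 * u + w / 12 - 13 / 600 - (0 : ℝ)) / (81 / 100)) (hw : 0 ≤ w) (hwu : w ≤ u)
    (hU : u ≤ (19 / 25 : ℝ)) (h0 : D ≤ u) (hp : 0 < D)
    (k0 : u * (12679 / 10000 : ℝ) - 5 / 6 * ((12679 / 10000 : ℝ) - 1) ≤ D)
    (k1 : u * (11519 / 10000 : ℝ) - 5 / 6 * ((11519 / 10000 : ℝ) - 1) ≤ D)
    (k2 : D ≤ u * (10939 / 10000 : ℝ) - 5 / 6 * ((10939 / 10000 : ℝ) - 1))
    (k3 : D ≤ u * (11229 / 10000 : ℝ) - 5 / 6 * ((11229 / 10000 : ℝ) - 1))
    (k4 : D ≤ u * (5687 / 5000 : ℝ) - 5 / 6 * ((5687 / 5000 : ℝ) - 1))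
    (k5 : D ≤ u * (5723 / 5000 : ℝ) - 5 / 6 * ((5723 / 5000 : ℝ) - 1)) :
    lp_P (5 / 24 : ℝ) D u w := by
  rcases le_total D (u * (5741 / 5000 : ℝ) - 5 / 6 * ((5741 / 5000 : ℝ) - 1)) with k6 | k6
  · rcases le_total D (u * (23 / 20 : ℝ) - 5 / 6 * ((23 / 20 : ℝ) - 1)) with k7 | k7
    · exact lp_cellA (147 / 200 : ℝ) (23 / 20 : ℝ) (3541 / 100000 : ℝ) (by norm_num) (by norm_num) (by norm_num) (by norm_num) (by norm_num)
        (by norm_num) (by norm_num) hw h0 (by linarith) (by linarith) (by linarith)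
    · rcases le_total D (u * (3657 / 5000 : ℝ) + w * (1 - (3657 / 5000 : ℝ)) / 2) with k8 | k8
      · exact lp_cellA (3657 / 5000 : ℝ) (5741 / 5000 : ℝ) (1733 / 50000 : ℝ) (by norm_num) (by norm_num) (by norm_num) (by norm_num) (by norm_num)
          (by norm_num) (by norm_num) hw h0 (by linarith) (by linarith) (by linarith)
      · exact lp_cellA (7341 / 10000 : ℝ) (5741 / 5000 : ℝ) (3579 / 100000 : ℝ) (by norm_num) (by norm_num) (by norm_num) (by norm_num) (by norm_num)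
          (by norm_num) (by norm_num) hw h0 (by linarith) (by linarith) (by linarith)
  · rcases le_total D (u * (1433 / 1250 : ℝ) - 5 / 6 * ((1433 / 1250 : ℝ) - 1)) with k7 | k7
    · rcases le_total D (u * (1461 / 2000 : ℝ) + w * (1 - (1461 / 2000 : ℝ)) / 2) with k8 | k8
      · exact lp_cellA (1461 / 2000 : ℝ) (1433 / 1250 : ℝ) (219 / 6250 : ℝ) (by norm_num) (by norm_num) (by norm_num) (by norm_num) (by norm_num)
          (by norm_num) (by norm_num) hw h0 (by linarith) (by linarith) (by linarith)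
      · exact lp_cellA (1833 / 2500 : ℝ) (1433 / 1250 : ℝ) (113 / 3125 : ℝ) (by norm_num) (by norm_num) (by norm_num) (by norm_num) (by norm_num)
          (by norm_num) (by norm_num) hw h0 (by linarith) (by linarith) (by linarith)
    · rcases le_total D (u * (456 / 625 : ℝ) + w * (1 - (456 / 625 : ℝ)) / 2) with k8 | k8
      · exact lp_cellA (456 / 625 : ℝ) (5723 / 5000 : ℝ) (3541 / 100000 : ℝ) (by norm_num) (by norm_num) (by norm_num) (by norm_num) (by norm_num)
          (by norm_num) (by norm_num) hw h0 (by linarith) (by linarith) (by linarith)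
      · exact lp_cellA (7323 / 10000 : ℝ) (5723 / 5000 : ℝ) (1827 / 50000 : ℝ) (by norm_num) (by norm_num) (by norm_num) (by norm_num) (by norm_num)
          (by norm_num) (by norm_num) hw h0 (by linarith) (by linarith) (by linarith)

theorem lp_a_4 {D u w : ℝ} (hD : D = (2 / 3 * u + w / 12 - 13 / 600 - (0 : ℝ)) / (81 / 100)) (hw : 0 ≤ w) (hwu : w ≤ u)
    (hU : u ≤ (19 / 25 : ℝ)) (h0 : D ≤ u) (hp : 0 < D)
    (k0 : u * (12679 / 10000 : ℝ) - 5 / 6 * ((12679 / 10000 : ℝ) - 1) ≤ D)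
    (k1 : u * (11519 / 10000 : ℝ) - 5 / 6 * ((11519 / 10000 : ℝ) - 1) ≤ D)
    (k2 : D ≤ u * (10939 / 10000 : ℝ) - 5 / 6 * ((10939 / 10000 : ℝ) - 1))
    (k3 : D ≤ u * (11229 / 10000 : ℝ) - 5 / 6 * ((11229 / 10000 : ℝ) - 1))
    (k4 : D ≤ u * (5687 / 5000 : ℝ) - 5 / 6 * ((5687 / 5000 : ℝ) - 1))
    (k5 : u * (5723 / 5000 : ℝ) - 5 / 6 * ((5723 / 5000 : ℝ) - 1) ≤ D)
    (k6 : D ≤ u * (1141 / 1000 : ℝ) - 5 / 6 * ((1141 / 1000 : ℝ) - 1)) :
    lp_P (5 / 24 : ℝ) D u w := by
  rcases le_total D (u * (2857 / 2500 : ℝ) - 5 / 6 * ((2857 / 2500 : ℝ) - 1)) with k7 | k7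
  · rcases le_total D (u * (3643 / 5000 : ℝ) + w * (1 - (3643 / 5000 : ℝ)) / 2) with k8 | k8
    · exact lp_cellA (3643 / 5000 : ℝ) (2857 / 2500 : ℝ) (143 / 4000 : ℝ) (by norm_num) (by norm_num) (by norm_num) (by norm_num) (by norm_num)
        (by norm_num) (by norm_num) hw h0 (by linarith) (by linarith) (by linarith)
    · exact lp_cellA (7313 / 10000 : ℝ) (2857 / 2500 : ℝ) (3687 / 100000 : ℝ) (by norm_num) (by norm_num) (by norm_num) (by norm_num) (by norm_num)
        (by norm_num) (by norm_num) hw h0 (by linarith) (by linarith) (by linarith)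
  · rcases le_total D (u * (1819 / 2500 : ℝ) + w * (1 - (1819 / 2500 : ℝ)) / 2) with k8 | k8
    · rcases le_total D (u * (11419 / 10000 : ℝ) - 5 / 6 * ((11419 / 10000 : ℝ) - 1)) with k9 | k9
      · exact lp_cellA (1819 / 2500 : ℝ) (11419 / 10000 : ℝ) (357 / 10000 : ℝ) (by norm_num) (by norm_num) (by norm_num) (by norm_num) (by norm_num)
          (by norm_num) (by norm_num) hw h0 (by linarith) (by linarith) (by linarith)
      · exact lp_cellA (1819 / 2500 : ℝ) (1141 / 1000 : ℝ) (451 / 12500 : ℝ) (by norm_num) (by norm_num) (by norm_num) (by norm_num) (by norm_num)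
          (by norm_num) (by norm_num) hw h0 (by linarith) (by linarith) (by linarith)
    · exact lp_cellA (913 / 1250 : ℝ) (1141 / 1000 : ℝ) (149 / 4000 : ℝ) (by norm_num) (by norm_num) (by norm_num) (by norm_num) (by norm_num)
        (by norm_num) (by norm_num) hw h0 (by linarith) (by linarith) (by linarith)

theorem lp_a_5 {D u w : ℝ} (hD : D = (2 / 3 * u + w / 12 - 13 / 600 - (0 : ℝ)) / (81 / 100)) (hw : 0 ≤ w) (hwu : w ≤ u)
    (hU : u ≤ (19 / 25 : ℝ)) (h0 : D ≤ u) (hp : 0 < D)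
    (k0 : u * (12679 / 10000 : ℝ) - 5 / 6 * ((12679 / 10000 : ℝ) - 1) ≤ D)
    (k1 : u * (11519 / 10000 : ℝ) - 5 / 6 * ((11519 / 10000 : ℝ) - 1) ≤ D)
    (k2 : D ≤ u * (10939 / 10000 : ℝ) - 5 / 6 * ((10939 / 10000 : ℝ) - 1))
    (k3 : D ≤ u * (11229 / 10000 : ℝ) - 5 / 6 * ((11229 / 10000 : ℝ) - 1))
    (k4 : D ≤ u * (5687 / 5000 : ℝ) - 5 / 6 * ((5687 / 5000 : ℝ) - 1))
    (k5 : u * (5723 / 5000 : ℝ) - 5 / 6 * ((5723 / 5000 : ℝ) - 1) ≤ D)
    (k6 : u * (1141 / 1000 : ℝ) - 5 / 6 * ((1141 / 1000 : ℝ) - 1) ≤ D) :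
    lp_P (5 / 24 : ℝ) D u w := by
  rcases le_total D (u * (712 / 625 : ℝ) - 5 / 6 * ((712 / 625 : ℝ) - 1)) with k7 | k7
  · rcases le_total D (u * (3633 / 5000 : ℝ) + w * (1 - (3633 / 5000 : ℝ)) / 2) with k8 | k8
    · rcases le_total D (u * (11401 / 10000 : ℝ) - 5 / 6 * ((11401 / 10000 : ℝ) - 1)) with k9 | k9
      · exact lp_cellA (3633 / 5000 : ℝ) (11401 / 10000 : ℝ) (901 / 25000 : ℝ) (by norm_num) (by norm_num) (by norm_num) (by norm_num) (by norm_num)
          (by norm_num) (by norm_num) hw h0 (by linarith) (by linarith) (by linarith)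
      · rcases le_total D (u * (7253 / 10000 : ℝ) + w * (1 - (7253 / 10000 : ℝ)) / 2) with k10 | k10
        · exact lp_cellA (7253 / 10000 : ℝ) (712 / 625 : ℝ) (3587 / 100000 : ℝ) (by norm_num) (by norm_num) (by norm_num) (by norm_num) (by norm_num)
            (by norm_num) (by norm_num) hw h0 (by linarith) (by linarith) (by linarith)
        · exact lp_cellA (3633 / 5000 : ℝ) (712 / 625 : ℝ) (3641 / 100000 : ℝ) (by norm_num) (by norm_num) (by norm_num) (by norm_num) (by norm_num)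
            (by norm_num) (by norm_num) hw h0 (by linarith) (by linarith) (by linarith)
    · exact lp_cellA (3647 / 5000 : ℝ) (712 / 625 : ℝ) (1879 / 50000 : ℝ) (by norm_num) (by norm_num) (by norm_num) (by norm_num) (by norm_num)
        (by norm_num) (by norm_num) hw h0 (by linarith) (by linarith) (by linarith)
  · rcases le_total D (u * (907 / 1250 : ℝ) + w * (1 - (907 / 1250 : ℝ)) / 2) with k8 | k8
    · rcases le_total D (u * (11383 / 10000 : ℝ) - 5 / 6 * ((11383 / 10000 : ℝ) - 1)) with k9 | k9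
      · rcases le_total D (u * (1449 / 2000 : ℝ) + w * (1 - (1449 / 2000 : ℝ)) / 2) with k10 | k10
        · exact lp_cellA (1449 / 2000 : ℝ) (11383 / 10000 : ℝ) (3591 / 100000 : ℝ) (by norm_num) (by norm_num) (by norm_num) (by norm_num) (by norm_num)
            (by norm_num) (by norm_num) hw h0 (by linarith) (by linarith) (by linarith)
        · exact lp_cellA (907 / 1250 : ℝ) (11383 / 10000 : ℝ) (3637 / 100000 : ℝ) (by norm_num) (by norm_num) (by norm_num) (by norm_num) (by norm_num)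
            (by norm_num) (by norm_num) hw h0 (by linarith) (by linarith) (by linarith)
      · rcases le_total D (u * (3621 / 5000 : ℝ) + w * (1 - (3621 / 5000 : ℝ)) / 2) with k10 | k10
        · exact lp_cellA (3621 / 5000 : ℝ) (5687 / 5000 : ℝ) (113 / 3125 : ℝ) (by norm_num) (by norm_num) (by norm_num) (by norm_num) (by norm_num)
            (by norm_num) (by norm_num) hw h0 (by linarith) (by linarith) (by linarith)
        · exact lp_cellA (907 / 1250 : ℝ) (5687 / 5000 : ℝ) (147 / 4000 : ℝ) (by norm_num) (by norm_num) (by norm_num) (by norm_num) (by norm_num)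
            (by norm_num) (by norm_num) hw h0 (by linarith) (by linarith) (by linarith)
    · exact lp_cellA (7283 / 10000 : ℝ) (5687 / 5000 : ℝ) (3787 / 100000 : ℝ) (by norm_num) (by norm_num) (by norm_num) (by norm_num) (by norm_num)
        (by norm_num) (by norm_num) hw h0 (by linarith) (by linarith) (by linarith)

theorem lp_a_6 {D u w : ℝ} (hD : D = (2 / 3 * u + w / 12 - 13 / 600 - (0 : ℝ)) / (81 / 100)) (hw : 0 ≤ w) (hwu : w ≤ u)
    (hU : u ≤ (19 / 25 : ℝ)) (h0 : D ≤ u) (hp : 0 < D)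
    (k0 : u * (12679 / 10000 : ℝ) - 5 / 6 * ((12679 / 10000 : ℝ) - 1) ≤ D)
    (k1 : u * (11519 / 10000 : ℝ) - 5 / 6 * ((11519 / 10000 : ℝ) - 1) ≤ D)
    (k2 : D ≤ u * (10939 / 10000 : ℝ) - 5 / 6 * ((10939 / 10000 : ℝ) - 1))
    (k3 : D ≤ u * (11229 / 10000 : ℝ) - 5 / 6 * ((11229 / 10000 : ℝ) - 1))
    (k4 : u * (5687 / 5000 : ℝ) - 5 / 6 * ((5687 / 5000 : ℝ) - 1) ≤ D)
    (k5 : D ≤ u * (11301 / 10000 : ℝ) - 5 / 6 * ((11301 / 10000 : ℝ) - 1))
    (k6 : D ≤ u * (11337 / 10000 : ℝ) - 5 / 6 * ((11337 / 10000 : ℝ) - 1)) :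
    lp_P (5 / 24 : ℝ) D u w := by
  rcases le_total D (u * (2271 / 2000 : ℝ) - 5 / 6 * ((2271 / 2000 : ℝ) - 1)) with k7 | k7
  · rcases le_total D (u * (1811 / 2500 : ℝ) + w * (1 - (1811 / 2500 : ℝ)) / 2) with k8 | k8
    · rcases le_total D (u * (2841 / 2500 : ℝ) - 5 / 6 * ((2841 / 2500 : ℝ) - 1)) with k9 | k9
      · rcases le_total D (u * (7233 / 10000 : ℝ) + w * (1 - (7233 / 10000 : ℝ)) / 2) with k10 | k10
        · exact lp_cellA (7233 / 10000 : ℝ) (2841 / 2500 : ℝ) (181 / 5000 : ℝ) (by norm_num) (by norm_num) (by norm_num) (by norm_num) (by norm_num)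
            (by norm_num) (by norm_num) hw h0 (by linarith) (by linarith) (by linarith)
        · exact lp_cellA (1811 / 2500 : ℝ) (2841 / 2500 : ℝ) (1833 / 50000 : ℝ) (by norm_num) (by norm_num) (by norm_num) (by norm_num) (by norm_num)
            (by norm_num) (by norm_num) hw h0 (by linarith) (by linarith) (by linarith)
      · rcases le_total D (u * (723 / 1000 : ℝ) + w * (1 - (723 / 1000 : ℝ)) / 2) with k10 | k10
        · exact lp_cellA (723 / 1000 : ℝ) (2271 / 2000 : ℝ) (729 / 20000 : ℝ) (by norm_num) (by norm_num) (by norm_num) (by norm_num) (by norm_num)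
            (by norm_num) (by norm_num) hw h0 (by linarith) (by linarith) (by linarith)
        · exact lp_cellA (1811 / 2500 : ℝ) (2271 / 2000 : ℝ) (463 / 12500 : ℝ) (by norm_num) (by norm_num) (by norm_num) (by norm_num) (by norm_num)
            (by norm_num) (by norm_num) hw h0 (by linarith) (by linarith) (by linarith)
    · exact lp_cellA (7273 / 10000 : ℝ) (2271 / 2000 : ℝ) (153 / 4000 : ℝ) (by norm_num) (by norm_num) (by norm_num) (by norm_num) (by norm_num)
        (by norm_num) (by norm_num) hw h0 (by linarith) (by linarith) (by linarith)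
  · rcases le_total D (u * (7233 / 10000 : ℝ) + w * (1 - (7233 / 10000 : ℝ)) / 2) with k8 | k8
    · rcases le_total D (u * (5673 / 5000 : ℝ) - 5 / 6 * ((5673 / 5000 : ℝ) - 1)) with k9 | k9
      · rcases le_total D (u * (3611 / 5000 : ℝ) + w * (1 - (3611 / 5000 : ℝ)) / 2) with k10 | k10
        · exact lp_cellA (3611 / 5000 : ℝ) (5673 / 5000 : ℝ) (73 / 2000 : ℝ) (by norm_num) (by norm_num) (by norm_num) (by norm_num) (by norm_num)
            (by norm_num) (by norm_num) hw h0 (by linarith) (by linarith) (by linarith)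
        · exact lp_cellA (7233 / 10000 : ℝ) (5673 / 5000 : ℝ) (739 / 20000 : ℝ) (by norm_num) (by norm_num) (by norm_num) (by norm_num) (by norm_num)
            (by norm_num) (by norm_num) hw h0 (by linarith) (by linarith) (by linarith)
      · rcases le_total D (u * (7219 / 10000 : ℝ) + w * (1 - (7219 / 10000 : ℝ)) / 2) with k10 | k10
        · rcases le_total D (u * (11341 / 10000 : ℝ) - 5 / 6 * ((11341 / 10000 : ℝ) - 1)) with k11 | k11
          · exact lp_cellA (7219 / 10000 : ℝ) (11341 / 10000 : ℝ) (1829 / 50000 : ℝ) (by norm_num) (by norm_num) (by norm_num) (by norm_num) (by norm_num)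
              (by norm_num) (by norm_num) hw h0 (by linarith) (by linarith) (by linarith)
          · rcases le_total D (u * (1803 / 2500 : ℝ) + w * (1 - (1803 / 2500 : ℝ)) / 2) with k12 | k12
            · exact lp_cellA (1803 / 2500 : ℝ) (11337 / 10000 : ℝ) (729 / 20000 : ℝ) (by norm_num) (by norm_num) (by norm_num) (by norm_num) (by norm_num)
                (by norm_num) (by norm_num) hw h0 (by linarith) (by linarith) (by linarith)
            · exact lp_cellA (7219 / 10000 : ℝ) (11337 / 10000 : ℝ) (147 / 4000 : ℝ) (by norm_num) (by norm_num) (by norm_num) (by norm_num) (by norm_num)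
                (by norm_num) (by norm_num) hw h0 (by linarith) (by linarith) (by linarith)
        · exact lp_cellA (7233 / 10000 : ℝ) (11337 / 10000 : ℝ) (3733 / 100000 : ℝ) (by norm_num) (by norm_num) (by norm_num) (by norm_num) (by norm_num)
            (by norm_num) (by norm_num) hw h0 (by linarith) (by linarith) (by linarith)
    · exact lp_cellA (7261 / 10000 : ℝ) (11337 / 10000 : ℝ) (77 / 2000 : ℝ) (by norm_num) (by norm_num) (by norm_num) (by norm_num) (by norm_num)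
        (by norm_num) (by norm_num) hw h0 (by linarith) (by linarith) (by linarith)

theorem lp_a_7 {D u w : ℝ} (hD : D = (2 / 3 * u + w / 12 - 13 / 600 - (0 : ℝ)) / (81 / 100)) (hw : 0 ≤ w) (hwu : w ≤ u)
    (hU : u ≤ (19 / 25 : ℝ)) (h0 : D ≤ u) (hp : 0 < D)
    (k0 : u * (12679 / 10000 : ℝ) - 5 / 6 * ((12679 / 10000 : ℝ) - 1) ≤ D)
    (k1 : u * (11519 / 10000 : ℝ) - 5 / 6 * ((11519 / 10000 : ℝ) - 1) ≤ D)
    (k2 : D ≤ u * (10939 / 10000 : ℝ) - 5 / 6 * ((10939 / 10000 : ℝ) - 1))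
    (k3 : D ≤ u * (11229 / 10000 : ℝ) - 5 / 6 * ((11229 / 10000 : ℝ) - 1))
    (k4 : u * (5687 / 5000 : ℝ) - 5 / 6 * ((5687 / 5000 : ℝ) - 1) ≤ D)
    (k5 : D ≤ u * (11301 / 10000 : ℝ) - 5 / 6 * ((11301 / 10000 : ℝ) - 1))
    (k6 : u * (11337 / 10000 : ℝ) - 5 / 6 * ((11337 / 10000 : ℝ) - 1) ≤ D)
    (k7 : D ≤ u * (11319 / 10000 : ℝ) - 5 / 6 * ((11319 / 10000 : ℝ) - 1)) :
    lp_P (5 / 24 : ℝ) D u w := by
  rcases le_total D (u * (7221 / 10000 : ℝ) + w * (1 - (7221 / 10000 : ℝ)) / 2) with k8 | k8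
  · rcases le_total D (u * (708 / 625 : ℝ) - 5 / 6 * ((708 / 625 : ℝ) - 1)) with k9 | k9
    · rcases le_total D (u * (721 / 1000 : ℝ) + w * (1 - (721 / 1000 : ℝ)) / 2) with k10 | k10
      · exact lp_cellA (721 / 1000 : ℝ) (708 / 625 : ℝ) (147 / 4000 : ℝ) (by norm_num) (by norm_num) (by norm_num) (by norm_num) (by norm_num)
          (by norm_num) (by norm_num) hw h0 (by linarith) (by linarith) (by linarith)
      · exact lp_cellA (7221 / 10000 : ℝ) (708 / 625 : ℝ) (93 / 2500 : ℝ) (by norm_num) (by norm_num) (by norm_num) (by norm_num) (by norm_num)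
          (by norm_num) (by norm_num) hw h0 (by linarith) (by linarith) (by linarith)
    · rcases le_total D (u * (7207 / 10000 : ℝ) + w * (1 - (7207 / 10000 : ℝ)) / 2) with k10 | k10
      · rcases le_total D (u * (11323 / 10000 : ℝ) - 5 / 6 * ((11323 / 10000 : ℝ) - 1)) with k11 | k11
        · exact lp_cellA (7207 / 10000 : ℝ) (11323 / 10000 : ℝ) (3683 / 100000 : ℝ) (by norm_num) (by norm_num) (by norm_num) (by norm_num) (by norm_num)
            (by norm_num) (by norm_num) hw h0 (by linarith) (by linarith) (by linarith)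
        · rcases le_total D (u * (18 / 25 : ℝ) + w * (1 - (18 / 25 : ℝ)) / 2) with k12 | k12
          · exact lp_cellA (18 / 25 : ℝ) (11319 / 10000 : ℝ) (367 / 10000 : ℝ) (by norm_num) (by norm_num) (by norm_num) (by norm_num) (by norm_num)
              (by norm_num) (by norm_num) hw h0 (by linarith) (by linarith) (by linarith)
          · exact lp_cellA (7207 / 10000 : ℝ) (11319 / 10000 : ℝ) (37 / 1000 : ℝ) (by norm_num) (by norm_num) (by norm_num) (by norm_num) (by norm_num)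
              (by norm_num) (by norm_num) hw h0 (by linarith) (by linarith) (by linarith)
      · exact lp_cellA (7221 / 10000 : ℝ) (11319 / 10000 : ℝ) (1879 / 50000 : ℝ) (by norm_num) (by norm_num) (by norm_num) (by norm_num) (by norm_num)
          (by norm_num) (by norm_num) hw h0 (by linarith) (by linarith) (by linarith)
  · exact lp_cellA (29 / 40 : ℝ) (11319 / 10000 : ℝ) (3879 / 100000 : ℝ) (by norm_num) (by norm_num) (by norm_num) (by norm_num) (by norm_num)
      (by norm_num) (by norm_num) hw h0 (by linarith) (by linarith) (by linarith)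

theorem lp_a_8 {D u w : ℝ} (hD : D = (2 / 3 * u + w / 12 - 13 / 600 - (0 : ℝ)) / (81 / 100)) (hw : 0 ≤ w) (hwu : w ≤ u)
    (hU : u ≤ (19 / 25 : ℝ)) (h0 : D ≤ u) (hp : 0 < D)
    (k0 : u * (12679 / 10000 : ℝ) - 5 / 6 * ((12679 / 10000 : ℝ) - 1) ≤ D)
    (k1 : u * (11519 / 10000 : ℝ) - 5 / 6 * ((11519 / 10000 : ℝ) - 1) ≤ D)
    (k2 : D ≤ u * (10939 / 10000 : ℝ) - 5 / 6 * ((10939 / 10000 : ℝ) - 1))
    (k3 : D ≤ u * (11229 / 10000 : ℝ) - 5 / 6 * ((11229 / 10000 : ℝ) - 1))
    (k4 : u * (5687 / 5000 : ℝ) - 5 / 6 * ((5687 / 5000 : ℝ) - 1) ≤ D)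
    (k5 : D ≤ u * (11301 / 10000 : ℝ) - 5 / 6 * ((11301 / 10000 : ℝ) - 1))
    (k6 : u * (11337 / 10000 : ℝ) - 5 / 6 * ((11337 / 10000 : ℝ) - 1) ≤ D)
    (k7 : u * (11319 / 10000 : ℝ) - 5 / 6 * ((11319 / 10000 : ℝ) - 1) ≤ D) :
    lp_P (5 / 24 : ℝ) D u w := by
  rcases le_total D (u * (7209 / 10000 : ℝ) + w * (1 - (7209 / 10000 : ℝ)) / 2) with k8 | k8
  · rcases le_total D (u * (1131 / 1000 : ℝ) - 5 / 6 * ((1131 / 1000 : ℝ) - 1)) with k9 | k9
    · rcases le_total D (u * (3599 / 5000 : ℝ) + w * (1 - (3599 / 5000 : ℝ)) / 2) with k10 | k10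
      · rcases le_total D (u * (5657 / 5000 : ℝ) - 5 / 6 * ((5657 / 5000 : ℝ) - 1)) with k11 | k11
        · exact lp_cellA (3599 / 5000 : ℝ) (5657 / 5000 : ℝ) (3683 / 100000 : ℝ) (by norm_num) (by norm_num) (by norm_num) (by norm_num) (by norm_num)
            (by norm_num) (by norm_num) hw h0 (by linarith) (by linarith) (by linarith)
        · rcases le_total D (u * (899 / 1250 : ℝ) + w * (1 - (899 / 1250 : ℝ)) / 2) with k12 | k12
          · exact lp_cellA (899 / 1250 : ℝ) (1131 / 1000 : ℝ) (147 / 4000 : ℝ) (by norm_num) (by norm_num) (by norm_num) (by norm_num) (by norm_num)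
              (by norm_num) (by norm_num) hw h0 (by linarith) (by linarith) (by linarith)
          · exact lp_cellA (3599 / 5000 : ℝ) (1131 / 1000 : ℝ) (37 / 1000 : ℝ) (by norm_num) (by norm_num) (by norm_num) (by norm_num) (by norm_num)
              (by norm_num) (by norm_num) hw h0 (by linarith) (by linarith) (by linarith)
      · exact lp_cellA (7209 / 10000 : ℝ) (1131 / 1000 : ℝ) (749 / 20000 : ℝ) (by norm_num) (by norm_num) (by norm_num) (by norm_num) (by norm_num)
          (by norm_num) (by norm_num) hw h0 (by linarith) (by linarith) (by linarith)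
    · rcases le_total D (u * (1439 / 2000 : ℝ) + w * (1 - (1439 / 2000 : ℝ)) / 2) with k10 | k10
      · rcases le_total D (u * (2261 / 2000 : ℝ) - 5 / 6 * ((2261 / 2000 : ℝ) - 1)) with k11 | k11
        · rcases le_total D (u * (7189 / 10000 : ℝ) + w * (1 - (7189 / 10000 : ℝ)) / 2) with k12 | k12
          · exact lp_cellA (7189 / 10000 : ℝ) (2261 / 2000 : ℝ) (3683 / 100000 : ℝ) (by norm_num) (by norm_num) (by norm_num) (by norm_num) (by norm_num)
              (by norm_num) (by norm_num) hw h0 (by linarith) (by linarith) (by linarith)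
          · exact lp_cellA (1439 / 2000 : ℝ) (2261 / 2000 : ℝ) (927 / 25000 : ℝ) (by norm_num) (by norm_num) (by norm_num) (by norm_num) (by norm_num)
              (by norm_num) (by norm_num) hw h0 (by linarith) (by linarith) (by linarith)
        · rcases le_total D (u * (1797 / 2500 : ℝ) + w * (1 - (1797 / 2500 : ℝ)) / 2) with k12 | k12
          · exact lp_cellA (1797 / 2500 : ℝ) (11301 / 10000 : ℝ) (739 / 20000 : ℝ) (by norm_num) (by norm_num) (by norm_num) (by norm_num) (by norm_num)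
              (by norm_num) (by norm_num) hw h0 (by linarith) (by linarith) (by linarith)
          · exact lp_cellA (1439 / 2000 : ℝ) (11301 / 10000 : ℝ) (149 / 4000 : ℝ) (by norm_num) (by norm_num) (by norm_num) (by norm_num) (by norm_num)
              (by norm_num) (by norm_num) hw h0 (by linarith) (by linarith) (by linarith)
      · exact lp_cellA (7209 / 10000 : ℝ) (11301 / 10000 : ℝ) (3783 / 100000 : ℝ) (by norm_num) (by norm_num) (by norm_num) (by norm_num) (by norm_num)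
          (by norm_num) (by norm_num) hw h0 (by linarith) (by linarith) (by linarith)
  · exact lp_cellA (3619 / 5000 : ℝ) (11301 / 10000 : ℝ) (122 / 3125 : ℝ) (by norm_num) (by norm_num) (by norm_num) (by norm_num) (by norm_num)
      (by norm_num) (by norm_num) hw h0 (by linarith) (by linarith) (by linarith)

theorem lp_a_9 {D u w : ℝ} (hD : D = (2 / 3 * u + w / 12 - 13 / 600 - (0 : ℝ)) / (81 / 100)) (hw : 0 ≤ w) (hwu : w ≤ u)
    (hU : u ≤ (19 / 25 : ℝ)) (h0 : D ≤ u) (hp : 0 < D)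
    (k0 : u * (12679 / 10000 : ℝ) - 5 / 6 * ((12679 / 10000 : ℝ) - 1) ≤ D)
    (k1 : u * (11519 / 10000 : ℝ) - 5 / 6 * ((11519 / 10000 : ℝ) - 1) ≤ D)
    (k2 : D ≤ u * (10939 / 10000 : ℝ) - 5 / 6 * ((10939 / 10000 : ℝ) - 1))
    (k3 : D ≤ u * (11229 / 10000 : ℝ) - 5 / 6 * ((11229 / 10000 : ℝ) - 1))
    (k4 : u * (5687 / 5000 : ℝ) - 5 / 6 * ((5687 / 5000 : ℝ) - 1) ≤ D)
    (k5 : u * (11301 / 10000 : ℝ) - 5 / 6 * ((11301 / 10000 : ℝ) - 1) ≤ D)
    (k6 : D ≤ u * (2253 / 2000 : ℝ) - 5 / 6 * ((2253 / 2000 : ℝ) - 1))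
    (k7 : D ≤ u * (11283 / 10000 : ℝ) - 5 / 6 * ((11283 / 10000 : ℝ) - 1)) :
    lp_P (5 / 24 : ℝ) D u w := by
  rcases le_total D (u * (1799 / 2500 : ℝ) + w * (1 - (1799 / 2500 : ℝ)) / 2) with k8 | k8
  · rcases le_total D (u * (2823 / 2500 : ℝ) - 5 / 6 * ((2823 / 2500 : ℝ) - 1)) with k9 | k9
    · rcases le_total D (u * (1437 / 2000 : ℝ) + w * (1 - (1437 / 2000 : ℝ)) / 2) with k10 | k10
      · rcases le_total D (u * (706 / 625 : ℝ) - 5 / 6 * ((706 / 625 : ℝ) - 1)) with k11 | k11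
        · exact lp_cellA (1437 / 2000 : ℝ) (706 / 625 : ℝ) (463 / 12500 : ℝ) (by norm_num) (by norm_num) (by norm_num) (by norm_num) (by norm_num)
            (by norm_num) (by norm_num) hw h0 (by linarith) (by linarith) (by linarith)
        · rcases le_total D (u * (7179 / 10000 : ℝ) + w * (1 - (7179 / 10000 : ℝ)) / 2) with k12 | k12
          · exact lp_cellA (7179 / 10000 : ℝ) (2823 / 2500 : ℝ) (739 / 20000 : ℝ) (by norm_num) (by norm_num) (by norm_num) (by norm_num) (by norm_num)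
              (by norm_num) (by norm_num) hw h0 (by linarith) (by linarith) (by linarith)
          · exact lp_cellA (1437 / 2000 : ℝ) (2823 / 2500 : ℝ) (93 / 2500 : ℝ) (by norm_num) (by norm_num) (by norm_num) (by norm_num) (by norm_num)
              (by norm_num) (by norm_num) hw h0 (by linarith) (by linarith) (by linarith)
      · exact lp_cellA (1799 / 2500 : ℝ) (2823 / 2500 : ℝ) (1883 / 50000 : ℝ) (by norm_num) (by norm_num) (by norm_num) (by norm_num) (by norm_num)
          (by norm_num) (by norm_num) hw h0 (by linarith) (by linarith) (by linarith)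
    · rcases le_total D (u * (3591 / 5000 : ℝ) + w * (1 - (3591 / 5000 : ℝ)) / 2) with k10 | k10
      · rcases le_total D (u * (11287 / 10000 : ℝ) - 5 / 6 * ((11287 / 10000 : ℝ) - 1)) with k11 | k11
        · rcases le_total D (u * (897 / 1250 : ℝ) + w * (1 - (897 / 1250 : ℝ)) / 2) with k12 | k12
          · exact lp_cellA (897 / 1250 : ℝ) (11287 / 10000 : ℝ) (463 / 12500 : ℝ) (by norm_num) (by norm_num) (by norm_num) (by norm_num) (by norm_num)
              (by norm_num) (by norm_num) hw h0 (by linarith) (by linarith) (by linarith)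
          · exact lp_cellA (3591 / 5000 : ℝ) (11287 / 10000 : ℝ) (3729 / 100000 : ℝ) (by norm_num) (by norm_num) (by norm_num) (by norm_num) (by norm_num)
              (by norm_num) (by norm_num) hw h0 (by linarith) (by linarith) (by linarith)
        · rcases le_total D (u * (287 / 400 : ℝ) + w * (1 - (287 / 400 : ℝ)) / 2) with k12 | k12
          · exact lp_cellA (287 / 400 : ℝ) (11283 / 10000 : ℝ) (929 / 25000 : ℝ) (by norm_num) (by norm_num) (by norm_num) (by norm_num) (by norm_num)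
              (by norm_num) (by norm_num) hw h0 (by linarith) (by linarith) (by linarith)
          · exact lp_cellA (3591 / 5000 : ℝ) (11283 / 10000 : ℝ) (749 / 20000 : ℝ) (by norm_num) (by norm_num) (by norm_num) (by norm_num) (by norm_num)
              (by norm_num) (by norm_num) hw h0 (by linarith) (by linarith) (by linarith)
      · exact lp_cellA (1799 / 2500 : ℝ) (11283 / 10000 : ℝ) (951 / 25000 : ℝ) (by norm_num) (by norm_num) (by norm_num) (by norm_num) (by norm_num)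
          (by norm_num) (by norm_num) hw h0 (by linarith) (by linarith) (by linarith)
  · exact lp_cellA (289 / 400 : ℝ) (11283 / 10000 : ℝ) (157 / 4000 : ℝ) (by norm_num) (by norm_num) (by norm_num) (by norm_num) (by norm_num)
      (by norm_num) (by norm_num) hw h0 (by linarith) (by linarith) (by linarith)

theorem lp_a_10 {D u w : ℝ} (hD : D = (2 / 3 * u + w / 12 - 13 / 600 - (0 : ℝ)) / (81 / 100)) (hw : 0 ≤ w) (hwu : w ≤ u)
    (hU : u ≤ (19 / 25 : ℝ)) (h0 : D ≤ u) (hp : 0 < D)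
    (k0 : u * (12679 / 10000 : ℝ) - 5 / 6 * ((12679 / 10000 : ℝ) - 1) ≤ D)
    (k1 : u * (11519 / 10000 : ℝ) - 5 / 6 * ((11519 / 10000 : ℝ) - 1) ≤ D)
    (k2 : D ≤ u * (10939 / 10000 : ℝ) - 5 / 6 * ((10939 / 10000 : ℝ) - 1))
    (k3 : D ≤ u * (11229 / 10000 : ℝ) - 5 / 6 * ((11229 / 10000 : ℝ) - 1))
    (k4 : u * (5687 / 5000 : ℝ) - 5 / 6 * ((5687 / 5000 : ℝ) - 1) ≤ D)
    (k5 : u * (11301 / 10000 : ℝ) - 5 / 6 * ((11301 / 10000 : ℝ) - 1) ≤ D)
    (k6 : D ≤ u * (2253 / 2000 : ℝ) - 5 / 6 * ((2253 / 2000 : ℝ) - 1))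
    (k7 : u * (11283 / 10000 : ℝ) - 5 / 6 * ((11283 / 10000 : ℝ) - 1) ≤ D) :
    lp_P (5 / 24 : ℝ) D u w := by
  rcases le_total D (u * (7183 / 10000 : ℝ) + w * (1 - (7183 / 10000 : ℝ)) / 2) with k8 | k8
  · rcases le_total D (u * (5637 / 5000 : ℝ) - 5 / 6 * ((5637 / 5000 : ℝ) - 1)) with k9 | k9
    · rcases le_total D (u * (1793 / 2500 : ℝ) + w * (1 - (1793 / 2500 : ℝ)) / 2) with k10 | k10
      · rcases le_total D (u * (5639 / 5000 : ℝ) - 5 / 6 * ((5639 / 5000 : ℝ) - 1)) with k11 | k11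
        · exact lp_cellA (1793 / 2500 : ℝ) (5639 / 5000 : ℝ) (149 / 4000 : ℝ) (by norm_num) (by norm_num) (by norm_num) (by norm_num) (by norm_num)
            (by norm_num) (by norm_num) hw h0 (by linarith) (by linarith) (by linarith)
        · rcases le_total D (u * (3583 / 5000 : ℝ) + w * (1 - (3583 / 5000 : ℝ)) / 2) with k12 | k12
          · exact lp_cellA (3583 / 5000 : ℝ) (5637 / 5000 : ℝ) (929 / 25000 : ℝ) (by norm_num) (by norm_num) (by norm_num) (by norm_num) (by norm_num)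
              (by norm_num) (by norm_num) hw h0 (by linarith) (by linarith) (by linarith)
          · exact lp_cellA (1793 / 2500 : ℝ) (5637 / 5000 : ℝ) (3741 / 100000 : ℝ) (by norm_num) (by norm_num) (by norm_num) (by norm_num) (by norm_num)
              (by norm_num) (by norm_num) hw h0 (by linarith) (by linarith) (by linarith)
      · exact lp_cellA (7183 / 10000 : ℝ) (5637 / 5000 : ℝ) (3787 / 100000 : ℝ) (by norm_num) (by norm_num) (by norm_num) (by norm_num) (by norm_num)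
          (by norm_num) (by norm_num) hw h0 (by linarith) (by linarith) (by linarith)
    · rcases le_total D (u * (448 / 625 : ℝ) + w * (1 - (448 / 625 : ℝ)) / 2) with k10 | k10
      · rcases le_total D (u * (11269 / 10000 : ℝ) - 5 / 6 * ((11269 / 10000 : ℝ) - 1)) with k11 | k11
        · rcases le_total D (u * (3581 / 5000 : ℝ) + w * (1 - (3581 / 5000 : ℝ)) / 2) with k12 | k12
          · exact lp_cellA (3581 / 5000 : ℝ) (11269 / 10000 : ℝ) (93 / 2500 : ℝ) (by norm_num) (by norm_num) (by norm_num) (by norm_num) (by norm_num)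
              (by norm_num) (by norm_num) hw h0 (by linarith) (by linarith) (by linarith)
          · exact lp_cellA (448 / 625 : ℝ) (11269 / 10000 : ℝ) (749 / 20000 : ℝ) (by norm_num) (by norm_num) (by norm_num) (by norm_num) (by norm_num)
              (by norm_num) (by norm_num) hw h0 (by linarith) (by linarith) (by linarith)
        · rcases le_total D (u * (7161 / 10000 : ℝ) + w * (1 - (7161 / 10000 : ℝ)) / 2) with k12 | k12
          · exact lp_cellA (7161 / 10000 : ℝ) (2253 / 2000 : ℝ) (3733 / 100000 : ℝ) (by norm_num) (by norm_num) (by norm_num) (by norm_num) (by norm_num)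
              (by norm_num) (by norm_num) hw h0 (by linarith) (by linarith) (by linarith)
          · exact lp_cellA (448 / 625 : ℝ) (2253 / 2000 : ℝ) (1881 / 50000 : ℝ) (by norm_num) (by norm_num) (by norm_num) (by norm_num) (by norm_num)
              (by norm_num) (by norm_num) hw h0 (by linarith) (by linarith) (by linarith)
      · exact lp_cellA (7183 / 10000 : ℝ) (2253 / 2000 : ℝ) (153 / 4000 : ℝ) (by norm_num) (by norm_num) (by norm_num) (by norm_num) (by norm_num)
          (by norm_num) (by norm_num) hw h0 (by linarith) (by linarith) (by linarith)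
  · exact lp_cellA (1803 / 2500 : ℝ) (2253 / 2000 : ℝ) (789 / 20000 : ℝ) (by norm_num) (by norm_num) (by norm_num) (by norm_num) (by norm_num)
      (by norm_num) (by norm_num) hw h0 (by linarith) (by linarith) (by linarith)

theorem lp_a_11 {D u w : ℝ} (hD : D = (2 / 3 * u + w / 12 - 13 / 600 - (0 : ℝ)) / (81 / 100)) (hw : 0 ≤ w) (hwu : w ≤ u)
    (hU : u ≤ (19 / 25 : ℝ)) (h0 : D ≤ u) (hp : 0 < D)
    (k0 : u * (12679 / 10000 : ℝ) - 5 / 6 * ((12679 / 10000 : ℝ) - 1) ≤ D)
    (k1 : u * (11519 / 10000 : ℝ) - 5 / 6 * ((11519 / 10000 : ℝ) - 1) ≤ D)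
    (k2 : D ≤ u * (10939 / 10000 : ℝ) - 5 / 6 * ((10939 / 10000 : ℝ) - 1))
    (k3 : D ≤ u * (11229 / 10000 : ℝ) - 5 / 6 * ((11229 / 10000 : ℝ) - 1))
    (k4 : u * (5687 / 5000 : ℝ) - 5 / 6 * ((5687 / 5000 : ℝ) - 1) ≤ D)
    (k5 : u * (11301 / 10000 : ℝ) - 5 / 6 * ((11301 / 10000 : ℝ) - 1) ≤ D)
    (k6 : u * (2253 / 2000 : ℝ) - 5 / 6 * ((2253 / 2000 : ℝ) - 1) ≤ D)
    (k7 : D ≤ u * (3581 / 5000 : ℝ) + w * (1 - (3581 / 5000 : ℝ)) / 2)
    (k8 : D ≤ u * (11247 / 10000 : ℝ) - 5 / 6 * ((11247 / 10000 : ℝ) - 1)) :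
    lp_P (5 / 24 : ℝ) D u w := by
  rcases le_total D (u * (1407 / 1250 : ℝ) - 5 / 6 * ((1407 / 1250 : ℝ) - 1)) with k9 | k9
  · rcases le_total D (u * (563 / 500 : ℝ) - 5 / 6 * ((563 / 500 : ℝ) - 1)) with k10 | k10
    · rcases le_total D (u * (1789 / 2500 : ℝ) + w * (1 - (1789 / 2500 : ℝ)) / 2) with k11 | k11
      · exact lp_cellA (1789 / 2500 : ℝ) (563 / 500 : ℝ) (3733 / 100000 : ℝ) (by norm_num) (by norm_num) (by norm_num) (by norm_num) (by norm_num)
          (by norm_num) (by norm_num) hw h0 (by linarith) (by linarith) (by linarith)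
      · exact lp_cellA (3581 / 5000 : ℝ) (563 / 500 : ℝ) (1879 / 50000 : ℝ) (by norm_num) (by norm_num) (by norm_num) (by norm_num) (by norm_num)
          (by norm_num) (by norm_num) hw h0 (by linarith) (by linarith) (by linarith)
    · rcases le_total D (u * (3577 / 5000 : ℝ) + w * (1 - (3577 / 5000 : ℝ)) / 2) with k11 | k11
      · exact lp_cellA (3577 / 5000 : ℝ) (1407 / 1250 : ℝ) (3741 / 100000 : ℝ) (by norm_num) (by norm_num) (by norm_num) (by norm_num) (by norm_num)
          (by norm_num) (by norm_num) hw h0 (by linarith) (by linarith) (by linarith)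
      · exact lp_cellA (3581 / 5000 : ℝ) (1407 / 1250 : ℝ) (151 / 4000 : ℝ) (by norm_num) (by norm_num) (by norm_num) (by norm_num) (by norm_num)
          (by norm_num) (by norm_num) hw h0 (by linarith) (by linarith) (by linarith)
  · rcases le_total D (u * (7151 / 10000 : ℝ) + w * (1 - (7151 / 10000 : ℝ)) / 2) with k10 | k10
    · rcases le_total D (u * (11251 / 10000 : ℝ) - 5 / 6 * ((11251 / 10000 : ℝ) - 1)) with k11 | k11
      · exact lp_cellA (7151 / 10000 : ℝ) (11251 / 10000 : ℝ) (3 / 80 : ℝ) (by norm_num) (by norm_num) (by norm_num) (by norm_num) (by norm_num)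
          (by norm_num) (by norm_num) hw h0 (by linarith) (by linarith) (by linarith)
      · rcases le_total D (u * (1429 / 2000 : ℝ) + w * (1 - (1429 / 2000 : ℝ)) / 2) with k12 | k12
        · exact lp_cellA (1429 / 2000 : ℝ) (11247 / 10000 : ℝ) (3741 / 100000 : ℝ) (by norm_num) (by norm_num) (by norm_num) (by norm_num) (by norm_num)
            (by norm_num) (by norm_num) hw h0 (by linarith) (by linarith) (by linarith)
        · exact lp_cellA (7151 / 10000 : ℝ) (11247 / 10000 : ℝ) (1883 / 50000 : ℝ) (by norm_num) (by norm_num) (by norm_num) (by norm_num) (by norm_num)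
            (by norm_num) (by norm_num) hw h0 (by linarith) (by linarith) (by linarith)
    · exact lp_cellA (3581 / 5000 : ℝ) (11247 / 10000 : ℝ) (953 / 25000 : ℝ) (by norm_num) (by norm_num) (by norm_num) (by norm_num) (by norm_num)
        (by norm_num) (by norm_num) hw h0 (by linarith) (by linarith) (by linarith)

theorem lp_a_12 {D u w : ℝ} (hD : D = (2 / 3 * u + w / 12 - 13 / 600 - (0 : ℝ)) / (81 / 100)) (hw : 0 ≤ w) (hwu : w ≤ u)
    (hU : u ≤ (19 / 25 : ℝ)) (h0 : D ≤ u) (hp : 0 < D)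
    (k0 : u * (12679 / 10000 : ℝ) - 5 / 6 * ((12679 / 10000 : ℝ) - 1) ≤ D)
    (k1 : u * (11519 / 10000 : ℝ) - 5 / 6 * ((11519 / 10000 : ℝ) - 1) ≤ D)
    (k2 : D ≤ u * (10939 / 10000 : ℝ) - 5 / 6 * ((10939 / 10000 : ℝ) - 1))
    (k3 : D ≤ u * (11229 / 10000 : ℝ) - 5 / 6 * ((11229 / 10000 : ℝ) - 1))
    (k4 : u * (5687 / 5000 : ℝ) - 5 / 6 * ((5687 / 5000 : ℝ) - 1) ≤ D)
    (k5 : u * (11301 / 10000 : ℝ) - 5 / 6 * ((11301 / 10000 : ℝ) - 1) ≤ D)
    (k6 : u * (2253 / 2000 : ℝ) - 5 / 6 * ((2253 / 2000 : ℝ) - 1) ≤ D)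
    (k7 : D ≤ u * (3581 / 5000 : ℝ) + w * (1 - (3581 / 5000 : ℝ)) / 2)
    (k8 : u * (11247 / 10000 : ℝ) - 5 / 6 * ((11247 / 10000 : ℝ) - 1) ≤ D) :
    lp_P (5 / 24 : ℝ) D u w := by
  rcases le_total D (u * (7143 / 10000 : ℝ) + w * (1 - (7143 / 10000 : ℝ)) / 2) with k9 | k9
  · rcases le_total D (u * (5619 / 5000 : ℝ) - 5 / 6 * ((5619 / 5000 : ℝ) - 1)) with k10 | k10
    · rcases le_total D (u * (5621 / 5000 : ℝ) - 5 / 6 * ((5621 / 5000 : ℝ) - 1)) with k11 | k11
      · exact lp_cellA (7143 / 10000 : ℝ) (5621 / 5000 : ℝ) (1877 / 50000 : ℝ) (by norm_num) (by norm_num) (by norm_num) (by norm_num) (by norm_num)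
          (by norm_num) (by norm_num) hw h0 (by linarith) (by linarith) (by linarith)
      · rcases le_total D (u * (3569 / 5000 : ℝ) + w * (1 - (3569 / 5000 : ℝ)) / 2) with k12 | k12
        · exact lp_cellA (3569 / 5000 : ℝ) (5619 / 5000 : ℝ) (3 / 80 : ℝ) (by norm_num) (by norm_num) (by norm_num) (by norm_num) (by norm_num)
            (by norm_num) (by norm_num) hw h0 (by linarith) (by linarith) (by linarith)
        · exact lp_cellA (7143 / 10000 : ℝ) (5619 / 5000 : ℝ) (377 / 10000 : ℝ) (by norm_num) (by norm_num) (by norm_num) (by norm_num) (by norm_num)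
            (by norm_num) (by norm_num) hw h0 (by linarith) (by linarith) (by linarith)
    · rcases le_total D (u * (11233 / 10000 : ℝ) - 5 / 6 * ((11233 / 10000 : ℝ) - 1)) with k11 | k11
      · rcases le_total D (u * (446 / 625 : ℝ) + w * (1 - (446 / 625 : ℝ)) / 2) with k12 | k12
        · exact lp_cellA (446 / 625 : ℝ) (11233 / 10000 : ℝ) (1881 / 50000 : ℝ) (by norm_num) (by norm_num) (by norm_num) (by norm_num) (by norm_num)
            (by norm_num) (by norm_num) hw h0 (by linarith) (by linarith) (by linarith)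
        · exact lp_cellA (7143 / 10000 : ℝ) (11233 / 10000 : ℝ) (3791 / 100000 : ℝ) (by norm_num) (by norm_num) (by norm_num) (by norm_num) (by norm_num)
            (by norm_num) (by norm_num) hw h0 (by linarith) (by linarith) (by linarith)
      · rcases le_total D (u * (3567 / 5000 : ℝ) + w * (1 - (3567 / 5000 : ℝ)) / 2) with k12 | k12
        · exact lp_cellA (3567 / 5000 : ℝ) (11229 / 10000 : ℝ) (377 / 10000 : ℝ) (by norm_num) (by norm_num) (by norm_num) (by norm_num) (by norm_num)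
            (by norm_num) (by norm_num) hw h0 (by linarith) (by linarith) (by linarith)
        · exact lp_cellA (7143 / 10000 : ℝ) (11229 / 10000 : ℝ) (119 / 3125 : ℝ) (by norm_num) (by norm_num) (by norm_num) (by norm_num) (by norm_num)
            (by norm_num) (by norm_num) hw h0 (by linarith) (by linarith) (by linarith)
  · rcases le_total D (u * (5619 / 5000 : ℝ) - 5 / 6 * ((5619 / 5000 : ℝ) - 1)) with k10 | k10
    · rcases le_total D (u * (447 / 625 : ℝ) + w * (1 - (447 / 625 : ℝ)) / 2) with k11 | k11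
      · exact lp_cellA (447 / 625 : ℝ) (5619 / 5000 : ℝ) (119 / 3125 : ℝ) (by norm_num) (by norm_num) (by norm_num) (by norm_num) (by norm_num)
          (by norm_num) (by norm_num) hw h0 (by linarith) (by linarith) (by linarith)
      · exact lp_cellA (3581 / 5000 : ℝ) (5619 / 5000 : ℝ) (77 / 2000 : ℝ) (by norm_num) (by norm_num) (by norm_num) (by norm_num) (by norm_num)
          (by norm_num) (by norm_num) hw h0 (by linarith) (by linarith) (by linarith)
    · exact lp_cellA (3581 / 5000 : ℝ) (11229 / 10000 : ℝ) (3887 / 100000 : ℝ) (by norm_num) (by norm_num) (by norm_num) (by norm_num) (by norm_num)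
        (by norm_num) (by norm_num) hw h0 (by linarith) (by linarith) (by linarith)

theorem lp_a_13 {D u w : ℝ} (hD : D = (2 / 3 * u + w / 12 - 13 / 600 - (0 : ℝ)) / (81 / 100)) (hw : 0 ≤ w) (hwu : w ≤ u)
    (hU : u ≤ (19 / 25 : ℝ)) (h0 : D ≤ u) (hp : 0 < D)
    (k0 : u * (12679 / 10000 : ℝ) - 5 / 6 * ((12679 / 10000 : ℝ) - 1) ≤ D)
    (k1 : u * (11519 / 10000 : ℝ) - 5 / 6 * ((11519 / 10000 : ℝ) - 1) ≤ D)
    (k2 : D ≤ u * (10939 / 10000 : ℝ) - 5 / 6 * ((10939 / 10000 : ℝ) - 1))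
    (k3 : D ≤ u * (11229 / 10000 : ℝ) - 5 / 6 * ((11229 / 10000 : ℝ) - 1))
    (k4 : u * (5687 / 5000 : ℝ) - 5 / 6 * ((5687 / 5000 : ℝ) - 1) ≤ D)
    (k5 : u * (11301 / 10000 : ℝ) - 5 / 6 * ((11301 / 10000 : ℝ) - 1) ≤ D)
    (k6 : u * (2253 / 2000 : ℝ) - 5 / 6 * ((2253 / 2000 : ℝ) - 1) ≤ D)
    (k7 : u * (3581 / 5000 : ℝ) + w * (1 - (3581 / 5000 : ℝ)) / 2 ≤ D) :
    lp_P (5 / 24 : ℝ) D u w := by
  rcases le_total D (u * (11247 / 10000 : ℝ) - 5 / 6 * ((11247 / 10000 : ℝ) - 1)) with k8 | k8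
  · exact lp_cellA (7199 / 10000 : ℝ) (11247 / 10000 : ℝ) (1983 / 50000 : ℝ) (by norm_num) (by norm_num) (by norm_num) (by norm_num) (by norm_num)
      (by norm_num) (by norm_num) hw h0 (by linarith) (by linarith) (by linarith)
  · exact lp_cellA (1437 / 2000 : ℝ) (11229 / 10000 : ℝ) (3983 / 100000 : ℝ) (by norm_num) (by norm_num) (by norm_num) (by norm_num) (by norm_num)
      (by norm_num) (by norm_num) hw h0 (by linarith) (by linarith) (by linarith)

theorem lp_a_14 {D u w : ℝ} (hD : D = (2 / 3 * u + w / 12 - 13 / 600 - (0 : ℝ)) / (81 / 100)) (hw : 0 ≤ w) (hwu : w ≤ u)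
    (hU : u ≤ (19 / 25 : ℝ)) (h0 : D ≤ u) (hp : 0 < D)
    (k0 : u * (12679 / 10000 : ℝ) - 5 / 6 * ((12679 / 10000 : ℝ) - 1) ≤ D)
    (k1 : u * (11519 / 10000 : ℝ) - 5 / 6 * ((11519 / 10000 : ℝ) - 1) ≤ D)
    (k2 : D ≤ u * (10939 / 10000 : ℝ) - 5 / 6 * ((10939 / 10000 : ℝ) - 1))
    (k3 : u * (11229 / 10000 : ℝ) - 5 / 6 * ((11229 / 10000 : ℝ) - 1) ≤ D)
    (k4 : D ≤ u * (2771 / 2500 : ℝ) - 5 / 6 * ((2771 / 2500 : ℝ) - 1))
    (k5 : D ≤ u * (2789 / 2500 : ℝ) - 5 / 6 * ((2789 / 2500 : ℝ) - 1))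
    (k6 : D ≤ u * (1399 / 1250 : ℝ) - 5 / 6 * ((1399 / 1250 : ℝ) - 1))
    (k7 : D ≤ u * (1783 / 2500 : ℝ) + w * (1 - (1783 / 2500 : ℝ)) / 2) :
    lp_P (5 / 24 : ℝ) D u w := by
  rcases le_total D (u * (1121 / 1000 : ℝ) - 5 / 6 * ((1121 / 1000 : ℝ) - 1)) with k8 | k8
  · rcases le_total D (u * (11219 / 10000 : ℝ) - 5 / 6 * ((11219 / 10000 : ℝ) - 1)) with k9 | k9
    · rcases le_total D (u * (1403 / 1250 : ℝ) - 5 / 6 * ((1403 / 1250 : ℝ) - 1)) with k10 | k10
      · rcases le_total D (u * (3563 / 5000 : ℝ) + w * (1 - (3563 / 5000 : ℝ)) / 2) with k11 | k11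
        · exact lp_cellA (3563 / 5000 : ℝ) (1403 / 1250 : ℝ) (1879 / 50000 : ℝ) (by norm_num) (by norm_num) (by norm_num) (by norm_num) (by norm_num)
            (by norm_num) (by norm_num) hw h0 (by linarith) (by linarith) (by linarith)
        · exact lp_cellA (1783 / 2500 : ℝ) (1403 / 1250 : ℝ) (3783 / 100000 : ℝ) (by norm_num) (by norm_num) (by norm_num) (by norm_num) (by norm_num)
            (by norm_num) (by norm_num) hw h0 (by linarith) (by linarith) (by linarith)
      · rcases le_total D (u * (1781 / 2500 : ℝ) + w * (1 - (1781 / 2500 : ℝ)) / 2) with k11 | k11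
        · exact lp_cellA (1781 / 2500 : ℝ) (11219 / 10000 : ℝ) (377 / 10000 : ℝ) (by norm_num) (by norm_num) (by norm_num) (by norm_num) (by norm_num)
            (by norm_num) (by norm_num) hw h0 (by linarith) (by linarith) (by linarith)
        · exact lp_cellA (1783 / 2500 : ℝ) (11219 / 10000 : ℝ) (951 / 25000 : ℝ) (by norm_num) (by norm_num) (by norm_num) (by norm_num) (by norm_num)
            (by norm_num) (by norm_num) hw h0 (by linarith) (by linarith) (by linarith)
    · rcases le_total D (u * (89 / 125 : ℝ) + w * (1 - (89 / 125 : ℝ)) / 2) with k10 | k10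
      · exact lp_cellA (89 / 125 : ℝ) (1121 / 1000 : ℝ) (3791 / 100000 : ℝ) (by norm_num) (by norm_num) (by norm_num) (by norm_num) (by norm_num)
          (by norm_num) (by norm_num) hw h0 (by linarith) (by linarith) (by linarith)
      · exact lp_cellA (1783 / 2500 : ℝ) (1121 / 1000 : ℝ) (3841 / 100000 : ℝ) (by norm_num) (by norm_num) (by norm_num) (by norm_num) (by norm_num)
          (by norm_num) (by norm_num) hw h0 (by linarith) (by linarith) (by linarith)
  · rcases le_total D (u * (7113 / 10000 : ℝ) + w * (1 - (7113 / 10000 : ℝ)) / 2) with k9 | k9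
    · rcases le_total D (u * (11201 / 10000 : ℝ) - 5 / 6 * ((11201 / 10000 : ℝ) - 1)) with k10 | k10
      · exact lp_cellA (7113 / 10000 : ℝ) (11201 / 10000 : ℝ) (19 / 500 : ℝ) (by norm_num) (by norm_num) (by norm_num) (by norm_num) (by norm_num)
          (by norm_num) (by norm_num) hw h0 (by linarith) (by linarith) (by linarith)
      · rcases le_total D (u * (7103 / 10000 : ℝ) + w * (1 - (7103 / 10000 : ℝ)) / 2) with k11 | k11
        · exact lp_cellA (7103 / 10000 : ℝ) (1399 / 1250 : ℝ) (759 / 20000 : ℝ) (by norm_num) (by norm_num) (by norm_num) (by norm_num) (by norm_num)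
            (by norm_num) (by norm_num) hw h0 (by linarith) (by linarith) (by linarith)
        · exact lp_cellA (7113 / 10000 : ℝ) (1399 / 1250 : ℝ) (3837 / 100000 : ℝ) (by norm_num) (by norm_num) (by norm_num) (by norm_num) (by norm_num)
            (by norm_num) (by norm_num) hw h0 (by linarith) (by linarith) (by linarith)
    · rcases le_total D (u * (11201 / 10000 : ℝ) - 5 / 6 * ((11201 / 10000 : ℝ) - 1)) with k10 | k10
      · exact lp_cellA (1783 / 2500 : ℝ) (11201 / 10000 : ℝ) (3879 / 100000 : ℝ) (by norm_num) (by norm_num) (by norm_num) (by norm_num) (by norm_num)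
          (by norm_num) (by norm_num) hw h0 (by linarith) (by linarith) (by linarith)
      · exact lp_cellA (1783 / 2500 : ℝ) (1399 / 1250 : ℝ) (979 / 25000 : ℝ) (by norm_num) (by norm_num) (by norm_num) (by norm_num) (by norm_num)
          (by norm_num) (by norm_num) hw h0 (by linarith) (by linarith) (by linarith)

theorem lp_a_15 {D u w : ℝ} (hD : D = (2 / 3 * u + w / 12 - 13 / 600 - (0 : ℝ)) / (81 / 100)) (hw : 0 ≤ w) (hwu : w ≤ u)
    (hU : u ≤ (19 / 25 : ℝ)) (h0 : D ≤ u) (hp : 0 < D)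
    (k0 : u * (12679 / 10000 : ℝ) - 5 / 6 * ((12679 / 10000 : ℝ) - 1) ≤ D)
    (k1 : u * (11519 / 10000 : ℝ) - 5 / 6 * ((11519 / 10000 : ℝ) - 1) ≤ D)
    (k2 : D ≤ u * (10939 / 10000 : ℝ) - 5 / 6 * ((10939 / 10000 : ℝ) - 1))
    (k3 : u * (11229 / 10000 : ℝ) - 5 / 6 * ((11229 / 10000 : ℝ) - 1) ≤ D)
    (k4 : D ≤ u * (2771 / 2500 : ℝ) - 5 / 6 * ((2771 / 2500 : ℝ) - 1))
    (k5 : D ≤ u * (2789 / 2500 : ℝ) - 5 / 6 * ((2789 / 2500 : ℝ) - 1))
    (k6 : D ≤ u * (1399 / 1250 : ℝ) - 5 / 6 * ((1399 / 1250 : ℝ) - 1))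
    (k7 : u * (1783 / 2500 : ℝ) + w * (1 - (1783 / 2500 : ℝ)) / 2 ≤ D) :
    lp_P (5 / 24 : ℝ) D u w := by
  rcases le_total D (u * (1121 / 1000 : ℝ) - 5 / 6 * ((1121 / 1000 : ℝ) - 1)) with k8 | k8
  · rcases le_total D (u * (7151 / 10000 : ℝ) + w * (1 - (7151 / 10000 : ℝ)) / 2) with k9 | k9
    · exact lp_cellA (7151 / 10000 : ℝ) (1121 / 1000 : ℝ) (49 / 1250 : ℝ) (by norm_num) (by norm_num) (by norm_num) (by norm_num) (by norm_num)
        (by norm_num) (by norm_num) hw h0 (by linarith) (by linarith) (by linarith)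
    · exact lp_cellA (7171 / 10000 : ℝ) (1121 / 1000 : ℝ) (1001 / 25000 : ℝ) (by norm_num) (by norm_num) (by norm_num) (by norm_num) (by norm_num)
        (by norm_num) (by norm_num) hw h0 (by linarith) (by linarith) (by linarith)
  · exact lp_cellA (1431 / 2000 : ℝ) (1399 / 1250 : ℝ) (1003 / 25000 : ℝ) (by norm_num) (by norm_num) (by norm_num) (by norm_num) (by norm_num)
      (by norm_num) (by norm_num) hw h0 (by linarith) (by linarith) (by linarith)

theorem lp_a_16 {D u w : ℝ} (hD : D = (2 / 3 * u + w / 12 - 13 / 600 - (0 : ℝ)) / (81 / 100)) (hw : 0 ≤ w) (hwu : w ≤ u)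
    (hU : u ≤ (19 / 25 : ℝ)) (h0 : D ≤ u) (hp : 0 < D)
    (k0 : u * (12679 / 10000 : ℝ) - 5 / 6 * ((12679 / 10000 : ℝ) - 1) ≤ D)
    (k1 : u * (11519 / 10000 : ℝ) - 5 / 6 * ((11519 / 10000 : ℝ) - 1) ≤ D)
    (k2 : D ≤ u * (10939 / 10000 : ℝ) - 5 / 6 * ((10939 / 10000 : ℝ) - 1))
    (k3 : u * (11229 / 10000 : ℝ) - 5 / 6 * ((11229 / 10000 : ℝ) - 1) ≤ D)
    (k4 : D ≤ u * (2771 / 2500 : ℝ) - 5 / 6 * ((2771 / 2500 : ℝ) - 1))
    (k5 : D ≤ u * (2789 / 2500 : ℝ) - 5 / 6 * ((2789 / 2500 : ℝ) - 1))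
    (k6 : u * (1399 / 1250 : ℝ) - 5 / 6 * ((1399 / 1250 : ℝ) - 1) ≤ D) :
    lp_P (5 / 24 : ℝ) D u w := by
  rcases le_total D (u * (7099 / 10000 : ℝ) + w * (1 - (7099 / 10000 : ℝ)) / 2) with k7 | k7
  · rcases le_total D (u * (5587 / 5000 : ℝ) - 5 / 6 * ((5587 / 5000 : ℝ) - 1)) with k8 | k8
    · rcases le_total D (u * (11183 / 10000 : ℝ) - 5 / 6 * ((11183 / 10000 : ℝ) - 1)) with k9 | k9
      · exact lp_cellA (7099 / 10000 : ℝ) (11183 / 10000 : ℝ) (477 / 12500 : ℝ) (by norm_num) (by norm_num) (by norm_num) (by norm_num) (by norm_num)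
          (by norm_num) (by norm_num) hw h0 (by linarith) (by linarith) (by linarith)
      · rcases le_total D (u * (443 / 625 : ℝ) + w * (1 - (443 / 625 : ℝ)) / 2) with k10 | k10
        · exact lp_cellA (443 / 625 : ℝ) (5587 / 5000 : ℝ) (119 / 3125 : ℝ) (by norm_num) (by norm_num) (by norm_num) (by norm_num) (by norm_num)
            (by norm_num) (by norm_num) hw h0 (by linarith) (by linarith) (by linarith)
        · exact lp_cellA (7099 / 10000 : ℝ) (5587 / 5000 : ℝ) (1927 / 50000 : ℝ) (by norm_num) (by norm_num) (by norm_num) (by norm_num) (by norm_num)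
            (by norm_num) (by norm_num) hw h0 (by linarith) (by linarith) (by linarith)
    · rcases le_total D (u * (7079 / 10000 : ℝ) + w * (1 - (7079 / 10000 : ℝ)) / 2) with k9 | k9
      · rcases le_total D (u * (2233 / 2000 : ℝ) - 5 / 6 * ((2233 / 2000 : ℝ) - 1)) with k10 | k10
        · exact lp_cellA (7079 / 10000 : ℝ) (2233 / 2000 : ℝ) (119 / 3125 : ℝ) (by norm_num) (by norm_num) (by norm_num) (by norm_num) (by norm_num)
            (by norm_num) (by norm_num) hw h0 (by linarith) (by linarith) (by linarith)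
        · exact lp_cellA (7079 / 10000 : ℝ) (2789 / 2500 : ℝ) (769 / 20000 : ℝ) (by norm_num) (by norm_num) (by norm_num) (by norm_num) (by norm_num)
            (by norm_num) (by norm_num) hw h0 (by linarith) (by linarith) (by linarith)
      · rcases le_total D (u * (2233 / 2000 : ℝ) - 5 / 6 * ((2233 / 2000 : ℝ) - 1)) with k10 | k10
        · rcases le_total D (u * (7089 / 10000 : ℝ) + w * (1 - (7089 / 10000 : ℝ)) / 2) with k11 | k11
          · exact lp_cellA (7089 / 10000 : ℝ) (2233 / 2000 : ℝ) (77 / 2000 : ℝ) (by norm_num) (by norm_num) (by norm_num) (by norm_num) (by norm_num)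
              (by norm_num) (by norm_num) hw h0 (by linarith) (by linarith) (by linarith)
          · exact lp_cellA (7099 / 10000 : ℝ) (2233 / 2000 : ℝ) (3891 / 100000 : ℝ) (by norm_num) (by norm_num) (by norm_num) (by norm_num) (by norm_num)
              (by norm_num) (by norm_num) hw h0 (by linarith) (by linarith) (by linarith)
        · exact lp_cellA (7099 / 10000 : ℝ) (2789 / 2500 : ℝ) (3929 / 100000 : ℝ) (by norm_num) (by norm_num) (by norm_num) (by norm_num) (by norm_num)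
            (by norm_num) (by norm_num) hw h0 (by linarith) (by linarith) (by linarith)
  · rcases le_total D (u * (5587 / 5000 : ℝ) - 5 / 6 * ((5587 / 5000 : ℝ) - 1)) with k8 | k8
    · rcases le_total D (u * (7119 / 10000 : ℝ) + w * (1 - (7119 / 10000 : ℝ)) / 2) with k9 | k9
      · exact lp_cellA (7119 / 10000 : ℝ) (5587 / 5000 : ℝ) (3937 / 100000 : ℝ) (by norm_num) (by norm_num) (by norm_num) (by norm_num) (by norm_num)
          (by norm_num) (by norm_num) hw h0 (by linarith) (by linarith) (by linarith)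
      · exact lp_cellA (357 / 500 : ℝ) (5587 / 5000 : ℝ) (161 / 4000 : ℝ) (by norm_num) (by norm_num) (by norm_num) (by norm_num) (by norm_num)
          (by norm_num) (by norm_num) hw h0 (by linarith) (by linarith) (by linarith)
    · exact lp_cellA (7123 / 10000 : ℝ) (2789 / 2500 : ℝ) (4029 / 100000 : ℝ) (by norm_num) (by norm_num) (by norm_num) (by norm_num) (by norm_num)
        (by norm_num) (by norm_num) hw h0 (by linarith) (by linarith) (by linarith)

theorem lp_a_17 {D u w : ℝ} (hD : D = (2 / 3 * u + w / 12 - 13 / 600 - (0 : ℝ)) / (81 / 100)) (hw : 0 ≤ w) (hwu : w ≤ u)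
    (hU : u ≤ (19 / 25 : ℝ)) (h0 : D ≤ u) (hp : 0 < D)
    (k0 : u * (12679 / 10000 : ℝ) - 5 / 6 * ((12679 / 10000 : ℝ) - 1) ≤ D)
    (k1 : u * (11519 / 10000 : ℝ) - 5 / 6 * ((11519 / 10000 : ℝ) - 1) ≤ D)
    (k2 : D ≤ u * (10939 / 10000 : ℝ) - 5 / 6 * ((10939 / 10000 : ℝ) - 1))
    (k3 : u * (11229 / 10000 : ℝ) - 5 / 6 * ((11229 / 10000 : ℝ) - 1) ≤ D)
    (k4 : D ≤ u * (2771 / 2500 : ℝ) - 5 / 6 * ((2771 / 2500 : ℝ) - 1))
    (k5 : u * (2789 / 2500 : ℝ) - 5 / 6 * ((2789 / 2500 : ℝ) - 1) ≤ D) :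
    lp_P (5 / 24 : ℝ) D u w := by
  rcases le_total D (u * (139 / 125 : ℝ) - 5 / 6 * ((139 / 125 : ℝ) - 1)) with k6 | k6
  · rcases le_total D (u * (883 / 1250 : ℝ) + w * (1 - (883 / 1250 : ℝ)) / 2) with k7 | k7
    · rcases le_total D (u * (5569 / 5000 : ℝ) - 5 / 6 * ((5569 / 5000 : ℝ) - 1)) with k8 | k8
      · exact lp_cellA (883 / 1250 : ℝ) (5569 / 5000 : ℝ) (1929 / 50000 : ℝ) (by norm_num) (by norm_num) (by norm_num) (by norm_num) (by norm_num)
          (by norm_num) (by norm_num) hw h0 (by linarith) (by linarith) (by linarith)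
      · rcases le_total D (u * (7043 / 10000 : ℝ) + w * (1 - (7043 / 10000 : ℝ)) / 2) with k9 | k9
        · exact lp_cellA (7043 / 10000 : ℝ) (139 / 125 : ℝ) (769 / 20000 : ℝ) (by norm_num) (by norm_num) (by norm_num) (by norm_num) (by norm_num)
            (by norm_num) (by norm_num) hw h0 (by linarith) (by linarith) (by linarith)
        · rcases le_total D (u * (11129 / 10000 : ℝ) - 5 / 6 * ((11129 / 10000 : ℝ) - 1)) with k10 | k10
          · exact lp_cellA (883 / 1250 : ℝ) (11129 / 10000 : ℝ) (779 / 20000 : ℝ) (by norm_num) (by norm_num) (by norm_num) (by norm_num) (by norm_num)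
              (by norm_num) (by norm_num) hw h0 (by linarith) (by linarith) (by linarith)
          · exact lp_cellA (883 / 1250 : ℝ) (139 / 125 : ℝ) (3933 / 100000 : ℝ) (by norm_num) (by norm_num) (by norm_num) (by norm_num) (by norm_num)
              (by norm_num) (by norm_num) hw h0 (by linarith) (by linarith) (by linarith)
    · rcases le_total D (u * (5569 / 5000 : ℝ) - 5 / 6 * ((5569 / 5000 : ℝ) - 1)) with k8 | k8
      · rcases le_total D (u * (1771 / 2500 : ℝ) + w * (1 - (1771 / 2500 : ℝ)) / 2) with k9 | k9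
        · exact lp_cellA (1771 / 2500 : ℝ) (5569 / 5000 : ℝ) (3941 / 100000 : ℝ) (by norm_num) (by norm_num) (by norm_num) (by norm_num) (by norm_num)
            (by norm_num) (by norm_num) hw h0 (by linarith) (by linarith) (by linarith)
        · exact lp_cellA (3553 / 5000 : ℝ) (5569 / 5000 : ℝ) (4033 / 100000 : ℝ) (by norm_num) (by norm_num) (by norm_num) (by norm_num) (by norm_num)
            (by norm_num) (by norm_num) hw h0 (by linarith) (by linarith) (by linarith)
      · exact lp_cellA (7089 / 10000 : ℝ) (139 / 125 : ℝ) (4037 / 100000 : ℝ) (by norm_num) (by norm_num) (by norm_num) (by norm_num) (by norm_num)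
          (by norm_num) (by norm_num) hw h0 (by linarith) (by linarith) (by linarith)
  · rcases le_total D (u * (3513 / 5000 : ℝ) + w * (1 - (3513 / 5000 : ℝ)) / 2) with k7 | k7
    · rcases le_total D (u * (5551 / 5000 : ℝ) - 5 / 6 * ((5551 / 5000 : ℝ) - 1)) with k8 | k8
      · exact lp_cellA (3513 / 5000 : ℝ) (5551 / 5000 : ℝ) (77 / 2000 : ℝ) (by norm_num) (by norm_num) (by norm_num) (by norm_num) (by norm_num)
          (by norm_num) (by norm_num) hw h0 (by linarith) (by linarith) (by linarith)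
      · exact lp_cellA (3513 / 5000 : ℝ) (2771 / 2500 : ℝ) (157 / 4000 : ℝ) (by norm_num) (by norm_num) (by norm_num) (by norm_num) (by norm_num)
          (by norm_num) (by norm_num) hw h0 (by linarith) (by linarith) (by linarith)
    · rcases le_total D (u * (5551 / 5000 : ℝ) - 5 / 6 * ((5551 / 5000 : ℝ) - 1)) with k8 | k8
      · rcases le_total D (u * (7047 / 10000 : ℝ) + w * (1 - (7047 / 10000 : ℝ)) / 2) with k9 | k9
        · exact lp_cellA (7047 / 10000 : ℝ) (5551 / 5000 : ℝ) (3937 / 100000 : ℝ) (by norm_num) (by norm_num) (by norm_num) (by norm_num) (by norm_num)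
            (by norm_num) (by norm_num) hw h0 (by linarith) (by linarith) (by linarith)
        · exact lp_cellA (707 / 1000 : ℝ) (5551 / 5000 : ℝ) (4033 / 100000 : ℝ) (by norm_num) (by norm_num) (by norm_num) (by norm_num) (by norm_num)
            (by norm_num) (by norm_num) hw h0 (by linarith) (by linarith) (by linarith)
      · exact lp_cellA (7051 / 10000 : ℝ) (2771 / 2500 : ℝ) (4029 / 100000 : ℝ) (by norm_num) (by norm_num) (by norm_num) (by norm_num) (by norm_num)
          (by norm_num) (by norm_num) hw h0 (by linarith) (by linarith) (by linarith)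

theorem lp_a_18 {D u w : ℝ} (hD : D = (2 / 3 * u + w / 12 - 13 / 600 - (0 : ℝ)) / (81 / 100)) (hw : 0 ≤ w) (hwu : w ≤ u)
    (hU : u ≤ (19 / 25 : ℝ)) (h0 : D ≤ u) (hp : 0 < D)
    (k0 : u * (12679 / 10000 : ℝ) - 5 / 6 * ((12679 / 10000 : ℝ) - 1) ≤ D)
    (k1 : u * (11519 / 10000 : ℝ) - 5 / 6 * ((11519 / 10000 : ℝ) - 1) ≤ D)
    (k2 : D ≤ u * (10939 / 10000 : ℝ) - 5 / 6 * ((10939 / 10000 : ℝ) - 1))
    (k3 : u * (11229 / 10000 : ℝ) - 5 / 6 * ((11229 / 10000 : ℝ) - 1) ≤ D)
    (k4 : u * (2771 / 2500 : ℝ) - 5 / 6 * ((2771 / 2500 : ℝ) - 1) ≤ D) :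
    lp_P (5 / 24 : ℝ) D u w := by
  rcases le_total D (u * (11011 / 10000 : ℝ) - 5 / 6 * ((11011 / 10000 : ℝ) - 1)) with k5 | k5
  · rcases le_total D (u * (11047 / 10000 : ℝ) - 5 / 6 * ((11047 / 10000 : ℝ) - 1)) with k6 | k6
    · rcases le_total D (u * (6983 / 10000 : ℝ) + w * (1 - (6983 / 10000 : ℝ)) / 2) with k7 | k7
      · exact lp_cellA (6983 / 10000 : ℝ) (11047 / 10000 : ℝ) (39 / 1000 : ℝ) (by norm_num) (by norm_num) (by norm_num) (by norm_num) (by norm_num)
          (by norm_num) (by norm_num) hw h0 (by linarith) (by linarith) (by linarith)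
      · rcases le_total D (u * (2213 / 2000 : ℝ) - 5 / 6 * ((2213 / 2000 : ℝ) - 1)) with k8 | k8
        · rcases le_total D (u * (3503 / 5000 : ℝ) + w * (1 - (3503 / 5000 : ℝ)) / 2) with k9 | k9
          · exact lp_cellA (3503 / 5000 : ℝ) (2213 / 2000 : ℝ) (49 / 1250 : ℝ) (by norm_num) (by norm_num) (by norm_num) (by norm_num) (by norm_num)
              (by norm_num) (by norm_num) hw h0 (by linarith) (by linarith) (by linarith)
          · exact lp_cellA (7031 / 10000 : ℝ) (2213 / 2000 : ℝ) (161 / 4000 : ℝ) (by norm_num) (by norm_num) (by norm_num) (by norm_num) (by norm_num)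
              (by norm_num) (by norm_num) hw h0 (by linarith) (by linarith) (by linarith)
        · exact lp_cellA (438 / 625 : ℝ) (11047 / 10000 : ℝ) (1001 / 25000 : ℝ) (by norm_num) (by norm_num) (by norm_num) (by norm_num) (by norm_num)
            (by norm_num) (by norm_num) hw h0 (by linarith) (by linarith) (by linarith)
    · rcases le_total D (u * (867 / 1250 : ℝ) + w * (1 - (867 / 1250 : ℝ)) / 2) with k7 | k7
      · exact lp_cellA (867 / 1250 : ℝ) (11011 / 10000 : ℝ) (1927 / 50000 : ℝ) (by norm_num) (by norm_num) (by norm_num) (by norm_num) (by norm_num)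
          (by norm_num) (by norm_num) hw h0 (by linarith) (by linarith) (by linarith)
      · rcases le_total D (u * (11029 / 10000 : ℝ) - 5 / 6 * ((11029 / 10000 : ℝ) - 1)) with k8 | k8
        · exact lp_cellA (3493 / 5000 : ℝ) (11029 / 10000 : ℝ) (3987 / 100000 : ℝ) (by norm_num) (by norm_num) (by norm_num) (by norm_num) (by norm_num)
            (by norm_num) (by norm_num) hw h0 (by linarith) (by linarith) (by linarith)
        · exact lp_cellA (3481 / 5000 : ℝ) (11011 / 10000 : ℝ) (1981 / 50000 : ℝ) (by norm_num) (by norm_num) (by norm_num) (by norm_num) (by norm_num)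
            (by norm_num) (by norm_num) hw h0 (by linarith) (by linarith) (by linarith)
  · rcases le_total D (u * (1371 / 2000 : ℝ) + w * (1 - (1371 / 2000 : ℝ)) / 2) with k6 | k6
    · exact lp_cellA (1371 / 2000 : ℝ) (10939 / 10000 : ℝ) (477 / 12500 : ℝ) (by norm_num) (by norm_num) (by norm_num) (by norm_num) (by norm_num)
        (by norm_num) (by norm_num) hw h0 (by linarith) (by linarith) (by linarith)
    · exact lp_cellA (6937 / 10000 : ℝ) (10957 / 10000 : ℝ) (4083 / 100000 : ℝ) (by norm_num) (by norm_num) (by norm_num) (by norm_num) (by norm_num)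
        (by norm_num) (by norm_num) hw h0 (by linarith) (by linarith) (by linarith)

theorem lp_a_19 {D u w : ℝ} (hD : D = (2 / 3 * u + w / 12 - 13 / 600 - (0 : ℝ)) / (81 / 100)) (hw : 0 ≤ w) (hwu : w ≤ u)
    (hU : u ≤ (19 / 25 : ℝ)) (h0 : D ≤ u) (hp : 0 < D)
    (k0 : u * (12679 / 10000 : ℝ) - 5 / 6 * ((12679 / 10000 : ℝ) - 1) ≤ D)
    (k1 : u * (11519 / 10000 : ℝ) - 5 / 6 * ((11519 / 10000 : ℝ) - 1) ≤ D)
    (k2 : u * (10939 / 10000 : ℝ) - 5 / 6 * ((10939 / 10000 : ℝ) - 1) ≤ D) :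
    lp_P (5 / 24 : ℝ) D u w := by
  rcases le_total D (u * (10649 / 10000 : ℝ) - 5 / 6 * ((10649 / 10000 : ℝ) - 1)) with k3 | k3
  · rcases le_total D (u * (5397 / 5000 : ℝ) - 5 / 6 * ((5397 / 5000 : ℝ) - 1)) with k4 | k4
    · rcases le_total D (u * (5433 / 5000 : ℝ) - 5 / 6 * ((5433 / 5000 : ℝ) - 1)) with k5 | k5
      · exact lp_cellA (853 / 1250 : ℝ) (5433 / 5000 : ℝ) (3991 / 100000 : ℝ) (by norm_num) (by norm_num) (by norm_num) (by norm_num) (by norm_num)
          (by norm_num) (by norm_num) hw h0 (by linarith) (by linarith) (by linarith)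
      · exact lp_cellA (6679 / 10000 : ℝ) (5397 / 5000 : ℝ) (3687 / 100000 : ℝ) (by norm_num) (by norm_num) (by norm_num) (by norm_num) (by norm_num)
          (by norm_num) (by norm_num) hw h0 (by linarith) (by linarith) (by linarith)
    · exact lp_cellA (2 / 3 : ℝ) (10649 / 10000 : ℝ) (53 / 1250 : ℝ) (by norm_num) (by norm_num) (by norm_num) (by norm_num) (by norm_num)
        (by norm_num) (by norm_num) hw h0 (by linarith) (by linarith) (by linarith)
  · exact lp_cellA (2 / 3 : ℝ) (10359 / 10000 : ℝ) (681 / 12500 : ℝ) (by norm_num) (by norm_num) (by norm_num) (by norm_num) (by norm_num)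
      (by norm_num) (by norm_num) hw h0 (by linarith) (by linarith) (by linarith)

theorem lp_a {D u w : ℝ} (hD : D = (2 / 3 * u + w / 12 - 13 / 600 - (0 : ℝ)) / (81 / 100)) (hw : 0 ≤ w) (hwu : w ≤ u)
    (hU : u ≤ (19 / 25 : ℝ)) (h0 : D ≤ u) (hp : 0 < D) :
    lp_P (5 / 24 : ℝ) D u w := by
  rcases le_total D (u * (12679 / 10000 : ℝ) - 5 / 6 * ((12679 / 10000 : ℝ) - 1)) with k0 | k0
  · exact lp_a_1 hD hw hwu hU h0 hp k0
  · rcases le_total D (u * (11519 / 10000 : ℝ) - 5 / 6 * ((11519 / 10000 : ℝ) - 1)) with k1 | k1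
    · exact lp_a_2 hD hw hwu hU h0 hp k0 k1
    · rcases le_total D (u * (10939 / 10000 : ℝ) - 5 / 6 * ((10939 / 10000 : ℝ) - 1)) with k2 | k2
      · rcases le_total D (u * (11229 / 10000 : ℝ) - 5 / 6 * ((11229 / 10000 : ℝ) - 1)) with k3 | k3
        · rcases le_total D (u * (5687 / 5000 : ℝ) - 5 / 6 * ((5687 / 5000 : ℝ) - 1)) with k4 | k4
          · rcases le_total D (u * (5723 / 5000 : ℝ) - 5 / 6 * ((5723 / 5000 : ℝ) - 1)) with k5 | k5
            · exact lp_a_3 hD hw hwu hU h0 hp k0 k1 k2 k3 k4 k5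
            · rcases le_total D (u * (1141 / 1000 : ℝ) - 5 / 6 * ((1141 / 1000 : ℝ) - 1)) with k6 | k6
              · exact lp_a_4 hD hw hwu hU h0 hp k0 k1 k2 k3 k4 k5 k6
              · exact lp_a_5 hD hw hwu hU h0 hp k0 k1 k2 k3 k4 k5 k6
          · rcases le_total D (u * (11301 / 10000 : ℝ) - 5 / 6 * ((11301 / 10000 : ℝ) - 1)) with k5 | k5
            · rcases le_total D (u * (11337 / 10000 : ℝ) - 5 / 6 * ((11337 / 10000 : ℝ) - 1)) with k6 | k6
              · exact lp_a_6 hD hw hwu hU h0 hp k0 k1 k2 k3 k4 k5 k6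
              · rcases le_total D (u * (11319 / 10000 : ℝ) - 5 / 6 * ((11319 / 10000 : ℝ) - 1)) with k7 | k7
                · exact lp_a_7 hD hw hwu hU h0 hp k0 k1 k2 k3 k4 k5 k6 k7
                · exact lp_a_8 hD hw hwu hU h0 hp k0 k1 k2 k3 k4 k5 k6 k7
            · rcases le_total D (u * (2253 / 2000 : ℝ) - 5 / 6 * ((2253 / 2000 : ℝ) - 1)) with k6 | k6
              · rcases le_total D (u * (11283 / 10000 : ℝ) - 5 / 6 * ((11283 / 10000 : ℝ) - 1)) with k7 | k7
                · exact lp_a_9 hD hw hwu hU h0 hp k0 k1 k2 k3 k4 k5 k6 k7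
                · exact lp_a_10 hD hw hwu hU h0 hp k0 k1 k2 k3 k4 k5 k6 k7
              · rcases le_total D (u * (3581 / 5000 : ℝ) + w * (1 - (3581 / 5000 : ℝ)) / 2) with k7 | k7
                · rcases le_total D (u * (11247 / 10000 : ℝ) - 5 / 6 * ((11247 / 10000 : ℝ) - 1)) with k8 | k8
                  · exact lp_a_11 hD hw hwu hU h0 hp k0 k1 k2 k3 k4 k5 k6 k7 k8
                  · exact lp_a_12 hD hw hwu hU h0 hp k0 k1 k2 k3 k4 k5 k6 k7 k8
                · exact lp_a_13 hD hw hwu hU h0 hp k0 k1 k2 k3 k4 k5 k6 k7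
        · rcases le_total D (u * (2771 / 2500 : ℝ) - 5 / 6 * ((2771 / 2500 : ℝ) - 1)) with k4 | k4
          · rcases le_total D (u * (2789 / 2500 : ℝ) - 5 / 6 * ((2789 / 2500 : ℝ) - 1)) with k5 | k5
            · rcases le_total D (u * (1399 / 1250 : ℝ) - 5 / 6 * ((1399 / 1250 : ℝ) - 1)) with k6 | k6
              · rcases le_total D (u * (1783 / 2500 : ℝ) + w * (1 - (1783 / 2500 : ℝ)) / 2) with k7 | k7
                · exact lp_a_14 hD hw hwu hU h0 hp k0 k1 k2 k3 k4 k5 k6 k7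
                · exact lp_a_15 hD hw hwu hU h0 hp k0 k1 k2 k3 k4 k5 k6 k7
              · exact lp_a_16 hD hw hwu hU h0 hp k0 k1 k2 k3 k4 k5 k6
            · exact lp_a_17 hD hw hwu hU h0 hp k0 k1 k2 k3 k4 k5
          · exact lp_a_18 hD hw hwu hU h0 hp k0 k1 k2 k3 k4
      · exact lp_a_19 hD hw hwu hU h0 hp k0 k1 k2

theorem lp_b_20 {D u w : ℝ} (hD : D = (2 / 3 * u + w / 12 - 13 / 600 - (1 / 250 : ℝ)) / (81 / 100)) (hw : 0 ≤ w) (hwu : w ≤ u)
    (hU : u ≤ (1 : ℝ)) (h0 : D ≤ u) (hp : 0 < D)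
    (k0 : D ≤ u * (6357 / 5000 : ℝ) - 5 / 6 * ((6357 / 5000 : ℝ) - 1)) :
    lp_P (0 : ℝ) D u w := by
  exact lp_cellB (3957 / 5000 : ℝ) (6357 / 5000 : ℝ) (by norm_num) (by norm_num) (by norm_num) (by norm_num) (by norm_num) hw h0
    (by linarith) (by linarith) (by linarith)

theorem lp_b_21 {D u w : ℝ} (hD : D = (2 / 3 * u + w / 12 - 13 / 600 - (1 / 250 : ℝ)) / (81 / 100)) (hw : 0 ≤ w) (hwu : w ≤ u)
    (hU : u ≤ (1 : ℝ)) (h0 : D ≤ u) (hp : 0 < D)
    (k0 : u * (6357 / 5000 : ℝ) - 5 / 6 * ((6357 / 5000 : ℝ) - 1) ≤ D)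
    (k1 : D ≤ u * (11571 / 10000 : ℝ) - 5 / 6 * ((11571 / 10000 : ℝ) - 1)) :
    lp_P (0 : ℝ) D u w := by
  rcases le_total D (u * (6071 / 5000 : ℝ) - 5 / 6 * ((6071 / 5000 : ℝ) - 1)) with k2 | k2
  · exact lp_cellB (3 / 4 : ℝ) (6071 / 5000 : ℝ) (by norm_num) (by norm_num) (by norm_num) (by norm_num) (by norm_num) hw h0
      (by linarith) (by linarith) (by linarith)
  · rcases le_total D (u * (741 / 625 : ℝ) - 5 / 6 * ((741 / 625 : ℝ) - 1)) with k3 | k3
    · exact lp_cellB (7387 / 10000 : ℝ) (741 / 625 : ℝ) (by norm_num) (by norm_num) (by norm_num) (by norm_num) (by norm_num) hw h0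
        (by linarith) (by linarith) (by linarith)
    · rcases le_total D (u * (11713 / 10000 : ℝ) - 5 / 6 * ((11713 / 10000 : ℝ) - 1)) with k4 | k4
      · exact lp_cellB (7297 / 10000 : ℝ) (11713 / 10000 : ℝ) (by norm_num) (by norm_num) (by norm_num) (by norm_num) (by norm_num) hw h0
          (by linarith) (by linarith) (by linarith)
      · exact lp_cellB (7237 / 10000 : ℝ) (11571 / 10000 : ℝ) (by norm_num) (by norm_num) (by norm_num) (by norm_num) (by norm_num) hw h0
          (by linarith) (by linarith) (by linarith)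

theorem lp_b_22 {D u w : ℝ} (hD : D = (2 / 3 * u + w / 12 - 13 / 600 - (1 / 250 : ℝ)) / (81 / 100)) (hw : 0 ≤ w) (hwu : w ≤ u)
    (hU : u ≤ (1 : ℝ)) (h0 : D ≤ u) (hp : 0 < D)
    (k0 : u * (6357 / 5000 : ℝ) - 5 / 6 * ((6357 / 5000 : ℝ) - 1) ≤ D)
    (k1 : u * (11571 / 10000 : ℝ) - 5 / 6 * ((11571 / 10000 : ℝ) - 1) ≤ D) :
    lp_P (0 : ℝ) D u w := by
  rcases le_total D (u * (10999 / 10000 : ℝ) - 5 / 6 * ((10999 / 10000 : ℝ) - 1)) with k2 | k2
  · rcases le_total D (u * (2257 / 2000 : ℝ) - 5 / 6 * ((2257 / 2000 : ℝ) - 1)) with k3 | k3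
    · rcases le_total D (u * (6989 / 10000 : ℝ) + w * (1 - (6989 / 10000 : ℝ)) / 2) with k4 | k4
      · exact lp_cellB (6989 / 10000 : ℝ) (2257 / 2000 : ℝ) (by norm_num) (by norm_num) (by norm_num) (by norm_num) (by norm_num) hw h0
          (by linarith) (by linarith) (by linarith)
      · rcases le_total D (u * (229 / 200 : ℝ) - 5 / 6 * ((229 / 200 : ℝ) - 1)) with k5 | k5
        · exact lp_cellB (1791 / 2500 : ℝ) (229 / 200 : ℝ) (by norm_num) (by norm_num) (by norm_num) (by norm_num) (by norm_num) hw h0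
            (by linarith) (by linarith) (by linarith)
        · exact lp_cellB (7087 / 10000 : ℝ) (11329 / 10000 : ℝ) (by norm_num) (by norm_num) (by norm_num) (by norm_num) (by norm_num) hw h0
            (by linarith) (by linarith) (by linarith)
    · rcases le_total D (u * (5571 / 5000 : ℝ) - 5 / 6 * ((5571 / 5000 : ℝ) - 1)) with k4 | k4
      · rcases le_total D (u * (3403 / 5000 : ℝ) + w * (1 - (3403 / 5000 : ℝ)) / 2) with k5 | k5
        · exact lp_cellB (3403 / 5000 : ℝ) (5571 / 5000 : ℝ) (by norm_num) (by norm_num) (by norm_num) (by norm_num) (by norm_num) hw h0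
            (by linarith) (by linarith) (by linarith)
        · exact lp_cellB (6947 / 10000 : ℝ) (11163 / 10000 : ℝ) (by norm_num) (by norm_num) (by norm_num) (by norm_num) (by norm_num) hw h0
            (by linarith) (by linarith) (by linarith)
      · exact lp_cellB (3389 / 5000 : ℝ) (10999 / 10000 : ℝ) (by norm_num) (by norm_num) (by norm_num) (by norm_num) (by norm_num) hw h0
          (by linarith) (by linarith) (by linarith)
  · rcases le_total D (u * (10713 / 10000 : ℝ) - 5 / 6 * ((10713 / 10000 : ℝ) - 1)) with k3 | k3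
    · rcases le_total D (u * (1357 / 1250 : ℝ) - 5 / 6 * ((1357 / 1250 : ℝ) - 1)) with k4 | k4
      · exact lp_cellB (2 / 3 : ℝ) (1357 / 1250 : ℝ) (by norm_num) (by norm_num) (by norm_num) (by norm_num) (by norm_num) hw h0
          (by linarith) (by linarith) (by linarith)
      · exact lp_cellB (2 / 3 : ℝ) (10713 / 10000 : ℝ) (by norm_num) (by norm_num) (by norm_num) (by norm_num) (by norm_num) hw h0
          (by linarith) (by linarith) (by linarith)
    · rcases le_total D (u * (1057 / 1000 : ℝ) - 5 / 6 * ((1057 / 1000 : ℝ) - 1)) with k4 | k4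
      · exact lp_cellB (2 / 3 : ℝ) (1057 / 1000 : ℝ) (by norm_num) (by norm_num) (by norm_num) (by norm_num) (by norm_num) hw h0
          (by linarith) (by linarith) (by linarith)
      · exact lp_cellB (2 / 3 : ℝ) (2607 / 2500 : ℝ) (by norm_num) (by norm_num) (by norm_num) (by norm_num) (by norm_num) hw h0
          (by linarith) (by linarith) (by linarith)

theorem lp_b {D u w : ℝ} (hD : D = (2 / 3 * u + w / 12 - 13 / 600 - (1 / 250 : ℝ)) / (81 / 100)) (hw : 0 ≤ w) (hwu : w ≤ u)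
    (hU : u ≤ (1 : ℝ)) (h0 : D ≤ u) (hp : 0 < D) :
    lp_P (0 : ℝ) D u w := by
  rcases le_total D (u * (6357 / 5000 : ℝ) - 5 / 6 * ((6357 / 5000 : ℝ) - 1)) with k0 | k0
  · exact lp_b_20 hD hw hwu hU h0 hp k0
  · rcases le_total D (u * (11571 / 10000 : ℝ) - 5 / 6 * ((11571 / 10000 : ℝ) - 1)) with k1 | k1
    · exact lp_b_21 hD hw hwu hU h0 hp k0 k1
    · exact lp_b_22 hD hw hwu hU h0 hp k0 k1

theorem lp {c s u w : ℝ}
    (h : (c = 5 / 24 ∧ s = 0 ∧ u ≤ 19 / 25) ∨ (c = 0 ∧ s = 1 / 250 ∧ u ≤ 1))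
    (hw : 0 ≤ w) (hwu : w ≤ u) (hD : 0 < Dex s u w) :
    ∃ d ν : ℝ, 2 / 3 ≤ d ∧ d ≤ 1 ∧ 1 ≤ ν ∧ ν ≤ 3 / 2 ∧ Dex s u w ≤ u ∧
      Dex s u w ≤ u * d + w * (1 - d) / 2 ∧ Dex s u w ≤ u * ν - 5 / 6 * (ν - 1) ∧
      Dex s u w ≤ 2 * u * (ν - d) + w * min (1 / 18) (c * max 0 (1 - 2 * (ν - d))) := by
  have hu : 0 ≤ u := hw.trans hwu
  rcases h with ⟨rfl, rfl, hU⟩ | ⟨rfl, rfl, hU⟩
  · exact lp_a (D := Dex 0 u w) rfl hw hwu hU (by unfold Dex; linarith) hD
  · exact lp_b (D := Dex (1 / 250) u w) rfl hw hwu hU (by unfold Dex; linarith) hD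

end Crest.Agent.R017

end
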