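import Crest.Agent.R017.CountAux2
import Crest.Agent.R017.LP
import Crest.Agent.R017.Sieve

/-! # Row 17: counting rows, the zero-density estimate -/

set_option autoImplicit false

noncomputable section

open scoped BigOperators ComplexConjugate
open Complex MeasureTheory

namespace Crest.Agent.R017

theorem ct_floor {J : ℕ} {e L Y w : ℝ} (hJ : 1 ≤ e * J) (hL : 0 < L) (hY0 : 0 ≤ Y) (hY : Y ≤ L / 6)
    {Z : Fin J → ℝ} (hZ : ∀ i, 1 ≤ Z i) (hZ2 : ∀ i, Z i ≤ Real.exp (L / (6 * J) + e * L / J)) :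
    ∃ j ≤ J, ∃ y : ℝ, Y - e * L ≤ y ∧ y ≤ Y ∧ (Y = 0 → j = 0) ∧
      2 * ((1 + w) / 12 * L) * j / J = (1 + w) * y ∧
      ∀ I : Finset (Fin J), I.card = j → ∏ i ∈ I, Z i ≤ Real.exp (y + e * L) := by
  have hJ0 : (0 : ℝ) < J := by
    rcases Nat.eq_zero_or_pos J with h | h
    · rw [h] at hJ; norm_num at hJ
    · exact_mod_cast h
  have he : 0 < e := by
    by_contra h
    nlinarith [not_lt.1 h]
  have h1 := Nat.floor_le (a := 6 * J * Y / L) (by positivity)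
  have h2 := Nat.lt_floor_add_one (6 * J * Y / L)
  set j := ⌊6 * J * Y / L⌋₊ with hj
  rw [le_div_iff₀ hL] at h1
  rw [div_lt_iff₀ hL] at h2
  have hjJ : (j : ℝ) ≤ J := by
    refine le_of_mul_le_mul_right (h1.trans ?_) hL
    nlinarith
  refine ⟨j, by exact_mod_cast hjJ, j * L / (6 * J), ?_, ?_, fun h => ?_, by field_simp; ring, fun I hI => ?_⟩
  · rw [le_div_iff₀ (by positivity)]
    nlinarith [mul_le_mul_of_nonneg_right hJ hL.le]
  · rw [div_le_iff₀ (by positivity)]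
    linarith
  · rw [hj, h]
    simp
  · refine (Finset.prod_le_prod (fun i _ => zero_le_one.trans (hZ i)) fun i _ => hZ2 i).trans ?_
    rw [Finset.prod_const, hI, ← Real.exp_nat_mul, Real.exp_le_exp, mul_add]
    refine add_le_add (le_of_eq (by ring)) ?_
    rw [← mul_div_assoc, div_le_iff₀ hJ0, mul_comm]
    exact mul_le_mul_of_nonneg_left hjJ (by positivity)

/-- Rows with a large inverse sum. -/
theorem ct_cntS {Q : O} (hQ : Q ≠ 0) (h72 : (72 : O) ∣ Q) {e : ℝ} (he : 0 < e) (he1 : e ≤ 1 / 200)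
    {J : ℕ} (hJ : 1 ≤ e * J) :
    ∃ η₁ : ℝ, 0 < η₁ ∧ ∀ η₀ : ℝ, 0 < η₀ → η₀ ≤ η₁ → ∀ᶠ L : ℝ in Filter.atTop,
      ∀ (l u w D d ν : ℝ) (ψ : O → ℂ) (Z : Fin J → ℝ) (S : Finset O), IsCh Q ψ →
      0 ≤ l → l ≤ 9 / 10 * L → 0 ≤ w → w ≤ u → u ≤ 1 → 2 / 3 ≤ d → ν ≤ 3 / 2 → D ≤ u →
      D ≤ u * d + w * (1 - d) / 2 → D ≤ u * ν - 5 / 6 * (ν - 1) → (∀ i, 1 ≤ Z i) →
      Sep Z (Real.exp L ^ η₀) → (∀ i, Z i ≤ Real.exp (L / (6 * J) + e * L / J)) →
      (∀ r ∈ S, r ∈ box (Real.exp l) ∧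
        Real.exp ((1 + w) / 12 * L) ≤ ∏ i, ct_L Q (Real.exp L ^ η₀) (Z i) r ∧
        ∃ v γ, d * l ≤ v ∧ v ≤ ν * l ∧ |γ| ≤ L ^ 2 ∧ Real.exp ((1 + u) / 2 * v - e * L) ≤
          ‖sm 1 (fun n => mu n * (ψ n * chi n r)) (Real.exp v) γ‖) →
      (S.card : ℝ) ≤ Real.exp ((1 - D) * l + 13 * (e * L)) := by
  have hJ0 : 0 < J := by
    rcases Nat.eq_zero_or_pos J with h | h
    · rw [h] at hJ; norm_num at hJ
    · exact h
  obtain ⟨η₁, hη, H⟩ := ct_M2 hQ h72 he J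
  refine ⟨η₁, hη, fun η₀ h0 h1 => ?_⟩
  filter_upwards [H η₀ h0 h1, ct_M2l hQ h72 he, ct_abs 1 he hJ0, Filter.eventually_ge_atTop (12 / e)]
    with L H₁ H₂ H₃ hL l u w D d ν ψ Z S hψ hl0 hl hw hwu hu hd hν c0 c1 c2 hZ hSep hZ2 hS
  rw [div_le_iff₀' he] at hL
  have hL' : 200 * (e * L) ≤ L := by nlinarith [show 0 ≤ L by nlinarith]
  have := H₃ S (fun r n => mu n * (ψ n * chi n r)) (fun i r => ct_L Q (Real.exp L ^ η₀) (Z i) r)
    ((1 + u) / 2) ((1 + w) / 12 * L) (d * l) (ν * l) ((1 - D) * l + 12 * (e * L))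
    (fun r _ n _ => by
      rw [norm_mul, norm_mul]
      exact mul_le_one₀ (norm_mu_le n) (by positivity)
        (mul_le_one₀ (hψ.norm_le n) (norm_nonneg _) (norm_chi_le n r)))
    (fun i r => ct_L_pos Q _ (hZ i) r) (fun r hr => (hS r hr).2.1) (by linarith) (by nlinarith)
    (by nlinarith) (fun r hr => (hS r hr).2.2) fun U hU1 hU2 => ?_
  · refine this.trans (le_of_eq ?_)
    congr 1
    ring
  have hdl : 2 / 3 * l ≤ d * l := mul_le_mul_of_nonneg_right hd hl0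
  have hνl : ν * l ≤ 3 / 2 * l := mul_le_mul_of_nonneg_right hν hl0
  rcases le_total U (l + 6) with hU | hU
  · have hY1 := le_max_left 0 ((l - U) / 2)
    have hY2 := le_max_right 0 ((l - U) / 2)
    have hY3 := max_cases 0 ((l - U) / 2)
    set Y := max 0 ((l - U) / 2) with hY
    obtain ⟨j, hj, y, y1, y2, -, y3, y4⟩ := ct_floor (w := w) hJ (by linarith) hY1
      (by rcases hY3 with h | h <;> linarith [h.1]) hZ hZ2
    refine ⟨j, hj, l + U + 6 + y + 8 * (e * L), fun I hI v τ hv hτ => ?_, ?_⟩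
    · have hv' := abs_le.1 hv
      refine (H₁ (l + 4 * (e * L)) v τ (y + e * L) ψ Z I S hψ (fun r hr => box_mono
        (Real.exp_le_exp.2 (by linarith)) (hS r hr).1) (by linarith) (by linarith) hτ hZ hSep (y4 I hI)
        (by rcases hY3 with h | h <;> linarith [h.1])
        (by rcases hY3 with h | h <;> linarith [h.1])).trans (Real.exp_le_exp.2 (by linarith))
    · rw [y3]
      have a1 := mul_le_mul_of_nonneg_right c1 hl0
      have a2 : w * ((l - U) / 2 - e * L) ≤ w * y := mul_le_mul_of_nonneg_left (by linarith) hw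
      have a3 : (u - w / 2) * (d * l - 1) ≤ (u - w / 2) * U := mul_le_mul_of_nonneg_left hU1 (by linarith)
      have a4 : w * (e * L) ≤ 1 * (e * L) := mul_le_mul_of_nonneg_right (by linarith) (by linarith)
      push_cast
      nlinarith
  · refine ⟨0, Nat.zero_le _, 3 * (e * L) + 11 / 6 * (U + 6) + l / 6, fun I hI v τ hv hτ => ?_, ?_⟩
    · have hv' := abs_le.1 hv
      rw [Finset.card_eq_zero.1 hI]
      simp only [Finset.prod_empty, mul_one]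
      exact (H₂ l v τ ψ S hψ (fun r hr => (hS r hr).1) hl0 (by linarith) (by linarith) hτ).trans
        (Real.exp_le_exp.2 (by linarith))
    · have a0 := mul_le_mul_of_nonneg_right c0 hl0
      have a1 := mul_le_mul_of_nonneg_right c2 hl0
      simp only [Nat.cast_zero, mul_zero, zero_div, Nat.cast_one]
      rcases le_total u (5 / 6) with h | h
      · have a2 : (5 / 6 - u) * U ≤ (5 / 6 - u) * (ν * l + 1) := mul_le_mul_of_nonneg_left hU2 (by linarith)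
        linarith
      · have a2 : (u - 5 / 6) * l ≤ (u - 5 / 6) * U := mul_le_mul_of_nonneg_left (by linarith) (by linarith)
        linarith

theorem ct_mono {c u w l m U η : ℝ} (hc0 : 0 ≤ c) (hc : c ≤ 1) (hw : 0 ≤ w) (hwu : w ≤ u) (hu : u ≤ 1)
    (hl : 0 ≤ l) (hη : 0 ≤ η) (hU : m * l - η ≤ U) :
    (2 * u * m + w * min (1 / 18) (c * max 0 (1 - 2 * m))) * l - 2 * η ≤
      2 * u * U + w * min (l / 18) (c * max 0 (l - 2 * U)) := by
  have e1 : min (1 / 18) (c * max 0 (1 - 2 * m)) * l = min (l / 18) (c * max 0 (l - 2 * (m * l))) := by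
    rw [min_mul_of_nonneg _ _ hl, mul_assoc, max_mul_of_nonneg _ _ hl, zero_mul,
      show 1 / 18 * l = l / 18 by ring, show (1 - 2 * m) * l = l - 2 * (m * l) by ring]
  rw [add_mul, mul_assoc w, e1, mul_assoc (2 * u)]
  generalize m * l = M at *
  rcases le_total U M with h | h
  · have a1 : min (l / 18) (c * max 0 (l - 2 * M)) ≤ min (l / 18) (c * max 0 (l - 2 * U)) :=
      min_le_min le_rfl (mul_le_mul_of_nonneg_left (max_le_max le_rfl (by linarith)) hc0)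
    nlinarith [mul_le_mul_of_nonneg_left a1 hw]
  · have a0 : max 0 (l - 2 * M) ≤ max 0 (l - 2 * U) + 2 * (U - M) :=
      max_le (by linarith [le_max_left 0 (l - 2 * U)]) (by linarith [le_max_right 0 (l - 2 * U)])
    have a1 : min (l / 18) (c * max 0 (l - 2 * M)) ≤
        min (l / 18) (c * max 0 (l - 2 * U)) + 2 * (U - M) := by
      rw [← min_add_add_right]
      refine min_le_min (by linarith) ((mul_le_mul_of_nonneg_left a0 hc0).trans ?_)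
      nlinarith
    nlinarith [mul_le_mul_of_nonneg_left a1 hw]

/-- Rows with a large plain sum. -/
theorem ct_cntA {Q : O} (hQ : Q ≠ 0) (h72 : (72 : O) ∣ Q) {θ c : ℝ} (hθ : 1 / 2 ≤ θ) (hθ1 : θ ≤ 1)
    (hc : (θ = 22 / 25 ∧ c = 5 / 24) ∨ c = 0) (hZF : ZF θ) {e : ℝ} (he : 0 < e) (he1 : e ≤ 1 / 200)
    {J : ℕ} (hJ : 1 ≤ e * J) :
    ∃ η₁ : ℝ, 0 < η₁ ∧ ∀ η₀ : ℝ, 0 < η₀ → η₀ ≤ η₁ → ∀ᶠ L : ℝ in Filter.atTop,
      ∀ (l u w D m : ℝ) (ψ : O → ℂ) (Z : Fin J → ℝ) (S : Finset O), IsCh Q ψ →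
      0 ≤ l → l ≤ 9 / 10 * L → 0 ≤ w → w ≤ u → u ≤ 1 → 0 ≤ m →
      D ≤ 2 * u * m + w * min (1 / 18) (c * max 0 (1 - 2 * m)) → (∀ i, 1 ≤ Z i) →
      Sep Z (Real.exp L ^ η₀) → (∀ i, Z i ≤ Real.exp (L / (6 * J) + e * L / J)) →
      (∀ r ∈ S, (r ∈ box (Real.exp l) ∧ ¬ Exc Q 1 r) ∧
        Real.exp ((1 + w) / 12 * L) ≤ ∏ i, ct_L Q (Real.exp L ^ η₀) (Z i) r ∧
        ∃ v γ, m * l - e * L ≤ v ∧ v ≤ 2 * L ∧ |γ| ≤ L ^ 2 ∧ Real.exp ((1 + u) / 2 * v - e * L) ≤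
          ‖sm 1 (fun n => ψ n * chi n r) (Real.exp v) γ‖) →
      (S.card : ℝ) ≤ Real.exp ((1 - D) * l + 33 * (e * L)) := by
  have hJ0 : 0 < J := by
    rcases Nat.eq_zero_or_pos J with h | h
    · rw [h] at hJ; norm_num at hJ
    · exact h
  have hc0 : 0 ≤ c := by rcases hc with ⟨-, h⟩ | h <;> rw [h] <;> norm_num
  have hc1 : c ≤ 1 := by rcases hc with ⟨-, h⟩ | h <;> rw [h] <;> norm_num
  obtain ⟨η₁, hη, H⟩ := ct_M4 hQ h72 hθ hθ1 hZF he J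
  refine ⟨η₁, hη, fun η₀ h0 h1 => ?_⟩
  filter_upwards [H η₀ h0 h1, ct_abs 3 he hJ0, Filter.eventually_ge_atTop (12 / e)]
    with L H₁ H₃ hL l u w D m ψ Z S hψ hl0 hl hw hwu hu hm c1 hZ hSep hZ2 hS
  rw [div_le_iff₀' he] at hL
  have hL' : 200 * (e * L) ≤ L := by nlinarith [show 0 ≤ L by nlinarith]
  have := H₃ S (fun r n => ψ n * chi n r) (fun i r => ct_L Q (Real.exp L ^ η₀) (Z i) r)
    ((1 + u) / 2) ((1 + w) / 12 * L) (m * l - e * L) (2 * L) ((1 - D) * l + 32 * (e * L))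
    (fun r _ n _ => by
      rw [norm_mul]
      exact mul_le_one₀ (hψ.norm_le n) (norm_nonneg _) (norm_chi_le n r))
    (fun i r => ct_L_pos Q _ (hZ i) r) (fun r hr => (hS r hr).2.1) (by linarith) (by nlinarith)
    le_rfl (fun r hr => (hS r hr).2.2) fun U hU1 hU2 => ?_
  · refine this.trans (le_of_eq ?_)
    congr 1
    ring
  have hY1 := min_le_left (l / 18) (c * max 0 (l - 2 * U))
  have hY2 := min_le_right (l / 18) (c * max 0 (l - 2 * U))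
  have hY3 : 0 ≤ min (l / 18) (c * max 0 (l - 2 * U)) :=
    le_min (by linarith) (mul_nonneg hc0 (le_max_left _ _))
  have hmono := ct_mono (η := e * L + 1) (U := U) (m := m) hc0 hc1 hw hwu hu hl0 (by linarith) (by linarith)
  set Y := min (l / 18) (c * max 0 (l - 2 * U)) with hY
  obtain ⟨j, hj, y, y1, y2, y0, y3, y4⟩ := ct_floor (w := w) hJ (by linarith) hY3 (by linarith) hZ hZ2
  refine ⟨j, hj, l + 2 * U + 12 + y + 23 * (e * L), fun I hI v τ hv hτ => ?_, ?_⟩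
  · have hv' := abs_le.1 hv
    refine (H₁ (l + 18 * (e * L)) v τ (y + e * L) ψ Z I S hψ (fun r hr => ⟨box_mono
      (Real.exp_le_exp.2 (by linarith)) (hS r hr).1.1, (hS r hr).1.2⟩) (by linarith) (by linarith) hτ hZ
      hSep (y4 I hI) ?_).trans (Real.exp_le_exp.2 (by linarith))
    rcases hY3.eq_or_lt with h | h
    · exact Or.inl (Finset.card_eq_zero.1 (hI.trans (y0 h.symm)))
    refine Or.inr ⟨?_, by linarith⟩
    rcases hc with ⟨rfl, rfl⟩ | rfl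
    · rcases max_cases 0 (l - 2 * U) with h' | h' <;> rw [h'.1] at hY2 <;> linarith
    · linarith
  · rw [y3]
    have a1 := mul_le_mul_of_nonneg_right c1 hl0
    have a2 : w * (Y - e * L) ≤ w * y := mul_le_mul_of_nonneg_left y1 hw
    have a4 : w * (e * L) ≤ 1 * (e * L) := mul_le_mul_of_nonneg_right (by linarith) (by linarith)
    push_cast
    nlinarith

theorem ct_row {Q : O} {ψ : O → ℂ} (hψ : IsCh Q ψ) (h72 : (72 : O) ∣ Q) {r : O} {l L : ℝ}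
    (hr : r ∈ box (Real.exp l)) (he : ¬ Exc Q 1 r) (hl : l ≤ 9 / 10 * L)
    (hL : Nr Q ≤ Real.exp (1 / 10 * L)) : IsCh (Q * rad r) (fun n => ψ n * chi n r) ∧
      ¬ Princ (fun n => ψ n * chi n r) ∧ Nr (Q * rad r) ≤ Real.exp L := by
  obtain ⟨h0, h1⟩ := mem_box.1 hr
  refine ⟨hψ.mul_chi h72 h0, by simpa using not_princ_of_not_exc hψ h72 (by simpa using h0) he, ?_⟩
  rw [Nr_mul]
  refine (mul_le_mul hL ((Nr_le_of_dvd h0 (rad_dvd h0)).trans h1) (Nr_nonneg _) (Real.exp_pos _).le).trans ?_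
  rw [← Real.exp_add, Real.exp_le_exp]
  linarith

/-- The zero-density estimate. -/
theorem ct_claim {Q : O} (hQ : Q ≠ 0) (h72 : (72 : O) ∣ Q) {θ s : ℝ}
    (hc : (θ = 22 / 25 ∧ s = 0) ∨ (θ = 1 ∧ s = 1 / 250)) (hZF : ZF θ) {e : ℝ} (he : 0 < e)
    (he1 : e ≤ 1 / 200) : ∃ δ₁ : ℝ, 0 < δ₁ ∧ ∀ J : ℕ, 1 ≤ e * J →
    ∃ η₁ : ℝ, 0 < η₁ ∧ ∀ η₀ : ℝ, 0 < η₀ → η₀ ≤ η₁ → ∀ᶠ L : ℝ in Filter.atTop,
      ∀ (l u w T : ℝ) (ψ : O → ℂ) (Z : Fin J → ℝ) (S : Finset O), IsCh Q ψ →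
      0 ≤ l → l ≤ 9 / 10 * L → 0 ≤ w → w ≤ u → u ≤ 2 * θ - 1 → T ≤ L ^ 2 → (∀ i, 1 ≤ Z i) →
      Sep Z (Real.exp L ^ η₀) → (∀ i, Z i ≤ Real.exp (L / (6 * J) + e * L / J)) →
      (∀ r ∈ S, (r ∈ box (Real.exp l) ∧ ¬ Exc Q 1 r) ∧
        Real.exp ((1 + w) / 12 * L) ≤ ∏ i, ct_L Q (Real.exp L ^ η₀) (Z i) r ∧
        ZFl (fun n => ψ n * chi n r) ((1 + u) / 2) (T + 3 * L + 4) ∧
        (0 < Dex s u w → ∃ z : ℂ, Lf (fun n => ψ n * chi n r) z = 0 ∧ (1 + u) / 2 - δ₁ ≤ z.re ∧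
          |z.im| ≤ T)) →
      (S.card : ℝ) ≤ Real.exp ((1 - Dex s u w) * l + 34 * (e * L)) := by
  classical
  obtain ⟨c, hc1, hc2⟩ : ∃ c : ℝ, ((θ = 22 / 25 ∧ c = 5 / 24) ∨ c = 0) ∧ ∀ u, u ≤ 2 * θ - 1 →
      (c = 5 / 24 ∧ s = 0 ∧ u ≤ 19 / 25) ∨ (c = 0 ∧ s = 1 / 250 ∧ u ≤ 1) := by
    rcases hc with ⟨rfl, rfl⟩ | ⟨rfl, rfl⟩
    · exact ⟨5 / 24, Or.inl ⟨rfl, rfl⟩, fun u hu => Or.inl ⟨rfl, rfl, by linarith⟩⟩
    · exact ⟨0, Or.inr rfl, fun u hu => Or.inr ⟨rfl, rfl, by linarith⟩⟩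
  have hθ : 1 / 2 ≤ θ := by rcases hc with ⟨h, -⟩ | ⟨h, -⟩ <;> rw [h] <;> norm_num
  have hθ1 : θ ≤ 1 := by rcases hc with ⟨h, -⟩ | ⟨h, -⟩ <;> rw [h] <;> norm_num
  obtain ⟨δ₁, x₀, hδ, hdet⟩ := detect one_pos one_pos (half_pos he)
  refine ⟨δ₁, hδ, fun J hJ => ?_⟩
  obtain ⟨η₁, hη₁, H₁⟩ := ct_cntS hQ h72 he he1 hJ
  obtain ⟨η₂, hη₂, H₂⟩ := ct_cntA hQ h72 hθ hθ1 hc1 hZF he he1 hJ
  refine ⟨min η₁ η₂, lt_min hη₁ hη₂, fun η₀ h0 h1 => ?_⟩
  filter_upwards [H₁ η₀ h0 (h1.trans (min_le_left _ _)), H₂ η₀ h0 (h1.trans (min_le_right _ _)),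
    ct_ev0 he 25, ct_ev0 one_pos x₀, ct_ev0 (e := 1 / 10) (by norm_num) (Nr Q),
    Filter.eventually_ge_atTop (0 : ℝ)]
    with L H₁ H₂ h25 hx₀ hQL hL l u w T ψ Z S hψ hl0 hl hw hwu hu hT hZ hSep hZ2 hS
  have heL : 0 ≤ e * L := by positivity
  have htriv : Dex s u w * l ≤ e * L → (S.card : ℝ) ≤ Real.exp ((1 - Dex s u w) * l + 34 * (e * L)) := by
    intro h
    calc (S.card : ℝ) ≤ (box (Real.exp l)).card :=
          Nat.cast_le.2 (Finset.card_le_card fun r hr => (hS r hr).1.1)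
      _ ≤ Real.exp (e * L) * Real.exp l :=
          (card_box_le (Real.exp_pos _).le).trans (mul_le_mul_of_nonneg_right h25 (Real.exp_pos _).le)
      _ ≤ _ := by
          rw [← Real.exp_add, Real.exp_le_exp]
          linarith
  rcases le_or_gt (Dex s u w) 0 with hD | hD
  · exact htriv ((mul_nonpos_of_nonpos_of_nonneg hD hl0).trans heL)
  obtain ⟨d, ν, d1, d2, n1, n2, c0, c1, c2, c3⟩ := lp (hc2 u hu) hw hwu hD
  rcases le_total l (e * L) with hle | hle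
  · exact htriv ((mul_le_of_le_one_left hl0 (by linarith)).trans hle)
  let P : O → Prop := fun r => ∃ v γ, d * l ≤ v ∧ v ≤ ν * l ∧ |γ| ≤ L ^ 2 ∧
    Real.exp ((1 + u) / 2 * v - e * L) ≤ ‖sm 1 (fun n => mu n * (ψ n * chi n r)) (Real.exp v) γ‖
  have a1 := H₁ l u w _ d ν ψ Z (S.filter P) hψ hl0 hl hw hwu (by linarith) d1 n2 c0 c1 c2 hZ hSep hZ2
    fun r hr => by
      obtain ⟨h1, h2⟩ := Finset.mem_filter.1 hr
      exact ⟨(hS r h1).1.1, (hS r h1).2.1, h2⟩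
  have a2 := H₂ l u w _ (ν - d) ψ Z (S.filter fun r => ¬ P r) hψ hl0 hl hw hwu (by linarith)
    (by linarith) c3 hZ hSep hZ2 fun r hr => by
      obtain ⟨h1, h2⟩ := Finset.mem_filter.1 hr
      obtain ⟨b1, b2, b3, b4⟩ := hS r h1
      refine ⟨b1, b2, ?_⟩
      obtain ⟨z, z1, z2, z3⟩ := b4 hD
      obtain ⟨q1, q2, q3⟩ := ct_row hψ h72 b1.1 b1.2 hl hQL
      have hexp : ∀ v, Real.exp ((1 + u) / 2 * v - e * L) ≤
          Real.exp L ^ (-(e / 2)) * Real.exp ((1 + u) / 2 * v) := fun v => by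
        rw [← Real.exp_mul, ← Real.exp_add, Real.exp_le_exp]
        linarith
      have := hdet (Real.exp L) _ _ ((1 + u) / 2) _ z.re z.im (d * l) (ν * l) (by simpa using hx₀) q1 q2 q3
        (by linarith) (by linarith) b3 (by rwa [Complex.re_add_im]) z2 (by rw [Real.log_exp]; linarith)
        (by rw [Real.log_exp]; linarith) (by positivity) (by nlinarith) (by rw [Real.log_exp]; nlinarith)
        (by rw [Real.log_exp]; nlinarith)
      rw [Real.log_exp] at this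
      rcases this with ⟨v, v1, v2, v3⟩ | ⟨v, v1, v2, v3⟩
      · exact absurd ⟨v, z.im, v1, v2, z3.trans hT, (hexp v).trans v3⟩ h2
      · exact ⟨v, z.im, by linarith, v2, z3.trans hT, (hexp v).trans v3⟩
  rw [← Finset.card_filter_add_card_filter_not P, Nat.cast_add,
    show (1 - Dex s u w) * l + 34 * (e * L) = (1 - Dex s u w) * l + 33 * (e * L) + e * L by ring,
    Real.exp_add]
  have a3 : Real.exp ((1 - Dex s u w) * l + 13 * (e * L)) ≤ Real.exp ((1 - Dex s u w) * l + 33 * (e * L)) :=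
    Real.exp_le_exp.2 (by linarith)
  nlinarith [Real.exp_pos ((1 - Dex s u w) * l + 33 * (e * L))]

theorem ct_grid {P h L a : ℝ} (hL : 0 ≤ L) (ha : h / 12 * L ≤ a) (h0 : Real.exp (1 / 12 * L) ≤ P) :
    ∀ i : ℕ, P ≤ Real.exp ((1 + i * h) / 12 * L + a) → ∃ k ≤ i,
      Real.exp ((1 + k * h) / 12 * L) ≤ P ∧ P ≤ Real.exp ((1 + k * h) / 12 * L + a) := by
  intro i
  induction i with
  | zero => exact fun h1 => ⟨0, le_rfl, by simpa using h0, h1⟩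
  | succ i ih =>
    intro h1
    rcases le_total (Real.exp ((1 + (i + 1 : ℕ) * h) / 12 * L)) P with h2 | h2
    · exact ⟨i + 1, le_rfl, h2, h1⟩
    · obtain ⟨k, hk, h3⟩ := ih (h2.trans (Real.exp_le_exp.2 (by push_cast; linarith)))
      exact ⟨k, by omega, h3⟩

theorem ct_expo {s u w l L a : ℝ} (hs : 0 ≤ s) (hs1 : s ≤ 1 / 250) (hw : 0 ≤ w) (hwu : w ≤ u)
    (hu : u ≤ 1) (ha : 0 ≤ a) (hl : l ≤ 81 / 100 * L + a) :
    (1 - Dex s u w) * l + ((1 + u) / 2 * L + 143 / 300 * (1 - (1 + u) / 2) * L + u / 2 * l +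
      (1 + w) / 12 * L) ≤ (124 / 75 + s) * L + (l - 81 / 100 * L) / 2 + 2 * a := by
  have e : 81 / 100 * Dex s u w = 2 / 3 * u + w / 12 - 13 / 600 - s := by
    unfold Dex
    field_simp
  generalize Dex s u w = D at *
  have k0 : 0 ≤ 1 / 2 - D + u / 2 := by linarith
  have k1 : 1 / 2 - D + u / 2 ≤ 2 := by linarith
  have h1 : (1 / 2 - D + u / 2) * (l - 81 / 100 * L) ≤ (1 / 2 - D + u / 2) * a :=
    mul_le_mul_of_nonneg_left (by linarith) k0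
  have h2 := mul_le_mul_of_nonneg_right k1 ha
  have h3 : 81 / 100 * D * L = (2 / 3 * u + w / 12 - 13 / 600 - s) * L := by rw [e]
  linarith

end Crest.Agent.R017

end
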