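import Crest.Agent.R017.DetectAux1

/-! # Row 17: the zero detector, vanishing of the Mellin transform and the abstract estimate -/

set_option autoImplicit false

noncomputable section

open scoped BigOperators ComplexConjugate Topology
open Complex MeasureTheory Set Filter Asymptotics

namespace Crest.Agent.R017

theorem dt_mellin (b : ℝ) (η : O → ℂ) (γ s : ℝ) :
    mellin (fun t : ℝ => sm b η t⁻¹ γ) s = ∫ u, dtS b η γ s u := by
  rw [mellin_eq_fourier, Real.fourier_real_eq]
  refine integral_congr_ae (Eventually.of_forall fun u => ?_)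
  simp only [dtS, Complex.ofReal_im, zero_div, mul_zero, neg_zero, AddChar.map_zero_eq_one, one_smul,
    Complex.ofReal_re, Real.exp_neg u, inv_inv, Complex.real_smul, neg_mul]
  ring

theorem dt_mellin_diff {b : ℝ} (hb : 0 < b) {q : O} {η : O → ℂ} (h : IsCh q η) (hp : ¬ Princ η) (γ : ℝ) :
    Differentiable ℂ (mellin (fun t : ℝ => sm b η t⁻¹ γ)) := by
  intro s
  have hη : ∀ n, Prim n → ‖η n‖ ≤ 1 := fun n _ => h.norm_le n
  refine mellin_differentiableAt_of_isBigO_rpow (a := s.re + 1) (b := -(|s.re| + 1)) ?_ ?_ (by linarith) ?_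
    (by linarith [neg_abs_le s.re])
  · refine ContinuousOn.locallyIntegrableOn ?_ measurableSet_Ioi
    have h1 := continuous_sm hb (c := η) (K := 1) (A := 0) (fun n hn => by simpa using hη n hn)
    have h2 : ContinuousOn (fun t : ℝ => sm b η (Real.exp (-Real.log t)) γ) (Ioi 0) :=
      h1.comp_continuousOn (f := fun t : ℝ => (-Real.log t, γ))
        ((Real.continuousOn_log.mono fun t ht => (ne_of_gt ht)).neg.prodMk continuousOn_const)
    refine h2.congr fun t ht => ?_
    simp only [Real.exp_neg, Real.exp_log ht]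
  · obtain ⟨C, hC⟩ := norm_sm_le hb (s.re + 1)
    refine IsBigO.of_bound C ?_
    filter_upwards [eventually_ge_atTop (1 : ℝ)] with t ht
    have ht0 : 0 < t := by linarith
    have h1 := hC η t⁻¹ γ (inv_pos.2 ht0) hη (Or.inr (inv_le_one_of_one_le₀ ht))
    rwa [Real.norm_of_nonneg (Real.rpow_nonneg ht0.le _), Real.rpow_neg ht0.le, ← Real.inv_rpow ht0.le]
  · obtain ⟨C, -, hC⟩ := sm_decay hb (|s.re| + 1) (by positivity)
    refine IsBigO.of_bound (C * (1 + |γ|) ^ C * Nr q * Nr q ^ (|s.re| + 1)) ?_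
    filter_upwards [self_mem_nhdsWithin] with t ht
    have ht0 : 0 < t := ht
    have h1 := hC q η h hp t⁻¹ γ (inv_pos.2 ht0)
    rw [div_inv_eq_mul] at h1
    rwa [Real.norm_of_nonneg (Real.rpow_nonneg ht0.le _), neg_neg, mul_assoc,
      ← Real.mul_rpow (Nr_nonneg q) ht0.le]

theorem dt_integral_Lf {b : ℝ} (hb : 0 < b) {q : O} {η : O → ℂ} (h : IsCh q η) (hp : ¬ Princ η) (γ s : ℝ) :
    ∫ u, dtS b η γ s u = Wh b s * Lf η (s + γ * I) := by
  have hη : ∀ n, Prim n → ‖η n‖ ≤ 1 := fun n _ => h.norm_le n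
  have h1 : Differentiable ℂ fun z : ℂ => Wh b z * Lf η (z + γ * I) := by
    refine Differentiable.mul (by unfold Wh; fun_prop) fun z => ?_
    exact (h.Lf_differentiableAt (Or.inr hp)).comp z (f := fun z : ℂ => z + γ * I) (by fun_prop)
  have h2 : mellin (fun t : ℝ => sm b η t⁻¹ γ) = fun z : ℂ => Wh b z * Lf η (z + γ * I) := by
    refine AnalyticOnNhd.eq_of_frequently_eq (z₀ := 2)
      ((dt_mellin_diff hb h hp γ).differentiableOn.analyticOnNhd isOpen_univ)
      (h1.differentiableOn.analyticOnNhd isOpen_univ) ?_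
    have h3 : Tendsto (fun x : ℝ => (x : ℂ)) (𝓝[>] 2) (𝓝[≠] 2) := by
      refine tendsto_nhdsWithin_iff.2 ⟨?_, ?_⟩
      · have := (Complex.continuous_ofReal.tendsto 2).mono_left (nhdsWithin_le_nhds (s := Ioi 2))
        simpa using this
      · filter_upwards [self_mem_nhdsWithin] with x hx
        have : x ≠ 2 := ne_of_gt hx
        rw [mem_compl_singleton_iff]
        exact_mod_cast this
    refine h3.frequently (Eventually.frequently ?_)
    filter_upwards [self_mem_nhdsWithin] with x hx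
    have hx1 : 1 < x := lt_trans one_lt_two hx
    rw [dt_mellin, dt_integral_eq hb hη γ hx1, h.Lf_eq (by simpa using hx1)]
  rw [← dt_mellin, h2]

theorem dt_integrable_of {A : ℝ → ℂ} (hA : Continuous A) {C C' : ℝ} (h1 : ∀ v, v ≤ 0 → ‖A v‖ ≤ C * Real.exp v)
    (h2 : ∀ v, 0 < v → ‖A v‖ ≤ C' * Real.exp (-1 * v)) : Integrable A := by
  rw [← integrableOn_univ, ← Iic_union_Ioi (a := (0 : ℝ))]
  refine IntegrableOn.union ?_ ?_
  · exact Integrable.mono' ((integrableOn_exp_Iic 0).const_mul C) hA.aestronglyMeasurable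
      ((ae_restrict_iff' measurableSet_Iic).2 (Eventually.of_forall h1))
  · exact Integrable.mono' ((integrableOn_exp_mul_Ioi (by norm_num) 0).const_mul C') hA.aestronglyMeasurable
      ((ae_restrict_iff' measurableSet_Ioi).2 (Eventually.of_forall h2))

theorem dt_tail {A : ℝ → ℂ} (hA : Integrable A) (h0 : ∫ v, A v = 0) {y₀ y R D M τ : ℝ} (hy : y₀ ≤ y)
    (hD : R - y₀ ≤ D) (hD0 : 0 ≤ D) (hM : 0 ≤ M) (h1 : ∀ v, y₀ ≤ v → v ≤ R → ‖A v‖ ≤ M)
    (h2 : ∫ v in Ioi R, ‖A v‖ ≤ τ) : ‖∫ v in Iic y, A v‖ ≤ D * M + τ := by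
  have h3 := integral_add_compl (measurableSet_Iic (a := y)) hA
  rw [h0, compl_Iic] at h3
  rw [eq_neg_of_add_eq_zero_left h3, norm_neg, ← integral_indicator measurableSet_Ioi]
  have i1 : Integrable ((Icc y₀ R).indicator fun _ : ℝ => M) :=
    (integrable_indicator_iff measurableSet_Icc).2 (integrableOn_const (by simp))
  have i2 : Integrable ((Ioi R).indicator fun v : ℝ => ‖A v‖) := hA.norm.indicator measurableSet_Ioi
  refine (norm_integral_le_of_norm_le (i1.add i2) (Eventually.of_forall fun v => ?_)).trans ?_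
  · simp only [Pi.add_apply]
    by_cases hv : y < v
    · rw [indicator_of_mem (show v ∈ Ioi y from hv)]
      by_cases hv' : R < v
      · rw [indicator_of_mem (show v ∈ Ioi R from hv')]
        exact le_add_of_nonneg_left (indicator_nonneg (fun _ _ => hM) _)
      · rw [indicator_of_mem (show v ∈ Icc y₀ R from ⟨by linarith, not_lt.1 hv'⟩)]
        exact (h1 v (by linarith) (not_lt.1 hv')).trans
          (le_add_of_nonneg_right (indicator_nonneg (fun _ _ => norm_nonneg _) _))
    · rw [indicator_of_notMem (show v ∉ Ioi y from hv), norm_zero]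
      exact add_nonneg (indicator_nonneg (fun _ _ => hM) _) (indicator_nonneg (fun _ _ => norm_nonneg _) _)
  · simp only [Pi.add_apply]
    rw [integral_add i1 i2, integral_indicator measurableSet_Icc, integral_indicator measurableSet_Ioi,
      setIntegral_const, Real.volume_real_Icc, smul_eq_mul]
    exact add_le_add (mul_le_mul_of_nonneg_right (max_le hD hD0) hM) h2

theorem dt_head {A : ℝ → ℂ} {C B y : ℝ} (hB : 1 ≤ B) (hC : 0 ≤ C) (hy : y ≤ 0)
    (h1 : ∀ v, v ≤ 0 → ‖A v‖ ≤ C * Real.exp (B * v)) : ‖∫ v in Iic y, A v‖ ≤ C * Real.exp (B * y) := by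
  have hB0 : 0 < B := by linarith
  refine (norm_integral_le_of_norm_le ((integrableOn_exp_mul_Iic hB0 y).const_mul C)
    ((ae_restrict_iff' measurableSet_Iic).2 (Eventually.of_forall fun v hv => h1 v (le_trans hv hy)))).trans ?_
  rw [integral_const_mul, integral_exp_mul_Iic hB0]
  exact mul_le_mul_of_nonneg_left (div_le_self (Real.exp_pos _).le hB) hC

/-- The abstract estimate. -/
theorem dt_estimate {S A : ℝ → ℂ} (hA : Integrable A) (h0 : ∫ v, A v = 0) {C B U₁ U₂ E R D M m τ : ℝ}
    (hC : 0 ≤ C) (hB : 2 ≤ B) (hU₁ : 0 ≤ U₁) (hU : U₁ ≤ U₂) (hE : 0 ≤ E) (hR : U₂ ≤ R) (hD : R + E ≤ D)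
    (hM : 0 ≤ M) (hm : 0 ≤ m) (hτ : 0 ≤ τ)
    (s0 : ∀ u, ‖S u‖ ≤ C * Real.exp u) (s1 : ∀ u, 0 ≤ u → u ≤ U₂ → ‖S u‖ ≤ M)
    (s2 : ∀ u, U₁ ≤ u → u ≤ U₂ → ‖S u‖ ≤ m)
    (a0 : ∀ v, v ≤ 0 → ‖A v‖ ≤ C * Real.exp (B * v)) (a1 : ∀ v, -E ≤ v → v ≤ R → ‖A v‖ ≤ M)
    (a2 : ∀ v, U₂ - U₁ - E ≤ v → v ≤ R → ‖A v‖ ≤ m) (a3 : ∫ v in Ioi R, ‖A v‖ ≤ τ) :
    ‖∫ u, S u * ∫ v in Iic (U₂ - E - u), A v‖ ≤
      C * C * Real.exp (U₂ - B * E) + D * (m * (D * M + τ)) + D * (M * (D * m + τ)) + C * (D * m + τ) := by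
  have hD0 : 0 ≤ D := by linarith
  have hP : 0 ≤ D * M + τ := by positivity
  have hQ : 0 ≤ D * m + τ := by positivity
  have hB1 : 1 - B < 0 := by linarith
  have i1 : Integrable ((Ioi U₂).indicator fun u : ℝ =>
      C * C * Real.exp (B * (U₂ - E)) * Real.exp ((1 - B) * u)) :=
    (integrable_indicator_iff measurableSet_Ioi).2 ((integrableOn_exp_mul_Ioi hB1 U₂).const_mul _)
  have i2 : Integrable ((Icc U₁ U₂).indicator fun _ : ℝ => m * (D * M + τ)) :=
    (integrable_indicator_iff measurableSet_Icc).2 (integrableOn_const (by simp))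
  have i3 : Integrable ((Icc 0 U₁).indicator fun _ : ℝ => M * (D * m + τ)) :=
    (integrable_indicator_iff measurableSet_Icc).2 (integrableOn_const (by simp))
  have i4 : Integrable ((Iic 0).indicator fun u : ℝ => C * (D * m + τ) * Real.exp u) :=
    (integrable_indicator_iff measurableSet_Iic).2 ((integrableOn_exp_Iic 0).const_mul _)
  have n1 : ∀ u, 0 ≤ (Ioi U₂).indicator (fun u : ℝ =>
      C * C * Real.exp (B * (U₂ - E)) * Real.exp ((1 - B) * u)) u :=
    indicator_nonneg fun _ _ => by positivity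
  have n2 : ∀ u, 0 ≤ (Icc U₁ U₂).indicator (fun _ : ℝ => m * (D * M + τ)) u :=
    indicator_nonneg fun _ _ => by positivity
  have n3 : ∀ u, 0 ≤ (Icc 0 U₁).indicator (fun _ : ℝ => M * (D * m + τ)) u :=
    indicator_nonneg fun _ _ => by positivity
  have n4 : ∀ u, 0 ≤ (Iic 0).indicator (fun u : ℝ => C * (D * m + τ) * Real.exp u) u :=
    indicator_nonneg fun _ _ => by positivity
  refine (norm_integral_le_of_norm_le (((i1.add i2).add i3).add i4) (Eventually.of_forall fun u => ?_)).trans ?_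
  · simp only [Pi.add_apply]
    rw [norm_mul]
    have := n1 u
    have := n2 u
    have := n3 u
    have := n4 u
    rcases lt_or_ge U₂ u with hu | hu
    · have h1 := dt_head (y := U₂ - E - u) (by linarith) hC (by linarith) a0
      have h2 := mul_le_mul (s0 u) h1 (norm_nonneg _) (by positivity)
      have h3 : C * Real.exp u * (C * Real.exp (B * (U₂ - E - u))) =
          C * C * Real.exp (B * (U₂ - E)) * Real.exp ((1 - B) * u) := by
        have : Real.exp u * Real.exp (B * (U₂ - E - u)) =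
            Real.exp (B * (U₂ - E)) * Real.exp ((1 - B) * u) := by
          rw [← Real.exp_add, ← Real.exp_add]
          congr 1
          ring
        linear_combination C * C * this
      rw [indicator_of_mem (show u ∈ Ioi U₂ from hu)]
      linarith
    rcases le_or_gt U₁ u with hu1 | hu1
    · have h1 := dt_tail hA h0 (y₀ := -E) (y := U₂ - E - u) (D := D) (by linarith) (by linarith) hD0 hM a1 a3
      have h2 := mul_le_mul (s2 u hu1 hu) h1 (norm_nonneg _) hm
      rw [indicator_of_mem (show u ∈ Icc U₁ U₂ from ⟨hu1, hu⟩)]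
      linarith
    have h1 := dt_tail hA h0 (y₀ := U₂ - U₁ - E) (y := U₂ - E - u) (D := D) (by linarith) (by linarith) hD0 hm a2 a3
    rcases le_total 0 u with hu0 | hu0
    · have h2 := mul_le_mul (s1 u hu0 hu) h1 (norm_nonneg _) hM
      rw [indicator_of_mem (show u ∈ Icc 0 U₁ from ⟨hu0, hu1.le⟩)]
      linarith
    · have h2 := mul_le_mul (s0 u) h1 (norm_nonneg _) (by positivity)
      rw [indicator_of_mem (show u ∈ Iic 0 from hu0)]
      linarith
  · rw [integral_add' ((i1.add i2).add i3) i4, integral_add' (i1.add i2) i3, integral_add' i1 i2,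
      integral_indicator measurableSet_Ioi, integral_indicator measurableSet_Icc,
      integral_indicator measurableSet_Icc, integral_indicator measurableSet_Iic,
      setIntegral_const, setIntegral_const, Real.volume_real_Icc, Real.volume_real_Icc, smul_eq_mul, smul_eq_mul,
      integral_const_mul, integral_const_mul, integral_exp_mul_Ioi hB1, integral_exp_Iic_zero, mul_one]
    refine add_le_add (add_le_add (add_le_add ?_ ?_) ?_) le_rfl
    · rw [mul_assoc (C * C)]
      refine mul_le_mul_of_nonneg_left ?_ (mul_nonneg hC hC)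
      have h1 : -Real.exp ((1 - B) * U₂) / (1 - B) ≤ Real.exp ((1 - B) * U₂) := by
        rw [neg_div, ← div_neg]
        exact div_le_self (Real.exp_pos _).le (by linarith)
      refine (mul_le_mul_of_nonneg_left h1 (Real.exp_pos _).le).trans (le_of_eq ?_)
      rw [← Real.exp_add]
      congr 1
      ring
    · exact mul_le_mul_of_nonneg_right (max_le (by linarith) hD0) (by positivity)
    · exact mul_le_mul_of_nonneg_right (max_le (by linarith) hD0) (by positivity)

end Crest.Agent.R017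

end
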