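import Crest.Agent.R017.Pointwise
import Crest.Agent.R017.Reflect
import Crest.Agent.R017.DetectAux2

/-! # Row 17: the zero detector -/

set_option autoImplicit false

noncomputable section

open scoped BigOperators ComplexConjugate
open Complex MeasureTheory

namespace Crest.Agent.R017

theorem dt_small {a : ℝ} (ha : 0 < a) (B : ℝ) : ∃ C : ℝ, 0 ≤ C ∧ ∀ (c : O → ℂ) (γ β v : ℝ),
    (∀ n, Prim n → ‖c n‖ ≤ 1) → β ≤ 1 → v ≤ 0 → ‖dtS a c γ β v‖ ≤ C * Real.exp (B * v) := by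
  obtain ⟨C, hC⟩ := norm_sm_le ha (B + 1)
  refine ⟨max C 0, le_max_right _ _, fun c γ β v hc hβ hv => ?_⟩
  have h1 := hC c (Real.exp v) γ (Real.exp_pos v) hc (Or.inr (Real.exp_le_one_iff.2 hv))
  rw [← Real.exp_mul] at h1
  rw [dtS_norm]
  calc _ ≤ max C 0 * Real.exp (v * (B + 1)) * Real.exp (-(β * v)) :=
        mul_le_mul_of_nonneg_right (h1.trans (mul_le_mul_of_nonneg_right (le_max_left _ _) (Real.exp_pos _).le))
          (Real.exp_pos _).le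
    _ ≤ _ := by
        rw [mul_assoc, ← Real.exp_add]
        refine mul_le_mul_of_nonneg_left (Real.exp_le_exp.2 ?_) (le_max_right _ _)
        nlinarith

theorem dt_triv {a : ℝ} (ha : 0 < a) : ∃ C : ℝ, 0 ≤ C ∧ ∀ (c : O → ℂ) (γ β v : ℝ),
    (∀ n, Prim n → ‖c n‖ ≤ 1) → 0 ≤ β → β ≤ 1 → ‖dtS a c γ β v‖ ≤ C * Real.exp v := by
  obtain ⟨C, hC⟩ := norm_sm_le ha 1
  obtain ⟨C', hC', h'⟩ := dt_small ha 1
  refine ⟨max C C', hC'.trans (le_max_right _ _), fun c γ β v hc hβ0 hβ => ?_⟩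
  rcases le_total v 0 with hv | hv
  · have := h' c γ β v hc hβ hv
    rw [one_mul] at this
    exact this.trans (mul_le_mul_of_nonneg_right (le_max_right _ _) (Real.exp_pos _).le)
  · have h1 := hC c (Real.exp v) γ (Real.exp_pos v) hc (Or.inl le_rfl)
    rw [Real.rpow_one] at h1
    rw [dtS_norm]
    refine (mul_le_of_le_one_right (norm_nonneg _) (Real.exp_le_one_iff.2 ?_)).trans
      (h1.trans (mul_le_mul_of_nonneg_right (le_max_left _ _) (Real.exp_pos _).le))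
    nlinarith

theorem dt_large {b A : ℝ} (hb : 0 < b) (hA : 0 ≤ A) : ∃ C : ℝ, 0 ≤ C ∧ ∀ (q : O) (η : O → ℂ), IsCh q η →
    ¬ Princ η → ∀ γ β v : ℝ, 0 ≤ β → 0 ≤ v →
      ‖dtS b η γ β v‖ ≤ C * (1 + |γ|) ^ C * Nr q ^ (1 + A) * Real.exp (-A * v) := by
  obtain ⟨C, hC0, hC⟩ := sm_decay hb A hA
  refine ⟨C, hC0, fun q η h hp γ β v hβ hv => ?_⟩
  have h1 := hC q η h hp (Real.exp v) γ (Real.exp_pos v)
  have hq := Nr_pos h.ne
  rw [dtS_norm]
  refine (mul_le_of_le_one_right (norm_nonneg _) (Real.exp_le_one_iff.2 (by nlinarith))).trans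
    (h1.trans (le_of_eq ?_))
  rw [Real.div_rpow hq.le (Real.exp_pos _).le, ← Real.exp_mul, Real.rpow_add hq, Real.rpow_one, neg_mul,
    Real.exp_neg, mul_comm A v]
  ring

theorem dt_ev {η : ℝ} (hη : 0 < η) (K : ℝ) {K' : ℝ} (hK' : 0 ≤ K') :
    ∀ᶠ L : ℝ in Filter.atTop, K * (1 + L ^ 2) ^ K' ≤ Real.exp (η * L) := by
  have h1 := (isLittleO_rpow_exp_pos_mul_atTop (2 * K') hη).const_mul_left (|K| * 2 ^ K')
  filter_upwards [h1.bound one_pos, Filter.eventually_ge_atTop (1 : ℝ)] with L hL hL1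
  rw [one_mul, Real.norm_of_nonneg (by positivity), Real.norm_of_nonneg (Real.exp_pos _).le] at hL
  refine le_trans ?_ hL
  have h2 : (1 + L ^ 2) ^ K' ≤ 2 ^ K' * L ^ (2 * K') := by
    rw [Real.rpow_mul (by linarith), ← Real.mul_rpow (by norm_num) (by positivity)]
    refine Real.rpow_le_rpow (by positivity) ?_ hK'
    rw [Real.rpow_two]
    nlinarith
  calc K * (1 + L ^ 2) ^ K' ≤ |K| * (1 + L ^ 2) ^ K' :=
        mul_le_mul_of_nonneg_right (le_abs_self K) (by positivity)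
    _ ≤ |K| * (2 ^ K' * L ^ (2 * K')) := mul_le_mul_of_nonneg_left h2 (abs_nonneg K)
    _ = _ := by ring

theorem dt_num {z C e : ℝ} (hz : 1 ≤ z) (hC0 : 0 ≤ C) (hC : C ≤ z) (he0 : 0 ≤ e) (he : e ≤ (z ^ 40)⁻¹) :
    C * C * e + z * ((z ^ 18)⁻¹ * (z * z ^ 4 + (z ^ 19)⁻¹)) + z * (z ^ 4 * (z * (z ^ 18)⁻¹ + (z ^ 19)⁻¹)) +
      C * (z * (z ^ 18)⁻¹ + (z ^ 19)⁻¹) ≤ 7 * z⁻¹ := by
  have hz0 : 0 < z := by linarith
  have key : ∀ k : ℕ, (z ^ (k + 1))⁻¹ ≤ z⁻¹ := fun k =>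
    inv_anti₀ hz0 (le_self_pow₀ hz (Nat.succ_ne_zero k))
  have h1 : C * C * e ≤ z * z * (z ^ 40)⁻¹ :=
    mul_le_mul (mul_le_mul hC hC hC0 hz0.le) he he0 (by positivity)
  have h2 : C * (z * (z ^ 18)⁻¹ + (z ^ 19)⁻¹) ≤ z * (z * (z ^ 18)⁻¹ + (z ^ 19)⁻¹) :=
    mul_le_mul_of_nonneg_right hC (by positivity)
  have e1 : z * z * (z ^ 40)⁻¹ = (z ^ (37 + 1))⁻¹ := by field_simp
  have e2 : z * ((z ^ 18)⁻¹ * (z * z ^ 4 + (z ^ 19)⁻¹)) = (z ^ (11 + 1))⁻¹ + (z ^ (35 + 1))⁻¹ := by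
    field_simp
    ring
  have e3 : z * (z ^ 4 * (z * (z ^ 18)⁻¹ + (z ^ 19)⁻¹)) = (z ^ (11 + 1))⁻¹ + (z ^ (13 + 1))⁻¹ := by
    field_simp
    ring
  have e4 : z * (z * (z ^ 18)⁻¹ + (z ^ 19)⁻¹) = (z ^ (15 + 1))⁻¹ + (z ^ (17 + 1))⁻¹ := by
    field_simp
    ring
  linarith [key 37, key 11, key 35, key 13, key 15, key 17]

/-- If `L(β + iγ, η) = 0` with `β` almost extremal, then an inverse sum of length in
`[e^{U₁}, e^{U₂}]` or a plain sum of length at least `e^{U₂ - U₁} x^{-ε}` is large. -/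
theorem detect {a b ε : ℝ} (ha : 0 < a) (hb : 0 < b) (hε : 0 < ε) : ∃ δ x₀ : ℝ, 0 < δ ∧
    ∀ (x : ℝ) (q : O) (η : O → ℂ) (σ T β γ U₁ U₂ : ℝ),
    x₀ ≤ x → IsCh q η → ¬ Princ η → Nr q ≤ x → 1 / 2 ≤ σ → σ ≤ 1 → ZFl η σ T →
    Lf η (β + γ * I) = 0 → σ - δ ≤ β → |γ| ≤ Real.log x ^ 2 → |γ| + 3 * Real.log x + 4 ≤ T →
    0 ≤ U₁ → U₁ ≤ U₂ → 2 * ε * Real.log x ≤ U₂ → U₂ ≤ 2 * Real.log x →
    (∃ u : ℝ, U₁ ≤ u ∧ u ≤ U₂ ∧
      x ^ (-ε) * Real.exp (σ * u) ≤ ‖sm a (fun n => mu n * η n) (Real.exp u) γ‖) ∨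
    (∃ v : ℝ, U₂ - U₁ - ε * Real.log x ≤ v ∧ v ≤ 2 * Real.log x ∧
      x ^ (-ε) * Real.exp (σ * v) ≤ ‖sm b η (Real.exp v) γ‖) := by
  obtain ⟨C₁, hC₁, h₁⟩ := dt_triv ha
  obtain ⟨C₂, hC₂, h₂⟩ := dt_small hb (2 / ε + 2)
  obtain ⟨C₃, hC₃, h₃⟩ := dt_large hb (A := 1 + ε) (by linarith)
  obtain ⟨C₄, hC₄, h₄⟩ := pw_S ha (ε := ε / 40) (by positivity)
  obtain ⟨C₅, hC₅, h₅⟩ := pw_A hb (ε := ε / 40) (by positivity)
  obtain ⟨C₆, -, h₆⟩ := dt_small hb 1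
  obtain ⟨C₇, -, h₇⟩ := dt_large hb (A := 1) zero_le_one
  have hc : 0 < dtH a 0 0 * dtH b 0 0 := mul_pos (dtH_pos ha 0 0) (dtH_pos hb 0 0)
  set c := dtH a 0 0 * dtH b 0 0 with hcdef
  have hη : 0 < ε / 20 := by positivity
  obtain ⟨L₀, hL₀⟩ := Filter.eventually_atTop.1 ((dt_ev hη (C₁ + C₂ + C₄ + C₅ + 8 / c) le_rfl).and
    ((dt_ev hη (2 + ε) zero_le_one).and ((dt_ev hη C₃ hC₃).and (Filter.eventually_ge_atTop (0 : ℝ)))))
  refine ⟨min (ε / 20) (1 / 4), Real.exp L₀, lt_min hη (by norm_num), ?_⟩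
  intro x q η σ T β γ U₁ U₂ hx h hp hq hσ hσ1 hZ hρ hβ hγ hT hU₁ hU hU₂ hU₂'
  have hx0 : 0 < x := (Real.exp_pos _).trans_le hx
  obtain ⟨L, rfl⟩ : ∃ L, x = Real.exp L := ⟨Real.log x, (Real.exp_log hx0).symm⟩
  rw [Real.log_exp] at *
  obtain ⟨e1, e2, e3, hL⟩ := hL₀ L (Real.exp_le_exp.1 hx)
  rw [Real.rpow_zero, mul_one] at e1
  rw [Real.rpow_one] at e2
  set z := Real.exp (ε / 20 * L) with hz
  have hzp : ∀ k : ℕ, z ^ k = Real.exp (k * (ε / 20 * L)) := fun k => by rw [hz, ← Real.exp_nat_mul]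
  have hz1 : 1 ≤ z := Real.one_le_exp (by positivity)
  have hz0 : 0 < z := by linarith
  have hc8 : 0 < 8 / c := by positivity
  have hδ1 := min_le_left (ε / 20) (1 / 4 : ℝ)
  have hδ2 := min_le_right (ε / 20) (1 / 4 : ℝ)
  have hεL : 0 ≤ ε * L := by positivity
  have hβσ : β ≤ σ := by
    by_contra hlt
    refine hZ (β + γ * I) (by simpa using hlt) ?_ hρ
    simp only [add_im, ofReal_im, mul_im, ofReal_re, I_im, mul_one, I_re, mul_zero, add_zero, zero_add]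
    linarith
  have hβ0 : 0 ≤ β := by linarith
  have hβ1 : β ≤ 1 := by linarith
  have hη1 : ∀ n, Prim n → ‖η n‖ ≤ 1 := fun n _ => h.norm_le n
  have hμ : ∀ n, Prim n → ‖mu n * η n‖ ≤ 1 := fun n _ => by
    rw [norm_mul]
    exact mul_le_one₀ (norm_mu_le n) (norm_nonneg _) (h.norm_le n)
  by_contra hcon
  rw [not_or, not_exists, not_exists] at hcon
  obtain ⟨hn1, hn2⟩ := hcon
  -- the exponential factor
  have hexp : ∀ u, u ≤ 2 * L → Real.exp (σ * u) * Real.exp (-(β * u)) ≤ z ^ 2 := by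
    intro u hu
    rw [← Real.exp_add, hzp]
    refine Real.exp_le_exp.2 ?_
    push_cast
    rcases le_total u 0 with hu0 | hu0
    · nlinarith
    · nlinarith
  have hx2 : 1 ≤ Real.exp (2 * L) := Real.one_le_exp (by positivity)
  have hq2 : Nr q ≤ Real.exp (2 * L) := hq.trans (Real.exp_le_exp.2 (by linarith))
  have hγ2 : |γ| ≤ Real.exp (2 * L) := by
    refine hγ.trans ?_
    rw [two_mul, Real.exp_add, sq]
    have := Real.add_one_le_exp L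
    exact mul_le_mul (by linarith) (by linarith) hL (Real.exp_pos _).le
  have hT2 : |γ| + Real.log (Real.exp (2 * L)) + 4 ≤ T := by
    rw [Real.log_exp]
    linarith
  have hzε : Real.exp (2 * L) ^ (ε / 40) = z := by
    rw [← Real.exp_mul, hz]
    congr 1
    ring
  have hpw : ∀ (a' C : ℝ) (f : O → ℂ) (u : ℝ), C ≤ z → u ≤ 2 * L →
      ‖sm a' f (Real.exp u) γ‖ ≤ C * Real.exp (2 * L) ^ (ε / 40) * Real.exp u ^ σ → ‖dtS a' f γ β u‖ ≤ z ^ 4 := by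
    intro a' C f u hC hu h1
    rw [hzε, ← Real.exp_mul, mul_comm u σ] at h1
    rw [dtS_norm]
    calc _ ≤ C * z * Real.exp (σ * u) * Real.exp (-(β * u)) :=
          mul_le_mul_of_nonneg_right h1 (Real.exp_pos _).le
      _ = C * z * (Real.exp (σ * u) * Real.exp (-(β * u))) := by ring
      _ ≤ z * z * z ^ 2 := mul_le_mul (mul_le_mul_of_nonneg_right hC hz0.le) (hexp u hu) (by positivity)
          (by positivity)
      _ = z ^ 4 := by ring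
  have hz20 : Real.exp L ^ (-ε) = (z ^ 20)⁻¹ := by
    rw [← Real.exp_mul, hzp, ← Real.exp_neg]
    congr 1
    push_cast
    ring
  have halt : ∀ (a' : ℝ) (f : O → ℂ) (u : ℝ), u ≤ 2 * L →
      ¬ Real.exp L ^ (-ε) * Real.exp (σ * u) ≤ ‖sm a' f (Real.exp u) γ‖ → ‖dtS a' f γ β u‖ ≤ (z ^ 18)⁻¹ := by
    intro a' f u hu h1
    rw [not_le, hz20] at h1
    rw [dtS_norm]
    calc _ ≤ (z ^ 20)⁻¹ * Real.exp (σ * u) * Real.exp (-(β * u)) :=
          mul_le_mul_of_nonneg_right h1.le (Real.exp_pos _).le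
      _ = (z ^ 20)⁻¹ * (Real.exp (σ * u) * Real.exp (-(β * u))) := by ring
      _ ≤ (z ^ 20)⁻¹ * z ^ 2 := mul_le_mul_of_nonneg_left (hexp u hu) (by positivity)
      _ = (z ^ 18)⁻¹ := by field_simp
  have hAi : Integrable (dtS b η γ β) :=
    dt_integrable_of (dtS_cont hb hη1 γ β) (C := C₆) (fun v hv => by simpa using h₆ η γ β v hη1 hβ1 hv)
      (fun v hv => h₇ q η h hp γ β v hβ0 hv.le)
  have hA0 : ∫ v, dtS b η γ β v = 0 := by rw [dt_integral_Lf hb h hp, hρ, mul_zero]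
  have hτ : ∫ v in Set.Ioi (2 * L), ‖dtS b η γ β v‖ ≤ (z ^ 19)⁻¹ := by
    have hneg : -(1 + ε) < 0 := by linarith
    have h1 : ∫ v in Set.Ioi (2 * L), ‖dtS b η γ β v‖ ≤ ∫ v in Set.Ioi (2 * L),
        C₃ * (1 + |γ|) ^ C₃ * Nr q ^ (1 + (1 + ε)) * Real.exp (-(1 + ε) * v) :=
      setIntegral_mono_on hAi.norm.integrableOn ((integrableOn_exp_mul_Ioi hneg _).const_mul _) measurableSet_Ioi
        fun v hv => h₃ q η h hp γ β v hβ0 (le_trans (by positivity) (le_of_lt hv))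
    rw [integral_const_mul, integral_exp_mul_Ioi hneg, neg_div_neg_eq] at h1
    have h2 : C₃ * (1 + |γ|) ^ C₃ ≤ z :=
      le_trans (mul_le_mul_of_nonneg_left (Real.rpow_le_rpow (by positivity) (by linarith) hC₃) hC₃) e3
    have h3 : Nr q ^ (1 + (1 + ε)) ≤ Real.exp (L * (1 + (1 + ε))) := by
      rw [Real.exp_mul]
      exact Real.rpow_le_rpow (Nr_nonneg q) hq (by linarith)
    have h4 : Real.exp (-(1 + ε) * (2 * L)) / (1 + ε) ≤ Real.exp (-(1 + ε) * (2 * L)) :=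
      div_le_self (Real.exp_pos _).le (by linarith)
    refine h1.trans ((mul_le_mul (mul_le_mul h2 h3 (Real.rpow_nonneg (Nr_nonneg q) _) hz0.le) h4 (by positivity)
      (by positivity)).trans (le_of_eq ?_))
    rw [hzp, ← Real.exp_neg, hz, ← Real.exp_add, ← Real.exp_add]
    congr 1
    push_cast
    ring
  have hest := dt_estimate (S := dtS a (fun n => mu n * η n) γ β) hAi hA0 (C := C₁ + C₂) (B := 2 / ε + 2)
    (U₁ := U₁) (U₂ := U₂) (E := ε * L) (R := 2 * L) (D := z) (M := z ^ 4) (m := (z ^ 18)⁻¹) (τ := (z ^ 19)⁻¹)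
    (by linarith) (by linarith [div_pos two_pos hε]) hU₁ hU hεL hU₂' (by nlinarith) (by positivity)
    (by positivity) (by positivity)
    (fun u => (h₁ _ γ β u hμ hβ0 hβ1).trans (mul_le_mul_of_nonneg_right (by linarith) (Real.exp_pos _).le))
    (fun u _ hu => hpw a C₄ _ u (by linarith) (by linarith) (h₄ _ q η σ T _ γ hx2 h hp hq2 hσ hσ1 hZ
      (Real.exp_pos _) (Real.exp_le_exp.2 (by linarith)) hγ2 hT2))
    (fun u hu1 hu2 => halt a _ u (by linarith) fun h1 => hn1 u ⟨hu1, hu2, h1⟩)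
    (fun v hv => (h₂ _ γ β v hη1 hβ1 hv).trans (mul_le_mul_of_nonneg_right (by linarith) (Real.exp_pos _).le))
    (fun v _ hv => hpw b C₅ _ v (by linarith) hv (h₅ _ q η σ T _ γ hx2 h hp hq2 hσ hσ1 hZ
      (Real.exp_pos _) (Real.exp_le_exp.2 hv) hγ2 hT2))
    (fun v hv1 hv2 => halt b _ v hv2 fun h1 => hn2 v ⟨hv1, hv2, h1⟩) hτ
  rw [dt_main ha hb h γ hβ0, Complex.norm_real] at hest
  have hK := (dtK_ge ha hb hβ0 (y := U₂ - ε * L) (by linarith)).trans (Real.le_norm_self _)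
  have hnum := dt_num (C := C₁ + C₂) (e := Real.exp (U₂ - (2 / ε + 2) * (ε * L))) hz1 (by linarith) (by linarith)
    (Real.exp_pos _).le (by
      rw [hzp, ← Real.exp_neg]
      refine Real.exp_le_exp.2 ?_
      have : (2 / ε + 2) * (ε * L) = 2 * L + 2 * (ε * L) := by field_simp
      rw [this]
      push_cast
      linarith)
  have h1 : c ≤ 7 * z⁻¹ := hK.trans (hest.trans hnum)
  have h2 : 8 / c ≤ z := by linarith
  rw [div_le_iff₀ hc] at h2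
  rw [← div_eq_mul_inv, le_div_iff₀ hz0] at h1
  linarith

end Crest.Agent.R017

end
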