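import Crest.Agent.R017.T4AuxE

/-! # Row 17: fourth moments -/

set_option autoImplicit false

noncomputable section

open scoped BigOperators ComplexConjugate
open Complex MeasureTheory

namespace Crest.Agent.R017

set_option maxHeartbeats 1600000 in
open Classical in
/-- The fourth moment with prime factors. -/
theorem four_primes {Q : O} (hQ : Q ≠ 0) (h72 : (72 : O) ∣ Q) {θ : ℝ} (hθ : 1 / 2 ≤ θ) (hθ1 : θ ≤ 1)
    (hZF : ZF θ) {a ε : ℝ} (ha : 0 < a) (hε : 0 < ε) (j : ℕ) :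
    ∃ η₁ : ℝ, 0 < η₁ ∧ ∀ η₀ : ℝ, 0 < η₀ → η₀ ≤ η₁ → ∃ C : ℝ, 0 ≤ C ∧
      ∀ (x R N τ : ℝ) (ψ : O → ℂ) (Z : Fin j → ℝ), 1 ≤ x → IsCh Q ψ → 1 ≤ N → R ≤ x →
      (∀ i, 1 ≤ Z i) → Sep Z (x ^ η₀) →
      N ^ 2 * (∏ i, Z i) ^ (10 * θ - 4) ≤ R → (∏ i, Z i) ^ (18 : ℕ) ≤ R →
      ∑ r ∈ (box R).filter (fun r => ¬ Exc Q 1 r), ‖sm a (fun n => ψ n * chi n r) N τ‖ ^ 4 *
          ∏ i, ‖PS Q (Z i) (x ^ η₀) (fun p => chi p r)‖ ^ 2 ≤
        C * x ^ ε * (1 + |τ|) ^ C * R * N ^ 2 * ∏ i, Z i := by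
  set e := min (ε / 23) (1 / 4) with he
  have he0 : 0 < e := lt_min (by positivity) (by norm_num)
  have he1 : e ≤ 1 / 4 := min_le_right _ _
  have he2 : e ≤ ε / 23 := min_le_left _ _
  refine ⟨e / (j + 1), by positivity, fun η₀ hη hη1 => ?_⟩
  have hj : η₀ * j ≤ e := by
    rw [le_div_iff₀ (by positivity)] at hη1
    nlinarith
  obtain ⟨Cc, hCc, hcore⟩ := t4_core hQ h72 hθ hθ1 hZF ha ha he0 he1 hη j hj
  obtain ⟨x₀, Cr, hCr, hrem⟩ := t4_rem hQ h72 hθ hθ1 hZF ha he0 he1 hη j hj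
  obtain ⟨Cs, hCs, hsmall⟩ := t4_small (Q := Q) (x₀ := max x₀ (Nr Q)) hθ ha hη j
  refine ⟨Cs + 6 * Cc + 2 * Cr, by positivity, fun x R N τ ψ Z hx hψ hN hRx hZ hS hNR hZR => ?_⟩
  have hx0 : 0 < x := by linarith
  set Zp := ∏ i, Z i with hZp
  have hZp1 : 1 ≤ Zp := t4_one_le_prod hZ _
  have hR1 : 1 ≤ R := (one_le_pow₀ hZp1).trans hZR
  have hτ1 : 1 ≤ 1 + |τ| := by linarith [abs_nonneg τ]
  have hxε : 1 ≤ x ^ ε := Real.one_le_rpow hx hε.le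
  set T := (1 + |τ|) ^ (Cs + 6 * Cc + 2 * Cr) with hT
  have hT1 : 1 ≤ T := Real.one_le_rpow hτ1 (by positivity)
  rcases le_total x (max x₀ (Nr Q)) with hx₀ | hx₀
  · refine (hsmall x R N τ ψ Z hx hx₀ hψ hN hRx hZ hNR hZR).trans ?_
    calc Cs * R * N ^ 2 * Zp = Cs * 1 * 1 * R * N ^ 2 * Zp := by ring
      _ ≤ _ := by
        gcongr
        linarith
  have hQx : Nr Q ≤ x := (le_max_right _ _).trans hx₀
  obtain ⟨l, hl, hl2, hl3, hl4⟩ := t4_shift hθ hθ1 hN hZp1 hNR hZR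
  have h2 := hrem x R N l τ ψ Z hx ((le_max_left _ _).trans hx₀) hQx hψ hRx hN hl hZ hS hZR hl2 hl3 hl4
  have hxx : x ≤ x ^ 3 := le_self_pow₀ hx (by norm_num)
  have hl0 : 0 < l := by linarith
  have hNl1 : 1 ≤ N * l := one_le_mul_of_one_le_of_one_le hN hl
  have hNl2 : N ≤ N * l := le_mul_of_one_le_right (by linarith) hl
  have hNlR : N * l ≤ R := (le_mul_of_one_le_left (by positivity) (one_le_pow₀ hl)).trans hl4
  have hlx : l ≤ x := (le_mul_of_one_le_left hl0.le hN).trans (hNlR.trans hRx)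
  have hNx : N ≤ x := hNl2.trans (hNlR.trans hRx)
  have hN' : (x ^ 3)⁻¹ ≤ N := (inv_le_one_of_one_le₀ (hx.trans hxx)).trans hN
  have h1 := hcore x R N N l τ 3 1 ψ Z hx hQx hψ hRx hN' (hNx.trans hxx) hN' (hNx.trans hxx) hl
    (hlx.trans hxx) hZ hS hZR (Or.inr rfl) (by norm_num) (by nlinarith)
    (by
      rw [if_neg one_ne_zero, hl2]
      nlinarith [mul_le_mul_of_nonneg_left hNl1 (sq_nonneg l), mul_le_mul_of_nonneg_left hNl2 (sq_nonneg l)])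
  have hw1 : 1 ≤ x ^ e := Real.one_le_rpow hx he0.le
  have hw : (x ^ e) ^ 23 ≤ x ^ ε := by
    rw [← Real.rpow_natCast, ← Real.rpow_mul hx0.le]
    exact Real.rpow_le_rpow_of_exponent_le hx (by push_cast; linarith)
  have hw' : (x ^ e) ^ 18 ≤ x ^ ε := (pow_le_pow_right₀ hw1 (by norm_num)).trans hw
  have hTc : (1 + |τ|) ^ Cc ≤ T := Real.rpow_le_rpow_of_exponent_le hτ1 (by linarith)
  have hTr : (1 + |τ|) ^ Cr ≤ T := Real.rpow_le_rpow_of_exponent_le hτ1 (by linarith)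
  have h3 := (Finset.sum_le_sum_of_subset_of_nonneg
    (Finset.filter_subset (fun r => ¬ Exc Q 1 r) (box R)) fun r _ _ =>
      mul_nonneg (sq_nonneg _) (Finset.prod_nonneg fun i _ => sq_nonneg _)).trans h1
  have hpt : ∀ A B D : ℂ, ‖A‖ ^ 4 ≤ 2 * ‖A * A - 1 * (B * D)‖ ^ 2 + 2 * (‖B‖ ^ 2 * ‖D‖ ^ 2) := by
    intro A B D
    have h4 : ‖A‖ ^ 2 ≤ ‖A * A - 1 * (B * D)‖ + ‖B‖ * ‖D‖ := by
      rw [sq, ← norm_mul, ← norm_mul, one_mul]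
      exact norm_le_norm_sub_add _ _
    calc ‖A‖ ^ 4 = (‖A‖ ^ 2) ^ 2 := by ring
      _ ≤ (‖A * A - 1 * (B * D)‖ + ‖B‖ * ‖D‖) ^ 2 := by gcongr
      _ ≤ _ := by nlinarith [sq_nonneg (‖A * A - 1 * (B * D)‖ - ‖B‖ * ‖D‖)]
  refine le_trans (le_trans ?_ (add_le_add (mul_le_mul_of_nonneg_left h3 zero_le_two)
    (mul_le_mul_of_nonneg_left h2 zero_le_two))) ?_
  · rw [Finset.mul_sum, Finset.mul_sum, ← Finset.sum_add_distrib]
    refine Finset.sum_le_sum fun r _ => ?_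
    have h5 : 0 ≤ ∏ i, ‖PS Q (Z i) (x ^ η₀) (fun p => chi p r)‖ ^ 2 :=
      Finset.prod_nonneg fun i _ => sq_nonneg _
    refine (mul_le_mul_of_nonneg_right (hpt _ (sm a (fun n => ψ n * chi n r) (N / l) τ)
      (sm a (fun n => ψ n * chi n r) (N * l) τ)) h5).trans (le_of_eq ?_)
    ring
  · calc _ ≤ 2 * (Cc * x ^ ε * T * (N * N) * (3 * R * Zp)) + 2 * (Cr * x ^ ε * T * R * N ^ 2 * Zp) := by
          gcongr
      _ = (0 + 6 * Cc + 2 * Cr) * x ^ ε * T * R * N ^ 2 * Zp := by ring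
      _ ≤ _ := by gcongr

end Crest.Agent.R017

end
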