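import Crest.Agent.R017.T2P
import Crest.Agent.R017.T4
import Crest.Agent.R017.Detect
import Crest.Agent.R017.LP
import Crest.Agent.R017.Sieve
import Crest.Agent.R017.CountAux3

/-! # Row 17: counting the rows with large zeros -/

set_option autoImplicit false

noncomputable section

open scoped BigOperators ComplexConjugate
open Complex MeasureTheory

namespace Crest.Agent.R017

/-- The slots used in the final argument. -/
def Zs (X η₀ : ℝ) (J : ℕ) (i : Fin J) : ℝ := X ^ (1 / (6 * (J : ℝ)) + 2 * η₀ * (i : ℕ))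

theorem ct_Zs {e η₀ L : ℝ} {J : ℕ} (hL : 0 ≤ L) (h0 : 0 < η₀) (h1 : η₀ ≤ e / (2 * J ^ 2)) :
    (∀ i, Real.exp (L / (6 * J)) ≤ Zs (Real.exp L) η₀ J i) ∧
    Sep (Zs (Real.exp L) η₀ J) (Real.exp L ^ η₀) ∧
    ∀ i, Zs (Real.exp L) η₀ J i ≤ Real.exp (L / (6 * J) + e * L / J) := by
  simp only [Zs, Sep, ← Real.exp_mul, ← Real.exp_add, ← Real.exp_sub, Real.exp_le_exp]
  refine ⟨fun i => ?_, fun i i' h => ?_, fun i => ?_⟩
  · have : 0 ≤ L * (2 * η₀ * (i : ℕ)) := by positivity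
    rw [mul_add, mul_one_div]
    linarith
  · have h2 : ((i : ℕ) : ℝ) + 1 ≤ (i' : ℕ) := by exact_mod_cast h
    nlinarith [mul_le_mul_of_nonneg_left h2 (mul_nonneg hL h0.le)]
  · have hJ : (0 : ℝ) < J := by exact_mod_cast i.pos
    have h2 : ((i : ℕ) : ℝ) ≤ J := by exact_mod_cast i.2.le
    rw [le_div_iff₀ (by positivity)] at h1
    rw [mul_add, mul_one_div, mul_comm e, mul_div_assoc L e]
    refine add_le_add le_rfl (mul_le_mul_of_nonneg_left ?_ hL)
    rw [le_div_iff₀ hJ]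
    nlinarith [mul_le_mul_of_nonneg_left h2 (mul_pos h0 hJ).le]

/-- Two-sided bounds for the product of the slots. -/
theorem ct_prod {Q : O} (hQ : Q ≠ 0) (h72 : (72 : O) ∣ Q) {e η₀ : ℝ} (he : 0 < e) (he1 : e ≤ 1 / 200)
    (h0 : 0 < η₀) {J : ℕ} (hJ : 0 < J) : ∀ᶠ L : ℝ in Filter.atTop,
    ∀ (l u T : ℝ) (Z : Fin J → ℝ) (r : O), l ≤ 9 / 10 * L → 0 ≤ u → u ≤ 1 → 10 * L + 10 ≤ T →
      (∀ i, Real.exp (L / (6 * J)) ≤ Z i) → (∀ i, Z i ≤ Real.exp (L / (6 * J) + e * L / J)) →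
      r ∈ box (Real.exp l) → ¬ Exc Q 1 r → ZFl (fun n => psi0 Q n * chi n r) ((1 + u) / 2) T →
      Real.exp (1 / 12 * L) ≤ ∏ i, ct_L Q (Real.exp L ^ η₀) (Z i) r ∧
      ∏ i, ct_L Q (Real.exp L ^ η₀) (Z i) r ≤ Real.exp ((1 + u) / 12 * L + 3 * (e * L)) := by
  have hJ' : (0 : ℝ) < J := by exact_mod_cast hJ
  have hJ1 : (1 : ℝ) ≤ J := by exact_mod_cast hJ
  obtain ⟨C, hC, H⟩ := pw_PS (ε := e / J) (by positivity) h0
  have h3 : (3 : O) ∣ Q := (Dvd.intro 24 (by norm_num) : (3 : O) ∣ 72).trans h72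
  filter_upwards [ct_ev0 (e := e / J) (by positivity) (C + 1), ct_ev0 (e := 1 / 10) (by norm_num) (Nr Q),
    Filter.eventually_ge_atTop (0 : ℝ)] with L hCL hQL hL l u T Z r hl hu0 hu hT hZ1 hZ2 hr hE hZ
  have hZ0 : ∀ i, 1 ≤ Z i := fun i => (Real.one_le_exp (by positivity)).trans (hZ1 i)
  obtain ⟨q1, q2, q3⟩ := ct_row (isCh_psi0 hQ h3) h72 hr hE hl hQL
  constructor
  · calc Real.exp (1 / 12 * L) = ∏ _i : Fin J, Real.exp (L / (6 * J) / 2) := by
          rw [Finset.prod_const, Finset.card_univ, Fintype.card_fin, ← Real.exp_nat_mul]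
          congr 1
          field_simp
          ring
      _ ≤ _ := Finset.prod_le_prod (fun i _ => (Real.exp_pos _).le) fun i _ => by
          rw [Real.exp_half]
          exact (Real.sqrt_le_sqrt (hZ1 i)).trans (le_add_of_nonneg_left (norm_nonneg _))
  · calc _ ≤ ∏ _i : Fin J, Real.exp (((1 + u) / 12 * L + 3 * (e * L)) / J) := by
          refine Finset.prod_le_prod (fun i _ => (ct_L_pos Q _ (hZ0 i) r).le) fun i _ => ?_
          have a0 : L / (6 * J) + e * L / J ≤ L := by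
            have b1 : L / (6 * J) ≤ L / 6 := div_le_div_of_nonneg_left hL (by norm_num) (by linarith)
            have b2 : e * L / J ≤ e * L := div_le_self (by positivity) hJ1
            nlinarith
          have a1 := H (Real.exp L) Q _ _ ((1 + u) / 2) T (Z i) 0 0 (Real.one_le_exp hL) q1
            (dvd_mul_right _ _) q2 q3 (by linarith) (by linarith) hZ (hZ0 i)
            ((hZ2 i).trans (Real.exp_le_exp.2 a0)) (by simp) (by simpa using (Real.exp_pos L).le) (by
              rw [Real.log_mul (by norm_num) (Real.exp_pos L).ne', Real.log_exp, abs_zero,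
                show (9 : ℝ) = 3 ^ 2 by norm_num, Real.log_pow]
              have := Real.log_le_sub_one_of_pos (show (0 : ℝ) < 3 by norm_num)
              push_cast
              linarith)
          have e1 : PS Q (Z i) (Real.exp L ^ η₀) (fun p => psi0 Q p * chi p r *
              (Nr p : ℂ) ^ (((0 : ℝ) : ℂ) + ((0 : ℝ) : ℂ) * I)) =
              PS Q (Z i) (Real.exp L ^ η₀) (fun p => chi p r) := by
            refine Finset.sum_congr rfl fun p _ => ?_
            unfold slot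
            split_ifs with h
            · simp [psi0, h.2.2.1]
            · simp
          rw [e1, add_zero] at a1
          have a2 : 1 ≤ Real.exp L ^ (e / J) := Real.one_le_rpow (Real.one_le_exp hL) (by positivity)
          have a3 : Real.sqrt (Z i) ≤ Z i ^ ((1 + u) / 2) := by
            rw [Real.sqrt_eq_rpow]
            exact Real.rpow_le_rpow_of_exponent_le (hZ0 i) (by linarith)
          have a4 : Z i ^ ((1 + u) / 2) ≤ Real.exp (L / (6 * J) + e * L / J) ^ ((1 + u) / 2) :=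
            Real.rpow_le_rpow (zero_le_one.trans (hZ0 i)) (hZ2 i) (by linarith)
          have a5 : 0 ≤ Z i ^ ((1 + u) / 2) := Real.rpow_nonneg (zero_le_one.trans (hZ0 i)) _
          calc ct_L Q (Real.exp L ^ η₀) (Z i) r
              ≤ (C + 1) * Real.exp L ^ (e / J) * Z i ^ ((1 + u) / 2) := by
                unfold ct_L
                nlinarith
            _ ≤ Real.exp (e / J * L) * Real.exp L ^ (e / J) *
                Real.exp (L / (6 * J) + e * L / J) ^ ((1 + u) / 2) := by gcongr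
            _ ≤ _ := by
                simp only [← Real.exp_mul, ← Real.exp_add, Real.exp_le_exp]
                have b1 : 0 ≤ e * L / J * (1 - u) := by
                  have : 0 ≤ 1 - u := by linarith
                  positivity
                have b2 : 0 ≤ e * L / J := by positivity
                have e2 : ((1 + u) / 12 * L + 3 * (e * L)) / J - (e / J * L + L * (e / J) +
                    (L / (6 * J) + e * L / J) * ((1 + u) / 2)) = e * L / J * (1 - u) / 2 := by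
                  field_simp
                  ring
                linarith
      _ = _ := by
          rw [Finset.prod_const, Finset.card_univ, Fintype.card_fin, ← Real.exp_nat_mul]
          congr 1
          field_simp

open Classical in
theorem count {Q : O} (hQ : Q ≠ 0) (h72 : (72 : O) ∣ Q) {θ s : ℝ}
    (hc : (θ = 22 / 25 ∧ s = 0) ∨ (θ = 1 ∧ s = 1 / 250)) (hZF : ZF θ) {ε : ℝ} (hε : 0 < ε) :
    ∃ δ : ℝ, 0 < δ ∧ ∃ J₀ : ℕ, ∀ J : ℕ, J₀ ≤ J → ∃ η₁ : ℝ, 0 < η₁ ∧ ∀ η₀ : ℝ, 0 < η₀ → η₀ ≤ η₁ →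
    ∃ C : ℝ, 0 ≤ C ∧ ∀ (X R T : ℝ) (ψ : O → ℂ) (f : O → ℝ), 1 ≤ X → IsCh Q ψ → 0 < R →
      R ≤ X ^ (81 / 100 + δ) → T ≤ 10 * Real.log X + 10 →
      (∀ r ∈ box R, ¬ Exc Q 1 r → ∀ σ : ℝ, 1 / 2 ≤ σ → σ ≤ 1 → ZFl (fun n => ψ n * chi n r) σ T →
        ZFl (fun n => psi0 Q n * chi n r) σ T →
        f r ≤ X ^ σ * (X ^ (143 / 300 : ℝ)) ^ (1 - σ) * Nr r ^ (σ - 1 / 2) *
          ∏ i, (‖PS Q (Zs X η₀ J i) (X ^ η₀) (fun p => chi p r)‖ + Real.sqrt (Zs X η₀ J i))) →
      ∑ r ∈ (box R).filter (fun r => ¬ Exc Q 1 r), f r ≤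
        C * X ^ (124 / 75 + s + ε) * Real.sqrt (R / X ^ (81 / 100 : ℝ)) := by
  set e := min (ε / 50) (1 / 200) with hedef
  have he : 0 < e := lt_min (by positivity) (by norm_num)
  have he1 : e ≤ 1 / 200 := min_le_right _ _
  have he2 : e ≤ ε / 50 := min_le_left _ _
  have hθ : 1 / 2 ≤ θ := by rcases hc with ⟨h, -⟩ | ⟨h, -⟩ <;> rw [h] <;> norm_num
  have hθ1 : θ ≤ 1 := by rcases hc with ⟨h, -⟩ | ⟨h, -⟩ <;> rw [h] <;> norm_num
  have hs0 : 0 ≤ s := by rcases hc with ⟨-, h⟩ | ⟨-, h⟩ <;> rw [h] <;> norm_num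
  have hs1 : s ≤ 1 / 250 := by rcases hc with ⟨-, h⟩ | ⟨-, h⟩ <;> rw [h] <;> norm_num
  have h3 : (3 : O) ∣ Q := (Dvd.intro 24 (by norm_num) : (3 : O) ∣ 72).trans h72
  have hψ0 := isCh_psi0 hQ h3
  obtain ⟨δ₁, hδ₁, H⟩ := ct_claim hQ h72 hc hZF he he1
  obtain ⟨n, hn⟩ := exists_nat_one_div_lt (lt_min hδ₁ he)
  obtain ⟨h, hh0, hh1, hh2, hhN⟩ : ∃ h : ℝ, 0 ≤ h ∧ h ≤ δ₁ ∧ h ≤ e ∧ (n + 1 : ℕ) * h = 2 * θ - 1 := by
    have h1 : (2 * θ - 1) / (n + 1) ≤ 1 / (n + 1) :=
      div_le_div_of_nonneg_right (by linarith) (by positivity)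
    refine ⟨(2 * θ - 1) / (n + 1), div_nonneg (by linarith) (by positivity),
      h1.trans (hn.le.trans (min_le_left _ _)), h1.trans (hn.le.trans (min_le_right _ _)), ?_⟩
    push_cast
    field_simp
  refine ⟨e, he, ⌈1 / e⌉₊, fun J hJ => ?_⟩
  have hJ1 : 1 ≤ e * J := by
    have := (Nat.le_ceil (1 / e)).trans (Nat.cast_le.2 hJ)
    rwa [div_le_iff₀' he] at this
  have hJ0 : 0 < J := by
    rcases Nat.eq_zero_or_pos J with h | h
    · rw [h] at hJ1; norm_num at hJ1
    · exact h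
  have hJ' : (1 : ℝ) ≤ J := by exact_mod_cast hJ0
  obtain ⟨η₁, hη₁, H⟩ := H J hJ1
  refine ⟨min η₁ (e / (2 * J ^ 2)), lt_min hη₁ (by positivity), fun η₀ h0 h1 => ?_⟩
  obtain ⟨L₀, hL₀⟩ := Filter.eventually_atTop.1 ((H η₀ h0 (h1.trans (min_le_left _ _))).and
    ((ct_prod hQ h72 he he1 h0 hJ0).and (Filter.eventually_ge_atTop (20 + 7 * ((n + 1 : ℕ) : ℝ)))))
  obtain ⟨C₁, hC₁, hPS⟩ := norm_PS_le
  set X₀ := Real.exp L₀ with hX₀
  have hX₀0 : 0 < X₀ := Real.exp_pos _
  set K := 25 * X₀ * (X₀ * X₀ * (C₁ * X₀ * X₀ + X₀) ^ J) with hK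
  have hK0 : 0 ≤ K := by positivity
  refine ⟨K + (n + 2) * (n + 2) * 2, by positivity, fun X R T ψ f hX hψ hR0 hR hT hf => ?_⟩
  rcases lt_or_ge R 1 with hR1 | hR1
  · rw [box_eq_empty hR1, Finset.filter_empty, Finset.sum_empty]
    positivity
  obtain ⟨L, rfl⟩ : ∃ L, X = Real.exp L := ⟨Real.log X, (Real.exp_log (by linarith)).symm⟩
  obtain ⟨l, rfl⟩ : ∃ l, R = Real.exp l := ⟨Real.log R, (Real.exp_log hR0).symm⟩
  rw [Real.one_le_exp_iff] at hX hR1
  rw [← Real.exp_mul, Real.exp_le_exp] at hR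
  rw [Real.log_exp] at hT
  have heL : 0 ≤ e * L := by positivity
  have hl : l ≤ 9 / 10 * L := by nlinarith
  obtain ⟨z1, z2, z3⟩ := ct_Zs hX h0 (h1.trans (min_le_right _ _))
  have z0 : ∀ i, 1 ≤ Zs (Real.exp L) η₀ J i := fun i => (Real.one_le_exp (by positivity)).trans (z1 i)
  rw [← Real.exp_mul L (81 / 100), ← Real.exp_sub, ← Real.exp_half, ← Real.exp_mul, mul_assoc,
    ← Real.exp_add]
  change ∀ r ∈ _, _ → ∀ σ, _ → _ → _ → _ → f r ≤ _ * ∏ i, ct_L Q _ _ r at hf
  have hrow := fun (ψ' : O → ℂ) (hψ' : IsCh Q ψ') (r : O) (hr : r ∈ box (Real.exp l))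
      (hE : ¬ Exc Q 1 r) => And.intro (hψ'.mul_chi h72 (mem_box.1 hr).1)
    (show ¬ Princ (fun n => ψ' n * chi n r) by
      simpa using not_princ_of_not_exc hψ' h72 (by simpa using (mem_box.1 hr).1) hE)
  rcases le_total L L₀ with hL | hL
  · have hle : Real.exp L ≤ X₀ := Real.exp_le_exp.2 hL
    have hle' : Real.exp l ≤ X₀ := Real.exp_le_exp.2 (by linarith)
    have a0 : L / (6 * J) + e * L / J ≤ L := by
      have b1 : L / (6 * J) ≤ L / 6 := div_le_div_of_nonneg_left hX (by norm_num) (by linarith)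
      have b2 : e * L / J ≤ e * L := div_le_self (by positivity) hJ'
      nlinarith
    calc _ ≤ _ := Finset.sum_le_card_nsmul _ _ (X₀ * X₀ * (C₁ * X₀ * X₀ + X₀) ^ J) fun r hr => by
          obtain ⟨hr, hE⟩ := Finset.mem_filter.1 hr
          refine (hf r hr hE 1 (by norm_num) le_rfl ((hrow ψ hψ r hr hE).1.zfl_one T)
            ((hrow _ hψ0 r hr hE).1.zfl_one T)).trans ?_
          obtain ⟨r0, r1⟩ := mem_box.1 hr
          rw [Real.rpow_one, sub_self, Real.rpow_zero, mul_one]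
          refine mul_le_mul (mul_le_mul hle ?_ (Real.rpow_nonneg (Nr_nonneg r) _) hX₀0.le) ?_
            (Finset.prod_nonneg fun i _ => (ct_L_pos Q _ (z0 i) r).le) (by positivity)
          · exact (Real.rpow_le_self_of_one_le (one_le_Nr r0) (by norm_num)).trans (r1.trans hle')
          · refine (Finset.prod_le_prod (fun i _ => (ct_L_pos Q _ (z0 i) r).le)
              (g := fun _ => C₁ * X₀ * X₀ + X₀) fun i _ => ?_).trans (by simp)
            have b1 : Zs (Real.exp L) η₀ J i ≤ X₀ := (z3 i).trans ((Real.exp_le_exp.2 a0).trans hle)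
            have b2 := Real.log_le_sub_one_of_pos (zero_lt_one.trans_le (z0 i))
            have b3 := Real.log_nonneg (z0 i)
            refine add_le_add ((hPS Q _ _ _ (z0 i) fun p => norm_chi_le p r).trans ?_)
              ((Real.sqrt_le_iff.2 ⟨zero_le_one.trans (z0 i), by nlinarith [z0 i]⟩).trans b1)
            exact mul_le_mul (mul_le_mul_of_nonneg_left b1 hC₁) (by linarith) (by linarith) (by positivity)
      _ ≤ K := by
          rw [nsmul_eq_mul]
          refine mul_le_mul_of_nonneg_right ?_ (by positivity)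
          exact (Nat.cast_le.2 (Finset.card_filter_le _ _)).trans
            ((card_box_le (Real.exp_pos _).le).trans (by linarith))
      _ ≤ _ := by
          refine le_trans (le_add_of_nonneg_right (by positivity))
            (le_mul_of_one_le_right (by positivity) (Real.one_le_exp ?_))
          nlinarith
  obtain ⟨H₁, H₂, hLn⟩ := hL₀ L hL
  have hn0 : (0 : ℝ) ≤ (n + 1 : ℕ) := by positivity
  let Tt : ℕ → ℝ := fun i => 10 * L + 10 + i * (3 * L + 4)
  let ps : Bool → O → ℂ := fun b => if b then ψ else psi0 Q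
  have hps : ∀ b, IsCh Q (ps b) := fun b => by cases b <;> simp [ps, hψ, hψ0]
  have hTt : ∀ i : ℕ, 10 * L + 10 ≤ Tt i := fun i => le_add_of_nonneg_right (by positivity)
  have hih : ∀ i ≤ n + 1, 0 ≤ (i : ℝ) * h ∧ (i : ℝ) * h ≤ 2 * θ - 1 := fun i hi =>
    ⟨by positivity, hhN ▸ mul_le_mul_of_nonneg_right (Nat.cast_le.2 hi) hh0⟩
  refine (ct_classes ((Finset.range (n + 2) ×ˢ Finset.range (n + 2)) ×ˢ (Finset.univ : Finset Bool)) _
    (fun k r => k.1.2 ≤ k.1.1 ∧ ((r ∈ box (Real.exp l) ∧ ¬ Exc Q 1 r) ∧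
      Real.exp ((1 + k.1.2 * h) / 12 * L) ≤ ∏ i, ct_L Q (Real.exp L ^ η₀) (Zs (Real.exp L) η₀ J i) r ∧
      ZFl (fun n => ps k.2 n * chi n r) ((1 + k.1.1 * h) / 2) (Tt k.1.1 - (3 * L + 4) + 3 * L + 4) ∧
      (0 < Dex s (k.1.1 * h) (k.1.2 * h) → ∃ z : ℂ, Lf (fun n => ps k.2 n * chi n r) z = 0 ∧
        (1 + k.1.1 * h) / 2 - δ₁ ≤ z.re ∧ |z.im| ≤ Tt k.1.1 - (3 * L + 4))) ∧
      f r ≤ Real.exp ((1 + k.1.1 * h) / 2 * L + 143 / 300 * (1 - (1 + k.1.1 * h) / 2) * L +
        k.1.1 * h / 2 * l + (1 + k.1.2 * h) / 12 * L + 3 * (e * L))) f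
    (B := Real.exp (L * (124 / 75 + s + ε) + (l - L * (81 / 100)) / 2)) (fun r hr => ?_)
    (fun k hk S hS hP => ?_)).trans ?_
  · obtain ⟨hr, hE⟩ := Finset.mem_filter.1 hr
    have hex : ∃ i : ℕ, ∀ b, ZFl (fun n => ps b n * chi n r) ((1 + i * h) / 2) (Tt i) :=
      ⟨n + 1, fun b => by
        rw [hhN, show (1 + (2 * θ - 1)) / 2 = θ by ring]
        exact hZF.zfl (hrow _ (hps b) r hr hE).1 (hrow _ (hps b) r hr hE).2 _⟩
    have hi1 := Nat.find_spec hex
    have hi2 : Nat.find hex ≤ n + 1 := Nat.find_le fun b => by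
      rw [hhN, show (1 + (2 * θ - 1)) / 2 = θ by ring]
      exact hZF.zfl (hrow _ (hps b) r hr hE).1 (hrow _ (hps b) r hr hE).2 _
    have hi3 := fun m => Nat.find_min hex (m := m)
    generalize Nat.find hex = i at hi1 hi2 hi3
    obtain ⟨u0, u1⟩ := hih i hi2
    obtain ⟨p1, p2⟩ := H₂ l (i * h) (Tt i) _ r hl u0 (by linarith) (hTt i) z1 z3 hr hE (hi1 false)
    obtain ⟨k, hk, p3, p4⟩ := ct_grid (h := h) hX (by nlinarith) p1 i p2
    obtain ⟨b, hb⟩ : ∃ b, 0 < Dex s (i * h) (k * h) → ∃ z : ℂ, Lf (fun n => ps b n * chi n r) z = 0 ∧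
        (1 + i * h) / 2 - δ₁ ≤ z.re ∧ |z.im| ≤ Tt i - (3 * L + 4) := by
      rcases i with _ | i
      · refine ⟨true, fun hD => absurd hD (not_lt.2 ?_)⟩
        rw [Nat.le_zero.1 hk, Dex]
        refine div_nonpos_of_nonpos_of_nonneg ?_ (by norm_num)
        push_cast
        linarith
      · have := hi3 i (Nat.lt_succ_self i)
        simp only [ZFl, not_forall, not_not] at this
        obtain ⟨b, z, c1, c2, c3⟩ := this
        refine ⟨b, fun _ => ⟨z, c3, by push_cast; linarith, c2.trans (le_of_eq ?_)⟩⟩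
        simp only [Tt]
        push_cast
        ring
    refine ⟨((i, k), b), by simp only [Finset.mem_product, Finset.mem_range, Finset.mem_univ, and_true]; omega, hk,
      ⟨⟨hr, hE⟩, p3, (hi1 b).mono le_rfl (le_of_eq (by ring)), hb⟩, ?_⟩
    refine (hf r hr hE ((1 + i * h) / 2) (by linarith) (by linarith)
      ((hi1 true).mono le_rfl (hT.trans (hTt i))) ((hi1 false).mono le_rfl (hT.trans (hTt i)))).trans ?_
    have p5 : Nr r ^ ((1 + i * h) / 2 - 1 / 2) ≤ Real.exp l ^ ((1 + i * h) / 2 - 1 / 2) :=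
      Real.rpow_le_rpow (Nr_nonneg r) (mem_box.1 hr).2 (by linarith)
    refine (mul_le_mul (mul_le_mul_of_nonneg_left p5 (by positivity)) p4
      ((Real.exp_pos _).le.trans p1) (by positivity)).trans (le_of_eq ?_)
    simp only [← Real.exp_mul, ← Real.exp_add]
    congr 1
    ring
  · obtain ⟨⟨i, k⟩, b⟩ := k
    rcases S.eq_empty_or_nonempty with rfl | ⟨r₀, hr₀⟩
    · simpa using (Real.exp_pos _).le
    have hki : k ≤ i := (hP r₀ hr₀).1
    have hi : i ≤ n + 1 := by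
      simp only [Finset.mem_product, Finset.mem_range] at hk
      omega
    obtain ⟨u0, u1⟩ := hih i hi
    have w1 : (k : ℝ) * h ≤ i * h := mul_le_mul_of_nonneg_right (Nat.cast_le.2 hki) hh0
    have hi' : (i : ℝ) ≤ (n + 1 : ℕ) := Nat.cast_le.2 hi
    have a1 := H₁ l (i * h) (k * h) (Tt i - (3 * L + 4)) (ps b) _ S (hps b) hR1 hl (by positivity) w1 u1
      (by
        have := mul_le_mul_of_nonneg_right hi' (show 0 ≤ 3 * L + 4 by positivity)
        simp only [Tt]
        nlinarith) z0 z2 z3 fun r hr => (hP r hr).2.1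
    refine (Finset.sum_le_card_nsmul _ _ _ fun r hr => (hP r hr).2.2).trans ?_
    rw [nsmul_eq_mul]
    refine (mul_le_mul_of_nonneg_right a1 (Real.exp_pos _).le).trans ?_
    rw [← Real.exp_add, Real.exp_le_exp]
    have a2 := ct_expo (L := L) (l := l) hs0 hs1 (by positivity) w1 (by linarith) heL (by linarith)
    have a3 := mul_le_mul_of_nonneg_right he2 hX
    simp only
    linarith
  · refine mul_le_mul_of_nonneg_right ?_ (Real.exp_pos _).le
    simp only [Finset.card_product, Finset.card_range, Finset.card_univ, Fintype.card_bool]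
    push_cast
    linarith

end Crest.Agent.R017

end
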