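import Crest.Agent.R017.T2P
import Crest.Agent.R017.T4
import Crest.Agent.R017.CountAux1

/-! # Row 17: counting rows, the moments with slots -/

set_option autoImplicit false

noncomputable section

open scoped BigOperators ComplexConjugate
open Complex MeasureTheory

namespace Crest.Agent.R017

/-- Very short sums are dominated by their first term. -/
theorem ct_low : ∃ D c₀ : ℝ, 0 < D ∧ D ≤ 1 ∧ 0 < c₀ ∧ ∀ c : O → ℂ, (∀ n, Prim n → ‖c n‖ ≤ 1) →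
    c 1 = 1 → c₀ ≤ ‖sm 1 c D 0‖ := by
  have hsum := summable_Nr_rpow one_lt_two
  set A := ∑' n : O, Nr n ^ (-2 : ℝ) with hA
  have hA0 : 0 ≤ A := tsum_nonneg fun n => Real.rpow_nonneg (Nr_nonneg n) _
  set t := 8 * A + 4 with ht
  have ht0 : 0 ≤ t := by positivity
  refine ⟨Real.exp (-t), Real.exp (-t ^ 2 / 4) / 2, Real.exp_pos _, Real.exp_le_one_iff.2 (by linarith),
    by positivity, fun c hc h1 => ?_⟩
  have hs := summable_sm (a := 1) (X := Real.exp (-t)) one_pos (Real.exp_pos _) (c := c) (K := 1) (A := 0)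
    (fun n hn => by simpa using hc n hn) 0
  unfold sm
  rw [hs.tsum_eq_add_tsum_ite 1]
  have e1 : (if Prim 1 then c 1 * (Nr 1 : ℂ) ^ (-(((0 : ℝ) : ℂ) * I)) *
      (W 1 (Nr 1 / Real.exp (-t)) : ℂ) else 0) = ((Real.exp (-t ^ 2 / 4) : ℝ) : ℂ) := by
    rw [if_pos prim_one, h1, Nr_one, W, one_div, Real.log_inv, Real.log_exp]
    simp
  rw [e1]
  have h2 : ‖∑' n : O, (if n = 1 then 0 else if Prim n then c n * (Nr n : ℂ) ^ (-(((0 : ℝ) : ℂ) * I)) *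
      (W 1 (Nr n / Real.exp (-t)) : ℂ) else 0)‖ ≤ Real.exp (-t ^ 2 / 4) * Real.exp (-(2 * A)) * A := by
    refine tsum_of_norm_bounded (hsum.hasSum.mul_left _) fun n => ?_
    have hp : 0 ≤ Real.exp (-t ^ 2 / 4) * Real.exp (-(2 * A)) * Nr n ^ (-2 : ℝ) :=
      mul_nonneg (by positivity) (Real.rpow_nonneg (Nr_nonneg n) _)
    split_ifs with h h'
    · simpa using hp
    · have hn0 := Nr_pos h'.ne_zero
      have hn2 : 2 ≤ Nr n := by
        have a1 : nm n ≠ 0 := fun h0 => h'.ne_zero (nm_eq_zero.1 h0)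
        have a2 : nm n ≠ 1 := fun h0 => h (h'.eq_one_of_isUnit (isUnit_iff_Nr.2 (by simp [Nr, h0])))
        have : 2 ≤ nm n := by omega
        unfold Nr
        exact_mod_cast this
      have hl : 1 / 2 ≤ Real.log (Nr n) :=
        le_trans (by linarith [Real.log_two_gt_d9]) (Real.log_le_log two_pos hn2)
      simp only [ofReal_zero, zero_mul, neg_zero, cpow_zero, mul_one, norm_mul, Complex.norm_real,
        Real.norm_of_nonneg (W_pos _ _).le]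
      refine (mul_le_of_le_one_left (W_pos _ _).le (hc n h')).trans ?_
      rw [W, Real.log_div hn0.ne' (Real.exp_pos _).ne', Real.log_exp, Real.rpow_def_of_pos hn0,
        ← Real.exp_add, ← Real.exp_add, Real.exp_le_exp]
      nlinarith [sq_nonneg (Real.log (Nr n))]
    · simpa using hp
  have h3 : Real.exp (-(2 * A)) * A ≤ 1 / 2 := by
    rw [Real.exp_neg, inv_mul_le_iff₀ (Real.exp_pos _)]
    linarith [Real.add_one_le_exp (2 * A)]
  refine le_trans ?_ (le_trans (sub_le_sub_left h2 _) (norm_sub_le_norm_add _ _))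
  rw [Complex.norm_real, Real.norm_of_nonneg (Real.exp_pos _).le, mul_assoc]
  nlinarith [Real.exp_pos (-t ^ 2 / 4)]

/-- The weight of a slot. -/
def ct_L (Q : O) (y Z : ℝ) (r : O) : ℝ := ‖PS Q Z y (fun p => chi p r)‖ + Real.sqrt Z

theorem ct_L_pos (Q : O) (y : ℝ) {Z : ℝ} (hZ : 1 ≤ Z) (r : O) : 0 < ct_L Q y Z r :=
  add_pos_of_nonneg_of_pos (norm_nonneg _) (Real.sqrt_pos.2 (by linarith))

theorem ct_lift {J : ℕ} (Q : O) (y : ℝ) (S : Finset O) (g : O → ℝ) (hg : ∀ r, 0 ≤ g r)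
    (Z : Fin J → ℝ) (hZ : ∀ i, 1 ≤ Z i) (hS : Sep Z y) (I : Finset (Fin J)) {B : ℝ} (hB : 0 ≤ B)
    (h : ∀ j ≤ J, ∀ Z' : Fin j → ℝ, (∀ i, 1 ≤ Z' i) → Sep Z' y → (I = ∅ → j = 0) →
      ∏ i, Z' i ≤ ∏ i ∈ I, Z i →
      ∑ r ∈ S, g r * ∏ i, ‖PS Q (Z' i) y (fun p => chi p r)‖ ^ 2 ≤ B * ∏ i, Z' i) :
    ∑ r ∈ S, g r * ∏ i ∈ I, ct_L Q y (Z i) r ^ 2 ≤ 4 ^ J * B * ∏ i ∈ I, Z i := by
  have hZ0 : ∀ i, 0 ≤ Z i := fun i => zero_le_one.trans (hZ i)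
  have hI : I.card ≤ J := by simpa using I.card_le_univ
  have h1 : ∀ t ⊆ I, ∑ r ∈ S, g r * ∏ i ∈ t, ‖PS Q (Z i) y (fun p => chi p r)‖ ^ 2 ≤
      B * ∏ i ∈ t, Z i := by
    intro t ht
    have e : ∀ F : Fin J → ℝ, ∏ k : Fin t.card, F (t.orderEmbOfFin rfl k) = ∏ i ∈ t, F i := fun F => by
      conv_rhs => rw [← Finset.map_orderEmbOfFin_univ t rfl, Finset.prod_map]
      rfl
    have h2 := h t.card (by simpa using t.card_le_univ) (fun k => Z (t.orderEmbOfFin rfl k))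
      (fun k => hZ _) (fun k k' hk => hS _ _ ((t.orderEmbOfFin rfl).strictMono hk))
      (fun h0 => Finset.card_eq_zero.2 (Finset.subset_empty.1 (by rwa [h0] at ht)))
      (by rw [e]; exact Finset.prod_le_prod_of_subset_of_one_le ht (fun i _ => hZ0 i) fun i _ _ => hZ i)
    rw [e] at h2
    refine le_of_eq_of_le (Finset.sum_congr rfl fun r _ => ?_) h2
    rw [e fun i => ‖PS Q (Z i) y (fun p => chi p r)‖ ^ 2]
  calc ∑ r ∈ S, g r * ∏ i ∈ I, ct_L Q y (Z i) r ^ 2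
      ≤ ∑ r ∈ S, g r * ∏ i ∈ I, 2 * (‖PS Q (Z i) y (fun p => chi p r)‖ ^ 2 + Z i) := by
        refine Finset.sum_le_sum fun r _ => mul_le_mul_of_nonneg_left
          (Finset.prod_le_prod (fun i _ => sq_nonneg _) fun i _ => ?_) (hg r)
        unfold ct_L
        nlinarith [Real.sq_sqrt (hZ0 i),
          sq_nonneg (‖PS Q (Z i) y (fun p => chi p r)‖ - Real.sqrt (Z i))]
    _ = 2 ^ I.card * ∑ t ∈ I.powerset, (∑ r ∈ S, g r *
          ∏ i ∈ t, ‖PS Q (Z i) y (fun p => chi p r)‖ ^ 2) * ∏ i ∈ I \ t, Z i := by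
        simp only [Finset.prod_mul_distrib, Finset.prod_const, Finset.prod_add, Finset.sum_mul,
          Finset.mul_sum]
        rw [Finset.sum_comm]
        exact Finset.sum_congr rfl fun t _ => Finset.sum_congr rfl fun r _ => by ring
    _ ≤ 2 ^ I.card * ∑ _t ∈ I.powerset, B * ∏ i ∈ I, Z i := by
        refine mul_le_mul_of_nonneg_left (Finset.sum_le_sum fun t ht => ?_) (by positivity)
        have ht' := Finset.mem_powerset.1 ht
        refine (mul_le_mul_of_nonneg_right (h1 t ht') (Finset.prod_nonneg fun i _ => hZ0 i)).trans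
          (le_of_eq ?_)
        rw [mul_assoc, mul_comm (∏ i ∈ t, Z i), Finset.prod_sdiff ht']
    _ = 4 ^ I.card * B * ∏ i ∈ I, Z i := by
        rw [Finset.sum_const, Finset.card_powerset, nsmul_eq_mul, show (4 : ℝ) = 2 * 2 by norm_num,
          mul_pow]
        push_cast
        ring
    _ ≤ _ := mul_le_mul_of_nonneg_right (mul_le_mul_of_nonneg_right
        (pow_le_pow_right₀ (by norm_num) hI) hB) (Finset.prod_nonneg fun i _ => hZ0 i)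

theorem ct_unif (J : ℕ) (Φ : ℕ → ℝ → ℝ → Prop)
    (h : ∀ j, ∃ η₁ : ℝ, 0 < η₁ ∧ ∀ η₀, 0 < η₀ → η₀ ≤ η₁ → ∀ᶠ L in Filter.atTop, Φ j η₀ L) :
    ∃ η₁ : ℝ, 0 < η₁ ∧ ∀ η₀, 0 < η₀ → η₀ ≤ η₁ → ∀ᶠ L in Filter.atTop, ∀ j ≤ J, Φ j η₀ L := by
  choose η hη H using h
  refine ⟨(Finset.range (J + 1)).inf' ⟨0, by simp⟩ η, (Finset.lt_inf'_iff _).2 fun j _ => hη j,
    fun η₀ h0 h1 => ?_⟩
  have := (Filter.eventually_all_finset (Finset.range (J + 1))).2 fun j hj =>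
    H j η₀ h0 (h1.trans (Finset.inf'_le _ hj))
  filter_upwards [this] with L hL j hj
  exact hL j (Finset.mem_range.2 (by omega))

theorem ct_ev0 {e : ℝ} (he : 0 < e) (C : ℝ) : ∀ᶠ L : ℝ in Filter.atTop, C ≤ Real.exp (e * L) := by
  filter_upwards [dt_ev he C le_rfl] with L hL
  simpa using hL

theorem ct_mul {C L e τ : ℝ} (h : C * (1 + |τ|) ^ C ≤ Real.exp (e * L)) :
    C * Real.exp L ^ e * (1 + |τ|) ^ C ≤ Real.exp (2 * e * L) := by
  rw [← Real.exp_mul, mul_right_comm, show 2 * e * L = e * L + L * e by ring, Real.exp_add]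
  exact mul_le_mul_of_nonneg_right h (Real.exp_pos _).le

theorem ct_two {Q : O} (hQ : Q ≠ 0) (h72 : (72 : O) ∣ Q) {e : ℝ} (he : 0 < e) (j : ℕ) :
    ∃ η₁ : ℝ, 0 < η₁ ∧ ∀ η₀ : ℝ, 0 < η₀ → η₀ ≤ η₁ → ∀ᶠ L : ℝ in Filter.atTop,
      ∀ (R D τ : ℝ) (ψ : O → ℂ) (Z : Fin j → ℝ), IsCh Q ψ → 1 ≤ R → R ≤ Real.exp L → 0 < D →
      |τ| ≤ L ^ 2 + 4 → (∀ i, 1 ≤ Z i) → Sep Z (Real.exp L ^ η₀) →
      D * (∏ i, Z i) ^ 2 ≤ R → (∏ i, Z i) ^ 3 * D ^ (2 / 3 : ℝ) ≤ R →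
      ∑ r ∈ box R, ‖sm 1 (fun n => mu n * (ψ n * chi n r)) D τ‖ ^ 2 *
          ∏ i, ‖PS Q (Z i) (Real.exp L ^ η₀) (fun p => chi p r)‖ ^ 2 ≤
        Real.exp (2 * e * L) * R * D * ∏ i, Z i := by
  obtain ⟨η₁, hη, H⟩ := two_primes hQ h72 one_pos he j
  refine ⟨η₁, hη, fun η₀ h0 h1 => ?_⟩
  obtain ⟨C, hC, H⟩ := H η₀ h0 h1
  filter_upwards [ct_ev he hC] with L hL R D τ ψ Z hψ hR hR' hD hτ hZ hS c1 c2
  have hZ0 : 0 ≤ ∏ i, Z i := Finset.prod_nonneg fun i _ => zero_le_one.trans (hZ i)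
  refine (H _ R D τ ψ Z (hR.trans hR') hψ hR hR' hD hZ hS c1 c2).trans ?_
  gcongr
  exact ct_mul (hL τ hτ)

open Classical in
theorem ct_four {Q : O} (hQ : Q ≠ 0) (h72 : (72 : O) ∣ Q) {θ : ℝ} (hθ : 1 / 2 ≤ θ) (hθ1 : θ ≤ 1)
    (hZF : ZF θ) {e : ℝ} (he : 0 < e) (j : ℕ) :
    ∃ η₁ : ℝ, 0 < η₁ ∧ ∀ η₀ : ℝ, 0 < η₀ → η₀ ≤ η₁ → ∀ᶠ L : ℝ in Filter.atTop,
      ∀ (R N τ : ℝ) (ψ : O → ℂ) (Z : Fin j → ℝ), IsCh Q ψ → 1 ≤ R → R ≤ Real.exp L → 0 < N →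
      |τ| ≤ L ^ 2 + 4 → (∀ i, 1 ≤ Z i) → Sep Z (Real.exp L ^ η₀) →
      (j = 0 ∨ (N ^ 2 * (∏ i, Z i) ^ (10 * θ - 4) ≤ R ∧ (∏ i, Z i) ^ (18 : ℕ) ≤ R)) →
      ∑ r ∈ (box R).filter (fun r => ¬ Exc Q 1 r), ‖sm 1 (fun n => ψ n * chi n r) N τ‖ ^ 4 *
          ∏ i, ‖PS Q (Z i) (Real.exp L ^ η₀) (fun p => chi p r)‖ ^ 2 ≤
        Real.exp (3 * e * L) * R * N ^ 2 * ∏ i, Z i := by
  obtain ⟨η₁, hη₁, H₁⟩ := four_primes hQ h72 hθ hθ1 hZF one_pos he j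
  obtain ⟨η₂, hη₂, H₂⟩ := ct_two hQ h72 he j
  obtain ⟨C₃, hC₃, H₃⟩ := four hQ h72 one_pos he
  obtain ⟨D, c₀, hD0, hD1, hc₀, hlow⟩ := ct_low
  obtain ⟨C₄, H₄⟩ := norm_sm_le one_pos (1 / 2)
  refine ⟨min η₁ η₂, lt_min hη₁ hη₂, fun η₀ h0 h1 => ?_⟩
  obtain ⟨C₁, hC₁, H₁⟩ := H₁ η₀ h0 (h1.trans (min_le_left _ _))
  filter_upwards [ct_ev he hC₁, ct_ev he hC₃, H₂ η₀ h0 (h1.trans (min_le_right _ _)),
    ct_ev0 he (C₄ ^ 4 / c₀ ^ 2), Filter.eventually_ge_atTop (0 : ℝ)]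
    with L hL₁ hL₃ H₂ hL₄ hL R N τ ψ Z hψ hR hR' hN hτ hZ hS hj
  have hZ1 : 1 ≤ ∏ i, Z i := Finset.one_le_prod fun i _ => hZ i
  have hx : 1 ≤ Real.exp L := hR.trans hR'
  have h23 : Real.exp (2 * e * L) ≤ Real.exp (3 * e * L) := Real.exp_le_exp.2 (by nlinarith)
  rcases hj with rfl | ⟨c1, c2⟩
  · have e1 : Nr (rad 1) = 1 := by rw [rad_eq_self prim_one squarefree_one, Nr_one]
    have := H₃ _ R N τ ψ 1 hx hψ one_ne_zero hN (zero_le_one.trans hR) (by rwa [e1, mul_one])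
    simp only [e1, mul_one] at this
    simp only [Finset.univ_eq_empty, Finset.prod_empty, mul_one]
    refine this.trans ?_
    gcongr
    exact (ct_mul (hL₃ τ hτ)).trans h23
  rcases le_total 1 N with hN1 | hN1
  · refine (H₁ _ R N τ ψ Z hx hψ hN1 hR' hZ hS c1 c2).trans ?_
    gcongr
    exact (ct_mul (hL₁ τ hτ)).trans h23
  have hc : ∀ r n, ‖ψ n * chi n r‖ ≤ 1 := fun r n => by
    rw [norm_mul]
    exact mul_le_one₀ (hψ.norm_le n) (norm_nonneg _) (norm_chi_le n r)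
  have h2 := H₂ R D 0 ψ Z hψ hR hR' hD0 (by rw [abs_zero]; positivity) hZ hS
    ((mul_le_of_le_one_left (by positivity) hD1).trans ((pow_le_pow_right₀ hZ1 (by norm_num)).trans c2))
    ((mul_le_of_le_one_right (by positivity) (Real.rpow_le_one hD0.le hD1 (by norm_num))).trans
      ((pow_le_pow_right₀ hZ1 (by norm_num)).trans c2))
  calc _ ≤ ∑ r ∈ box R, ‖sm 1 (fun n => ψ n * chi n r) N τ‖ ^ 4 *
          ∏ i, ‖PS Q (Z i) (Real.exp L ^ η₀) (fun p => chi p r)‖ ^ 2 :=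
        Finset.sum_le_sum_of_subset_of_nonneg (Finset.filter_subset _ _) fun r _ _ => by positivity
    _ ≤ ∑ r ∈ box R, (C₄ ^ 4 / c₀ ^ 2 * N ^ 2) * (‖sm 1 (fun n => mu n * (ψ n * chi n r)) D 0‖ ^ 2 *
          ∏ i, ‖PS Q (Z i) (Real.exp L ^ η₀) (fun p => chi p r)‖ ^ 2) := by
        refine Finset.sum_le_sum fun r _ => ?_
        rw [← mul_assoc]
        refine mul_le_mul_of_nonneg_right ?_ (by positivity)
        have a1 := pow_le_pow_left₀ (norm_nonneg _) (H₄ _ N τ hN (fun n _ => hc r n) (Or.inr hN1)) 4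
        have a2 := pow_le_pow_left₀ hc₀.le (hlow (fun n => mu n * (ψ n * chi n r)) (fun n _ => by
          rw [norm_mul]
          exact mul_le_one₀ (norm_mu_le n) (norm_nonneg _) (hc r n))
          (by simp [mu_one, hψ.one, chi_unit_left isUnit_one])) 2
        rw [mul_pow, ← Real.rpow_natCast (N ^ _), ← Real.rpow_mul hN.le] at a1
        norm_num at a1
        refine a1.trans (le_trans (le_of_eq ?_) (mul_le_mul_of_nonneg_left a2 (by positivity)))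
        field_simp
    _ ≤ (Real.exp (e * L) * N ^ 2) * (Real.exp (2 * e * L) * R * 1 * ∏ i, Z i) := by
        rw [← Finset.mul_sum]
        refine mul_le_mul (by gcongr) (h2.trans (by gcongr)) (Finset.sum_nonneg fun r _ => by positivity)
          (by positivity)
    _ = _ := by
        rw [show 3 * e * L = e * L + 2 * e * L by ring, Real.exp_add]
        ring

/-- Second moment with a set of slots. -/
theorem ct_M2 {Q : O} (hQ : Q ≠ 0) (h72 : (72 : O) ∣ Q) {e : ℝ} (he : 0 < e) (J : ℕ) :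
    ∃ η₁ : ℝ, 0 < η₁ ∧ ∀ η₀ : ℝ, 0 < η₀ → η₀ ≤ η₁ → ∀ᶠ L : ℝ in Filter.atTop,
      ∀ (l u τ y : ℝ) (ψ : O → ℂ) (Z : Fin J → ℝ) (I : Finset (Fin J)) (S : Finset O), IsCh Q ψ →
      S ⊆ box (Real.exp l) → 0 ≤ l → l ≤ L → |τ| ≤ L ^ 2 + 4 → (∀ i, 1 ≤ Z i) →
      Sep Z (Real.exp L ^ η₀) → ∏ i ∈ I, Z i ≤ Real.exp y → u + 2 * y ≤ l → 3 * y + 2 / 3 * u ≤ l →
      ∑ r ∈ S, ‖sm 1 (fun n => mu n * (ψ n * chi n r)) (Real.exp u) τ‖ ^ 2 *
          ∏ i ∈ I, ct_L Q (Real.exp L ^ η₀) (Z i) r ^ 2 ≤ Real.exp (3 * e * L + l + u + y) := by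
  obtain ⟨η₁, hη, H⟩ := ct_unif J _ (ct_two hQ h72 he)
  refine ⟨η₁, hη, fun η₀ h0 h1 => ?_⟩
  filter_upwards [H η₀ h0 h1, ct_ev0 he (4 ^ J)] with L H hL l u τ y ψ Z I S hψ hS hl0 hl hτ hZ hSep
    hy c1 c2
  refine (ct_lift Q _ S _ (fun r => by positivity) Z hZ hSep I
    (B := Real.exp (2 * e * L) * Real.exp l * Real.exp u) (by positivity)
    fun j hj Z' hZ' hS' _ hle => ?_).trans ?_
  · have hZ0 : 0 ≤ ∏ i, Z' i := Finset.prod_nonneg fun i _ => zero_le_one.trans (hZ' i)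
    refine (Finset.sum_le_sum_of_subset_of_nonneg hS fun r _ _ => by positivity).trans
      (H j hj _ _ τ ψ Z' hψ (Real.one_le_exp hl0) (Real.exp_le_exp.2 hl) (Real.exp_pos _) hτ hZ' hS' ?_ ?_)
    · refine (mul_le_mul_of_nonneg_left (pow_le_pow_left₀ hZ0 (hle.trans hy) 2)
        (Real.exp_pos _).le).trans ?_
      rw [← Real.exp_nat_mul, ← Real.exp_add, Real.exp_le_exp]
      push_cast
      linarith
    · refine (mul_le_mul_of_nonneg_right (pow_le_pow_left₀ hZ0 (hle.trans hy) 3)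
        (by positivity)).trans ?_
      rw [← Real.exp_nat_mul, ← Real.exp_mul, ← Real.exp_add, Real.exp_le_exp]
      push_cast
      linarith
  · have hZ0 : 0 ≤ ∏ i ∈ I, Z i := Finset.prod_nonneg fun i _ => zero_le_one.trans (hZ i)
    calc _ ≤ Real.exp (e * L) * (Real.exp (2 * e * L) * Real.exp l * Real.exp u) * Real.exp y := by
          gcongr
      _ = _ := by
          simp only [← Real.exp_add]
          congr 1
          ring

/-- Second moment of long sums. -/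
theorem ct_M2l {Q : O} (hQ : Q ≠ 0) (h72 : (72 : O) ∣ Q) {e : ℝ} (he : 0 < e) :
    ∀ᶠ L : ℝ in Filter.atTop, ∀ (l u τ : ℝ) (ψ : O → ℂ) (S : Finset O), IsCh Q ψ →
      S ⊆ box (Real.exp l) → 0 ≤ l → l ≤ u → u ≤ 2 * L → |τ| ≤ L ^ 2 + 4 →
      ∑ r ∈ S, ‖sm 1 (fun n => mu n * (ψ n * chi n r)) (Real.exp u) τ‖ ^ 2 ≤
        Real.exp (3 * e * L + 11 / 6 * u + l / 6) := by
  obtain ⟨C, hC, H⟩ := two_long hQ h72 one_pos he
  filter_upwards [ct_ev he hC] with L hL l u τ ψ S hψ hS hl0 hl hu hτ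
  refine (Finset.sum_le_sum_of_subset_of_nonneg hS fun r _ _ => by positivity).trans
    ((H (Real.exp (2 * L)) _ _ τ ψ (Real.one_le_exp (by linarith)) hψ (Real.one_le_exp hl0)
      (Real.exp_le_exp.2 hl) (Real.exp_le_exp.2 hu)).trans ?_)
  calc _ = C * (1 + |τ|) ^ C * (Real.exp (2 * L) ^ e * Real.exp u ^ (11 / 6 : ℝ) *
        Real.exp l ^ (1 / 6 : ℝ)) := by ring
    _ ≤ Real.exp (e * L) * (Real.exp (2 * L) ^ e * Real.exp u ^ (11 / 6 : ℝ) *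
        Real.exp l ^ (1 / 6 : ℝ)) := mul_le_mul_of_nonneg_right (hL τ hτ) (by positivity)
    _ = _ := by
        simp only [← Real.exp_mul, ← Real.exp_add]
        congr 1
        ring

/-- Fourth moment with a set of slots. -/
theorem ct_M4 {Q : O} (hQ : Q ≠ 0) (h72 : (72 : O) ∣ Q) {θ : ℝ} (hθ : 1 / 2 ≤ θ) (hθ1 : θ ≤ 1)
    (hZF : ZF θ) {e : ℝ} (he : 0 < e) (J : ℕ) :
    ∃ η₁ : ℝ, 0 < η₁ ∧ ∀ η₀ : ℝ, 0 < η₀ → η₀ ≤ η₁ → ∀ᶠ L : ℝ in Filter.atTop,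
      ∀ (l u τ y : ℝ) (ψ : O → ℂ) (Z : Fin J → ℝ) (I : Finset (Fin J)) (S : Finset O), IsCh Q ψ →
      (∀ r ∈ S, r ∈ box (Real.exp l) ∧ ¬ Exc Q 1 r) → 0 ≤ l → l ≤ L → |τ| ≤ L ^ 2 + 4 → (∀ i, 1 ≤ Z i) →
      Sep Z (Real.exp L ^ η₀) → ∏ i ∈ I, Z i ≤ Real.exp y →
      (I = ∅ ∨ (2 * u + (10 * θ - 4) * y ≤ l ∧ 18 * y ≤ l)) →
      ∑ r ∈ S, ‖sm 1 (fun n => ψ n * chi n r) (Real.exp u) τ‖ ^ 4 *
          ∏ i ∈ I, ct_L Q (Real.exp L ^ η₀) (Z i) r ^ 2 ≤ Real.exp (4 * e * L + l + 2 * u + y) := by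
  classical
  obtain ⟨η₁, hη, H⟩ := ct_unif J _ (ct_four hQ h72 hθ hθ1 hZF he)
  refine ⟨η₁, hη, fun η₀ h0 h1 => ?_⟩
  filter_upwards [H η₀ h0 h1, ct_ev0 he (4 ^ J)] with L H hL l u τ y ψ Z I S hψ hS hl0 hl hτ hZ hSep
    hy hc
  refine (ct_lift Q _ S _ (fun r => by positivity) Z hZ hSep I
    (B := Real.exp (3 * e * L) * Real.exp l * Real.exp u ^ 2) (by positivity)
    fun j hj Z' hZ' hS' hI hle => ?_).trans ?_
  · have hZ0 : 0 ≤ ∏ i, Z' i := Finset.prod_nonneg fun i _ => zero_le_one.trans (hZ' i)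
    refine (Finset.sum_le_sum_of_subset_of_nonneg (fun r hr => Finset.mem_filter.2 (hS r hr))
      fun r _ _ => by positivity).trans
      (H j hj _ _ τ ψ Z' hψ (Real.one_le_exp hl0) (Real.exp_le_exp.2 hl) (Real.exp_pos _) hτ hZ' hS'
        (hc.imp hI fun ⟨c1, c2⟩ => ⟨?_, ?_⟩))
    · refine (mul_le_mul_of_nonneg_left (Real.rpow_le_rpow hZ0 (hle.trans hy) (by linarith))
        (by positivity)).trans ?_
      rw [← Real.exp_nat_mul, ← Real.exp_mul, ← Real.exp_add, Real.exp_le_exp]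
      push_cast
      linarith
    · refine (pow_le_pow_left₀ hZ0 (hle.trans hy) 18).trans ?_
      rw [← Real.exp_nat_mul, Real.exp_le_exp]
      push_cast
      linarith
  · have hZ0 : 0 ≤ ∏ i ∈ I, Z i := Finset.prod_nonneg fun i _ => zero_le_one.trans (hZ i)
    calc _ ≤ Real.exp (e * L) * (Real.exp (3 * e * L) * Real.exp l * Real.exp u ^ 2) * Real.exp y := by
          gcongr
      _ = _ := by
          simp only [← Real.exp_nat_mul, ← Real.exp_add]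
          congr 1
          push_cast
          ring

end Crest.Agent.R017

end
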