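import Mathlib

/-!
# Row 17: basic definitions (Eisenstein integers, residue symbols, Gauss sums, smooth sums)
-/

set_option autoImplicit false

noncomputable section

open scoped BigOperators ComplexConjugate
open Complex

namespace Crest.Agent.R017

/-- Eisenstein integers `a + b ω`, `ω² = -1 - ω`. -/
abbrev O : Type := QuadraticAlgebra ℤ (-1) (-1)

/-- `ω`. -/
def om : O := ⟨0, 1⟩

/-- `λ = 1 - ω`, the prime above `3`. -/
def lam : O := ⟨1, -1⟩

/-- The complex number `ω = (-1 + i√3)/2`. -/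
def omC : ℂ := ⟨-1 / 2, Real.sqrt 3 / 2⟩

theorem omC_sq : omC * omC = -1 - omC := by
  have h : Real.sqrt 3 * Real.sqrt 3 = 3 := Real.mul_self_sqrt (by norm_num)
  apply Complex.ext
  · simp [omC]; nlinarith [h]
  · simp [omC]; ring

/-- The embedding `O → ℂ`. -/
def emb : O →+* ℂ where
  toFun x := (x.re : ℂ) + (x.im : ℂ) * omC
  map_one' := by simp [QuadraticAlgebra.re_one, QuadraticAlgebra.im_one]
  map_zero' := by simp
  map_add' x y := by simp; ring
  map_mul' x y := by
    simp only [QuadraticAlgebra.re_mul, QuadraticAlgebra.im_mul]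
    push_cast
    linear_combination (-(x.im : ℂ) * (y.im : ℂ)) * omC_sq

/-- The norm `a² - ab + b²` as an integer. -/
def nz (x : O) : ℤ := x.re ^ 2 - x.re * x.im + x.im ^ 2

/-- The norm as a natural number. -/
def nm (x : O) : ℕ := (nz x).natAbs

/-- The norm as a real number. -/
def Nr (x : O) : ℝ := (nm x : ℝ)

theorem nz_nonneg (x : O) : 0 ≤ nz x := by unfold nz; nlinarith [sq_nonneg (2 * x.re - x.im), sq_nonneg x.im]

theorem nm_cast (x : O) : (nm x : ℤ) = nz x := Int.natAbs_of_nonneg (nz_nonneg x)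

theorem nz_mul (x y : O) : nz (x * y) = nz x * nz y := by
  simp only [nz, QuadraticAlgebra.re_mul, QuadraticAlgebra.im_mul]; ring

theorem nm_mul (x y : O) : nm (x * y) = nm x * nm y := by
  simp [nm, nz_mul, Int.natAbs_mul]

theorem nz_eq_zero {x : O} : nz x = 0 ↔ x = 0 := by
  constructor
  · intro h
    unfold nz at h
    have h2 : x.im = 0 := by nlinarith [sq_nonneg (2 * x.re - x.im), sq_nonneg x.im]
    have h1 : x.re = 0 := by rw [h2] at h; nlinarith
    ext <;> simp [h1, h2]
  · rintro rfl; simp [nz]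

theorem nm_eq_zero {x : O} : nm x = 0 ↔ x = 0 := by
  rw [← nz_eq_zero, nm, Int.natAbs_eq_zero]

/-- Rounded quotient. -/
def ediv (x y : O) : O :=
  ⟨round (((x * star y).re : ℚ) / (nz y : ℚ)), round (((x * star y).im : ℚ) / (nz y : ℚ))⟩

theorem mul_star_self (y : O) : y * star y = (nz y : O) := by
  ext
  · simp [nz, QuadraticAlgebra.re_star, QuadraticAlgebra.im_star, sq]; ring
  · simp [QuadraticAlgebra.re_star, QuadraticAlgebra.im_star]; ring

theorem nz_star (y : O) : nz (star y) = nz y := by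
  simp [nz, QuadraticAlgebra.re_star, QuadraticAlgebra.im_star]; ring

theorem nz_mod_lt (x : O) {y : O} (hy : y ≠ 0) : nz (x - y * ediv x y) < nz y := by
  have hpos : 0 < nz y := lt_of_le_of_ne (nz_nonneg y) (fun h => hy (nz_eq_zero.1 h.symm))
  set w := x * star y with hw
  set N := nz y with hN
  have key : (x - y * ediv x y) * star y = w - (N : O) * ediv x y := by
    rw [hN, ← mul_star_self]; ring
  have h1 : nz (x - y * ediv x y) * N = nz (w - (N : O) * ediv x y) := by
    rw [← key, nz_mul, nz_star]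
  have hq : (0 : ℚ) < N := by exact_mod_cast hpos
  set a : ℚ := (w.re : ℚ) / N - round ((w.re : ℚ) / N) with ha
  set b : ℚ := (w.im : ℚ) / N - round ((w.im : ℚ) / N) with hb
  have ha2 : |a| ≤ 1 / 2 := abs_sub_round _
  have hb2 : |b| ≤ 1 / 2 := abs_sub_round _
  have h2 : ((nz (w - (N : O) * ediv x y) : ℤ) : ℚ) = (N : ℚ) ^ 2 * (a ^ 2 - a * b + b ^ 2) := by
    have e1 : (ediv x y).re = round ((w.re : ℚ) / N) := rfl
    have e2 : (ediv x y).im = round ((w.im : ℚ) / N) := rfl
    simp only [nz, QuadraticAlgebra.re_sub, QuadraticAlgebra.im_sub, QuadraticAlgebra.re_mul,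
      QuadraticAlgebra.im_mul, QuadraticAlgebra.re_intCast, QuadraticAlgebra.im_intCast, e1, e2, ha, hb]
    push_cast
    field_simp
    ring
  have h3 : a ^ 2 - a * b + b ^ 2 ≤ 3 / 4 := by
    have := abs_le.1 ha2
    have := abs_le.1 hb2
    nlinarith
  have h4 : ((nz (x - y * ediv x y) : ℤ) : ℚ) * N ≤ (N : ℚ) ^ 2 * (3 / 4) := by
    have : ((nz (x - y * ediv x y) : ℤ) : ℚ) * N = ((nz (w - (N : O) * ediv x y) : ℤ) : ℚ) := by
      exact_mod_cast h1
    rw [this, h2]
    exact mul_le_mul_of_nonneg_left h3 (by positivity)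
  have h5 : ((nz (x - y * ediv x y) : ℤ) : ℚ) < N := by nlinarith
  exact_mod_cast h5

instance : EuclideanDomain O :=
  { (inferInstance : CommRing O), (inferInstance : Nontrivial O) with
    quotient := ediv
    quotient_zero := fun x => by ext <;> simp [ediv, nz]
    remainder := fun x y => x - y * ediv x y
    quotient_mul_add_remainder_eq := fun x y => by ring
    r := fun x y => nm x < nm y
    r_wellFounded := (measure nm).wf
    remainder_lt := fun x y hy => by
      have := nz_mod_lt x hy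
      rw [← nm_cast, ← nm_cast] at this
      exact_mod_cast this
    mul_left_not_lt := fun a b hb => by
      rw [nm_mul, not_lt]
      have : nm b ≠ 0 := fun h => hb (nm_eq_zero.1 h)
      exact Nat.le_mul_of_pos_right _ (Nat.pos_of_ne_zero this) }

instance : DecidableEq O := fun x y =>
  decidable_of_iff (x.re = y.re ∧ x.im = y.im) ⟨fun h => QuadraticAlgebra.ext h.1 h.2, fun h => by
    subst h; exact ⟨rfl, rfl⟩⟩

instance : Countable O := (QuadraticAlgebra.equivProd (-1 : ℤ) (-1)).injective.countable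

/-- `n` is primary: `n ≡ 1 mod 3`. -/
def Prim (n : O) : Prop := (3 : O) ∣ n - 1

instance (n : O) : Decidable (Prim n) := Classical.propDecidable _

/-- The non-zero elements of norm at most `Y`. -/
def box (Y : ℝ) : Finset O :=
  ((Finset.Icc (-(2 * ⌈Y⌉₊ : ℤ)) (2 * ⌈Y⌉₊) ×ˢ Finset.Icc (-(2 * ⌈Y⌉₊ : ℤ)) (2 * ⌈Y⌉₊)).image
    (fun p : ℤ × ℤ => (⟨p.1, p.2⟩ : O))).filter (fun x => x ≠ 0 ∧ Nr x ≤ Y)

open Classical in
/-- A complete system of residues modulo `n` (for `n ≠ 0`): the elements of norm `≤ N n`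
(and `0`) that are the chosen Euclidean remainder of the chosen representative of their class. -/
def reps (n : O) : Finset O :=
  (insert 0 (box (Nr n))).filter
    (fun x => x = (Quotient.out (Ideal.Quotient.mk (Ideal.span {n}) x) : O) % n)

/-- The additive character of `ℂ` trivial exactly on `O`-dual pairs:
`ec (a + b ω) = exp (2 π i b)`. -/
def ec (z : ℂ) : ℂ := Complex.exp (2 * Real.pi * I * ((2 / Real.sqrt 3 * z.im : ℝ) : ℂ))

/-- `e(x / n)`. -/
def eO (x n : O) : ℂ := ec (emb x / emb n)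

open Classical in
/-- Cubic residue symbol modulo a prime `p` (zero for `p ∣ 3`). -/
def kapP (p x : O) : ℂ :=
  ∑ j ∈ Finset.range 3, if p ∣ x ^ ((nm p - 1) / 3) - om ^ j then emb (om ^ j) else 0

open Classical in
/-- Quadratic residue symbol modulo a prime `p` (zero for `p ∣ 2`). -/
def rhoP (p x : O) : ℂ :=
  if p ∣ 2 * x then 0 else if p ∣ x ^ ((nm p - 1) / 2) - 1 then 1 else -1

/-- Cubic residue symbol `(x / n)₃` (denominator first). -/
def kap (n x : O) : ℂ := ((UniqueFactorizationMonoid.factors n).map (fun p => kapP p x)).prod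

/-- Quadratic residue symbol `(x / n)₂` (denominator first). -/
def rho (n x : O) : ℂ := ((UniqueFactorizationMonoid.factors n).map (fun p => rhoP p x)).prod

/-- Sextic residue symbol `(x / n)₆ = ρ κ²`, so `χ² = κ`, `χ³ = ρ` on units mod `n`. -/
def chi (n x : O) : ℂ := rho n x * kap n x ^ 2

open Classical in
/-- Möbius function. -/
def mu (n : O) : ℂ :=
  if Squarefree n then (-1) ^ (Multiset.card (UniqueFactorizationMonoid.factors n)) else 0

/-- Gauss sum `∑_{x mod n} f(x) e(h x / n)`. -/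
def gs (f : O → ℂ) (n h : O) : ℂ := ∑ x ∈ reps n, f x * eO (h * x) n

/-- Normalised sextic, cubic and quadratic Gauss sums. -/
def g6 (n : O) : ℂ := gs (chi n) n 1 / (Real.sqrt (Nr n) : ℂ)
def g3 (n : O) : ℂ := gs (kap n) n 1 / (Real.sqrt (Nr n) : ℂ)
def g2 (n : O) : ℂ := gs (rho n) n 1 / (Real.sqrt (Nr n) : ℂ)

/-- The value of the normalised quadratic Gauss sum, a function of `n mod 4`. -/
def gam2 (n : O) : ℂ := (1 + eO (-n) 4 + eO (-(n * om)) 4 + eO (-(n * om ^ 2)) 4) / 2

/-- The sign in quadratic reciprocity. -/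
def sig (x y : O) : ℂ := gam2 (x * y) * conj (gam2 x) * conj (gam2 y)

/-- `x / |x|`. -/
def ang (x : O) : ℂ := emb x / (‖emb x‖ : ℂ)

open Classical in
/-- Squarefree part of the cubic theta coefficient. -/
def tau0 (n : O) : ℂ := if Squarefree n then conj (g3 n) else 0

open Classical in
/-- The cubic theta coefficient: `tau (n₀ j³) = |j| conj (g3 n₀)` for `n₀` squarefree. -/
def tau (N : O) : ℂ :=
  ∑ j ∈ box (Nr N), if Prim j ∧ j ^ 3 ∣ N then (‖emb j‖ : ℂ) * tau0 (N / j ^ 3) else 0

/-- The coefficient `ϑ`: equal to `μ(n) g6(n)` on primary squarefree `n` prime to `6`. -/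
def vth (N : O) : ℂ := conj (kap N 2) * gam2 N * ang N * tau N

/-- Normalised primes: primary primes and `λ`. -/
def PP (p : O) : Prop := Prime p ∧ (Prim p ∨ p = lam)

open Classical in
/-- The normalised prime divisors of `t ≠ 0`. -/
def pf (t : O) : Finset O := (box (Nr t)).filter (fun p => PP p ∧ p ∣ t)

/-- The radical of `t ≠ 0`. -/
def rad (t : O) : O := ∏ p ∈ pf t, p

open Classical in
/-- The primary divisors of `t ≠ 0`. -/
def pdiv (t : O) : Finset O := (box (Nr t)).filter (fun d => Prim d ∧ d ∣ t)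

/-- `η` is a character modulo `q` (with `3 ∣ q`); it is always summed over primary elements. -/
structure IsCh (q : O) (η : O → ℂ) : Prop where
  ne : q ≠ 0
  three : (3 : O) ∣ q
  one : η 1 = 1
  mul : ∀ x y, η (x * y) = η x * η y
  per : ∀ x y, q ∣ x - y → η x = η y
  zero : ∀ x, η x = 0 ↔ ¬ IsCoprime x q

/-- `η` is principal (on primary elements). -/
def Princ (η : O → ℂ) : Prop := ∀ n, Prim n → η n ≠ 0 → η n = 1

/-- The Dirichlet series over primary elements. -/
def Dser (c : O → ℂ) (s : ℂ) : ℂ := ∑' n : O, if Prim n then c n * (Nr n : ℂ) ^ (-s) else 0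

open Classical in
/-- The entire function `(s - 1) L(s, η)`. -/
def Lo (η : O → ℂ) : ℂ → ℂ :=
  if h : ∃ G : ℂ → ℂ, Differentiable ℂ G ∧ ∀ s : ℂ, 1 < s.re → G s = (s - 1) * Dser η s
  then h.choose else 0

open Classical in
/-- The Hecke `L`-function. -/
def Lf (η : O → ℂ) (s : ℂ) : ℂ := if Lo η 1 = 0 then dslope (Lo η) 1 s else Lo η s / (s - 1)

/-- All Hecke `L`-functions are zero-free for `Re s > θ`. -/
def ZF (θ : ℝ) : Prop :=
  ∀ q η, IsCh q η → ∀ s : ℂ, θ < s.re → (s ≠ 1 ∨ ¬ Princ η) → Lf η s ≠ 0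

/-- The log-Gaussian weight. -/
def W (a x : ℝ) : ℝ := Real.exp (-(Real.log x) ^ 2 / (4 * a))

/-- Smooth sum over primary elements: `∑ c(n) N(n)^{-iτ} W_a(N n / X)`. -/
def sm (a : ℝ) (c : O → ℂ) (X τ : ℝ) : ℂ :=
  ∑' n : O, if Prim n then c n * (Nr n : ℂ) ^ (-(τ * I)) * (W a (Nr n / X) : ℂ) else 0

/-- Rows `r` for which `r t` is a sixth power away from `Q`. -/
def Exc (Q t r : O) : Prop :=
  ∀ p : O, Prime p → ¬ p ∣ Q → (6 : ℕ) ∣ multiplicity p (r * t)

/-- Admissible coefficient support: primary, squarefree, prime to `Q`. -/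
def Adm (Q n : O) : Prop := Prim n ∧ Squarefree n ∧ IsCoprime n Q

end Crest.Agent.R017

end
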