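import Crest.Agent.R017.Pointwise
import Crest.Agent.R017.Reflect

/-! # Row 17: the zero detector, termwise computations -/

set_option autoImplicit false

noncomputable section

open scoped BigOperators ComplexConjugate
open Complex MeasureTheory Set

namespace Crest.Agent.R017

/-- The tilted Gaussian. -/
def dtG (a s u : ℝ) : ℝ := Real.exp (-u ^ 2 / (4 * a) - s * u)

theorem dtG_pos (a s u : ℝ) : 0 < dtG a s u := Real.exp_pos _

theorem dtG_cont (a s : ℝ) : Continuous (dtG a s) := by
  unfold dtG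
  fun_prop

theorem dtG_integrable {a : ℝ} (ha : 0 < a) (s : ℝ) : Integrable (dtG a s) := by
  have h1 : Integrable fun u : ℝ => Real.exp (-(1 / (4 * a)) * u ^ 2) :=
    integrable_exp_neg_mul_sq (by positivity)
  have h2 := (h1.comp_add_right (2 * a * s)).const_mul (Real.exp (a * s ^ 2))
  refine h2.congr (Filter.Eventually.of_forall fun u => ?_)
  simp only [dtG]
  rw [← Real.exp_add]
  congr 1
  field_simp
  ring

theorem dtG_mul_exp (a s B u : ℝ) : dtG a s u * Real.exp (-(B * u)) = dtG a (s + B) u := by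
  simp only [dtG]
  rw [← Real.exp_add]
  congr 1
  ring

theorem dtG_eq (a s u : ℝ) : dtG a s u = W a (Real.exp (-u)) * Real.exp (-(s * u)) := by
  simp only [dtG, W, Real.log_exp]
  rw [← Real.exp_add]
  congr 1
  ring

/-- The total mass of the tilted Gaussian. -/
def dtI (a s : ℝ) : ℝ := ∫ u, dtG a s u

theorem dtI_nonneg (a s : ℝ) : 0 ≤ dtI a s := integral_nonneg fun u => (dtG_pos a s u).le

theorem dtI_eq {a : ℝ} (ha : 0 < a) (s : ℝ) : (dtI a s : ℂ) = Wh a s := by
  rw [← integral_W ha, dtI, ← integral_complex_ofReal]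
  refine integral_congr_ae (Filter.Eventually.of_forall fun u => ?_)
  simp only [dtG_eq]
  push_cast
  rfl

/-- The distribution function of the tilted Gaussian. -/
def dtH (b s y : ℝ) : ℝ := ∫ v in Iic y, dtG b s v

theorem dtH_nonneg (b s y : ℝ) : 0 ≤ dtH b s y := integral_nonneg fun u => (dtG_pos b s u).le

theorem dtH_pos {b : ℝ} (hb : 0 < b) (s y : ℝ) : 0 < dtH b s y := by
  unfold dtH
  rw [setIntegral_pos_iff_support_of_nonneg_ae (Filter.Eventually.of_forall fun u => (dtG_pos b s u).le)
    (dtG_integrable hb s).integrableOn]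
  have : Function.support (dtG b s) = univ := eq_univ_of_forall fun u => (dtG_pos b s u).ne'
  rw [this, univ_inter, Real.volume_Iic]
  exact ENNReal.zero_lt_top

theorem dtH_le {b : ℝ} (hb : 0 < b) (s : ℝ) {B : ℝ} (hB : 0 ≤ B) (y : ℝ) :
    dtH b s y ≤ Real.exp (B * y) * dtI b (s + B) := by
  unfold dtH dtI
  rw [← integral_const_mul]
  calc ∫ v in Iic y, dtG b s v ≤ ∫ v in Iic y, Real.exp (B * y) * dtG b (s + B) v := by
        refine setIntegral_mono_on (dtG_integrable hb s).integrableOn
          ((dtG_integrable hb _).const_mul _).integrableOn measurableSet_Iic fun v hv => ?_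
        rw [← dtG_mul_exp, mul_left_comm, ← Real.exp_add]
        refine le_mul_of_one_le_right (dtG_pos _ _ _).le (Real.one_le_exp ?_)
        have : v ≤ y := hv
        nlinarith
    _ ≤ _ := setIntegral_le_integral ((dtG_integrable hb _).const_mul _)
        (Filter.Eventually.of_forall fun v => mul_nonneg (Real.exp_pos _).le (dtG_pos _ _ _).le)

theorem dtH_mono {b : ℝ} (hb : 0 < b) (s : ℝ) : Monotone (dtH b s) := fun _ _ h =>
  setIntegral_mono_set (dtG_integrable hb s).integrableOn
    (Filter.Eventually.of_forall fun u => (dtG_pos b s u).le) (Iic_subset_Iic.2 h).eventuallyLE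

theorem dtH_shift (b s y l : ℝ) : ∫ v in Iic y, dtG b s (v - l) = dtH b s (y - l) := by
  unfold dtH
  rw [← integral_indicator measurableSet_Iic, ← integral_indicator measurableSet_Iic,
    ← integral_sub_right_eq_self (fun v => (Iic (y - l)).indicator (dtG b s) v) l]
  refine integral_congr_ae (Filter.Eventually.of_forall fun v => ?_)
  simp only [indicator, mem_Iic, sub_le_sub_iff_right]

/-- The convolution kernel. -/
def dtK (a b s y : ℝ) : ℝ := ∫ u, dtG a s u * dtH b s (y - u)

theorem dtK_bound {b : ℝ} (hb : 0 < b) (a s : ℝ) {B : ℝ} (hB : 0 ≤ B) (y u : ℝ) :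
    dtG a s u * dtH b s (y - u) ≤ Real.exp (B * y) * dtI b (s + B) * dtG a (s + B) u := by
  have h1 := dtH_le hb s hB (y - u)
  have h2 : Real.exp (B * (y - u)) = Real.exp (B * y) * Real.exp (-(B * u)) := by
    rw [← Real.exp_add]
    congr 1
    ring
  rw [← dtG_mul_exp]
  calc dtG a s u * dtH b s (y - u) ≤ dtG a s u * (Real.exp (B * (y - u)) * dtI b (s + B)) :=
        mul_le_mul_of_nonneg_left h1 (dtG_pos _ _ _).le
    _ = _ := by rw [h2]; ring

theorem dtK_integrable {a b : ℝ} (ha : 0 < a) (hb : 0 < b) (s y : ℝ) :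
    Integrable fun u => dtG a s u * dtH b s (y - u) := by
  refine Integrable.mono' ((dtG_integrable ha (s + 0)).const_mul (Real.exp (0 * y) * dtI b (s + 0))) ?_
    (Filter.Eventually.of_forall fun u => ?_)
  · exact ((dtG_cont a s).measurable.mul
      ((dtH_mono hb s).measurable.comp (measurable_const.sub measurable_id))).aestronglyMeasurable
  · rw [Real.norm_of_nonneg (mul_nonneg (dtG_pos _ _ _).le (dtH_nonneg _ _ _))]
    exact dtK_bound hb a s le_rfl y u

theorem dtK_le {a b : ℝ} (ha : 0 < a) (hb : 0 < b) (s : ℝ) {B : ℝ} (hB : 0 ≤ B) (y : ℝ) :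
    dtK a b s y ≤ Real.exp (B * y) * dtI b (s + B) * dtI a (s + B) := by
  unfold dtK
  rw [dtI.eq_1 a, ← integral_const_mul]
  exact integral_mono (dtK_integrable ha hb s y) ((dtG_integrable ha _).const_mul _)
    fun u => dtK_bound hb a s hB y u

theorem dtG_zero_le (a : ℝ) {s u : ℝ} (hs : 0 ≤ s) (hu : u ≤ 0) : dtG a 0 u ≤ dtG a s u := by
  unfold dtG
  refine Real.exp_le_exp.2 ?_
  nlinarith

theorem dtK_ge {a b : ℝ} (ha : 0 < a) (hb : 0 < b) {s y : ℝ} (hs : 0 ≤ s) (hy : 0 ≤ y) :
    dtH a 0 0 * dtH b 0 0 ≤ dtK a b s y := by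
  have h1 : dtH b 0 0 ≤ dtH b s 0 :=
    setIntegral_mono_on (dtG_integrable hb _).integrableOn (dtG_integrable hb _).integrableOn measurableSet_Iic
      fun v hv => dtG_zero_le b hs hv
  calc dtH a 0 0 * dtH b 0 0 = ∫ u in Iic 0, dtG a 0 u * dtH b 0 0 := by
        rw [integral_mul_const]; rfl
    _ ≤ ∫ u in Iic 0, dtG a s u * dtH b s (y - u) := by
        refine setIntegral_mono_on ((dtG_integrable ha _).mul_const _).integrableOn
          (dtK_integrable ha hb s y).integrableOn measurableSet_Iic fun u hu => ?_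
        have hu' : u ≤ 0 := hu
        exact mul_le_mul (dtG_zero_le a hs hu) (h1.trans (dtH_mono hb s (by linarith))) (dtH_nonneg _ _ _)
          (dtG_pos _ _ _).le
    _ ≤ _ := setIntegral_le_integral (dtK_integrable ha hb s y)
        (Filter.Eventually.of_forall fun u => mul_nonneg (dtG_pos _ _ _).le (dtH_nonneg _ _ _))

theorem dtK_shift (a b s y l l' : ℝ) :
    ∫ u, dtG a s (u - l) * dtH b s (y - u - l') = dtK a b s (y - (l + l')) := by
  unfold dtK
  rw [← integral_sub_right_eq_self (fun u => dtG a s u * dtH b s (y - (l + l') - u)) l]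
  refine integral_congr_ae (Filter.Eventually.of_forall fun v => ?_)
  simp only
  congr 2
  ring

/-- The coefficient `c(n) N(n)^{-(s + iγ)}`. -/
def dtC (c : O → ℂ) (γ s : ℝ) (n : O) : ℂ :=
  if Prim n then c n * (Nr n : ℂ) ^ (-((s : ℂ) + γ * I)) else 0

theorem dtC_norm {c : O → ℂ} (hc : ∀ n, Prim n → ‖c n‖ ≤ 1) (γ s B : ℝ) (n : O) :
    ‖dtC c γ s n‖ * Real.exp (-(B * Real.log (Nr n))) ≤ Nr n ^ (-(s + B)) := by
  unfold dtC
  split_ifs with hn
  · have hN : 0 < Nr n := Nr_pos hn.ne_zero
    rw [norm_mul, Complex.norm_cpow_eq_rpow_re_of_pos hN]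
    have e1 : (-((s : ℂ) + γ * I)).re = -s := by simp
    have e2 : Real.exp (-(B * Real.log (Nr n))) = Nr n ^ (-B) := by
      rw [Real.rpow_def_of_pos hN]
      congr 1
      ring
    rw [e1, e2, mul_assoc, ← Real.rpow_add hN, ← neg_add]
    exact mul_le_of_le_one_left (Real.rpow_nonneg hN.le _) (hc n hn)
  · simp only [norm_zero, zero_mul]
    exact Real.rpow_nonneg (Nr_nonneg n) _

/-- The normalised smooth sum. -/
def dtS (a : ℝ) (c : O → ℂ) (γ s u : ℝ) : ℂ := sm a c (Real.exp u) γ * (Real.exp (-(s * u)) : ℝ)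

theorem dtS_hasSum {a : ℝ} (ha : 0 < a) {c : O → ℂ} (hc : ∀ n, Prim n → ‖c n‖ ≤ 1) (γ s u : ℝ) :
    HasSum (fun n => dtC c γ s n * (dtG a s (u - Real.log (Nr n)) : ℝ)) (dtS a c γ s u) := by
  have h1 := (summable_sm ha (Real.exp_pos u) (c := c) (K := 1) (A := 0)
    (fun n hn => by simpa using hc n hn) γ).hasSum.mul_right ((Real.exp (-(s * u)) : ℝ) : ℂ)
  have e : (fun n => dtC c γ s n * (dtG a s (u - Real.log (Nr n)) : ℝ)) = fun n =>
      (if Prim n then c n * (Nr n : ℂ) ^ (-(γ * I)) * (W a (Nr n / Real.exp u) : ℂ) else 0) *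
        ((Real.exp (-(s * u)) : ℝ) : ℂ) := by
    funext n
    unfold dtC
    split_ifs with hn
    · have hN : 0 < Nr n := Nr_pos hn.ne_zero
      have hN' : (Nr n : ℂ) ≠ 0 := by exact_mod_cast hN.ne'
      have e1 : Real.exp (-(u - Real.log (Nr n))) = Nr n / Real.exp u := by
        rw [neg_sub, Real.exp_sub, Real.exp_log hN]
      have e2 : Real.exp (-(s * u)) = Nr n ^ (-s) * Real.exp (-(s * (u - Real.log (Nr n)))) := by
        rw [Real.rpow_def_of_pos hN, ← Real.exp_add]
        congr 1
        ring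
      rw [dtG_eq, e1, e2, neg_add, Complex.cpow_add _ _ hN']
      simp only [Complex.ofReal_mul]
      rw [Complex.ofReal_cpow hN.le, Complex.ofReal_neg]
      ring
    · simp
  rw [e]
  exact h1

theorem dtS_cont {a : ℝ} (ha : 0 < a) {c : O → ℂ} (hc : ∀ n, Prim n → ‖c n‖ ≤ 1) (γ s : ℝ) :
    Continuous (dtS a c γ s) := by
  have h1 := continuous_sm ha (c := c) (K := 1) (A := 0) (fun n hn => by simpa using hc n hn)
  have h2 : Continuous fun u : ℝ => sm a c (Real.exp u) γ :=
    h1.comp (f := fun u : ℝ => (u, γ)) (by fun_prop)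
  unfold dtS
  exact h2.mul (by fun_prop)

theorem dtS_norm (a : ℝ) (c : O → ℂ) (γ s u : ℝ) :
    ‖dtS a c γ s u‖ = ‖sm a c (Real.exp u) γ‖ * Real.exp (-(s * u)) := by
  rw [dtS, norm_mul, Complex.norm_real, Real.norm_of_nonneg (Real.exp_pos _).le]

/-- The Mellin transform on the half-line of absolute convergence. -/
theorem dt_integral_eq {a : ℝ} (ha : 0 < a) {c : O → ℂ} (hc : ∀ n, Prim n → ‖c n‖ ≤ 1) (γ : ℝ) {s : ℝ}
    (hs : 1 < s) : ∫ u, dtS a c γ s u = Wh a s * Dser c (s + γ * I) := by
  have h1 : ∀ n : O, ∫ u, dtG a s (u - Real.log (Nr n)) = dtI a s := fun n =>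
    integral_sub_right_eq_self (dtG a s) _
  have h2 := hasSum_integral_of_summable_integral_norm (μ := volume)
    (F := fun (n : O) (u : ℝ) => dtC c γ s n * (dtG a s (u - Real.log (Nr n)) : ℝ))
    (fun n => (((dtG_integrable ha s).comp_sub_right _).ofReal).const_mul _) (by
      refine Summable.of_nonneg_of_le (fun n => integral_nonneg fun u => norm_nonneg _) (fun n => ?_)
        ((summable_Nr_rpow hs).mul_right (dtI a s))
      simp only [norm_mul, Complex.norm_real, Real.norm_of_nonneg (dtG_pos _ _ _).le]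
      rw [integral_const_mul, h1]
      have := dtC_norm hc γ s 0 n
      simp only [zero_mul, neg_zero, Real.exp_zero, mul_one, add_zero] at this
      exact mul_le_mul_of_nonneg_right this (dtI_nonneg _ _))
  simp only [(dtS_hasSum ha hc γ s _).tsum_eq, integral_const_mul, integral_complex_ofReal, h1] at h2
  rw [← h2.tsum_eq, tsum_mul_right, dtI_eq ha, mul_comm]
  rfl

/-- The truncated Mellin transform. -/
theorem dt_hasSum_Iic {b : ℝ} (hb : 0 < b) {c : O → ℂ} (hc : ∀ n, Prim n → ‖c n‖ ≤ 1) (γ : ℝ) {s : ℝ}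
    (hs : 0 ≤ s) (y : ℝ) :
    HasSum (fun n => dtC c γ s n * (dtH b s (y - Real.log (Nr n)) : ℝ)) (∫ v in Iic y, dtS b c γ s v) := by
  have h2 := hasSum_integral_of_summable_integral_norm (μ := volume.restrict (Iic y))
    (F := fun (n : O) (u : ℝ) => dtC c γ s n * (dtG b s (u - Real.log (Nr n)) : ℝ))
    (fun n => ((((dtG_integrable hb s).comp_sub_right _).ofReal).const_mul _).integrableOn) (by
      refine Summable.of_nonneg_of_le (fun n => integral_nonneg fun u => norm_nonneg _) (fun n => ?_)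
        ((summable_Nr_rpow (σ := s + 2) (by linarith)).mul_right (Real.exp (2 * y) * dtI b (s + 2)))
      simp only [norm_mul, Complex.norm_real, Real.norm_of_nonneg (dtG_pos _ _ _).le]
      rw [integral_const_mul, dtH_shift]
      have h3 := dtC_norm hc γ s 2 n
      have h4 := dtH_le hb s (B := 2) (by norm_num) (y - Real.log (Nr n))
      have h5 : Real.exp (2 * (y - Real.log (Nr n))) =
          Real.exp (-(2 * Real.log (Nr n))) * Real.exp (2 * y) := by
        rw [← Real.exp_add]
        congr 1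
        ring
      calc _ ≤ ‖dtC c γ s n‖ * (Real.exp (2 * (y - Real.log (Nr n))) * dtI b (s + 2)) :=
            mul_le_mul_of_nonneg_left h4 (norm_nonneg _)
        _ = ‖dtC c γ s n‖ * Real.exp (-(2 * Real.log (Nr n))) * (Real.exp (2 * y) * dtI b (s + 2)) := by
            rw [h5]; ring
        _ ≤ _ := mul_le_mul_of_nonneg_right h3 (mul_nonneg (Real.exp_pos _).le (dtI_nonneg _ _)))
  simp only [(dtS_hasSum hb hc γ s _).tsum_eq, integral_const_mul, integral_complex_ofReal, dtH_shift] at h2
  exact h2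

open Classical in
/-- Möbius inversion for a double series. -/
theorem dt_moebius {F : O → ℂ} {r : ℂ}
    (h : HasSum (fun p : O × O => if Prim p.1 ∧ Prim p.2 then mu p.1 * F (p.1 * p.2) else 0) r) :
    r = F 1 := by
  have h1 := h.tsum_fiberwise (fun p => p.1 * p.2)
  have h2 : ∀ k : O, (∑' p : (fun p : O × O => p.1 * p.2) ⁻¹' {k},
      if Prim p.1.1 ∧ Prim p.1.2 then mu p.1.1 * F (p.1.1 * p.1.2) else 0) = if k = 1 then F 1 else 0 := by
    intro k
    rw [tsum_subtype ((fun p : O × O => p.1 * p.2) ⁻¹' {k})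
      (fun p : O × O => if Prim p.1 ∧ Prim p.2 then mu p.1 * F (p.1 * p.2) else 0)]
    by_cases hk : Prim k
    · rw [tsum_eq_sum (s := (pdiv k).image fun d => (d, k / d))]
      · rw [Finset.sum_image (fun x _ y _ hxy => (Prod.ext_iff.1 hxy).1)]
        have h3 : ∀ d ∈ pdiv k, ((fun p : O × O => p.1 * p.2) ⁻¹' {k}).indicator
            (fun p : O × O => if Prim p.1 ∧ Prim p.2 then mu p.1 * F (p.1 * p.2) else 0) (d, k / d) =
            mu d * F k := by
          intro d hd
          obtain ⟨hd1, hd2⟩ := (mem_pdiv hk.ne_zero).1 hd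
          have e : d * (k / d) = k := EuclideanDomain.mul_div_cancel' hd1.ne_zero hd2
          rw [indicator_of_mem (by simpa using e)]
          simp only [e]
          rw [if_pos ⟨hd1, hd1.of_mul (by rw [e]; exact hk)⟩]
        rw [Finset.sum_congr rfl h3, ← Finset.sum_mul, sum_pdiv_mu hk]
        split_ifs with h4
        · rw [h4, one_mul]
        · rw [zero_mul]
      · rintro ⟨d, e⟩ hp
        by_contra hne
        apply hp
        have h4 : d * e = k := by
          by_contra h5
          exact hne (indicator_of_notMem (by simpa using h5) _)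
        have h5 : Prim d ∧ Prim e := by
          by_contra h5
          apply hne
          rw [indicator_of_mem (by simpa using h4)]
          exact if_neg h5
        refine Finset.mem_image.2 ⟨d, (mem_pdiv hk.ne_zero).2 ⟨h5.1, ⟨e, h4.symm⟩⟩, ?_⟩
        rw [← h4, mul_div_cancel_left₀ _ h5.1.ne_zero]
    · rw [if_neg (fun h4 => hk (by rw [h4]; exact prim_one))]
      refine (tsum_congr fun p => ?_).trans tsum_zero
      by_cases h4 : p.1 * p.2 = k
      · rw [indicator_of_mem (by simpa using h4)]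
        exact if_neg fun h5 : Prim p.1 ∧ Prim p.2 => hk (h4 ▸ h5.1.mul h5.2)
      · exact indicator_of_notMem (by simpa using h4) _
  simp only [h2] at h1
  exact h1.unique (hasSum_ite_eq 1 (F 1))

/-- The main term. -/
theorem dt_main {a b : ℝ} (ha : 0 < a) (hb : 0 < b) {q : O} {η : O → ℂ} (h : IsCh q η) (γ : ℝ) {s : ℝ}
    (hs : 0 ≤ s) (y : ℝ) :
    ∫ u, dtS a (fun n => mu n * η n) γ s u * ∫ v in Iic (y - u), dtS b η γ s v = dtK a b s y := by
  have hη : ∀ n, Prim n → ‖η n‖ ≤ 1 := fun n _ => h.norm_le n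
  have hμ : ∀ n, Prim n → ‖mu n * η n‖ ≤ 1 := fun n _ => by
    rw [norm_mul]
    exact mul_le_one₀ (norm_mu_le n) (norm_nonneg _) (h.norm_le n)
  let F : O × O → ℝ → ℂ := fun p u => (dtC (fun n => mu n * η n) γ s p.1 * dtC η γ s p.2) *
    ((dtG a s (u - Real.log (Nr p.1)) * dtH b s (y - u - Real.log (Nr p.2)) : ℝ) : ℂ)
  have h1 : ∀ u, ∑' p, F p u = dtS a (fun n => mu n * η n) γ s u * ∫ v in Iic (y - u), dtS b η γ s v := by
    intro u
    have h2 := dtS_hasSum ha hμ γ s u
    have h3 := dt_hasSum_Iic hb hη γ hs (y - u)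
    have h5 := summable_mul_of_summable_norm h2.summable.norm h3.summable.norm
    have h6 := HasSum.mul h2 h3 h5
    rw [← h6.tsum_eq]
    refine tsum_congr fun p => ?_
    simp only [F]
    push_cast
    ring
  have h4 : ∀ p : O × O, Integrable fun u =>
      dtG a s (u - Real.log (Nr p.1)) * dtH b s (y - u - Real.log (Nr p.2)) := by
    intro p
    refine ((dtK_integrable ha hb s (y - (Real.log (Nr p.1) + Real.log (Nr p.2)))).comp_sub_right
      (Real.log (Nr p.1))).congr (Filter.Eventually.of_forall fun u => ?_)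
    simp only
    congr 2
    ring
  have h2 := hasSum_integral_of_summable_integral_norm (μ := volume) (F := F)
    (fun p => ((h4 p).ofReal).const_mul _) (by
      have h5 := summable_Nr_rpow (σ := s + 2) (by linarith)
      have h6 := h5.mul_of_nonneg h5 (fun n => Real.rpow_nonneg (Nr_nonneg n) _)
        (fun n => Real.rpow_nonneg (Nr_nonneg n) _)
      refine Summable.of_nonneg_of_le (fun n => integral_nonneg fun u => norm_nonneg _) (fun p => ?_)
        (h6.mul_right (Real.exp (2 * y) * dtI b (s + 2) * dtI a (s + 2)))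
      simp only [F, norm_mul, Complex.norm_real,
        Real.norm_of_nonneg (mul_nonneg (dtG_pos _ _ _).le (dtH_nonneg _ _ _))]
      rw [integral_const_mul, dtK_shift]
      have h7 := dtC_norm hμ γ s 2 p.1
      have h8 := dtC_norm hη γ s 2 p.2
      have h9 := dtK_le ha hb s (B := 2) (by norm_num) (y - (Real.log (Nr p.1) + Real.log (Nr p.2)))
      have h10 : Real.exp (2 * (y - (Real.log (Nr p.1) + Real.log (Nr p.2)))) =
          Real.exp (-(2 * Real.log (Nr p.1))) * Real.exp (-(2 * Real.log (Nr p.2))) * Real.exp (2 * y) := by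
        rw [← Real.exp_add, ← Real.exp_add]
        congr 1
        ring
      calc _ ≤ ‖dtC (fun n => mu n * η n) γ s p.1‖ * ‖dtC η γ s p.2‖ *
            (Real.exp (2 * (y - (Real.log (Nr p.1) + Real.log (Nr p.2)))) * dtI b (s + 2) * dtI a (s + 2)) :=
            mul_le_mul_of_nonneg_left h9 (mul_nonneg (norm_nonneg _) (norm_nonneg _))
        _ = (‖dtC (fun n => mu n * η n) γ s p.1‖ * Real.exp (-(2 * Real.log (Nr p.1)))) *
            (‖dtC η γ s p.2‖ * Real.exp (-(2 * Real.log (Nr p.2)))) *
            (Real.exp (2 * y) * dtI b (s + 2) * dtI a (s + 2)) := by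
            rw [h10]; ring
        _ ≤ _ := mul_le_mul_of_nonneg_right
            (mul_le_mul h7 h8 (mul_nonneg (norm_nonneg _) (Real.exp_pos _).le)
              (Real.rpow_nonneg (Nr_nonneg _) _))
            (mul_nonneg (mul_nonneg (Real.exp_pos _).le (dtI_nonneg _ _)) (dtI_nonneg _ _)))
  simp only [h1] at h2
  simp only [F, integral_const_mul, integral_complex_ofReal, dtK_shift] at h2
  have h3 := dt_moebius (F := fun k => η k * (Nr k : ℂ) ^ (-((s : ℂ) + γ * I)) *
    (dtK a b s (y - Real.log (Nr k)) : ℝ)) (r := ∫ u, dtS a (fun n => mu n * η n) γ s u *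
      ∫ v in Iic (y - u), dtS b η γ s v) (by
      refine h2.congr_fun fun p => ?_
      unfold dtC
      by_cases h5 : Prim p.1
      · by_cases h6 : Prim p.2
        · have hN : 0 < Nr p.1 := Nr_pos h5.ne_zero
          have hM : 0 < Nr p.2 := Nr_pos h6.ne_zero
          rw [if_pos ⟨h5, h6⟩, if_pos h5, if_pos h6, Nr_mul, Real.log_mul hN.ne' hM.ne', h.mul,
            Complex.ofReal_mul, Complex.mul_cpow_ofReal_nonneg hN.le hM.le]
          ring
        · simp [h6]
      · simp [h5])
  rw [h3]
  simp [Nr_one, h.one]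

end Crest.Agent.R017

end
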