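import Crest.Agent.R017.FE2

/-! # Row 17: functional equation and polynomial growth -/

set_option autoImplicit false

noncomputable section

open scoped BigOperators ComplexConjugate
open Complex MeasureTheory

namespace Crest.Agent.R017

theorem f3_norm_Nr_cpow {n : O} (hn : n ≠ 0) (s : ℂ) : ‖(Nr n : ℂ) ^ s‖ = Nr n ^ s.re :=
  Complex.norm_cpow_eq_rpow_re_of_pos (Nr_pos hn) s

theorem f3_series_bound : ∃ Z : ℝ, 0 ≤ Z ∧ ∀ η₁ : O → ℂ, (∀ x, ‖η₁ x‖ ≤ 1) → ∀ s : ℂ, 2 ≤ s.re →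
    ‖∑' n : O, if n = 0 then 0 else η₁ n * (Nr n : ℂ) ^ (-s)‖ ≤ Z := by
  refine ⟨∑' x : O, Nr x ^ (-(2 : ℝ)), tsum_nonneg fun x => Real.rpow_nonneg (Nr_nonneg x) _,
    fun η₁ h s hs => ?_⟩
  refine tsum_of_norm_bounded (summable_Nr_rpow (σ := 2) (by norm_num)).hasSum fun n => ?_
  split_ifs with hn
  · rw [norm_zero]; exact Real.rpow_nonneg (Nr_nonneg n) _
  · rw [norm_mul, f3_norm_Nr_cpow hn]
    calc ‖η₁ n‖ * Nr n ^ (-s).re ≤ 1 * Nr n ^ (-(2 : ℝ)) := by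
          refine mul_le_mul (h n) ?_ (Real.rpow_nonneg (Nr_nonneg n) _) zero_le_one
          exact Real.rpow_le_rpow_of_exponent_le (one_le_Nr hn) (by simp; linarith)
      _ = _ := one_mul _

/-- Phragmén–Lindelöf with polynomial bounds on the edges. -/
theorem f3_PL {G : ℂ → ℂ} (hG : Differentiable ℂ G) {M : ℝ} (hM : 0 ≤ M) (k : ℕ)
    (hgr : ∃ C : ℝ, ∀ s : ℂ, |s.re| ≤ 3 → ‖G s‖ ≤ C * Real.exp (C * |s.im|))
    (ha : ∀ s : ℂ, s.re = -1 → ‖G s‖ ≤ M * (1 + |s.im|) ^ k)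
    (hb : ∀ s : ℂ, s.re = 3 → ‖G s‖ ≤ M * (1 + |s.im|) ^ k)
    {s : ℂ} (h1 : -1 ≤ s.re) (h2 : s.re ≤ 3) : ‖G s‖ ≤ M * 16 ^ k * (1 + |s.im|) ^ k := by
  have hn4 : ∀ z : ℂ, -1 ≤ z.re → 4 ≤ ‖z + 5‖ := fun z hz => by
    have := Complex.re_le_norm (z + 5)
    simp only [add_re, re_ofNat] at this
    linarith
  have hne : ∀ z : ℂ, -1 ≤ z.re → z + 5 ≠ 0 := fun z hz h0 => by
    have := hn4 z hz
    rw [h0, norm_zero] at this
    linarith
  have hedge : ∀ z : ℂ, -1 ≤ z.re → ‖G z‖ ≤ M * (1 + |z.im|) ^ k →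
      ‖G z / (z + 5) ^ k‖ ≤ M * 2 ^ k := fun z hz hb => by
    have h4 := hn4 z hz
    have h5 : |z.im| ≤ ‖z + 5‖ := by
      have := Complex.abs_im_le_norm (z + 5)
      simpa using this
    rw [norm_div, norm_pow, div_le_iff₀ (by positivity), mul_assoc, ← mul_pow]
    refine hb.trans (mul_le_mul_of_nonneg_left ?_ hM)
    exact pow_le_pow_left₀ (by positivity) (by linarith) k
  have key : ‖G s / (s + 5) ^ k‖ ≤ M * 2 ^ k := by
    refine PhragmenLindelof.vertical_strip (f := fun z => G z / (z + 5) ^ k) (a := -1) (b := 3)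
      ?_ ?_ (fun z hz => hedge z hz.ge (ha z hz)) (fun z hz => hedge z (by rw [hz]; norm_num) (hb z hz))
      h1 h2
    · refine DifferentiableOn.diffContOnCl ?_
      rw [Complex.closure_preimage_re, closure_Ioo (by norm_num)]
      intro z hz
      refine DifferentiableAt.differentiableWithinAt ?_
      exact (hG z).div (by fun_prop) (pow_ne_zero _ (hne z hz.1))
    · obtain ⟨C, hC⟩ := hgr
      refine ⟨1 / 2, ?_, 2 * |C|, ?_⟩
      · have := Real.pi_gt_three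
        rw [lt_div_iff₀ (by norm_num)]
        linarith
      · refine Asymptotics.IsBigO.of_bound |C| ?_
        refine Filter.Eventually.filter_mono inf_le_right ?_
        rw [Filter.eventually_principal]
        intro z hz
        have hz1 : -1 < z.re := hz.1
        have hz2 : z.re < 3 := hz.2
        have h4 := hn4 z hz1.le
        have h6 : ‖G z / (z + 5) ^ k‖ ≤ ‖G z‖ := by
          rw [norm_div, norm_pow]
          exact div_le_self (norm_nonneg _) (one_le_pow₀ (by linarith))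
        refine h6.trans ((hC z (abs_le.2 ⟨by linarith, hz2.le⟩)).trans ?_)
        rw [Real.norm_eq_abs, abs_of_pos (Real.exp_pos _)]
        refine mul_le_mul (le_abs_self C) (Real.exp_le_exp.2 ?_) (Real.exp_pos _).le (abs_nonneg C)
        have h7 := Real.add_one_le_exp (1 / 2 * |z.im|)
        have h8 : C * |z.im| ≤ |C| * |z.im| :=
          mul_le_mul_of_nonneg_right (le_abs_self C) (abs_nonneg _)
        nlinarith [abs_nonneg C]
  have h4 := hn4 s h1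
  rw [norm_div, norm_pow, div_le_iff₀ (by positivity)] at key
  refine key.trans ?_
  rw [mul_assoc, mul_assoc, ← mul_pow, ← mul_pow]
  refine mul_le_mul_of_nonneg_left (pow_le_pow_left₀ (by positivity) ?_ k) hM
  have h5 := Complex.norm_le_abs_re_add_abs_im (s + 5)
  simp only [add_re, re_ofNat, add_im, im_ofNat, add_zero] at h5
  have h6 : |s.re + 5| ≤ 8 := abs_le.2 ⟨by linarith, by linarith⟩
  linarith [abs_nonneg s.im]

theorem f3_euler {q : O} (hq : q ≠ 0) {S : Finset O} (hS : S ⊆ pf q) (hd : ∏ p ∈ S, p ∣ q)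
    {η₁ : O → ℂ} (h : ∀ x, ‖η₁ x‖ ≤ 1) {s : ℂ} (hs : -1 ≤ s.re) :
    ‖∏ p ∈ S, (1 - η₁ p * (Nr p : ℂ) ^ (-s))‖ ≤ Nr q ^ 2 := by
  rw [norm_prod]
  calc ∏ p ∈ S, ‖1 - η₁ p * (Nr p : ℂ) ^ (-s)‖ ≤ ∏ p ∈ S, Nr p ^ 2 := by
        refine Finset.prod_le_prod (fun _ _ => norm_nonneg _) fun p hp => ?_
        have hp' := ((mem_pf hq).1 (hS hp)).1.1
        have h3 := three_le_Nr_prime hp'
        have h4 : ‖η₁ p * (Nr p : ℂ) ^ (-s)‖ ≤ Nr p := by
          rw [norm_mul, f3_norm_Nr_cpow hp'.ne_zero]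
          calc ‖η₁ p‖ * Nr p ^ (-s).re ≤ 1 * Nr p ^ (1 : ℝ) := by
                refine mul_le_mul (h p) ?_ (Real.rpow_nonneg (Nr_nonneg p) _) zero_le_one
                exact Real.rpow_le_rpow_of_exponent_le (by linarith) (by simp; linarith)
            _ = _ := by simp
        have h5 := norm_sub_le (1 : ℂ) (η₁ p * (Nr p : ℂ) ^ (-s))
        rw [norm_one] at h5
        nlinarith
    _ = Nr (∏ p ∈ S, p) ^ 2 := by rw [Nr_prod, Finset.prod_pow]
    _ ≤ Nr q ^ 2 := pow_le_pow_left₀ (Nr_nonneg _) (Nr_le_of_dvd hq hd) 2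

theorem f3_G_bound : ∃ (K : ℝ) (k : ℕ), 0 ≤ K ∧ ∀ (q : O) (η : O → ℂ), IsCh q η → ∀ s : ℂ,
    -1 ≤ s.re → s.re ≤ 3 → ‖Lo η s‖ ≤ K * Nr q ^ 4 * (1 + |s.im|) ^ k := by
  obtain ⟨Z, hZ, hser⟩ := f3_series_bound
  obtain ⟨C, hC⟩ := norm_Gamma_ratio_le 3 0 (by norm_num)
  have hc := c0_pos
  set k : ℕ := ⌈C⌉₊ + 1 with hk
  set M : ℝ := Z * (1 + c0 ^ (-3 : ℝ) * |C|) with hM
  have hM0 : 0 ≤ M := by positivity
  refine ⟨M * 16 ^ k, k, by positivity, fun q η h s h1 h2 => ?_⟩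
  obtain ⟨f, S, η₁, w, G, hf, hw, hS, hd, -, hη, -, -, -, hG, hser', hLo, hFE, hgr⟩ := h.exists_FE
  have hq := h.ne
  have hq1 := one_le_Nr hq
  have hfq : Nr f ≤ Nr q := Nr_le_of_dvd hq ((dvd_mul_right _ _).trans hd)
  have hright : ∀ z : ℂ, 2 ≤ z.re → z.re ≤ 3 → ‖G z‖ ≤ Z * (1 + |z.im|) := fun z hz hz' => by
    rw [hser' z (by linarith), norm_mul, norm_mul]
    have h3 := hser η₁ hη z hz
    have h4 := Complex.norm_le_abs_re_add_abs_im (z - 1)
    simp only [sub_re, one_re, sub_im, one_im, sub_zero] at h4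
    have h5 : |z.re - 1| ≤ 2 := abs_le.2 ⟨by linarith, by linarith⟩
    have h6 : ‖(1 / 6 : ℂ)‖ = 1 / 6 := by simp
    rw [h6]
    calc ‖z - 1‖ * (1 / 6 * ‖∑' n : O, if n = 0 then 0 else η₁ n * (Nr n : ℂ) ^ (-z)‖)
        ≤ (2 + |z.im|) * (1 / 6 * Z) := by gcongr; linarith
      _ ≤ Z * (1 + |z.im|) := by nlinarith [abs_nonneg z.im]
  have hGb := f3_PL hG (M := M * Nr q ^ 2) (by positivity) k (hgr 3) ?_ ?_ h1 h2
  · rw [hLo, norm_mul]
    have h3 := f3_euler hq hS ((dvd_mul_left _ _).trans hd) hη h1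
    calc ‖G s‖ * ‖∏ p ∈ S, (1 - η₁ p * (Nr p : ℂ) ^ (-s))‖
        ≤ (M * Nr q ^ 2 * 16 ^ k * (1 + |s.im|) ^ k) * Nr q ^ 2 := by gcongr
      _ = _ := by ring
  · intro z hz
    have ht : 1 ≤ 1 + |z.im| := by linarith [abs_nonneg z.im]
    have e1 : ‖(Nr f : ℂ) ^ (1 / 2 - z)‖ ≤ Nr q ^ 2 := by
      rw [f3_norm_Nr_cpow hf]
      calc Nr f ^ (1 / 2 - z).re ≤ Nr f ^ (2 : ℝ) :=
            Real.rpow_le_rpow_of_exponent_le (one_le_Nr hf) (by simp [hz]; norm_num)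
        _ = Nr f ^ 2 := by simp
        _ ≤ Nr q ^ 2 := pow_le_pow_left₀ (Nr_nonneg _) hfq 2
    have e2 : ‖(c0 : ℂ) ^ (2 * z - 1)‖ = c0 ^ (-3 : ℝ) := by
      rw [Complex.norm_cpow_eq_rpow_re_of_pos hc]
      congr 1
      simp [hz]; norm_num
    have e3 : ‖Complex.Gamma (2 - z) * (Complex.Gamma (1 + z))⁻¹‖ ≤ |C| * (1 + |z.im|) ^ ⌈C⌉₊ := by
      have h3 := hC 3 0 z.im le_rfl (by norm_num) (by norm_num) le_rfl
      have a1 : (2 - z : ℂ) = ((3 : ℝ) : ℂ) - z.im * I := by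
        apply Complex.ext <;> simp [hz]; norm_num
      have a2 : (1 + z : ℂ) = ((0 : ℝ) : ℂ) + z.im * I := by
        apply Complex.ext <;> simp [hz]
      rw [a1, a2]
      refine h3.trans (mul_le_mul (le_abs_self C) ?_ (by positivity) (abs_nonneg C))
      rw [← Real.rpow_natCast]
      exact Real.rpow_le_rpow_of_exponent_le ht (Nat.le_ceil C)
    have e4 : ‖conj (G (conj (1 - z)))‖ ≤ Z * (1 + |z.im|) := by
      rw [Complex.norm_conj]
      have := hright (conj (1 - z)) (by simp [hz]; norm_num) (by simp [hz]; norm_num)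
      simpa using this
    rw [hFE z (by rw [hz]; norm_num), mul_assoc _ (Complex.Gamma (2 - z)), norm_mul, norm_mul,
      norm_mul, norm_mul, hw, e2, one_mul]
    calc ‖(Nr f : ℂ) ^ (1 / 2 - z)‖ * c0 ^ (-3 : ℝ) *
          ‖Complex.Gamma (2 - z) * (Complex.Gamma (1 + z))⁻¹‖ * ‖conj (G (conj (1 - z)))‖
        ≤ Nr q ^ 2 * c0 ^ (-3 : ℝ) * (|C| * (1 + |z.im|) ^ ⌈C⌉₊) * (Z * (1 + |z.im|)) := by
          gcongr
      _ = Z * (c0 ^ (-3 : ℝ) * |C|) * Nr q ^ 2 * (1 + |z.im|) ^ k := by rw [hk]; ring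
      _ ≤ M * Nr q ^ 2 * (1 + |z.im|) ^ k := by
          rw [hM]; gcongr; linarith
  · intro z hz
    have ht : 1 ≤ 1 + |z.im| := by linarith [abs_nonneg z.im]
    refine (hright z (by rw [hz]; norm_num) hz.le).trans ?_
    have e1 : Z ≤ M * Nr q ^ 2 := by
      calc Z = Z * 1 * 1 := by ring
        _ ≤ M * Nr q ^ 2 := by
          rw [hM]
          gcongr
          · linarith [show 0 ≤ c0 ^ (-3 : ℝ) * |C| by positivity]
          · exact one_le_pow₀ hq1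
    have e2 : 1 + |z.im| ≤ (1 + |z.im|) ^ k := le_self_pow₀ ht (by omega)
    gcongr

/-- Polynomial growth, uniformly in the character. -/
theorem Lo_growth : ∃ C : ℝ, 0 ≤ C ∧ ∀ (q : O) (η : O → ℂ), IsCh q η → ∀ s : ℂ, -1 ≤ s.re → s.re ≤ 3 →
    ‖Lo η s‖ ≤ C * (Nr q * (1 + |s.im|)) ^ C := by
  obtain ⟨K, k, hK, h⟩ := f3_G_bound
  refine ⟨K + ((k + 4 : ℕ) : ℝ), by positivity, fun q η hη s h1 h2 => (h q η hη s h1 h2).trans ?_⟩
  have hq1 := one_le_Nr hη.ne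
  have ht : 1 ≤ 1 + |s.im| := by linarith [abs_nonneg s.im]
  have hB : 1 ≤ Nr q * (1 + |s.im|) := one_le_mul_of_one_le_of_one_le hq1 ht
  rw [mul_assoc]
  refine mul_le_mul (le_add_of_nonneg_right (by positivity)) ?_ (by positivity) (by positivity)
  calc Nr q ^ 4 * (1 + |s.im|) ^ k ≤ Nr q ^ (k + 4) * (1 + |s.im|) ^ (k + 4) :=
        mul_le_mul (pow_le_pow_right₀ hq1 (by omega)) (pow_le_pow_right₀ ht (by omega))
          (by positivity) (by positivity)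
    _ = (Nr q * (1 + |s.im|)) ^ ((k + 4 : ℕ) : ℝ) := by rw [Real.rpow_natCast, mul_pow]
    _ ≤ _ := Real.rpow_le_rpow_of_exponent_le hB (le_add_of_nonneg_left hK)

end Crest.Agent.R017

end
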