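import Crest.Agent.R017.FMDual1

/-! # Row 17: the dual side of the first moment, with slots -/

set_option autoImplicit false

noncomputable section

open scoped BigOperators ComplexConjugate
open Complex MeasureTheory

namespace Crest.Agent.R017

theorem fd_swap0 {κ ι : Type*} (p : κ → Prop) [DecidablePred p] {w : κ → ℝ} (hw : Summable w)
    (hw0 : ∀ r, 0 ≤ w r) (s : Finset ι) (c : ι → ℂ)
    (T : ι → κ → ℂ) (hT : ∀ i ∈ s, ∃ K : ℝ, ∀ r, ‖T i r‖ ≤ K) :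
    ∑' r, (if p r then (w r : ℂ) * ∑ i ∈ s, c i * T i r else 0) =
      ∑ i ∈ s, c i * ∑' r, (if p r then (w r : ℂ) * T i r else 0) := by
  have hs : ∀ i ∈ s, Summable fun r => c i * (if p r then (w r : ℂ) * T i r else 0) := by
    intro i hi
    obtain ⟨K, hK⟩ := hT i hi
    have : Summable fun r => (if p r then (w r : ℂ) * T i r else 0) := by
      refine Summable.of_norm_bounded (hw.mul_right K) fun r => ?_
      have h0 : 0 ≤ K := (norm_nonneg _).trans (hK r)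
      split_ifs
      · rw [norm_mul, Complex.norm_real, Real.norm_of_nonneg (hw0 r)]
        exact mul_le_mul_of_nonneg_left (hK r) (hw0 r)
      · rw [norm_zero]
        exact mul_nonneg (hw0 r) h0
    exact this.mul_left _
  simp only [← tsum_mul_left]
  rw [← Summable.tsum_finsetSum hs]
  refine tsum_congr fun r => ?_
  split_ifs
  · rw [Finset.mul_sum]
    exact Finset.sum_congr rfl fun i _ => by ring
  · simp

open Classical in
theorem fd_swap (Q : O) {R : ℝ} (hR : 0 < R) {ι : Type*} (s : Finset ι) (c : ι → ℂ)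
    (T : ι → O → ℂ) (hT : ∀ i ∈ s, ∃ K : ℝ, ∀ r, ‖T i r‖ ≤ K) :
    ∑' r : O, (if IsCoprime r Q then (Phi (Nr r / R) : ℂ) * ∑ i ∈ s, c i * T i r else 0) =
      ∑ i ∈ s, c i * ∑' r : O, (if IsCoprime r Q then (Phi (Nr r / R) : ℂ) * T i r else 0) := by
  have hP : Summable fun r : O => Phi (Nr r / R) := by
    refine (summable_Phi hR 0 0).congr fun x => ?_
    rw [Real.rpow_zero, one_mul, add_zero, norm_emb_sq]
  exact fd_swap0 (fun r => IsCoprime r Q) hP (fun r => (Phi_pos _).le) s c T hT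

/-- dyadic decomposition. -/
theorem fd_dyadic {Q : O} {g : O → ℂ} {D K α : ℝ} (hK : 0 ≤ K) (hα : 0 ≤ α)
    (h : ∀ (B : ℝ) (a : O → ℂ), 1 ≤ B → B ≤ D → Dy Q B a →
      ‖∑ b ∈ box B, a b * g b‖ ≤ K * Real.sqrt (∑ b ∈ box B, ‖a b‖ ^ 2))
    {a : O → ℂ} (ha : ∀ b, a b ≠ 0 → Adm Q b) (ha' : ∀ b, ‖a b‖ ≤ α) (n : ℕ) :
    ∀ B : ℝ, B ≤ D → B < 2 ^ n → ‖∑ b ∈ box B, a b * g b‖ ≤ n * (K * (5 * α * Real.sqrt D)) := by
  induction n with
  | zero =>
    intro B _ hB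
    rw [box_eq_empty (by simpa using hB)]
    simp
  | succ n ih =>
    intro B hBD hB
    rcases lt_or_ge B 1 with h1 | h1
    · rw [box_eq_empty h1, Finset.sum_empty, norm_zero]
      positivity
    have hsub : box (B / 2) ⊆ box B := box_mono (by linarith)
    set a' : O → ℂ := fun b => if B / 2 < Nr b ∧ Nr b ≤ B then a b else 0 with ha'def
    have e : ∑ b ∈ box B, a b * g b = ∑ b ∈ box (B / 2), a b * g b + ∑ b ∈ box B, a' b * g b := by
      rw [Finset.sum_subset_zero_on_sdiff hsub (f := fun b => a b * g b)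
        (g := fun b => (a b - a' b) * g b), ← Finset.sum_add_distrib]
      · exact Finset.sum_congr rfl fun b _ => by ring
      · intro b hb
        rw [Finset.mem_sdiff, mem_box, mem_box] at hb
        have h2 : B / 2 < Nr b := not_le.1 fun h' => hb.2 ⟨hb.1.1, h'⟩
        simp [ha'def, h2, hb.1.2]
      · intro b hb
        have h2 : ¬ B / 2 < Nr b := not_lt.2 (mem_box.1 hb).2
        simp [ha'def, h2]
    have hdy : Dy Q B a' := fun b hb => by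
      by_cases hc : B / 2 < Nr b ∧ Nr b ≤ B
      · refine ⟨ha b ?_, hc⟩
        simpa [ha'def, hc] using hb
      · exact absurd (if_neg hc) hb
    have h2 := h B a' h1 hBD hdy
    have h3 : ∑ b ∈ box B, ‖a' b‖ ^ 2 ≤ (5 * α * Real.sqrt D) ^ 2 := by
      calc ∑ b ∈ box B, ‖a' b‖ ^ 2 ≤ ∑ _b ∈ box B, α ^ 2 := by
            refine Finset.sum_le_sum fun b _ => pow_le_pow_left₀ (norm_nonneg _) ?_ 2
            simp only [ha'def]
            split_ifs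
            · exact ha' b
            · simpa using hα
        _ = (box B).card * α ^ 2 := by rw [Finset.sum_const, nsmul_eq_mul]
        _ ≤ 25 * D * α ^ 2 := by
            have := card_box_le (Y := B) (by linarith)
            gcongr
            linarith
        _ = (5 * α * Real.sqrt D) ^ 2 := by
            rw [mul_pow, mul_pow, Real.sq_sqrt (by linarith)]; ring
    have h4 : Real.sqrt (∑ b ∈ box B, ‖a' b‖ ^ 2) ≤ 5 * α * Real.sqrt D :=
      Real.sqrt_le_iff.2 ⟨by positivity, h3⟩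
    have h5 := ih (B / 2) (by linarith) (by rw [pow_succ] at hB; linarith)
    rw [e]
    refine (norm_add_le _ _).trans ?_
    have := mul_le_mul_of_nonneg_left h4 hK
    push_cast
    linarith

theorem fd_log {δ : ℝ} (hδ : 0 < δ) : ∃ C : ℝ, 0 ≤ C ∧ ∀ X : ℝ, 1 ≤ X →
    ∃ n : ℕ, X < 2 ^ n ∧ (n : ℝ) ≤ C * X ^ δ := by
  have hl : 0 < Real.log 2 := Real.log_pos one_lt_two
  refine ⟨1 + 1 / (δ * Real.log 2), by positivity, fun X hX => ?_⟩
  obtain ⟨n, h1, h2⟩ := exists_nat_pow_near hX (one_lt_two (α := ℝ))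
  refine ⟨n + 1, h2, ?_⟩
  have h3 : (n : ℝ) * Real.log 2 ≤ Real.log X := by
    rw [← Real.log_pow]
    exact Real.log_le_log (by positivity) h1
  have h4 := Real.log_le_rpow_div (by linarith : 0 ≤ X) hδ
  have h5 : 1 ≤ X ^ δ := Real.one_le_rpow hX hδ.le
  have h6 : (n : ℝ) ≤ 1 / (δ * Real.log 2) * X ^ δ := by
    rw [one_div, inv_mul_eq_div, le_div_iff₀ (by positivity)]
    rw [le_div_iff₀ hδ] at h4
    nlinarith
  push_cast
  linarith

open Classical in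
theorem fm_dual {Q : O} (hQ : Q ≠ 0) (h72 : (72 : O) ∣ Q) {ε : ℝ} (hε : 0 < ε) (J : ℕ) : ∃ C : ℝ, 0 ≤ C ∧
    ∀ (X y z : ℝ) (ψ : O → ℂ) (Z : Fin J → ℝ), 1 ≤ X → IsCh Q ψ → 1 ≤ y → (∀ i, 1 ≤ Z i) → Sep Z y →
    1 ≤ z → z ≤ X ^ (1 / 10 : ℝ) → ∏ i, (Z i * y) ≤ X ^ (1 / 6 : ℝ) * z →
      ‖∑' r : O, if IsCoprime r Q then (Phi (Nr r / X ^ (81 / 100 : ℝ)) : ℂ) *
          VV Q ψ r y J Z Q 1 X (X ^ (143 / 300 : ℝ)) else 0‖ ≤ C * X ^ (124 / 75 + ε) * z ^ 3 := by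
  have hδ : 0 < ε / 3 := by positivity
  obtain ⟨C1, hC1, h1⟩ := fm_dual_TB hQ h72 hδ
  obtain ⟨C2, hC2, h2⟩ := VV_expand hδ J
  obtain ⟨C3, hC3, h3⟩ := fd_log hδ
  obtain ⟨C4, hC4, h4⟩ := norm_TB_le
  have hsum := summable_Nr_rpow (σ := 5 / 4) (by norm_num)
  set S : ℝ := ∑' x : O, Nr x ^ (-(5 / 4 : ℝ)) with hS
  have hS0 : 0 ≤ S := tsum_nonneg fun x => Real.rpow_nonneg (Nr_nonneg x) _
  refine ⟨C3 * C1 * 5 * C2 * S, by positivity, fun X y z ψ Z hX hψ hy hZ hsep hz hzX hP => ?_⟩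
  obtain ⟨A, hA1, hA2, hA3⟩ := h2 Q ψ y Z hψ.norm_le hy hZ hsep
  obtain ⟨n, hn1, hn2⟩ := h3 X hX
  set P : ℝ := ∏ i, Z i * y with hPdef
  set M0 : ℝ := X ^ (143 / 300 : ℝ) with hM0
  have hX0 : 0 < X := by linarith
  have hM00 : 0 < M0 := by positivity
  have hP1 : 1 ≤ P := Finset.one_le_prod fun i _ => one_le_mul_of_one_le_of_one_le (hZ i) hy
  have hPM : P ≤ M0 := by
    calc P ≤ X ^ (1 / 6 : ℝ) * X ^ (1 / 10 : ℝ) := hP.trans (by gcongr)
      _ = X ^ (4 / 15 : ℝ) := by rw [← Real.rpow_add hX0]; norm_num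
      _ ≤ M0 := Real.rpow_le_rpow_of_exponent_le hX (by norm_num)
  have hMX : M0 ≤ X := by
    conv_rhs => rw [← Real.rpow_one X]
    exact Real.rpow_le_rpow_of_exponent_le hX (by norm_num)
  have hzX' : z ≤ X := by
    refine hzX.trans ?_
    conv_rhs => rw [← Real.rpow_one X]
    exact Real.rpow_le_rpow_of_exponent_le hX (by norm_num)
  have hR : 0 < X ^ (81 / 100 : ℝ) := by positivity
  set g : O → O → ℂ := fun b₁ b₂ => ∑' r : O, (if IsCoprime r Q then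
    (Phi (Nr r / X ^ (81 / 100 : ℝ)) : ℂ) * TB ψ r Q b₂ X (M0 / Nr b₁) else 0) with hg
  have hbd : ∀ b₁ b₂ : O, b₁ ≠ 0 → b₂ ≠ 0 → ∃ K : ℝ, ∀ r, ‖TB ψ r Q b₂ X (M0 / Nr b₁)‖ ≤ K :=
    fun b₁ b₂ hb₁ hb₂ => ⟨_, fun r => h4 ψ r Q b₂ X _ hψ.norm_le hb₂ hX0 (div_pos hM00 (Nr_pos hb₁))⟩
  have e : ∑' r : O, (if IsCoprime r Q then (Phi (Nr r / X ^ (81 / 100 : ℝ)) : ℂ) *
      VV Q ψ r y J Z Q 1 X M0 else 0) = ∑ b₁ ∈ box P, ∑ b₂ ∈ box P, A b₁ b₂ * g b₁ b₂ := by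
    simp only [hA3, one_mul, ← Finset.sum_product']
    exact fd_swap Q hR (box P ×ˢ box P) (fun q => A q.1 q.2)
      (fun q r => TB ψ r Q q.2 X (M0 / Nr q.1)) fun q hq =>
      hbd q.1 q.2 (mem_box.1 (Finset.mem_product.1 hq).1).1 (mem_box.1 (Finset.mem_product.1 hq).2).1
  rw [e]
  have key : ∀ b₁ ∈ box P, ‖∑ b₂ ∈ box P, A b₁ b₂ * g b₁ b₂‖ ≤
      (C3 * C1 * 5 * C2 * X ^ (124 / 75 + ε) * z ^ 3) * Nr b₁ ^ (-(5 / 4 : ℝ)) := by
    intro b₁ hb₁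
    obtain ⟨hb0, hbP⟩ := mem_box.1 hb₁
    have hN1 := one_le_Nr hb0
    have hN0 := Nr_pos hb0
    have hDP : P / Nr b₁ ≤ P := div_le_self (by linarith) hN1
    have e1 : ∑ b₂ ∈ box P, A b₁ b₂ * g b₁ b₂ = ∑ b₂ ∈ box (P / Nr b₁), A b₁ b₂ * g b₁ b₂ := by
      refine (Finset.sum_subset (box_mono hDP) fun b hb hb' => ?_).symm
      have : A b₁ b = 0 := by
        by_contra hne
        refine hb' (mem_box.2 ⟨(mem_box.1 hb).1, ?_⟩)
        rw [le_div_iff₀ hN0, mul_comm]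
        exact (hA2 b₁ b hne).2
      rw [this, zero_mul]
    rw [e1]
    refine (fd_dyadic (Q := Q) (g := g b₁) (D := P / Nr b₁)
      (K := C1 * X ^ (157 / 100 + ε / 3) * z ^ 2 * (M0 / Nr b₁ / M0) ^ (3 / 4 : ℝ))
      (α := C2 * P ^ (ε / 3)) (by positivity) (by positivity) (fun B a hB hBD hdy => ?_)
      (fun b hb => (hA2 b₁ b hb).1) (hA1 b₁) n _ le_rfl (by linarith)).trans ?_
    · have := h1 X B (M0 / Nr b₁) z ψ a hX hψ hz hzX' hB (hBD.trans (hDP.trans hP))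
        ((one_le_div hN0).2 (hbP.trans hPM)) (div_le_self hM00.le hN1) hdy
      rwa [fd_swap Q hR (box B) a (fun b r => TB ψ r Q b X (M0 / Nr b₁))
        fun b hb => hbd b₁ b hb0 (mem_box.1 hb).1] at this
    · have e2 : (M0 / Nr b₁ / M0) ^ (3 / 4 : ℝ) = Nr b₁ ^ (-(3 / 4 : ℝ)) := by
        rw [div_div_cancel_left' hM00.ne', Real.inv_rpow hN0.le, Real.rpow_neg hN0.le]
      have e3 : Real.sqrt (P / Nr b₁) ≤ X ^ (1 / 12 : ℝ) * z * Nr b₁ ^ (-(1 / 2 : ℝ)) := by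
        refine Real.sqrt_le_iff.2 ⟨by positivity, ?_⟩
        rw [mul_pow, mul_pow, ← Real.rpow_natCast, ← Real.rpow_natCast (Nr b₁ ^ _),
          ← Real.rpow_mul hX0.le, ← Real.rpow_mul hN0.le]
        norm_num
        rw [Real.rpow_neg_one, div_eq_mul_inv]
        gcongr
        refine hP.trans ?_
        gcongr
        nlinarith
      have e4 : P ^ (ε / 3) ≤ X ^ (ε / 3) := by
        gcongr
        linarith
      have e5 : X ^ (124 / 75 + ε) =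
          X ^ (ε / 3) * X ^ (157 / 100 + ε / 3) * X ^ (ε / 3) * X ^ (1 / 12 : ℝ) := by
        rw [← Real.rpow_add hX0, ← Real.rpow_add hX0, ← Real.rpow_add hX0]
        congr 1
        ring
      have e6 : Nr b₁ ^ (-(5 / 4 : ℝ)) = Nr b₁ ^ (-(3 / 4 : ℝ)) * Nr b₁ ^ (-(1 / 2 : ℝ)) := by
        rw [← Real.rpow_add hN0]
        norm_num
      rw [e2, e5, e6]
      calc (n : ℝ) * (C1 * X ^ (157 / 100 + ε / 3) * z ^ 2 * Nr b₁ ^ (-(3 / 4 : ℝ)) *
            (5 * (C2 * P ^ (ε / 3)) * Real.sqrt (P / Nr b₁)))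
          ≤ (C3 * X ^ (ε / 3)) * (C1 * X ^ (157 / 100 + ε / 3) * z ^ 2 * Nr b₁ ^ (-(3 / 4 : ℝ)) *
            (5 * (C2 * X ^ (ε / 3)) * (X ^ (1 / 12 : ℝ) * z * Nr b₁ ^ (-(1 / 2 : ℝ))))) := by
            gcongr
        _ = _ := by ring
  calc ‖∑ b₁ ∈ box P, ∑ b₂ ∈ box P, A b₁ b₂ * g b₁ b₂‖
      ≤ ∑ b₁ ∈ box P, (C3 * C1 * 5 * C2 * X ^ (124 / 75 + ε) * z ^ 3) * Nr b₁ ^ (-(5 / 4 : ℝ)) :=
        norm_sum_le_of_le _ key
    _ ≤ (C3 * C1 * 5 * C2 * X ^ (124 / 75 + ε) * z ^ 3) * S := by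
        rw [← Finset.mul_sum]
        gcongr
        exact hsum.sum_le_tsum _ fun x _ => Real.rpow_nonneg (Nr_nonneg x) _
    _ = _ := by ring

end Crest.Agent.R017

end
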