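import Crest.Agent.R017.FMDual1Aux3

/-! # Row 17: the estimate for one powerful part and one class modulo four -/

set_option autoImplicit false

noncomputable section

open scoped BigOperators ComplexConjugate
open Complex MeasureTheory Filter Topology

namespace Crest.Agent.R017

theorem f1_exp_rpow (x a : ℝ) : Real.exp x ^ a = Real.exp (x * a) := (Real.exp_mul x a).symm

theorem f1_exp_pow (x : ℝ) (k : ℕ) : Real.exp x ^ k = Real.exp (k * x) := (Real.exp_nat_mul x k).symm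

theorem f1_U {Q : O} (hQ : Q ≠ 0) (h72 : (72 : O) ∣ Q) {e : ℝ} (he : 0 < e) (he1 : e ≤ 1 / 100) :
    ∃ C D : ℝ, 0 ≤ C ∧ 0 ≤ D ∧ ∀ (L b η r lx F : ℝ) (ψ a : O → ℂ) (s c t : O), IsCh Q ψ →
      Dy Q (Real.exp b) a → ¬ (2 : O) ∣ s → ¬ (2 : O) ∣ c → t ≠ 0 → Nr (rad t) ≤ Real.exp r →
      0 ≤ L → 0 ≤ b → η ≤ lx → L ≤ lx → b ≤ lx → r ≤ lx → 1 ≤ lx → L + η ≤ F →
      2 * η + 2 * r + b ≤ F → 5 * L / 4 + η / 2 + b ≤ F → L / 2 + 2 * b + η + r ≤ F → ∀ τ : ℝ,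
      NS (Real.exp η) (fun h => l3_X (f1_u ψ a (Real.exp b) (Real.exp L) s c) e (h * t) τ) ≤
        (C * Real.sqrt (∑ x ∈ box (Real.exp b), ‖a x‖ ^ 2) *
          Real.exp (((2 * e - 1) * (L + b) + e * lx + F) / 2)) ^ 2 * (1 + |τ|) ^ D := by
  obtain ⟨C, hC0, hC⟩ := cf hQ h72 one_pos he
  refine ⟨Real.sqrt (8 * Real.exp 1 * C), C, Real.sqrt_nonneg _, hC0, ?_⟩
  intro L b η r lx F ψ a s c t hψ ha hs hc ht hr hL hb h1 h2 h3 h4 h5 g1 g2 g3 g4 τ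
  have h4Q : (4 : O) ∣ Q := (show (4 : O) ∣ 72 from ⟨18, by norm_num⟩).trans h72
  have hψ' := ((hψ.mul_sig h4Q hc).mul_sig h4Q k1_odd_neg_one).mul_sig h4Q hs
  simp only [f1_X_u h4Q hψ a (Real.exp b) (Real.exp_pos L) hs hc]
  rw [f1_NS_mul]
  have ha' : Dy Q (Real.exp b) (fun x => a x * ((Nr x ^ (e - 1 / 2) : ℝ) : ℂ)) :=
    fun x hx => ha x (left_ne_zero_of_mul hx)
  have hX' : Real.exp L * Real.exp (2 * (e - 1 / 2)) = Real.exp (L + 2 * (e - 1 / 2)) :=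
    (Real.exp_add _ _).symm
  have hrad1 : Nr (rad 1) = 1 := by rw [rad_eq_self prim_one squarefree_one, Nr_one]
  have key := hC (Real.exp lx) (Real.exp η) (Real.exp L * Real.exp (2 * (e - 1 / 2))) (Real.exp b)
    (-τ) _ _ t 1 (Real.one_le_exp (by linarith)) hψ' ht one_ne_zero (Real.exp_pos _)
    (Real.exp_le_exp.2 h1) (by rw [hX', ← Real.exp_neg]; exact Real.exp_le_exp.2 (by linarith))
    (by rw [hX']; exact Real.exp_le_exp.2 (by linarith)) (Real.one_le_exp hb)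
    (Real.exp_le_exp.2 h3) (hr.trans (Real.exp_le_exp.2 h4))
    (by rw [hrad1]; exact Real.one_le_exp (by linarith)) ha'
  refine (mul_le_mul_of_nonneg_left key (sq_nonneg _)).trans ?_
  clear key hC
  set S := ∑ x ∈ box (Real.exp b), ‖a x‖ ^ 2 with hS
  have hS0 : 0 ≤ S := Finset.sum_nonneg fun _ _ => sq_nonneg _
  have b1 : ∑ x ∈ box (Real.exp b), ‖a x * ((Nr x ^ (e - 1 / 2) : ℝ) : ℂ)‖ ^ 2 ≤
      2 * Real.exp ((2 * e - 1) * b) * S := by
    rw [hS, Finset.mul_sum]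
    refine Finset.sum_le_sum fun x hx => ?_
    by_cases h0 : a x = 0
    · simp [h0]
    have x0 := Nr_pos (mem_box.1 hx).1
    rw [norm_mul, mul_pow, mul_comm, norm_real, Real.norm_of_nonneg (by positivity)]
    refine mul_le_mul_of_nonneg_right ?_ (sq_nonneg _)
    rw [← Real.rpow_natCast, ← Real.rpow_mul x0.le]
    have q1 : Nr x ^ ((e - 1 / 2) * (2 : ℕ)) ≤ (Real.exp b / 2) ^ ((e - 1 / 2) * (2 : ℕ)) :=
      Real.rpow_le_rpow_of_nonpos (by positivity) (ha x h0).2.1.le (by push_cast; linarith)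
    refine q1.trans ?_
    rw [Real.div_rpow (Real.exp_pos _).le two_pos.le, f1_exp_rpow, div_eq_mul_inv,
      ← Real.rpow_neg two_pos.le, mul_comm]
    refine mul_le_mul ?_ (le_of_eq (by congr 1; push_cast; ring)) (Real.exp_pos _).le two_pos.le
    conv_rhs => rw [← Real.rpow_one 2]
    exact Real.rpow_le_rpow_of_exponent_le one_le_two (by push_cast; linarith)
  have r0 := Nr_nonneg (rad t)
  have b2 : Real.exp L * Real.exp (2 * (e - 1 / 2)) * Real.exp η +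
      Real.exp η ^ 2 * Nr (rad t) ^ 2 * Nr (rad 1) * Real.exp b +
      (Real.exp L * Real.exp (2 * (e - 1 / 2))) ^ (5 / 4 : ℝ) * Real.exp η ^ (1 / 2 : ℝ) * Real.exp b +
      (Real.exp L * Real.exp (2 * (e - 1 / 2))) ^ (1 / 2 : ℝ) * Real.exp b ^ 2 * Real.exp η *
        Nr (rad t) ≤ 4 * Real.exp F := by
    rw [hX', hrad1]
    have t1 : Real.exp (L + 2 * (e - 1 / 2)) * Real.exp η ≤ Real.exp F := by
      rw [← Real.exp_add]; exact Real.exp_le_exp.2 (by linarith)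
    have t2 : Real.exp η ^ 2 * Nr (rad t) ^ 2 * 1 * Real.exp b ≤ Real.exp F := by
      calc _ ≤ Real.exp η ^ 2 * Real.exp r ^ 2 * 1 * Real.exp b := by gcongr
        _ ≤ _ := by
          simp only [f1_exp_pow, mul_one, ← Real.exp_add]
          exact Real.exp_le_exp.2 (by push_cast; linarith)
    have t3 : Real.exp (L + 2 * (e - 1 / 2)) ^ (5 / 4 : ℝ) * Real.exp η ^ (1 / 2 : ℝ) *
        Real.exp b ≤ Real.exp F := by
      simp only [f1_exp_rpow, ← Real.exp_add]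
      exact Real.exp_le_exp.2 (by linarith)
    have t4 : Real.exp (L + 2 * (e - 1 / 2)) ^ (1 / 2 : ℝ) * Real.exp b ^ 2 * Real.exp η *
        Nr (rad t) ≤ Real.exp F := by
      calc _ ≤ Real.exp (L + 2 * (e - 1 / 2)) ^ (1 / 2 : ℝ) * Real.exp b ^ 2 * Real.exp η *
            Real.exp r := by gcongr
        _ ≤ _ := by
          simp only [f1_exp_pow, f1_exp_rpow, ← Real.exp_add]
          exact Real.exp_le_exp.2 (by push_cast; linarith)
    linarith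
  have b3 : (Real.exp L ^ (e - 1 / 2) * Real.exp ((e - 1 / 2) ^ 2)) ^ 2 ≤
      Real.exp 1 * Real.exp ((2 * e - 1) * L) := by
    simp only [f1_exp_pow, f1_exp_rpow, ← Real.exp_add]
    exact Real.exp_le_exp.2 (by push_cast; nlinarith)
  rw [abs_neg]
  have r1 := Nr_nonneg (rad 1)
  clear_value S
  generalize Nr (rad t) = ρ at *
  generalize Nr (rad 1) = ρ' at *
  have p1 : 0 ≤ C * Real.exp lx ^ e * (1 + |τ|) ^ C := by positivity
  have p2 : 0 ≤ ∑ x ∈ box (Real.exp b), ‖a x * ((Nr x ^ (e - 1 / 2) : ℝ) : ℂ)‖ ^ 2 :=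
    Finset.sum_nonneg fun _ _ => sq_nonneg _
  refine (mul_le_mul b3 (mul_le_mul (mul_le_mul_of_nonneg_left b1 p1) b2 (by positivity)
    (by positivity)) (mul_nonneg (mul_nonneg p1 p2) (by positivity)) (by positivity)).trans
    (le_of_eq ?_)
  rw [mul_pow, mul_pow, Real.sq_sqrt (by positivity), Real.sq_sqrt hS0, f1_exp_pow,
    f1_exp_rpow, show ((2 : ℕ) : ℝ) * (((2 * e - 1) * (L + b) + e * lx + F) / 2) =
      (2 * e - 1) * L + lx * e + (2 * e - 1) * b + F by push_cast; ring,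
    Real.exp_add, Real.exp_add, Real.exp_add]
  ring

theorem f1_V {Q : O} (hQ : Q ≠ 0) (h72 : (72 : O) ∣ Q) {e : ℝ} (he : 0 < e) (he1 : e ≤ 1 / 100) :
    ∃ C D : ℝ, 0 ≤ C ∧ 0 ≤ D ∧ ∀ (m η r lx G : ℝ) (s c t : O), ¬ (2 : O) ∣ s → t ≠ 0 →
      Nr (rad t) ≤ Real.exp r → η ≤ lx → m ≤ lx → r ≤ lx → 0 ≤ lx → η + m ≤ G →
      5 * η / 6 + 4 * m / 3 ≤ G → 4 * m + r - η ≤ G → ∀ τ : ℝ,
      NS (Real.exp η) (fun h => l3_X (f1_v Q (Real.exp m) s c) e (h * t) τ) ≤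
        (C * Real.exp (((2 * e - 1) * m + e * lx + G) / 2)) ^ 2 * (1 + |τ|) ^ D := by
  obtain ⟨C, hC0, hC⟩ := gnorm hQ h72 one_pos he
  refine ⟨Real.sqrt (3 * Real.exp 1 * C), C, Real.sqrt_nonneg _, hC0, ?_⟩
  intro m η r lx G s c t hs ht hr h1 h2 h3 h4 g1 g2 g3 τ
  have h4Q : (4 : O) ∣ Q := (show (4 : O) ∣ 72 from ⟨18, by norm_num⟩).trans h72
  have h3Q : (3 : O) ∣ Q := (show (3 : O) ∣ 72 from ⟨24, by norm_num⟩).trans h72
  have hψ' := (isCh_psi0 hQ h3Q).mul_sig h4Q hs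
  simp only [f1_X_v Q (Real.exp_pos m)]
  rw [f1_NS_mul]
  have hX' : Real.exp m * Real.exp (2 * (e - 1 / 2)) = Real.exp (m + 2 * (e - 1 / 2)) :=
    (Real.exp_add _ _).symm
  have key := hC (Real.exp lx) (Real.exp η) (Real.exp m * Real.exp (2 * (e - 1 / 2))) (-τ) _ t c
    (Real.one_le_exp h4) hψ' ht (Real.exp_pos _) (Real.exp_le_exp.2 h1) (by positivity)
    (by rw [hX']; exact Real.exp_le_exp.2 (by linarith)) (hr.trans (Real.exp_le_exp.2 h3))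
  refine (mul_le_mul_of_nonneg_left key (sq_nonneg _)).trans ?_
  have r0 := Nr_nonneg (rad t)
  have b2 : Real.exp η * (Real.exp m * Real.exp (2 * (e - 1 / 2))) +
      Real.exp η ^ (5 / 6 : ℝ) * (Real.exp m * Real.exp (2 * (e - 1 / 2))) ^ (4 / 3 : ℝ) +
      (Real.exp m * Real.exp (2 * (e - 1 / 2))) ^ 4 * Nr (rad t) / Real.exp η ≤ 3 * Real.exp G := by
    rw [hX']
    have t1 : Real.exp η * Real.exp (m + 2 * (e - 1 / 2)) ≤ Real.exp G := by
      rw [← Real.exp_add]; exact Real.exp_le_exp.2 (by linarith)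
    have t2 : Real.exp η ^ (5 / 6 : ℝ) * Real.exp (m + 2 * (e - 1 / 2)) ^ (4 / 3 : ℝ) ≤
        Real.exp G := by
      simp only [f1_exp_rpow, ← Real.exp_add]
      exact Real.exp_le_exp.2 (by linarith)
    have t3 : Real.exp (m + 2 * (e - 1 / 2)) ^ 4 * Nr (rad t) / Real.exp η ≤ Real.exp G := by
      calc _ ≤ Real.exp (m + 2 * (e - 1 / 2)) ^ 4 * Real.exp r / Real.exp η := by gcongr
        _ ≤ _ := by
          simp only [f1_exp_pow, ← Real.exp_add, ← Real.exp_sub]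
          exact Real.exp_le_exp.2 (by push_cast; linarith)
    linarith
  have b3 : (Real.exp m ^ (e - 1 / 2) * Real.exp ((e - 1 / 2) ^ 2)) ^ 2 ≤
      Real.exp 1 * Real.exp ((2 * e - 1) * m) := by
    simp only [f1_exp_pow, f1_exp_rpow, ← Real.exp_add]
    exact Real.exp_le_exp.2 (by push_cast; nlinarith)
  rw [abs_neg]
  calc _ ≤ (Real.exp 1 * Real.exp ((2 * e - 1) * m)) * (C * Real.exp lx ^ e * (1 + |τ|) ^ C *
        (3 * Real.exp G)) := by gcongr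
    _ = _ := by
      rw [mul_pow, Real.sq_sqrt (by positivity), f1_exp_pow,
        f1_exp_rpow, show ((2 : ℕ) : ℝ) * (((2 * e - 1) * m + e * lx + G) / 2) =
          (2 * e - 1) * m + lx * e + G by push_cast; ring, Real.exp_add, Real.exp_add]
      ring

theorem f1_rad_le {t z : O} (hz : z ≠ 0) (h : ∀ p, Prime p → p ∣ t → p ∣ z) : Nr (rad t) ≤ Nr z :=
  Nr_le_of_dvd hz (a1_rad_dvd_of h)

theorem f1_rad_t {Q s : O} (hQ : Q ≠ 0) (hs : s ≠ 0) : Nr (rad (f1_t Q s)) ≤ Nr (rad s * Q) := by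
  refine f1_rad_le (mul_ne_zero (rad_ne_zero s) hQ) fun p hp h => ?_
  rw [f1_t, dvd_neg] at h
  rcases hp.dvd_or_dvd h with h | h
  · exact hp.dvd_of_dvd_pow h
  · exact ((prime_dvd_rad hs hp).2 h).mul_right _

theorem f1_rad_t' {Q s : O} (hQ : Q ≠ 0) (hs : s ≠ 0) : Nr (rad (f1_t' Q s)) ≤ Nr (rad s * Q) := by
  refine f1_rad_le (mul_ne_zero (rad_ne_zero s) hQ) fun p hp h => ?_
  rw [f1_t', dvd_neg] at h
  rcases hp.dvd_or_dvd (hp.dvd_of_dvd_pow h) with h | h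
  · exact h
  · exact ((prime_dvd_rad hs hp).2 h).mul_right _

theorem f1_log {x : ℝ} (hx : 1 ≤ x) : ∃ L : ℝ, 0 ≤ L ∧ x = Real.exp L :=
  ⟨Real.log x, Real.log_nonneg hx, (Real.exp_log (by linarith)).symm⟩

theorem f1_mid_exp {e L b m w ζ ς q η : ℝ} (he : 0 < e) (he1 : e ≤ 1 / 100) (hL : 0 ≤ L)
    (hb : b ≤ L * (1 / 6) + w) (hm : m ≤ L * (143 / 300)) (hw : 0 ≤ w) (hwL : w ≤ L)
    (hq : 0 ≤ q) (hζ : 2 * ζ ≤ ς) (hη : η = b + m + 19 / 100 * L + e * L + q + ζ - ς) (h0 : 0 ≤ η) :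
    (L * (81 / 100) - (ζ + q)) + (ς * (1 / 4) + q) + (L * (81 / 100) - (ζ + q)) * (-e) +
      ((2 * e - 1) * (L + b) + e * (1 + 2 * q + 2 * L) +
        (b + m / 2 + (119 / 100 + 143 / 600) * L + 2 * w + 2 * (e * L) + 4 * q + ζ - ς / 2)) / 2 +
      ((2 * e - 1) * (m - ς) + e * (1 + 2 * q + 2 * L) +
        ((133 / 100 - 143 / 150) * L + 2 * m + w + e * L + q + ζ - 2 * ς)) / 2 ≤
      (7 * q + 1) + (L * (157 / 100 + 10 * e) + 2 * w + (m - L * (143 / 300)) * (3 / 4) +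
        ς * (-(1 / 2 + e))) := by
  have h1 : e * L ≤ 1 / 100 * L := mul_le_mul_of_nonneg_right he1 hL
  have h2 : e * q ≤ 1 / 100 * q := mul_le_mul_of_nonneg_right he1 hq
  have h3 : e * ζ ≤ e * (2 * L + q) := mul_le_mul_of_nonneg_left (by linarith) he.le
  have h4 : e * b ≤ e * (2 * L) := mul_le_mul_of_nonneg_left (by linarith) he.le
  have h5 : e * m ≤ e * L := mul_le_mul_of_nonneg_left (by linarith) he.le
  have h6 : 0 ≤ e * L := mul_nonneg he.le hL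
  nlinarith

theorem f1_tail_exp {e L b m w ζ ς q A : ℝ} (he : 0 < e) (he1 : e ≤ 1 / 100) (hL : 0 ≤ L)
    (hb : b ≤ L * (1 / 6) + w) (hm : m ≤ L * (143 / 300)) (hwL : w ≤ L)
    (hς : 0 ≤ ς) (hA : e * A = 10) :
    (L * (81 / 100) - (ζ + q)) + (ς * (1 / 4) + q) + (L * (81 / 100) - (ζ + q)) * (-(2 + A)) +
      (b + m + 19 / 100 * L + e * L + q + ζ - ς) * (1 - (2 + A)) +
      (b + (b + L) * (1 + (2 + A))) + (m - ς) * (1 + (2 + A)) ≤
      q + (L * (157 / 100 + 10 * e) + 2 * w + (m - L * (143 / 300)) * (3 / 4) +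
        ς * (-(1 / 2 + e))) := by
  have h1 : e * L * A = 10 * L := by rw [← hA]; ring
  have h2 : e * ς ≤ 1 / 100 * ς := mul_le_mul_of_nonneg_right he1 hς
  have h6 : 0 ≤ e * L := mul_nonneg he.le hL
  linarith

theorem f1_piece {Q : O} (hQ : Q ≠ 0) (h72 : (72 : O) ∣ Q) {e : ℝ} (he : 0 < e)
    (he1 : e ≤ 1 / 100) : ∃ C : ℝ, 0 ≤ C ∧ ∀ (X B M y : ℝ) (ψ a : O → ℂ) (s c : O), 1 ≤ X →
      IsCh Q ψ → 1 ≤ y → y ≤ X → 1 ≤ B → B ≤ X ^ (1 / 6 : ℝ) * y → 1 ≤ M →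
      M ≤ X ^ (143 / 300 : ℝ) → Dy Q B a → Prim s → Pow2 s → IsCoprime s Q → ¬ (2 : O) ∣ c →
      ‖((X ^ (81 / 100 : ℝ) / Nr (rad s * Q) : ℝ) : ℂ) * ∑' p, ∑' h,
        f1_term (f1_u ψ a B X s c) (f1_v Q (M / Nr s) s c) (f1_t Q s) (f1_t' Q s) (f1_G Q s)
          (X ^ (81 / 100 : ℝ) / Nr (rad s * Q)) p h‖ ≤
      C * (X ^ (157 / 100 + 10 * e) * y ^ 2 * (M / X ^ (143 / 300 : ℝ)) ^ (3 / 4 : ℝ) *
        Real.sqrt (∑ b ∈ box B, ‖a b‖ ^ 2)) * Nr s ^ (-(1 / 2 + e)) := by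
  obtain ⟨CU, DU, hCU, hDU, HU⟩ := f1_U hQ h72 he he1
  obtain ⟨CV, DV, hCV, hDV, HV⟩ := f1_V hQ h72 he he1
  have hA : 2 ≤ 2 + 10 / e := le_add_of_nonneg_right (by positivity)
  have hAe : e * (10 / e) = 10 := by field_simp
  generalize 10 / e = A' at hA hAe
  obtain ⟨C, hC0, hC⟩ := f1_dual (DU + DV) he hA
  obtain ⟨C3, hC3, H3⟩ := f1_om_tsum (A := 2 + A') (by linarith)
  obtain ⟨C4, hC4, H4⟩ := f1_w_tsum (A := 2 + A') (by linarith)
  obtain ⟨q, hq, eq⟩ := f1_log (one_le_Nr hQ)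
  refine ⟨Real.exp 1 + C * (CU * CV * Real.exp (7 * q + 1) + C3 * C4 * Real.exp q),
    by positivity, ?_⟩
  intro X B M y ψ a s c hX hψ hy hyX hB hBX hM hMX ha hs hs2 hsQ hc
  have h2Q : (2 : O) ∣ Q := (show (2 : O) ∣ 72 from ⟨36, by norm_num⟩).trans h72
  have h6Q : (6 : O) ∣ Q := (show (6 : O) ∣ 72 from ⟨12, by norm_num⟩).trans h72
  have s2 := ch_odd h2Q hsQ
  obtain ⟨L, hL, rfl⟩ := f1_log hX
  obtain ⟨b, hb, rfl⟩ := f1_log hB
  obtain ⟨m, hm, rfl⟩ := f1_log hM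
  obtain ⟨w, hw, rfl⟩ := f1_log hy
  obtain ⟨ς, hς, eς⟩ := f1_log (one_le_Nr hs.ne_zero)
  obtain ⟨ζ, hζ, eζ⟩ := f1_log (one_le_Nr (rad_ne_zero s))
  have hζς : 2 * ζ ≤ ς := by
    have := Nr_le_of_dvd hs.ne_zero (hs2.rad_sq_dvd hs.ne_zero)
    rw [Nr_pow, eζ, eς, f1_exp_pow, Real.exp_le_exp] at this
    exact_mod_cast this
  rw [Real.exp_le_exp] at hyX
  rw [f1_exp_rpow, ← Real.exp_add, Real.exp_le_exp] at hBX
  rw [f1_exp_rpow, Real.exp_le_exp] at hMX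
  have en : Nr (rad s * Q) = Real.exp (ζ + q) := by rw [Nr_mul, eζ, eq, Real.exp_add]
  have hG : ∀ h, ‖f1_G Q s h‖ ≤ Real.exp (ς * (1 / 4) + q) := fun h => by
    have := f1_G_bound hQ h6Q hs hsQ hs2 h
    rwa [eς, eq, f1_exp_rpow, ← Real.exp_add] at this
  have r1 := f1_rad_t hQ hs.ne_zero
  have r2 := f1_rad_t' hQ hs.ne_zero
  have t1 : f1_t Q s ≠ 0 :=
    neg_ne_zero.2 (mul_ne_zero (pow_ne_zero _ (mul_ne_zero (rad_ne_zero s) hQ)) hs.ne_zero)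
  have t2 : f1_t' Q s ≠ 0 :=
    neg_ne_zero.2 (pow_ne_zero _ (mul_ne_zero (mul_ne_zero (rad_ne_zero s) hQ) hs.ne_zero))
  rw [en] at r1 r2
  rw [en, eς]
  simp only [f1_exp_rpow, f1_exp_pow, ← Real.exp_sub, ← Real.exp_add]
  set S := Real.sqrt (∑ x ∈ box (Real.exp b), ‖a x‖ ^ 2) with hS
  have hS0 : 0 ≤ S := Real.sqrt_nonneg _
  set u := f1_u ψ a (Real.exp b) (Real.exp L) s c with hu
  set v := f1_v Q (Real.exp (m - ς)) s c with hv
  have bu : ∀ n, ‖u n‖ ≤ f1_om a (Real.exp b) (Real.exp L) n := fun n =>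
    (f1_u_le h2Q hψ a _ _ s2 hc n).trans (f1_al_le hψ.norm_le a _ _ n)
  have bv : ∀ n, ‖v n‖ ≤ f1_w (Real.exp (m - ς)) n := fun n =>
    (f1_v_le h6Q _ s2 c n).trans (f1_be_le _ _ n)
  have su := f1_om_summable a (Real.exp b) (Real.exp_pos L)
  have sv := f1_w_summable (Real.exp_pos (m - ς))
  have pu : ∀ n, u n ≠ 0 → Prim n := fun n hn => (f1_al_supp hψ (left_ne_zero_of_mul hn)).1
  have pv : ∀ n, v n ≠ 0 → Prim n := fun n hn => by
    refine (f1_be_supp (Q := Q) (M := Real.exp (m - ς)) fun h0 => hn ?_).1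
    exact norm_le_zero_iff.1 ((f1_v_le h6Q _ s2 c n).trans (by rw [h0, norm_zero]))
  have u1 : ‖u 1‖ ≤ S := (f1_u_le h2Q hψ a _ _ s2 hc 1).trans (f1_al_one hψ.norm_le hB ha _)
  have v1 : ‖v 1‖ ≤ Real.exp (1 + (m - ς)) := by
    refine (bv 1).trans ?_
    rw [f1_w, if_neg one_ne_zero, Nr_one, one_div, ← Real.exp_neg]
    refine (W_le_rpow one_pos (Real.exp_pos _) (-1)).trans (le_of_eq ?_)
    rw [f1_exp_rpow, ← Real.exp_add]
    congr 1
    ring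
  have Su := (f1_tsum_of_le bu su (2 + A')).trans (H3 a _ _ hB (Real.exp_pos L))
  have Sv := (f1_tsum_of_le bv sv (2 + A')).trans (H4 _ (Real.exp_pos (m - ς)))
  rw [← hS] at Su
  simp only [f1_exp_rpow, ← Real.exp_add] at Su Sv
  obtain ⟨η, hη⟩ : ∃ η, η = b + m + 19 / 100 * L + e * L + q + ζ - ς := ⟨_, rfl⟩
  obtain ⟨ρ, hρ⟩ : ∃ ρ, ρ = L * (81 / 100) - (ζ + q) := ⟨_, rfl⟩
  obtain ⟨T, hT⟩ : ∃ T, T = L * (157 / 100 + 10 * e) + 2 * w + (m - L * (143 / 300)) * (3 / 4) +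
    ς * (-(1 / 2 + e)) := ⟨_, rfl⟩
  have eL : e * L ≤ 1 / 100 * L := mul_le_mul_of_nonneg_right he1 hL
  have eL0 : 0 ≤ e * L := mul_nonneg he.le hL
  have eς1 : e * ς ≤ 1 / 100 * ς := mul_le_mul_of_nonneg_right he1 hς
  obtain ⟨U, V, hU, hV, gu, gv, hUV⟩ : ∃ U V : ℝ, 0 ≤ U ∧ 0 ≤ V ∧
      (∀ τ : ℝ, NS (Real.exp η) (fun h => l3_X u e (h * f1_t Q s) τ) ≤
        U ^ 2 * (1 + |τ|) ^ (DU + DV)) ∧
      (∀ τ : ℝ, NS (Real.exp η) (fun h => l3_X v e (h * f1_t' Q s) τ) ≤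
        V ^ 2 * (1 + |τ|) ^ (DU + DV)) ∧
      Real.exp ρ * Real.exp (ς * (1 / 4) + q) * (Real.exp ρ ^ (-e) * (U * V)) ≤
        CU * CV * Real.exp (7 * q + 1) * (S * Real.exp T) := by
    by_cases h0 : 0 ≤ η
    · have gu := HU L b η (ζ + q) (1 + 2 * q + 2 * L)
        (b + m / 2 + (119 / 100 + 143 / 600) * L + 2 * w + 2 * (e * L) + 4 * q + ζ - ς / 2)
        ψ a s c _ hψ ha s2 hc t1 r1 hL hb (by linarith) (by linarith) (by linarith) (by linarith)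
        (by linarith) (by linarith) (by linarith) (by linarith) (by linarith)
      have gv := HV (m - ς) η (ζ + q) (1 + 2 * q + 2 * L)
        ((133 / 100 - 143 / 150) * L + 2 * m + w + e * L + q + ζ - 2 * ς)
        s c _ s2 t2 r2 (by linarith) (by linarith) (by linarith) (by linarith)
        (by linarith) (by linarith) (by linarith)
      have mono : ∀ {D : ℝ} (Z τ : ℝ), D ≤ DU + DV →
          Z ^ 2 * (1 + |τ|) ^ D ≤ Z ^ 2 * (1 + |τ|) ^ (DU + DV) := fun Z τ hD =>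
        mul_le_mul_of_nonneg_left (Real.rpow_le_rpow_of_exponent_le
          (le_add_of_nonneg_right (abs_nonneg _)) hD) (sq_nonneg _)
      rw [← hS] at gu
      refine ⟨_, _, mul_nonneg (mul_nonneg hCU hS0) (Real.exp_pos _).le,
        mul_nonneg hCV (Real.exp_pos _).le,
        fun τ => (gu τ).trans (mono _ τ (le_add_of_nonneg_right hDV)),
        fun τ => (gv τ).trans (mono _ τ (le_add_of_nonneg_left hDU)), ?_⟩
      have k := Real.exp_le_exp.2 (f1_mid_exp he he1 hL hBX hMX hw hyX hq hζς hη h0)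
      rw [← hρ, ← hT, Real.exp_add, Real.exp_add, Real.exp_add, Real.exp_add ρ,
        Real.exp_add (7 * q + 1)] at k
      rw [f1_exp_rpow]
      have := mul_le_mul_of_nonneg_left k (mul_nonneg (mul_nonneg hCU hCV) hS0)
      linear_combination this
    · have h1 : box (Real.exp η) = ∅ := box_eq_empty (Real.exp_lt_one_iff.2 (not_le.1 h0))
      refine ⟨0, 0, le_rfl, le_rfl, fun τ => by simp [NS, h1], fun τ => by simp [NS, h1], ?_⟩
      rw [mul_zero, mul_zero, mul_zero]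
      exact mul_nonneg (mul_nonneg (mul_nonneg hCU hCV) (Real.exp_pos _).le)
        (mul_nonneg hS0 (Real.exp_pos _).le)
  have key := hC u v _ _ _ _ _ _ U V pu pv (f1_rap_of_le bu su) (f1_rap_of_le bv sv)
    (Real.exp_pos ρ) (Real.exp_pos η) hG hU hV gu gv
  rw [← hρ, norm_mul, norm_real, Real.norm_of_nonneg (Real.exp_pos _).le]
  refine (mul_le_mul_of_nonneg_left key (Real.exp_pos _).le).trans ?_
  have k0 : Real.exp ρ * Real.exp (ς * (1 / 4) + q) * (‖u 1‖ * ‖v 1‖) ≤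
      Real.exp 1 * (S * Real.exp T) := by
    have k : Real.exp (ρ + (ς * (1 / 4) + q) + (1 + (m - ς))) ≤ Real.exp (1 + T) :=
      Real.exp_le_exp.2 (by rw [hρ, hT]; linarith)
    rw [Real.exp_add, Real.exp_add, Real.exp_add 1 T] at k
    have k' := mul_le_mul_of_nonneg_left (mul_le_mul u1 v1 (norm_nonneg _) hS0)
      (mul_pos (Real.exp_pos ρ) (Real.exp_pos (ς * (1 / 4) + q))).le
    have := mul_le_mul_of_nonneg_left k hS0
    linarith only [this, k']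
  have k2 : Real.exp ρ * Real.exp (ς * (1 / 4) + q) * (Real.exp ρ ^ (-(2 + A')) *
      Real.exp η ^ (1 - (2 + A')) *
      ((∑' n : O, ‖u n‖ * Nr n ^ (2 + A')) * ∑' n : O, ‖v n‖ * Nr n ^ (2 + A'))) ≤
      C3 * C4 * Real.exp q * (S * Real.exp T) := by
    have k : Real.exp (ρ + (ς * (1 / 4) + q) + ρ * (-(2 + A')) + η * (1 - (2 + A')) +
        (b + (b + L) * (1 + (2 + A'))) + (m - ς) * (1 + (2 + A'))) ≤ Real.exp (q + T) := by
      rw [hρ, hT, hη]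
      exact Real.exp_le_exp.2 (f1_tail_exp he he1 hL hBX hMX hyX hς hAe)
    rw [Real.exp_add, Real.exp_add, Real.exp_add, Real.exp_add, Real.exp_add ρ,
      Real.exp_add q T] at k
    have p0 : 0 ≤ ∑' n : O, ‖v n‖ * Nr n ^ (2 + A') :=
      tsum_nonneg fun n => mul_nonneg (norm_nonneg _) (Real.rpow_nonneg (Nr_nonneg _) _)
    have q0 := mul_le_mul Su Sv p0 (mul_nonneg (mul_nonneg hC3 (Real.exp_pos _).le) hS0)
    rw [f1_exp_rpow, f1_exp_rpow]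
    have q1 := mul_le_mul_of_nonneg_left q0 (mul_pos (mul_pos (Real.exp_pos ρ)
      (Real.exp_pos (ς * (1 / 4) + q))) (mul_pos (Real.exp_pos (ρ * (-(2 + A'))))
      (Real.exp_pos (η * (1 - (2 + A')))))).le
    have q2 := mul_le_mul_of_nonneg_left k (mul_nonneg (mul_nonneg hC3 hC4) hS0)
    linarith only [q1, q2]
  have k3 := mul_le_mul_of_nonneg_left (add_le_add hUV k2) hC0
  have k4 : Real.exp T = Real.exp (L * (157 / 100 + 10 * e) + ((2 : ℕ) : ℝ) * w +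
      (m - L * (143 / 300)) * (3 / 4)) * Real.exp (ς * (-(1 / 2 + e))) := by
    rw [← Real.exp_add, hT, Nat.cast_ofNat]
  rw [k4] at k0 k3
  linarith only [k0, k3]

end Crest.Agent.R017

end
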