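import Crest.Agent.R017.GnormAux

/-! # Row 17: the second factor of the dual first moment -/

set_option autoImplicit false

noncomputable section

open scoped BigOperators ComplexConjugate
open Complex MeasureTheory

namespace Crest.Agent.R017

theorem gn_exp {y : ℝ} (hy : 0 < y) : ∃ u : ℝ, y = Real.exp u := ⟨Real.log y, (Real.exp_log hy).symm⟩

theorem gn_alg1 {x H M N e : ℝ} (hx : 1 ≤ x) (hH : 1 ≤ H) (hM : 0 < M) (hMx : M ≤ x) (hN : 1 ≤ N)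
    (he : 0 < e) (he1 : e ≤ 1) :
    H ^ (1 - e) * (((M / N) ^ (e - 1 / 2)) ^ 2 * (((M / N) ^ 2 * x ^ e / H) ^ e *
      (((M / N) ^ 2 * x ^ e / H) / N ^ 4) ^ (1 / 6 : ℝ) * (M / N) ^ 2)) ≤
      x ^ (12 * e) * (H ^ (5 / 6 : ℝ) * M ^ (4 / 3 : ℝ)) * N ^ (-2 : ℝ) := by
  obtain ⟨x, rfl⟩ := gn_exp (lt_of_lt_of_le one_pos hx)
  obtain ⟨H, rfl⟩ := gn_exp (lt_of_lt_of_le one_pos hH)
  obtain ⟨M, rfl⟩ := gn_exp hM
  obtain ⟨N, rfl⟩ := gn_exp (lt_of_lt_of_le one_pos hN)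
  rw [Real.one_le_exp_iff] at hx hH hN
  rw [Real.exp_le_exp] at hMx
  simp only [← Real.exp_sub, ← Real.exp_mul, ← Real.exp_nat_mul, ← Real.exp_add, Real.exp_le_exp]
  push_cast
  nlinarith [mul_nonneg he.le hx, mul_nonneg he.le hH, mul_nonneg he.le hN,
    mul_nonneg he.le (sub_nonneg.2 hMx), mul_nonneg (mul_nonneg he.le hx) (sub_nonneg.2 he1)]

theorem gn_alg2 {x H M N e : ℝ} (hx : 1 ≤ x) (hH : 1 ≤ H) (hM : 0 < M) (hMx : M ≤ x) (hN : 1 ≤ N)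
    (he : 0 < e) :
    H ^ (1 - e) * (((M / N) ^ (e - 1 / 2)) ^ 2 * (((M / N) ^ 2 * x ^ e / H) *
      (((x ^ 4) ^ e) ^ 2 * ((M / N) * (((M / N) ^ 2 * x ^ e / H) * N))))) ≤
      x ^ (12 * e) * (M ^ 4 / H) * N ^ (-2 : ℝ) := by
  obtain ⟨x, rfl⟩ := gn_exp (lt_of_lt_of_le one_pos hx)
  obtain ⟨H, rfl⟩ := gn_exp (lt_of_lt_of_le one_pos hH)
  obtain ⟨M, rfl⟩ := gn_exp hM
  obtain ⟨N, rfl⟩ := gn_exp (lt_of_lt_of_le one_pos hN)
  rw [Real.one_le_exp_iff] at hx hH hN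
  rw [Real.exp_le_exp] at hMx
  simp only [← Real.exp_sub, ← Real.exp_mul, ← Real.exp_nat_mul, ← Real.exp_add, Real.exp_le_exp]
  push_cast
  nlinarith [mul_nonneg he.le hx, mul_nonneg he.le hH, mul_nonneg he.le hN,
    mul_nonneg he.le (sub_nonneg.2 hMx)]

theorem gn_alg3 {x H M N e : ℝ} (hx : 1 ≤ x) (hH : 1 ≤ H) (hM : 0 < M) (hMx : M ≤ x) (hN : 1 ≤ N)
    (he : 0 < e) :
    H ^ (1 - (2 + 2 / e)) * ((M / N) ^ 2 * x ^ e / H) ^ (1 - (2 + 2 / e)) *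
      ((M / N) ^ (1 + ((2 + 2 / e) - 1 / 2))) ^ 2 ≤ x ^ (12 * e) * (H * M) * N ^ (-2 : ℝ) := by
  obtain ⟨x, rfl⟩ := gn_exp (lt_of_lt_of_le one_pos hx)
  obtain ⟨H, rfl⟩ := gn_exp (lt_of_lt_of_le one_pos hH)
  obtain ⟨M, rfl⟩ := gn_exp hM
  obtain ⟨N, rfl⟩ := gn_exp (lt_of_lt_of_le one_pos hN)
  rw [Real.one_le_exp_iff] at hx hH hN
  rw [Real.exp_le_exp] at hMx
  simp only [← Real.exp_sub, ← Real.exp_mul, ← Real.exp_nat_mul, ← Real.exp_add, Real.exp_le_exp]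
  push_cast
  have h1 : x * e * (2 / e) = 2 * x := by field_simp
  nlinarith [mul_nonneg he.le hx]

theorem gn_alg4 {x H M N T e : ℝ} (hx : 1 ≤ x) (hH : 1 ≤ H) (hM : 0 < M) (hMx : M ≤ x) (hN : 1 ≤ N)
    (he1 : e ≤ 1) (hT : 0 < T) (hTx : T ≤ x) :
    ((M / N) ^ 2 * x ^ e / H) * T * N ≤ x ^ 4 := by
  obtain ⟨x, rfl⟩ := gn_exp (lt_of_lt_of_le one_pos hx)
  obtain ⟨H, rfl⟩ := gn_exp (lt_of_lt_of_le one_pos hH)
  obtain ⟨M, rfl⟩ := gn_exp hM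
  obtain ⟨T, rfl⟩ := gn_exp hT
  obtain ⟨N, rfl⟩ := gn_exp (lt_of_lt_of_le one_pos hN)
  rw [Real.one_le_exp_iff] at hx hH hN
  rw [Real.exp_le_exp] at hMx hTx
  simp only [← Real.exp_sub, ← Real.exp_mul, ← Real.exp_nat_mul, ← Real.exp_add, Real.exp_le_exp]
  push_cast
  nlinarith [mul_nonneg hx (sub_nonneg.2 he1)]

theorem gn_rad {r t d : O} (hr : r ≠ 0) (ht : t ≠ 0) (hd : d ≠ 0) :
    Nr (rad (r * (t ^ 5 * d ^ 2))) ≤ Nr r * Nr (rad t) * Nr d := by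
  have h5 : t ^ 5 ≠ 0 := pow_ne_zero _ ht
  have h2 : d ^ 2 ≠ 0 := pow_ne_zero _ hd
  have h : rad (r * (t ^ 5 * d ^ 2)) ∣ r * rad t * d := by
    refine (rad_mul_dvd hr (mul_ne_zero h5 h2)).trans ?_
    rw [mul_assoc]
    refine mul_dvd_mul (rad_dvd hr) ((rad_mul_dvd h5 h2).trans ?_)
    rw [rad_pow (by norm_num), rad_pow (by norm_num)]
    exact mul_dvd_mul dvd_rfl (rad_dvd hd)
  rw [← Nr_mul, ← Nr_mul]
  exact Nr_le_of_dvd (mul_ne_zero (mul_ne_zero hr (rad_ne_zero t)) hd) h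

open Classical in
/-- One dual row. -/
theorem gn_one {Q : O} (hQ : Q ≠ 0) (h72 : (72 : O) ∣ Q) {A e : ℝ} (hA : 0 < A) (he : 0 < e) :
    ∃ C : ℝ, 0 ≤ C ∧ ∀ (Y τ Z : ℝ) (ψ : O → ℂ) (T c d r : O), IsCh Q ψ → 0 < Y → r * T ≠ 0 →
      IsCoprime d Q → IsCoprime c Q → Nr (rad (r * T)) ≤ Z →
      ‖sm A (fun n => if (4 : O) ∣ d * n - c then (if Squarefree n then
          ψ n * sig n d * chi n (r * T) else 0) else 0) Y τ‖ ^ 2 ≤
        (if Exc Q T r then C * Y ^ 2 else 0) +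
          C * ((1 + |τ|) ^ C) ^ 2 * (((Nr Q * Z) ^ e) ^ 2 * (Y * (Nr Q * Z))) := by
  obtain ⟨C₁, h₁⟩ := norm_sm_le hA 1
  obtain ⟨C₂, h₂0, h₂⟩ := norm_sm_sqf_le hA he
  refine ⟨C₁ ^ 2 + C₂ ^ 2 + C₂, by positivity, fun Y τ Z ψ T c d r hψ hY hrT hd hc hZ => ?_⟩
  have h12 : (12 : O) ∣ Q := (show (12 : O) ∣ 72 from ⟨6, by norm_num⟩).trans h72
  have h4 : (4 : O) ∣ Q := (show (4 : O) ∣ 72 from ⟨18, by norm_num⟩).trans h72
  have h2 : (2 : O) ∣ Q := (show (2 : O) ∣ 72 from ⟨36, by norm_num⟩).trans h72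
  have hd2 : ¬ (2 : O) ∣ d := ch_odd h2 hd
  have hZ0 : 0 ≤ Z := (Nr_nonneg _).trans hZ
  have hNQ := Nr_nonneg Q
  have hψ' := hψ.mul_sig h4 hd2
  have hf1 : ∀ n, ‖(if Squarefree n then ψ n * sig n d * chi n (r * T) else 0)‖ ≤ 1 := by
    intro n
    split_ifs
    · rw [norm_mul]
      exact mul_le_one₀ (hψ'.norm_le n) (norm_nonneg _) (norm_chi_le _ _)
    · simp
  by_cases hE : Exc Q T r
  · rw [if_pos hE]
    have h := h₁ (fun n => if (4 : O) ∣ d * n - c then (if Squarefree n then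
          ψ n * sig n d * chi n (r * T) else 0) else 0) Y τ hY (fun n _ => by
      by_cases h : (4 : O) ∣ d * n - c
      · rw [if_pos h]; exact hf1 n
      · simp [h]) (Or.inl le_rfl)
    rw [Real.rpow_one] at h
    have h' := pow_le_pow_left₀ (norm_nonneg _) h 2
    refine h'.trans (le_add_of_le_of_nonneg ?_ (by positivity))
    rw [mul_pow]
    exact mul_le_mul_of_nonneg_right (by nlinarith [sq_nonneg C₂]) (by positivity)
  rw [if_neg hE, zero_add]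
  have hq : Nr (Q * rad (r * T)) ≤ Nr Q * Z := by
    rw [Nr_mul]; exact mul_le_mul_of_nonneg_left hZ hNQ
  have hτ : 1 ≤ 1 + |τ| := le_add_of_nonneg_right (abs_nonneg _)
  have h := gn_cls hQ h12 hA hY hd hc _ hf1 (fun n hn => by
      refine ch_cop hψ fun h0 => hn ?_
      simp [h0]) τ
    (C₂ * (1 + |τ|) ^ C₂ * (Nr Q * Z) ^ e * Real.sqrt (Y * (Nr Q * Z))) fun ξ hξ => by
      have hξ' := hξ.mul_same hψ'
      have h3 := h₂ _ _ Y τ (hξ'.mul_chi h72 hrT) (not_princ_of_not_exc hξ' h72 hrT hE) hY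
      rw [gn_sm_congr (c' := fun n => if Squarefree n then
        ξ n * (ψ n * sig n d) * chi n (r * T) else 0) (fun n _ => by split_ifs <;> ring)]
      refine h3.trans ?_
      have := Nr_nonneg (Q * rad (r * T))
      gcongr
  have h' := pow_le_pow_left₀ (norm_nonneg _) h 2
  refine h'.trans ?_
  rw [mul_pow, mul_pow, mul_pow, Real.sq_sqrt (by positivity), mul_assoc]
  have h5 : (1 + |τ|) ^ C₂ ≤ (1 + |τ|) ^ (C₁ ^ 2 + C₂ ^ 2 + C₂) :=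
    Real.rpow_le_rpow_of_exponent_le hτ (by nlinarith [sq_nonneg C₁, sq_nonneg C₂])
  have h6 : C₂ ^ 2 ≤ C₁ ^ 2 + C₂ ^ 2 + C₂ := by nlinarith [sq_nonneg C₁]
  gcongr

open Classical in
/-- All dual rows for one `d`. -/
theorem gn_NS {Q : O} (hQ : Q ≠ 0) (h72 : (72 : O) ∣ Q) {A e : ℝ} (hA : 0 < A) (he : 0 < e)
    (he1 : e ≤ 1) : ∃ C D : ℝ, 0 ≤ C ∧ 0 ≤ D ∧ ∀ (x H M τ u : ℝ) (ψ : O → ℂ) (t c d : O),
      1 ≤ x → IsCh Q ψ → t ≠ 0 → 1 ≤ H → 0 < M → M ≤ x → Nr (rad t) ≤ x → IsCoprime c Q →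
      Adm Q d →
      H ^ (1 - e) * NS ((M / Nr d) ^ 2 * x ^ e / H) (rowF (fun n => gn_g A M τ ψ t c (d * n) *
          conj (g6 n) * (Nr n : ℂ) ^ (((e - 1 / 2 : ℝ) : ℂ) + u * I))) ≤
        (C * x ^ (12 * e) * (1 + |τ|) ^ D *
          (H ^ (5 / 6 : ℝ) * M ^ (4 / 3 : ℝ) + M ^ 4 * Nr (rad t) / H) * Nr d ^ (-2 : ℝ)) *
          (1 + |u|) ^ D := by
  obtain ⟨C₁, h₁0, h₁⟩ := gn_one hQ h72 hA he
  obtain ⟨C₂, h₂⟩ := card_exc_le hQ he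
  obtain ⟨E, hE⟩ : ∃ E, E = Real.exp (A * (e - 1 / 2) ^ 2) := ⟨_, rfl⟩
  obtain ⟨c₁, hc₁⟩ : ∃ c₁, c₁ = Real.exp (2 * A * (e - 1 / 2)) := ⟨_, rfl⟩
  have hE0 : 0 < E := hE ▸ Real.exp_pos _
  have hc₁0 : 0 < c₁ := hc₁ ▸ Real.exp_pos _
  have hNQ := Nr_nonneg Q
  obtain ⟨K₁, hK₁⟩ : ∃ K, K = E ^ 2 * (|C₂| * (C₁ * c₁ ^ 2)) := ⟨_, rfl⟩
  obtain ⟨K₂, hK₂⟩ : ∃ K, K = E ^ 2 * (25 * (C₁ * ((Nr Q ^ e) ^ 2 * (c₁ * Nr Q)))) := ⟨_, rfl⟩
  have hK₁0 : 0 ≤ K₁ := by rw [hK₁]; positivity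
  have hK₂0 : 0 ≤ K₂ := by rw [hK₂]; positivity
  refine ⟨K₁ + K₂, 2 * C₁, by positivity, by positivity,
    fun x H M τ u ψ t c d hx hψ ht hH hM hMx htx hc hd => ?_⟩
  have h6 : (6 : O) ∣ Q := (show (6 : O) ∣ 72 from ⟨12, by norm_num⟩).trans h72
  have hd0 : d ≠ 0 := hd.1.ne_zero
  have hN := one_le_Nr hd0
  have hx0 : 0 < x := by linarith
  have hH0 : 0 < H := by linarith
  have hz : 0 < M / Nr d := div_pos hM (by linarith)
  have hT0 := Nr_pos (rad_ne_zero t)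
  have a1 := gn_alg1 hx hH hM hMx hN he he1
  have a2 := gn_alg2 hx hH hM hMx hN he
  have a4 := gn_alg4 hx hH hM hMx hN he1 hT0 htx
  obtain ⟨G, hG⟩ : ∃ G, G = (M / Nr d) ^ 2 * x ^ e / H := ⟨_, rfl⟩
  rw [← hG] at a1 a2 a4 ⊢
  have hG0 : 0 < G := by rw [hG]; positivity
  have hNd := Real.rpow_nonneg (Nr_nonneg d) (-2)
  by_cases hG1 : G < 1
  · rw [NS, box_eq_empty hG1, Finset.sum_empty, mul_zero]
    positivity
  replace hG1 := not_lt.1 hG1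
  by_cases hdt : chi d t = 0
  · have : ∀ r, rowF (fun n => gn_g A M τ ψ t c (d * n) *
          conj (g6 n) * (Nr n : ℂ) ^ (((e - 1 / 2 : ℝ) : ℂ) + u * I)) r = 0 := fun r => by
      rw [gn_row h6 hψ A M τ t c hd, hdt]; simp
    simp only [NS, this, norm_zero, ne_eq, OfNat.ofNat_ne_zero, not_false_eq_true, zero_pow,
      Finset.sum_const_zero, mul_zero]
    positivity
  have hdt' : IsCoprime d t := by
    by_contra h
    exact hdt ((chi_eq_zero hd0).2 fun h' => h h'.of_mul_right_right)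
  have h5 : t ^ 5 ≠ 0 := pow_ne_zero _ ht
  have hcard := h₂ (t ^ 5) d G h5 hd0 hd.2.1 (hd.2.2.mul_right hdt'.pow_right) hG1
  have hK : ‖ψ d * g6 d * conj (chi d t) * (Nr d : ℂ) ^ (-(τ * I))‖ ≤ 1 := by
    rw [norm_mul, norm_mul, norm_mul, RCLike.norm_conj,
      norm_g6 (hd.2.2.of_isCoprime_of_dvd_right h6) hd.2.1, mul_one,
      Complex.norm_cpow_eq_rpow_re_of_pos (by linarith)]
    simpa using mul_le_one₀ (hψ.norm_le d) (norm_nonneg _) (norm_chi_le d t)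
  obtain ⟨P, hP⟩ : ∃ P, P = (1 + |τ|) ^ (2 * C₁) * (1 + |u|) ^ (2 * C₁) := ⟨_, rfl⟩
  have hP1 : 1 ≤ P := by
    rw [hP]
    exact one_le_mul_of_one_le_of_one_le
      (Real.one_le_rpow (le_add_of_nonneg_right (abs_nonneg _)) (by positivity))
      (Real.one_le_rpow (le_add_of_nonneg_right (abs_nonneg _)) (by positivity))
  have hP2 : ((1 + |τ - u|) ^ C₁) ^ 2 ≤ P := by
    rw [hP, ← Real.mul_rpow (by positivity) (by positivity), ← Real.rpow_natCast,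
      ← Real.rpow_mul (by positivity), mul_comm C₁]
    push_cast
    refine Real.rpow_le_rpow (by positivity) ?_ (by positivity)
    have := abs_sub τ u
    nlinarith [mul_nonneg (abs_nonneg τ) (abs_nonneg u)]
  obtain ⟨z, hzd⟩ : ∃ z, z = M / Nr d := ⟨_, rfl⟩
  rw [← hzd] at a1 a2 hz
  have hrow : ∀ r ∈ box G, ‖rowF (fun n => gn_g A M τ ψ t c (d * n) *
          conj (g6 n) * (Nr n : ℂ) ^ (((e - 1 / 2 : ℝ) : ℂ) + u * I)) r‖ ^ 2 ≤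
      (z ^ (e - 1 / 2) * E) ^ 2 * ((if Exc Q (t ^ 5 * d ^ 2) r then C₁ * (z * c₁) ^ 2 else 0) +
        C₁ * P * (((Nr Q * x ^ 4) ^ e) ^ 2 * (z * c₁ * (Nr Q * (G * Nr (rad t) * Nr d))))) := by
    intro r hr
    obtain ⟨hr0, hrG⟩ := mem_box.1 hr
    rw [gn_row h6 hψ A M τ t c hd, ← hzd, sm_rpow hA hz, ← hE, ← hc₁, norm_mul,
      norm_mul (((z ^ (e - 1 / 2) * E : ℝ)) : ℂ), Complex.norm_real, Real.norm_of_nonneg (by positivity)]
    have hZ : Nr (rad (r * (t ^ 5 * d ^ 2))) ≤ G * Nr (rad t) * Nr d :=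
      (gn_rad hr0 ht hd0).trans (by gcongr)
    have h := h₁ (z * c₁) (τ - u) _ ψ (t ^ 5 * d ^ 2) c d r hψ (by positivity)
      (mul_ne_zero hr0 (mul_ne_zero h5 (pow_ne_zero _ hd0))) hd.2.2 hc hZ
    refine (pow_le_pow_left₀ (by positivity)
      (mul_le_of_le_one_left (by positivity) hK) 2).trans ?_
    rw [mul_pow]
    refine mul_le_mul_of_nonneg_left (h.trans (add_le_add le_rfl ?_)) (by positivity)
    gcongr
  refine (mul_le_mul_of_nonneg_left (Finset.sum_le_sum hrow) (by positivity)).trans ?_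
  rw [← Finset.mul_sum, Finset.sum_add_distrib, ← Finset.sum_filter, Finset.sum_const,
    Finset.sum_const, nsmul_eq_mul, nsmul_eq_mul]
  have hb := card_box_le hG0.le
  have hcard' := hcard.trans (mul_le_mul_of_nonneg_right
    (mul_le_mul_of_nonneg_right (le_abs_self C₂) (by positivity)) (by positivity))
  obtain ⟨n₁, hn₁⟩ : ∃ n : ℝ, n = (((box G).filter (fun r => Exc Q (t ^ 5 * d ^ 2) r)).card : ℝ) :=
    ⟨_, rfl⟩
  obtain ⟨n₂, hn₂⟩ : ∃ n : ℝ, n = ((box G).card : ℝ) := ⟨_, rfl⟩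
  rw [← hn₁] at hcard' ⊢
  rw [← hn₂] at hb ⊢
  have b1 : H ^ (1 - e) * ((z ^ (e - 1 / 2) * E) ^ 2 * (n₁ * (C₁ * (z * c₁) ^ 2))) ≤
      K₁ * (x ^ (12 * e) * (H ^ (5 / 6 : ℝ) * M ^ (4 / 3 : ℝ)) * Nr d ^ (-2 : ℝ)) := by
    refine le_trans ?_ (mul_le_mul_of_nonneg_left a1 hK₁0)
    calc _ ≤ H ^ (1 - e) * ((z ^ (e - 1 / 2) * E) ^ 2 *
          ((|C₂| * G ^ e * (G / Nr d ^ 4) ^ (1 / 6 : ℝ)) * (C₁ * (z * c₁) ^ 2))) := by gcongr
      _ = _ := by rw [hK₁]; ring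
  have b2 : H ^ (1 - e) * ((z ^ (e - 1 / 2) * E) ^ 2 * (n₂ * (C₁ * P *
      (((Nr Q * x ^ 4) ^ e) ^ 2 * (z * c₁ * (Nr Q * (G * Nr (rad t) * Nr d))))))) ≤
      K₂ * P * Nr (rad t) * (x ^ (12 * e) * (M ^ 4 / H) * Nr d ^ (-2 : ℝ)) := by
    refine le_trans ?_ (mul_le_mul_of_nonneg_left a2 (by positivity))
    calc _ ≤ H ^ (1 - e) * ((z ^ (e - 1 / 2) * E) ^ 2 * ((25 * G) * (C₁ * P *
      (((Nr Q * x ^ 4) ^ e) ^ 2 * (z * c₁ * (Nr Q * (G * Nr (rad t) * Nr d))))))) := by gcongr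
      _ = _ := by rw [hK₂, Real.mul_rpow hNQ (by positivity)]; ring
  rw [mul_add, mul_add]
  refine (add_le_add b1 b2).trans ?_
  obtain ⟨U, hU⟩ : ∃ U, U = x ^ (12 * e) * (H ^ (5 / 6 : ℝ) * M ^ (4 / 3 : ℝ)) * Nr d ^ (-2 : ℝ) :=
    ⟨_, rfl⟩
  obtain ⟨V, hV⟩ : ∃ V, V = Nr (rad t) * (x ^ (12 * e) * (M ^ 4 / H) * Nr d ^ (-2 : ℝ)) := ⟨_, rfl⟩
  have hU0 : 0 ≤ U := by rw [hU]; positivity
  have hV0 : 0 ≤ V := by rw [hV]; positivity
  calc _ = K₁ * U + K₂ * P * V := by rw [hU, hV]; ring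
    _ ≤ (K₁ + K₂) * P * (U + V) := by
      nlinarith [mul_nonneg (mul_nonneg hK₁0 hU0) (sub_nonneg.2 hP1),
        mul_nonneg (mul_nonneg hK₁0 hV0) (zero_le_one.trans hP1),
        mul_nonneg (mul_nonneg hK₂0 hU0) (zero_le_one.trans hP1)]
    _ = _ := by rw [hU, hV, hP]; ring

open Classical in
theorem gn_main {Q : O} (hQ : Q ≠ 0) (h72 : (72 : O) ∣ Q) {A e : ℝ} (hA : 0 < A) (he : 0 < e)
    (he1 : e ≤ 1) :
    ∃ C D : ℝ, 0 ≤ C ∧ 0 ≤ D ∧ ∀ (x H M τ : ℝ) (ψ : O → ℂ) (t c : O), 1 ≤ x → IsCh Q ψ → t ≠ 0 →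
      1 ≤ H → 0 < M → M ≤ x → Nr (rad t) ≤ x → IsCoprime c Q →
      NS H (colF (gn_g A M τ ψ t c)) ≤ C * (x ^ (12 * e) * (1 + |τ|) ^ D *
          (H * M + H ^ (5 / 6 : ℝ) * M ^ (4 / 3 : ℝ) + M ^ 4 * Nr (rad t) / H)) := by
  have hA' : (2 : ℝ) ≤ 2 + 2 / e := le_add_of_nonneg_right (by positivity)
  obtain ⟨C₀, h₀0, h₀⟩ := dstep he hA'
  obtain ⟨C₁, D, h₁0, hD, h₁⟩ := gn_NS hQ h72 hA he he1
  obtain ⟨C₂, h₂0, h₂⟩ := gn_tsum hA (B := (2 + 2 / e) - 1 / 2) (by linarith)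
  obtain ⟨C₃, h₃0, h₃⟩ := gn_diag hA
  have hI := integrable_Gamma_mul he D
  obtain ⟨J, hJ⟩ : ∃ J, J = ∫ t : ℝ, ‖Complex.Gamma (e + t * I)‖ * (1 + |t|) ^ D := ⟨_, rfl⟩
  have hJ0 : 0 ≤ J := hJ ▸ integral_nonneg fun t => by positivity
  obtain ⟨S, hS⟩ : ∃ S, S = ∑' d : O, Nr d ^ (-2 : ℝ) := ⟨_, rfl⟩
  have hS0 : 0 ≤ S := hS ▸ tsum_nonneg fun d => Real.rpow_nonneg (Nr_nonneg _) _
  refine ⟨C₀ * (C₃ + (C₁ * J + C₂ ^ 2) * S), D, by positivity, hD,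
    fun x H M τ ψ t c hx hψ ht hH hM hMx htx hc => ?_⟩
  have h6 : (6 : O) ∣ Q := (show (6 : O) ∣ 72 from ⟨12, by norm_num⟩).trans h72
  have hx0 : 0 < x := by linarith
  have hH0 : 0 < H := by linarith
  have hT0 := Nr_nonneg (rad t)
  have hx1 : 1 ≤ x ^ (12 * e) := Real.one_le_rpow hx (by positivity)
  have hτ1 : 1 ≤ (1 + |τ|) ^ D := Real.one_le_rpow (le_add_of_nonneg_right (abs_nonneg _)) hD
  obtain ⟨U, hU⟩ : ∃ U, U = H ^ (5 / 6 : ℝ) * M ^ (4 / 3 : ℝ) + M ^ 4 * Nr (rad t) / H := ⟨_, rfl⟩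
  have hU0 : 0 ≤ U := by rw [hU]; positivity
  obtain ⟨Z, hZ⟩ : ∃ Z, Z = x ^ (12 * e) * (1 + |τ|) ^ D * (H * M + U) := ⟨_, rfl⟩
  have hZ0 : 0 ≤ Z := by rw [hZ]; positivity
  have hZ1 : x ^ (12 * e) * (H * M) ≤ Z := by
    rw [hZ]
    calc _ = x ^ (12 * e) * 1 * (H * M + 0) := by ring
      _ ≤ _ := by gcongr
  have hZ2 : x ^ (12 * e) * (1 + |τ|) ^ D * U ≤ Z := by
    rw [hZ]
    gcongr
    exact le_add_of_nonneg_left (by positivity)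
  have key := h₀ Q H (fun d => if d = 0 then 1 else (M / Nr d) ^ 2 * x ^ e / H)
    (gn_g A M τ ψ t c) h6 hH0 (fun d => by
      split_ifs with hd
      · exact one_pos
      · have := Nr_pos hd
        positivity) (gn_supp hψ A M τ t c) (gn_rap h6 hψ hA hM τ t c) (gn_clsF A M τ ψ t c)
    (fun d => (C₁ * J + C₂ ^ 2) * Z * Nr d ^ (-2 : ℝ)) (l3_summable_two.mul_left _)
    (fun d => mul_nonneg (by positivity) (Real.rpow_nonneg (Nr_nonneg _) _)) fun d hd => by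
      have hd0 : d ≠ 0 := hd.1.ne_zero
      have hN := one_le_Nr hd0
      have hNd := Real.rpow_nonneg (Nr_nonneg d) (-2)
      simp only [if_neg hd0]
      rw [add_mul, add_mul]
      refine add_le_add ?_ ?_
      · rw [← integral_const_mul]
        calc _ ≤ ∫ u : ℝ, (C₁ * x ^ (12 * e) * (1 + |τ|) ^ D * U * Nr d ^ (-2 : ℝ)) *
              (‖Complex.Gamma (e + u * I)‖ * (1 + |u|) ^ D) := by
              refine integral_mono_of_nonneg (ae_of_all _ fun u => ?_) (hI.const_mul _)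
                (ae_of_all _ fun u => ?_)
              · exact mul_nonneg (by positivity) (mul_nonneg (norm_nonneg _) (l4_nonneg _ _))
              · have h := h₁ x H M τ u ψ t c d hx hψ ht hH hM hMx htx hc hd
                rw [← hU] at h
                have h' := mul_le_mul_of_nonneg_left h (norm_nonneg (Complex.Gamma (e + u * I)))
                beta_reduce
                linarith
          _ = C₁ * J * (x ^ (12 * e) * (1 + |τ|) ^ D * U) * Nr d ^ (-2 : ℝ) := by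
              rw [integral_const_mul, ← hJ]; ring
          _ ≤ _ := by gcongr
      · have h := h₂ Q ψ M τ t c d h6 hψ hM hd0
        have a3 := gn_alg3 hx hH hM hMx hN he
        have h' := pow_le_pow_left₀ (tsum_nonneg fun n =>
          mul_nonneg (norm_nonneg _) (Real.rpow_nonneg (Nr_nonneg _) _)) h 2
        refine (mul_le_mul_of_nonneg_left h' (by positivity)).trans ?_
        calc _ = C₂ ^ 2 * (H ^ (1 - (2 + 2 / e)) * ((M / Nr d) ^ 2 * x ^ e / H) ^ (1 - (2 + 2 / e)) *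
              ((M / Nr d) ^ (1 + ((2 + 2 / e) - 1 / 2))) ^ 2) := by ring
          _ ≤ C₂ ^ 2 * (x ^ (12 * e) * (H * M) * Nr d ^ (-2 : ℝ)) := by gcongr
          _ ≤ C₂ ^ 2 * (Z * Nr d ^ (-2 : ℝ)) := by gcongr
          _ = _ := by ring
  rw [tsum_mul_left, ← hS] at key
  refine key.trans ?_
  rw [add_assoc (H * M), ← hU, ← hZ, mul_assoc C₀]
  refine mul_le_mul_of_nonneg_left ?_ h₀0
  have h4 : H * ∑' n : O, ‖gn_g A M τ ψ t c n‖ ^ 2 ≤ C₃ * Z := by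
    calc _ ≤ H * (C₃ * M) := mul_le_mul_of_nonneg_left (h₃ Q ψ M τ t c h6 hψ hM) hH0.le
      _ = C₃ * (1 * (H * M)) := by ring
      _ ≤ C₃ * (x ^ (12 * e) * (H * M)) := by gcongr
      _ ≤ _ := by gcongr
  linarith

open Classical in
theorem gnorm {Q : O} (hQ : Q ≠ 0) (h72 : (72 : O) ∣ Q) {A ε : ℝ} (hA : 0 < A) (hε : 0 < ε) :
    ∃ C : ℝ, 0 ≤ C ∧ ∀ (x H M τ : ℝ) (ψ : O → ℂ) (t c : O), 1 ≤ x → IsCh Q ψ → t ≠ 0 →
      0 < H → H ≤ x → 0 < M → M ≤ x → Nr (rad t) ≤ x →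
      NS H (fun h => sm A (fun m => if Squarefree m ∧ (4 : O) ∣ m - c then
          ψ m * g6 m * conj (chi m (h * t)) else 0) M τ) ≤
        C * x ^ ε * (1 + |τ|) ^ C *
          (H * M + H ^ (5 / 6 : ℝ) * M ^ (4 / 3 : ℝ) + M ^ 4 * Nr (rad t) / H) := by
  have he : 0 < min ε 1 / 12 := by positivity
  have he1 : min ε 1 / 12 ≤ 1 := by linarith [min_le_right ε 1]
  obtain ⟨C, D, hC, hD, h⟩ := gn_main hQ h72 hA he he1
  refine ⟨C + D, by positivity, fun x H M τ ψ t c hx hψ ht hH _ hM hMx htx => ?_⟩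
  have hT0 := Nr_nonneg (rad t)
  have hx0 : 0 < x := by linarith
  rcases lt_or_ge H 1 with hH1 | hH1
  · rw [NS, box_eq_empty hH1, Finset.sum_empty]
    positivity
  by_cases hc : ∃ c', IsCoprime c' Q ∧ (4 : O) ∣ c' - c
  swap
  · have : ∀ h, sm A (fun m => if Squarefree m ∧ (4 : O) ∣ m - c then
        ψ m * g6 m * conj (chi m (h * t)) else 0) M τ = 0 := fun h => by
      rw [gn_sm_congr (c' := fun _ => 0 * 0) fun n _ => ?_, gn_sm_const, zero_mul]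
      split_ifs with h1
      · have : ψ n = 0 := (hψ.zero n).2 fun h2 => hc ⟨n, h2, h1.2⟩
        simp [this]
      · simp
    simp only [NS, this, norm_zero, ne_eq, OfNat.ofNat_ne_zero, not_false_eq_true, zero_pow,
      Finset.sum_const_zero]
    positivity
  obtain ⟨c', hc', h4⟩ := hc
  have e4 : ∀ m : O, (4 : O) ∣ m - c ↔ (4 : O) ∣ m - c' := fun m => by
    constructor
    · intro h1
      simpa using dvd_sub h1 h4
    · intro h1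
      simpa using dvd_add h1 h4
  simp only [e4, gn_col]
  refine (h x H M τ ψ t c' hx hψ ht hH1 hM hMx htx hc').trans ?_
  have h1 : x ^ (12 * (min ε 1 / 12)) ≤ x ^ ε :=
    Real.rpow_le_rpow_of_exponent_le hx (by linarith [min_le_left ε 1])
  have h2 : (1 + |τ|) ^ D ≤ (1 + |τ|) ^ (C + D) :=
    Real.rpow_le_rpow_of_exponent_le (le_add_of_nonneg_right (abs_nonneg _)) (by linarith)
  have h3 : C ≤ C + D := by linarith
  rw [← mul_assoc, ← mul_assoc]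
  gcongr

end Crest.Agent.R017

end
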