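import Crest.Agent.R017.FMK
import Crest.Agent.R017.CF
import Crest.Agent.R017.Gnorm
import Crest.Agent.R017.FMDual1Aux4

/-! # Row 17: the dual side of the first moment -/

set_option autoImplicit false

noncomputable section

open scoped BigOperators ComplexConjugate
open Complex MeasureTheory

namespace Crest.Agent.R017

theorem f1_TB_sum {Q : O} {ψ : O → ℂ} (hψ : IsCh Q ψ) (a : O → ℂ) (B : ℝ) {X M : ℝ} (hX : 0 < X)
    (hM : 0 < M) (r : O) : ∑ b ∈ box B, a b * TB ψ r Q b X M =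
      ∑' q : O × O, f1_al ψ a B X q.1 * f1_be Q M q.2 * KK q.1 q.2 r := by
  unfold TB
  simp only [← tsum_mul_left]
  rw [← Summable.tsum_finsetSum fun b hb =>
    (summable_TB hψ.norm_le r Q (mem_box.1 hb).1 hX hM).mul_left _]
  refine tsum_congr fun q => ?_
  rw [f1_al, Finset.sum_mul, Finset.sum_mul]
  refine Finset.sum_congr rfl fun b _ => ?_
  by_cases h1 : Prim q.1
  swap
  · simp [h1]
  by_cases h2 : Prim q.2
  swap
  · simp [h2, f1_be]
  by_cases h3 : b ∣ q.1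
  swap
  · simp [h3]
  by_cases h4 : IsCoprime q.1 Q
  swap
  · simp [(hψ.zero _).2 h4]
  by_cases h5 : IsCoprime q.2 Q
  swap
  · rw [if_neg fun h => h5 h.2.2.1.of_mul_left_right]
    simp [f1_be, psi0, h5]
  rw [if_pos ⟨h1, h2, h4.mul_left h5, h3⟩, if_pos ⟨h1, h3⟩, f1_be, if_pos h2, psi0, if_pos h5]
  push_cast
  ring

theorem f1_swap {α β φ : O → ℂ} (hα : ∀ n, α n ≠ 0 → Prim n) (hβ : ∀ n, β n ≠ 0 → Prim n)
    (rα : Rap α) (rβ : Rap β) (hφ : Summable fun r => ‖φ r‖) :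
    Summable (fun q : O × O => α q.1 * β q.2 * ∑' r, φ r * KK q.1 q.2 r) ∧
    ∑' r, φ r * ∑' q : O × O, α q.1 * β q.2 * KK q.1 q.2 r =
      ∑' q : O × O, α q.1 * β q.2 * ∑' r, φ r * KK q.1 q.2 r := by
  have hnn : ∀ (a : O → ℂ) (A : ℝ) (n : O), 0 ≤ ‖a n‖ * Nr n ^ A := fun a A n =>
    mul_nonneg (norm_nonneg _) (Real.rpow_nonneg (Nr_nonneg _) _)
  have hs : Summable (Function.uncurry fun (q : O × O) (r : O) =>
      α q.1 * β q.2 * (φ r * KK q.1 q.2 r)) := by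
    refine Summable.of_norm_bounded (((rα (2 / 3)).mul_of_nonneg (rβ (1 / 2)) (hnn _ _)
      (hnn _ _)).mul_of_nonneg hφ (fun p => mul_nonneg (hnn _ _ _) (hnn _ _ _))
      fun _ => norm_nonneg _) fun ⟨q, r⟩ => ?_
    simp only [Function.uncurry_apply_pair]
    by_cases h1 : α q.1 = 0
    · simp [h1]
    by_cases h2 : β q.2 = 0
    · simp [h2]
    rw [norm_mul, norm_mul, norm_mul]
    have := mul_le_mul_of_nonneg_left (norm_KK_le (hα _ h1) (hβ _ h2) r)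
      (by positivity : 0 ≤ ‖α q.1‖ * ‖β q.2‖ * ‖φ r‖)
    linarith
  have h1 := hs.prod
  have h2 := hs.tsum_comm
  simp only [Function.uncurry_apply_pair, tsum_mul_left] at h1 h2
  refine ⟨h1, ?_⟩
  rw [← h2]
  refine tsum_congr fun r => ?_
  rw [← tsum_mul_left]
  exact tsum_congr fun q => by ring

open Classical in
theorem f1_reindex {f : O × O → ℂ} (hf : Summable f) (h0 : ∀ q, f q ≠ 0 → Prim q.2) :
    HasSum (fun x : O × O × O => if Prim x.2.2 ∧ Prim x.1 ∧ Squarefree x.2.2 ∧ Pow2 x.1 ∧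
      IsCoprime x.2.2 x.1 then f (x.2.1, x.2.2 * x.1) else 0) (∑' q, f q) := by
  refine (hasSum_iff_hasSum_of_ne_zero_bij (fun x => (x.1.2.1, x.1.2.2 * x.1.1)) ?_ ?_ ?_).1
    hf.hasSum
  · rintro ⟨⟨s, N, m⟩, hx⟩ ⟨⟨s', N', m'⟩, hy⟩ h
    have a := (ite_ne_right_iff.1 hx).1
    have b := (ite_ne_right_iff.1 hy).1
    simp only [Prod.mk.injEq] at h a b
    have := (exists_sqf_pow2 (a.1.mul a.2.1)).unique (y₁ := (m, s)) (y₂ := (m', s'))
      ⟨a.1, a.2.1, a.2.2.1, a.2.2.2.1, a.2.2.2.2, rfl⟩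
      ⟨b.1, b.2.1, b.2.2.1, b.2.2.2.1, b.2.2.2.2, h.2⟩
    simp only [Prod.mk.injEq] at this
    simp [h.1, this.1, this.2]
  · rintro ⟨N, n⟩ hq
    obtain ⟨⟨m, s⟩, ⟨a1, a2, a3, a4, a5, a6⟩, -⟩ := exists_sqf_pow2 (h0 _ hq)
    simp only at a1 a2 a3 a4 a5 a6
    subst a6
    exact ⟨⟨(s, N, m), ite_ne_right_iff.2 ⟨⟨a1, a2, a3, a4, a5⟩, hq⟩⟩, rfl⟩
  · rintro ⟨x, hx⟩
    exact (if_pos (ite_ne_right_iff.1 hx).1).symm

open Classical in
theorem f1_class {g : O × O → ℂ} (hg : Summable g) :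
    ∑' p, g p = ∑ c ∈ reps 4, ∑' p : O × O, if (4 : O) ∣ p.2 - c then g p else 0 := by
  rw [← Summable.tsum_finsetSum fun c _ => hg.norm.of_norm_bounded fun p => by
    split_ifs; exacts [le_rfl, by simp]]
  refine tsum_congr fun p => ?_
  obtain ⟨c, ⟨h1, h2⟩, h3⟩ := reps_existsUnique (n := 4) (by decide) p.2
  rw [Finset.sum_eq_single_of_mem c h1, if_pos (dvd_sub_comm.1 h2)]
  exact fun c' hc' hne => if_neg fun h => hne (h3 c' ⟨hc', dvd_sub_comm.1 h⟩)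

theorem f1_be_mul {Q m s : O} (hm : Prim m) (hs : Prim s) (hc : IsCoprime s Q) (M : ℝ) :
    f1_be Q M (m * s) = f1_be Q (M / Nr s) m := by
  rw [f1_be, f1_be, if_pos hm, if_pos (hm.mul hs), mul_comm m, (f1_homog_psi0 Q).hom s m hc, one_mul,
    Nr_mul, div_div_eq_mul_div, mul_comm (Nr s)]

theorem f1_conj_be (Q : O) (M : ℝ) (m : O) : conj (f1_be Q M m) = f1_be Q M m := by
  unfold f1_be psi0
  split_ifs <;> simp

open Classical in
theorem f1_termwise {Q : O} (hQ : Q ≠ 0) (h6 : (6 : O) ∣ Q) {ψ : O → ℂ} (hψ : IsCh Q ψ)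
    (a : O → ℂ) (B X M : ℝ) {R : ℝ} (hR : 0 < R) {s : O} (hs : Prim s) (hs2 : Pow2 s)
    (hsQ : IsCoprime s Q) (c N m : O) :
    (if (4 : O) ∣ m - c then if Prim m ∧ Prim s ∧ Squarefree m ∧ Pow2 s ∧ IsCoprime m s then
      f1_al ψ a B X N * f1_be Q M (m * s) *
        ∑' r : O, ((Phi (Nr r / R) : ℂ) * psi0 Q r) * KK N (m * s) r else 0 else 0) =
      ((R / Nr (rad s * Q) : ℝ) : ℂ) * ∑' h : O, f1_term (f1_u ψ a B X s c) (f1_v Q (M / Nr s) s c)
        (f1_t Q s) (f1_t' Q s) (f1_G Q s) (R / Nr (rad s * Q)) (N, m) h := by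
  by_cases h1 : f1_al ψ a B X N = 0
  · simp [f1_term, f1_u, h1]
  by_cases h2 : Squarefree m ∧ (4 : O) ∣ m - c
  swap
  · have : f1_v Q (M / Nr s) s c m = 0 := if_neg h2
    rw [show ∀ x : ℂ, (if (4 : O) ∣ m - c then if Prim m ∧ Prim s ∧ Squarefree m ∧ Pow2 s ∧
      IsCoprime m s then x else 0 else 0) = 0 from fun x => by
        split_ifs with h h'; exacts [absurd ⟨h'.2.2.1, h⟩ h2, rfl, rfl]]
    simp [f1_term, this]
  have hv : f1_v Q (M / Nr s) s c m = f1_be Q (M / Nr s) m * f1_vv s m := if_pos h2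
  by_cases hm : Prim m
  swap
  · simp [f1_term, hv, f1_be, hm]
  rw [f1_be_mul hm hs hsQ]
  by_cases h3 : f1_be Q (M / Nr s) m = 0
  · simp [f1_term, hv, h3]
  obtain ⟨hN, hNQ⟩ := f1_al_supp hψ h1
  have key := f1_poisson hQ h6 hN hm hs h2.1 hs2 hNQ (f1_be_supp h3).2 hsQ h2.2 hR
  have e : ∀ h, f1_term (f1_u ψ a B X s c) (f1_v Q (M / Nr s) s c)
      (f1_t Q s) (f1_t' Q s) (f1_G Q s) (R / Nr (rad s * Q)) (N, m) h =
      f1_al ψ a B X N * f1_be Q (M / Nr s) m * f1_term (f1_uu s c) (f1_vv s) (f1_t Q s) (f1_t' Q s)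
        (f1_G Q s) (R / Nr (rad s * Q)) (N, m) h := fun h => by
    simp only [f1_term, hv, f1_u, map_mul, f1_conj_be]
    ring
  simp only [e]
  rw [tsum_mul_left, mul_left_comm, ← key, if_pos h2.2]
  by_cases h4 : IsCoprime m s
  · rw [if_pos ⟨hm, hs, h2.1, hs2, h4⟩, if_pos h4]
  · rw [if_neg fun h => h4 h.2.2.2.2, if_neg h4, mul_zero]

open Classical in
theorem f1_pow2_sum {σ : ℝ} (hσ : 1 / 2 < σ) : ∃ C : ℝ, 0 ≤ C ∧
    HasSum (fun s : O => if s ≠ 0 ∧ Pow2 s then Nr s ^ (-σ) else 0) C := by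
  obtain ⟨C, hC⟩ := pow2_sum_le hσ
  have h0 : ∀ s : O, 0 ≤ if s ≠ 0 ∧ Pow2 s then Nr s ^ (-σ) else 0 := fun s => by
    split_ifs; exacts [Real.rpow_nonneg (Nr_nonneg _) _, le_rfl]
  refine ⟨_, tsum_nonneg h0, (summable_of_sum_le (c := C) h0 fun S => ?_).hasSum⟩
  rw [← Finset.sum_filter]
  exact hC _ fun x hx => (Finset.mem_filter.1 hx).2

open Classical in
/-- The dual bound for one dyadic block of `b` and one scale `M`. -/
theorem fm_dual_TB {Q : O} (hQ : Q ≠ 0) (h72 : (72 : O) ∣ Q) {ε : ℝ} (hε : 0 < ε) : ∃ C : ℝ, 0 ≤ C ∧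
    ∀ (X B M y : ℝ) (ψ a : O → ℂ), 1 ≤ X → IsCh Q ψ → 1 ≤ y → y ≤ X → 1 ≤ B → B ≤ X ^ (1 / 6 : ℝ) * y →
    1 ≤ M → M ≤ X ^ (143 / 300 : ℝ) → Dy Q B a →
      ‖∑' r : O, if IsCoprime r Q then (Phi (Nr r / X ^ (81 / 100 : ℝ)) : ℂ) *
          ∑ b ∈ box B, a b * TB ψ r Q b X M else 0‖ ≤
        C * X ^ (157 / 100 + ε) * y ^ 2 * (M / X ^ (143 / 300 : ℝ)) ^ (3 / 4 : ℝ) *
          Real.sqrt (∑ b ∈ box B, ‖a b‖ ^ 2) := by
  have he : 0 < min ε 1 / 100 := by positivity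
  have he1 : min ε 1 / 100 ≤ 1 / 100 := by linarith [min_le_right ε 1]
  have he2 : 10 * (min ε 1 / 100) ≤ ε := by linarith [min_le_left ε 1]
  generalize min ε 1 / 100 = e at he he1 he2
  obtain ⟨C, hC0, hC⟩ := f1_piece hQ h72 he he1
  obtain ⟨C', hC', hP⟩ := f1_pow2_sum (σ := 1 / 2 + e) (by linarith)
  refine ⟨(reps 4).card * C * C', by positivity, ?_⟩
  intro X B M y ψ a hX hψ hy hyX hB hBX hM hMX ha
  have h2Q : (2 : O) ∣ Q := (show (2 : O) ∣ 72 from ⟨36, by norm_num⟩).trans h72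
  have h6Q : (6 : O) ∣ Q := (show (6 : O) ∣ 72 from ⟨12, by norm_num⟩).trans h72
  have X0 : 0 < X := by linarith
  have M0 : 0 < M := by linarith
  have hR : 0 < X ^ (81 / 100 : ℝ) := by positivity
  have e1 : ∀ r : O, (if IsCoprime r Q then (Phi (Nr r / X ^ (81 / 100 : ℝ)) : ℂ) *
      ∑ b ∈ box B, a b * TB ψ r Q b X M else 0) =
      ((Phi (Nr r / X ^ (81 / 100 : ℝ)) : ℂ) * psi0 Q r) *
        ∑' q : O × O, f1_al ψ a B X q.1 * f1_be Q M q.2 * KK q.1 q.2 r := fun r => by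
    rw [f1_TB_sum hψ a B X0 M0, psi0]
    split_ifs <;> simp
  obtain ⟨s1, s2⟩ := f1_swap (α := f1_al ψ a B X) (β := f1_be Q M)
    (φ := fun r => (Phi (Nr r / X ^ (81 / 100 : ℝ)) : ℂ) * psi0 Q r)
    (fun n hn => (f1_al_supp hψ hn).1) (fun n hn => (f1_be_supp hn).1)
    (f1_rap_of_le (f1_al_le hψ.norm_le a B X) (f1_om_summable a B X0))
    (f1_rap_of_le (f1_be_le Q M) (f1_w_summable M0))
    (Summable.of_nonneg_of_le (fun _ => norm_nonneg _) (fun r => by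
      rw [norm_mul, norm_real, Real.norm_of_nonneg (Phi_pos _).le]
      exact mul_le_of_le_one_right (Phi_pos _).le (f1_norm_psi0 _ _)) (p1_summable0 hR))
  have s3 := f1_reindex s1 fun q hq =>
    (f1_be_supp (right_ne_zero_of_mul (left_ne_zero_of_mul hq))).1
  simp only [e1]
  rw [s2, ← s3.tsum_eq, s3.summable.tsum_prod]
  obtain ⟨Z, hZ⟩ : ∃ Z, Z = X ^ (157 / 100 + 10 * e) * y ^ 2 *
    (M / X ^ (143 / 300 : ℝ)) ^ (3 / 4 : ℝ) * Real.sqrt (∑ b ∈ box B, ‖a b‖ ^ 2) := ⟨_, rfl⟩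
  have hZ0 : 0 ≤ Z := by rw [hZ]; positivity
  refine (tsum_of_norm_bounded (hP.mul_left ((reps 4).card * (C * Z))) fun s => ?_).trans ?_
  · by_cases hs : Prim s ∧ Pow2 s ∧ IsCoprime s Q
    · obtain ⟨hs, hs2, hsQ⟩ := hs
      rw [if_pos ⟨hs.ne_zero, hs2⟩, f1_class (s3.summable.prod_factor s), mul_assoc,
        ← nsmul_eq_mul, ← Finset.sum_const]
      refine norm_sum_le_of_le _ fun c _ => ?_
      by_cases hc : (2 : O) ∣ c
      · refine le_trans (le_of_eq (norm_eq_zero.2 ?_))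
          (mul_nonneg (mul_nonneg hC0 hZ0) (Real.rpow_nonneg (Nr_nonneg _) _))
        refine (tsum_congr fun p => ?_).trans tsum_zero
        split_ifs with h1 h2
        · by_contra h3
          have h4 := (f1_be_supp (right_ne_zero_of_mul (left_ne_zero_of_mul h3))).2
          refine ch_odd h2Q h4.of_mul_left_left ?_
          have := dvd_add ((show (2 : O) ∣ 4 from ⟨2, by norm_num⟩).trans h1) hc
          rwa [sub_add_cancel] at this
        · rfl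
        · rfl
      · have := hC X B M y ψ a s c hX hψ hy hyX hB hBX hM hMX ha hs hs2 hsQ hc
        rw [← hZ, ← tsum_mul_left] at this
        refine le_trans (le_of_eq (congrArg _ (tsum_congr fun p => ?_))) this
        exact f1_termwise hQ h6Q hψ a B X M hR hs hs2 hsQ c p.1 p.2
    · refine le_trans (le_of_eq (norm_eq_zero.2 ?_)) (mul_nonneg (by positivity) ?_)
      · refine (tsum_congr fun p => ?_).trans tsum_zero
        split_ifs with h2
        · by_contra h3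
          have h4 := (f1_be_supp (right_ne_zero_of_mul (left_ne_zero_of_mul h3))).2
          exact hs ⟨h2.2.1, h2.2.2.2.1, h4.of_mul_left_right⟩
        · rfl
      · split_ifs; exacts [Real.rpow_nonneg (Nr_nonneg _) _, le_rfl]
  · have h1 : X ^ (157 / 100 + 10 * e) ≤ X ^ (157 / 100 + ε) :=
      Real.rpow_le_rpow_of_exponent_le hX (by linarith)
    have h2 := mul_le_mul_of_nonneg_left h1 (by positivity : 0 ≤ (reps 4).card * C * C' *
      (y ^ 2 * (M / X ^ (143 / 300 : ℝ)) ^ (3 / 4 : ℝ) * Real.sqrt (∑ b ∈ box B, ‖a b‖ ^ 2)))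
    rw [hZ]
    linarith

end Crest.Agent.R017

end
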