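import Crest.Agent.R017.FMK

/-! # Row 17: Gauss sums and the Poisson identity for the dual first moment -/

set_option autoImplicit false

noncomputable section

open scoped BigOperators ComplexConjugate
open Complex

namespace Crest.Agent.R017

/-- the twisted indicator of the rows -/
def f1_F (Q s x : O) : ℂ := conj (chi s x) * psi0 Q x
/-- its Gauss sum -/
def f1_G (Q s h : O) : ℂ := gs (f1_F Q s) (rad s * Q) h
/-- the twist of the first variable -/
def f1_t (Q s : O) : O := -((rad s * Q) ^ 5 * s)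
/-- the twist of the second variable -/
def f1_t' (Q s : O) : O := -((rad s * Q) * s) ^ 5

/-- a term of the dual sum -/
def f1_term (u v : O → ℂ) (t t' : O) (G : O → ℂ) (R : ℝ) (p : O × O) (h : O) : ℂ :=
  u p.1 * conj (chi p.1 (h * t)) * conj (v p.2 * conj (chi p.2 (h * t'))) *
    (G h * (Phi (R * Nr h / (Nr p.1 * Nr p.2)) : ℂ))

theorem f1_gs_gs {n : O} (hn : n ≠ 0) (f : O → ℂ) (hf : ∀ x y, n ∣ x - y → f x = f y) (h : O) :
    gs (fun r => gs f n r) n h = (Nr n : ℂ) * f (-h) := by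
  have h0 : (Nr n : ℂ) ≠ 0 := by exact_mod_cast (Nr_pos hn).ne'
  rw [gs_inversion hn f hf (-h), ← mul_assoc, mul_inv_cancel₀ h0, one_mul]
  unfold gs
  refine Finset.sum_congr rfl fun r _ => ?_
  congr 2
  ring

theorem f1_gs_mul (c : ℂ) (f : O → ℂ) (n h : O) : gs (fun x => c * f x) n h = c * gs f n h := by
  unfold gs
  rw [Finset.mul_sum]
  exact Finset.sum_congr rfl fun x _ => by ring

theorem f1_gs_KG {N M : O} (hN : IsCoprime N 6) (hM : IsCoprime M 6) (h : O) :
    gs (KG N M) (N * M) h =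
      ks N M * (Real.sqrt (Nr (N * M)) : ℂ) * (conj (chi N (-h)) * chi M (-h)) := by
  have h0 : N * M ≠ 0 := mul_ne_zero (k1_ne hN) (k1_ne hM)
  have hs := k1_sqrt_ne h0
  have hsq : ((Nr (N * M) : ℝ) : ℂ) = (Real.sqrt (Nr (N * M)) : ℂ) ^ 2 := by
    rw [← Complex.ofReal_pow, Real.sq_sqrt (Nr_nonneg _)]
  have e : KG N M = fun r => (ks N M / (Real.sqrt (Nr (N * M)) : ℂ)) *
      gs (fun h => conj (chi N h) * chi M h) (N * M) r := by
    funext r
    rw [KG]; ring
  rw [e, f1_gs_mul, f1_gs_gs h0 _ (k1_homog hN hM).per, hsq]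
  field_simp

theorem f1_homog_KG {N M : O} (hN : IsCoprime N 6) (hM : IsCoprime M 6) :
    Homog (N * M) (fun u => conj (conj (chi N u) * chi M u)) (KG N M) where
  per x y h := by rw [KG, KG, gs_congr h]
  hom u x hu := by
    rw [KG, KG, (k1_homog hN hM).gs_mul (mul_ne_zero (k1_ne hN) (k1_ne hM)) hu]
    ring
  abs u hu := by rw [Complex.norm_conj]; exact (k1_homog hN hM).abs u hu

theorem f1_homog_chi {s : O} (hs : IsCoprime s 6) :
    Homog (rad s) (fun u => conj (chi s u)) (fun u => conj (chi s u)) where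
  per x y h := by rw [chi_congr (k1_ne hs) h]
  hom u x _ := by rw [chi_mul_right, map_mul]
  abs u hu := by
    rw [Complex.norm_conj]
    exact k1_norm_chi hs ((coprime_rad_iff (k1_ne hs)).1 hu).symm

theorem f1_homog_psi0 (Q : O) : Homog Q (fun _ => 1) (psi0 Q) where
  per x y h := by unfold psi0; rw [ch_cop_congr h]
  hom u x hu := by
    have : IsCoprime (u * x) Q ↔ IsCoprime x Q :=
      ⟨fun h => h.of_mul_left_right, fun h => hu.mul_left h⟩
    unfold psi0
    rw [this, one_mul]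
  abs u _ := norm_one

theorem f1_homog_F {Q s : O} (hs : IsCoprime s 6) :
    Homog (rad s * Q) (fun u => conj (chi s u)) (f1_F Q s) where
  per x y h := by
    rw [f1_F, f1_F, (f1_homog_chi hs).per x y ((dvd_mul_right _ _).trans h),
      (f1_homog_psi0 Q).per x y ((dvd_mul_left _ _).trans h)]
  hom u x hu := by
    rw [f1_F, f1_F, (f1_homog_chi hs).hom u x hu.of_mul_right_left,
      (f1_homog_psi0 Q).hom u x hu.of_mul_right_right]
    ring
  abs u hu := (f1_homog_chi hs).abs u hu.of_mul_right_left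

theorem f1_gs_prime {p : O} (hp : Prime p) (h6 : IsCoprime p 6) {v : ℕ} (hv : 2 ≤ v) (h : O) :
    ‖gs (fun x => chi p x ^ (5 * v)) p h‖ ≤ (Nr p ^ v) ^ (1 / 4 : ℝ) := by
  have h1 := one_le_Nr hp.ne_zero
  rw [← Real.rpow_natCast, ← Real.rpow_mul (by linarith)]
  by_cases h6v : 6 ∣ 5 * v
  · have hv4 : 4 ≤ v := by omega
    have hv4' : (4 : ℝ) ≤ v := by exact_mod_cast hv4
    refine (norm_gs_le hp.ne_zero (fun x => ?_) h).trans ?_
    · rw [norm_pow]; exact pow_le_one₀ (norm_nonneg _) (norm_chi_le _ _)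
    · conv_lhs => rw [← Real.rpow_one (Nr p)]
      exact Real.rpow_le_rpow_of_exponent_le h1 (by linarith)
  · have hv2 : (2 : ℝ) ≤ v := by exact_mod_cast hv
    rw [gs_chi_pow h6 hp.irreducible.squarefree h6v, norm_mul,
      norm_gs_chi_pow h6 hp.irreducible.squarefree h6v, Complex.norm_conj, Real.sqrt_eq_rpow]
    refine (mul_le_of_le_one_left (by positivity) ?_).trans
      (Real.rpow_le_rpow_of_exponent_le h1 (by linarith))
    rw [norm_pow]; exact pow_le_one₀ (norm_nonneg _) (norm_chi_le _ _)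

theorem f1_gs_prod (v : O → ℕ) (P : Finset O)
    (hP : ∀ p ∈ P, PP p ∧ IsCoprime p 6 ∧ 2 ≤ v p) :
    Homog (∏ p ∈ P, p) (fun x => ∏ p ∈ P, chi p x ^ (5 * v p))
      (fun x => ∏ p ∈ P, chi p x ^ (5 * v p)) ∧
    ∀ h, ‖gs (fun x => ∏ p ∈ P, chi p x ^ (5 * v p)) (∏ p ∈ P, p) h‖ ≤
      (∏ p ∈ P, Nr p ^ v p) ^ (1 / 4 : ℝ) := by
  induction P using Finset.induction_on with
  | empty =>
    refine ⟨⟨fun _ _ _ => by simp, fun _ _ _ => by simp, fun _ _ => by simp⟩, fun h => ?_⟩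
    simpa [Nr_one] using norm_gs_le (n := 1) one_ne_zero (f := fun _ => 1) (fun _ => by simp) h
  | insert q P hq ih =>
    obtain ⟨H, hb⟩ := ih fun p hp => hP p (Finset.mem_insert_of_mem hp)
    obtain ⟨q1, q2, q3⟩ := hP q (Finset.mem_insert_self _ _)
    have Hq := homog_chi_pow q2 (5 * v q)
    have hc : IsCoprime q (∏ p ∈ P, p) := IsCoprime.prod_right fun p hp =>
      a1_coprime q1 (hP p (Finset.mem_insert_of_mem hp)).1 (by rintro rfl; exact hq hp)
    have hP0 : ∏ p ∈ P, p ≠ 0 := Finset.prod_ne_zero_iff.2 fun p hp =>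
      (hP p (Finset.mem_insert_of_mem hp)).1.1.ne_zero
    simp only [Finset.prod_insert hq]
    refine ⟨⟨fun x y hxy => ?_, fun u x hu => ?_, fun u hu => ?_⟩, fun h => ?_⟩
    · rw [Hq.per x y ((dvd_mul_right _ _).trans hxy), H.per x y ((dvd_mul_left _ _).trans hxy)]
    · rw [Hq.hom u x hu.of_mul_right_left, H.hom u x hu.of_mul_right_right]; ring
    · rw [norm_mul, Hq.abs u hu.of_mul_right_left, H.abs u hu.of_mul_right_right, one_mul]
    · rw [gs_mul_coprime q1.1.ne_zero hP0 hc Hq H, norm_mul, norm_mul, norm_mul,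
        Hq.abs _ hc.symm, H.abs _ hc, one_mul, one_mul,
        Real.mul_rpow (pow_nonneg (Nr_nonneg _) _)
          (Finset.prod_nonneg fun p _ => pow_nonneg (Nr_nonneg _) _)]
      exact mul_le_mul (f1_gs_prime q1.1 q2 q3 h) (hb h) (norm_nonneg _)
        (Real.rpow_nonneg (pow_nonneg (Nr_nonneg _) _) _)

theorem f1_gs_bound {s : O} (hs : Prim s) (h6 : IsCoprime s 6) (h2 : Pow2 s) (h : O) :
    ‖gs (fun x => conj (chi s x)) (rad s) h‖ ≤ Nr s ^ (1 / 4 : ℝ) := by
  have hP : ∀ p ∈ pf s, PP p ∧ IsCoprime p 6 ∧ 2 ≤ multiplicity p s := fun p hp => by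
    obtain ⟨a, b⟩ := a1_of_mem_pf hp
    exact ⟨a, h6.of_isCoprime_of_dvd_left b, (a3_pow_dvd a.1 hs.ne_zero 2).1 (h2 p a.1 b)⟩
  have e1 : (fun x => conj (chi s x)) =
      fun x => ∏ p ∈ pf s, chi p x ^ (5 * multiplicity p s) := by
    funext x
    rw [conj_chi]
    conv_lhs => rw [hs.eq_prod_pf]
    have : ∀ S : Finset O, (∀ p ∈ S, p ≠ 0) →
        chi (∏ p ∈ S, p ^ multiplicity p s) x = ∏ p ∈ S, chi p x ^ multiplicity p s := by
      intro S hS
      induction S using Finset.induction_on with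
      | empty => simp [chi_unit_left isUnit_one]
      | insert q S hq ih =>
        have q0 := hS q (Finset.mem_insert_self _ _)
        have hS' : ∀ p ∈ S, p ≠ 0 := fun p hp => hS p (Finset.mem_insert_of_mem hp)
        rw [Finset.prod_insert hq, Finset.prod_insert hq, chi_mul_left (pow_ne_zero _ q0)
          (Finset.prod_ne_zero_iff.2 fun p hp => pow_ne_zero _ (hS' p hp)), ih hS',
          chi_pow_left q0]
    rw [this _ fun p hp => (hP p hp).1.1.ne_zero, ← Finset.prod_pow]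
    exact Finset.prod_congr rfl fun p _ => by rw [← pow_mul, mul_comm]
  have e2 : Nr s = ∏ p ∈ pf s, Nr p ^ multiplicity p s := by
    conv_lhs => rw [hs.eq_prod_pf]
    rw [Nr_prod]
    exact Finset.prod_congr rfl fun p _ => Nr_pow _ _
  rw [e1, e2]
  exact (f1_gs_prod _ _ hP).2 h

theorem f1_norm_psi0 (Q x : O) : ‖psi0 Q x‖ ≤ 1 := by
  unfold psi0; split_ifs <;> simp

theorem f1_G_bound {Q s : O} (hQ : Q ≠ 0) (h6 : (6 : O) ∣ Q) (hs : Prim s) (hc : IsCoprime s Q)
    (h2 : Pow2 s) (h : O) : ‖f1_G Q s h‖ ≤ Nr s ^ (1 / 4 : ℝ) * Nr Q := by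
  have s6 : IsCoprime s 6 := hc.of_isCoprime_of_dvd_right h6
  have hc' : IsCoprime (rad s) Q := hc.of_isCoprime_of_dvd_left (rad_dvd hs.ne_zero)
  have := gs_mul_coprime (rad_ne_zero s) hQ hc' (f1_homog_chi s6) (f1_homog_psi0 Q) h
  unfold f1_G f1_F
  rw [this, norm_mul, norm_mul, norm_mul, (f1_homog_chi s6).abs _ hc'.symm, norm_one, one_mul,
    one_mul]
  exact mul_le_mul (f1_gs_bound hs s6 h2 h) (norm_gs_le hQ (f1_norm_psi0 Q) h) (norm_nonneg _)
    (Real.rpow_nonneg (Nr_nonneg _) _)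

/-- the arithmetic factor of the first variable -/
def f1_uu (s c N : O) : ℂ :=
  vth N * (sig N c * sig N (-1) * sig N s) * ((Nr N ^ (-(1 / 2) : ℝ) : ℝ) : ℂ)
/-- the arithmetic factor of the second variable -/
def f1_vv (s m : O) : ℂ := sig m s * g6 m * ((Nr m ^ (-(1 / 2) : ℝ) : ℝ) : ℂ)

theorem f1_chi_five (n x : O) : conj (chi n (x ^ 5)) = chi n x := by
  rw [chi_pow_right _ _ (by norm_num), ← conj_chi, Complex.conj_conj]

open Classical in
theorem f1_poisson {Q N m s c : O} (hQ : Q ≠ 0) (h6 : (6 : O) ∣ Q) (hN : Prim N) (hm : Prim m)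
    (hs : Prim s) (hm2 : Squarefree m) (hs2 : Pow2 s) (hNQ : IsCoprime N Q) (hmQ : IsCoprime m Q)
    (hsQ : IsCoprime s Q) (hc : (4 : O) ∣ m - c) {R : ℝ} (hR : 0 < R) :
    (if IsCoprime m s then
      ∑' r : O, ((Phi (Nr r / R) : ℂ) * psi0 Q r) * KK N (m * s) r else 0) =
      ((R / Nr (rad s * Q) : ℝ) : ℂ) * ∑' h : O, f1_term (f1_uu s c) (f1_vv s) (f1_t Q s) (f1_t' Q s)
        (f1_G Q s) (R / Nr (rad s * Q)) (N, m) h := by
  have N6 : IsCoprime N 6 := hNQ.of_isCoprime_of_dvd_right h6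
  have m6 : IsCoprime m 6 := hmQ.of_isCoprime_of_dvd_right h6
  have s6 : IsCoprime s 6 := hsQ.of_isCoprime_of_dvd_right h6
  have N2 := (coprime_six_iff.1 N6).2
  have m2 := (coprime_six_iff.1 m6).2
  have s2 := (coprime_six_iff.1 s6).2
  by_cases hms : IsCoprime m s
  swap
  · rw [if_neg hms]
    have : ∀ h, chi m (h * f1_t' Q s) = 0 := fun h => (chi_eq_zero hm.ne_zero).2 fun hh => hms <| by
      refine hh.of_isCoprime_of_dvd_right ?_
      unfold f1_t'
      exact ⟨-(6 * h * (rad s * Q) ^ 5 * s ^ 4), by ring⟩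
    simp [f1_term, this]
  rw [if_pos hms]
  by_cases hsN : IsCoprime s N
  swap
  · have : ∀ h, chi N (h * f1_t Q s) = 0 := fun h => (chi_eq_zero hN.ne_zero).2 fun hh => hsN <| by
      refine (hh.of_isCoprime_of_dvd_right ?_).symm
      unfold f1_t
      exact ⟨-(6 * h * (rad s * Q) ^ 5), by ring⟩
    simp [f1_term, this, KK_eq hm hs hm2 hs2 hms, hsN]
  have n1 : N * m ≠ 0 := mul_ne_zero hN.ne_zero hm.ne_zero
  have n2 : rad s * Q ≠ 0 := mul_ne_zero (rad_ne_zero s) hQ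
  have hcop : IsCoprime (N * m) (rad s * Q) :=
    IsCoprime.mul_right ((coprime_rad_iff hs.ne_zero).2 (hsN.symm.mul_left hms))
      (hNQ.mul_left hmQ)
  have H1 := f1_homog_KG N6 m6
  have H2 := f1_homog_F (Q := Q) s6
  have hper : ∀ x y, N * m * (rad s * Q) ∣ x - y →
      KG N m x * f1_F Q s x = KG N m y * f1_F Q s y := fun x y hxy => by
    rw [H1.per x y ((dvd_mul_right _ _).trans hxy), H2.per x y ((dvd_mul_left _ _).trans hxy)]
  have hP := poisson_per hR (mul_ne_zero n1 n2) _ hper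
  have e1 : ∀ r, ((Phi (Nr r / R) : ℂ) * psi0 Q r) * KK N (m * s) r =
      (vth N * conj (g6 m)) * ((Phi (Nr r / R) : ℂ) * (KG N m r * f1_F Q s r)) := by
    intro r
    rw [KK_eq hm hs hm2 hs2 hms, if_pos hsN, KT, f1_F, key_identity hm m6 hm2, map_mul, conj_mu]
    have := mu_sq hm2
    linear_combination (vth N * conj (g6 m) * KG N m r * conj (chi s r) * psi0 Q r *
      (Phi (Nr r / R) : ℂ)) * this
  simp only [e1]
  rw [tsum_mul_left, hP, ← tsum_mul_left, ← tsum_mul_left, ← tsum_mul_left]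
  refine tsum_congr fun h => ?_
  rw [gs_mul_coprime n1 n2 hcop H1 H2, f1_gs_KG N6 m6]
  have a1 : conj (chi N (h * f1_t Q s)) =
      conj (chi N (-h)) * chi N (rad s * Q) * (sig N s * conj (chi s N)) := by
    have : h * f1_t Q s = -h * (rad s * Q) ^ 5 * s := by unfold f1_t; ring
    rw [this, chi_mul_right, chi_mul_right, map_mul, map_mul, f1_chi_five,
      chi_recip hN hs N2 s2, map_mul, k1_conj_sig N2 s2]
  have a2 : chi m (h * f1_t' Q s) =
      chi m (-h) * conj (chi m (rad s * Q)) * (sig m s * conj (chi s m)) := by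
    have : h * f1_t' Q s = -h * (rad s * Q) ^ 5 * s ^ 5 := by unfold f1_t'; ring
    rw [this, chi_mul_right, chi_mul_right, chi_pow_right _ _ (by norm_num),
      chi_pow_right _ _ (by norm_num), ← conj_chi, ← conj_chi,
      chi_recip hm hs m2 s2, map_mul, k1_conj_sig m2 s2]
  have a3 : sig N c = sig N m := sig_per (by simp) (dvd_sub_comm.1 hc)
  have a4 : R * Nr h / Nr (N * m * (rad s * Q)) = R / Nr (rad s * Q) * Nr h / (Nr N * Nr m) := by
    rw [Nr_mul (N * m), Nr_mul N]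
    have := Nr_pos n2
    have := Nr_pos hN.ne_zero
    have := Nr_pos hm.ne_zero
    field_simp
  have a5 : ((R / Nr (N * m * (rad s * Q)) : ℝ) : ℂ) * (Real.sqrt (Nr (N * m)) : ℂ) =
      ((R / Nr (rad s * Q) : ℝ) : ℂ) *
        (((Nr N ^ (-(1 / 2) : ℝ) : ℝ) : ℂ) * ((Nr m ^ (-(1 / 2) : ℝ) : ℝ) : ℂ)) := by
    rw [← Complex.ofReal_mul, ← Complex.ofReal_mul, ← Complex.ofReal_mul]
    congr 1
    have b0 := Nr_pos n2
    have b1 := Nr_pos n1
    rw [← Real.mul_rpow (Nr_nonneg _) (Nr_nonneg _), ← Nr_mul N m, Nr_mul (N * m),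
      Real.rpow_neg b1.le, ← Real.sqrt_eq_rpow]
    have b2 := Real.sqrt_pos.2 b1
    have b3 := Real.mul_self_sqrt b1.le
    field_simp
    rw [sq, b3]
  have s1 := k1_sig_sq N2 s2
  have s2' := k1_sig_sq m2 s2
  simp only [f1_term, f1_uu, f1_vv, f1_G, map_mul, Complex.conj_conj, Complex.conj_ofReal, a1, a2,
    a3, a4, ks, chi_mul_right s N m, k1_conj_sig m2 s2]
  generalize gs (f1_F Q s) (rad s * Q) h = g
  generalize ((Phi (R / Nr (rad s * Q) * Nr h / (Nr N * Nr m)) : ℝ) : ℂ) = φ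
  set Z := vth N * conj (g6 m) * (chi N (rad s * Q) * conj (chi m (rad s * Q)) *
    (conj (chi s N) * conj (chi s m)) * (sig N m * sig N (-1)) * (conj (chi N (-h)) * chi m (-h)) *
    g * φ) with hZ
  linear_combination Z * a5 - Z * ((R / Nr (rad s * Q) : ℝ) : ℂ) *
    (((Nr N ^ (-(1 / 2) : ℝ) : ℝ) : ℂ) * ((Nr m ^ (-(1 / 2) : ℝ) : ℝ) : ℂ)) *
    ((sig m s * sig m s) * s1 + s2')

end Crest.Agent.R017

end
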