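import Crest.Agent.R017.FMDual1Aux1

/-! # Row 17: the bilinear dual estimate -/

set_option autoImplicit false

noncomputable section

open scoped BigOperators ComplexConjugate
open Complex MeasureTheory Filter Topology

namespace Crest.Agent.R017

theorem f1_term_le (u v : O → ℂ) (t t' : O) {G : O → ℂ} {K : ℝ} (hG : ∀ h, ‖G h‖ ≤ K) (R : ℝ)
    (p : O × O) (h : O) :
    ‖f1_term u v t t' G R p h‖ ≤
      K * (‖u p.1‖ * ‖v p.2‖ * Phi (R * Nr h / (Nr p.1 * Nr p.2))) := by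
  rw [f1_term, norm_mul, norm_mul, norm_mul (G h), Complex.norm_conj, norm_real,
    Real.norm_of_nonneg (Phi_pos _).le]
  have h1 := mul_le_mul (l3_norm_b u p.1 (h * t)) (l3_norm_b v p.2 (h * t')) (norm_nonneg _)
    (norm_nonneg _)
  have h2 := mul_le_mul_of_nonneg_right (hG h) (Phi_pos (R * Nr h / (Nr p.1 * Nr p.2))).le
  refine (mul_le_mul h1 h2 (mul_nonneg (norm_nonneg _) (Phi_pos _).le) (by positivity)).trans
    (le_of_eq (by ring))

theorem f1_term_tail {u v : O → ℂ} (hu : ∀ n, u n ≠ 0 → Prim n) (hv : ∀ n, v n ≠ 0 → Prim n)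
    (t t' : O) {G : O → ℂ} {K : ℝ} (hG : ∀ h, ‖G h‖ ≤ K) {R A C : ℝ} (hR : 0 < R)
    (hC : ∀ y : ℝ, 0 < y → Phi y ≤ C * y ^ (-A)) (p : O × O) {h : O} (hh : h ≠ 0) :
    ‖f1_term u v t t' G R p h‖ ≤
      K * C * R ^ (-A) * Nr h ^ (-A) * (‖u p.1‖ * Nr p.1 ^ A * (‖v p.2‖ * Nr p.2 ^ A)) := by
  have b0 := Nr_pos hh
  have hK : 0 ≤ K := (norm_nonneg _).trans (hG 0)
  refine (f1_term_le u v t t' hG R p h).trans ?_
  by_cases h1 : u p.1 = 0
  · simp [h1]
  by_cases h2 : v p.2 = 0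
  · simp [h2]
  have b1 := Nr_pos (hu _ h1).ne_zero
  have b2 := Nr_pos (hv _ h2).ne_zero
  refine (mul_le_mul_of_nonneg_left
    (mul_le_mul_of_nonneg_left (hC _ (by positivity)) (by positivity)) hK).trans (le_of_eq ?_)
  rw [Real.div_rpow (by positivity) (by positivity), Real.mul_rpow hR.le b0.le,
    Real.mul_rpow b1.le b2.le, Real.rpow_neg b1.le, Real.rpow_neg b2.le]
  field_simp

theorem f1_sum_zero {u v : O → ℂ} (hu : ∀ n, u n ≠ 0 → Prim n) (hv : ∀ n, v n ≠ 0 → Prim n)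
    (t t' : O) {G : O → ℂ} {K : ℝ} (hG : ∀ h, ‖G h‖ ≤ K) (R : ℝ) :
    ‖∑' p, f1_term u v t t' G R p 0‖ ≤ K * (‖u 1‖ * ‖v 1‖) := by
  have hb : ∀ a : O → ℂ, (∀ n, a n ≠ 0 → Prim n) → ∀ n, n ≠ 1 → a n * conj (chi n 0) = 0 := by
    intro a ha n hn
    by_cases h : a n = 0
    · rw [h, zero_mul]
    have : chi n 0 = 0 := (chi_eq_zero (ha n h).ne_zero).2 fun hc => hn
      ((ha n h).eq_one_of_isUnit (isCoprime_zero_right.1 (by simpa using hc)))
    rw [this, map_zero, mul_zero]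
  rw [tsum_eq_single (1, 1)]
  · refine (f1_term_le u v t t' hG R _ 0).trans (le_of_eq ?_)
    simp [Nr_zero, Phi]
  · rintro ⟨n, m⟩ hp
    by_cases hn : n = 1
    · have hm : m ≠ 1 := by rintro rfl; exact hp (by rw [hn])
      rw [f1_term, zero_mul t', hb v hv m hm]
      simp
    · rw [f1_term, zero_mul t, hb u hu n hn]
      simp

theorem f1_X_cont {σ : ℝ} (hσ : 0 < σ) {a : O → ℂ} (hr : Rap a) (h : O) :
    Continuous (l3_X a σ h) :=
  continuous_tsum (fun n => (continuous_const.mul (l3_cont_cpow hσ _)).mul continuous_const)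
    (hr σ) fun n t => l3_X_term hσ a h n t

theorem f1_X_le {σ : ℝ} (hσ : 0 < σ) {a : O → ℂ} (hr : Rap a) (h : O) (τ : ℝ) :
    ‖l3_X a σ h τ‖ ≤ ∑' n, ‖a n‖ * Nr n ^ σ :=
  tsum_of_norm_bounded (hr σ).hasSum fun n => l3_X_term hσ a h n τ

theorem f1_X_int {σ : ℝ} (hσ : 0 < σ) {u v : O → ℂ} (hu : Rap u) (hv : Rap v) (h h' : O) :
    Integrable fun τ : ℝ =>
      ‖Complex.Gamma (σ + τ * I)‖ * (‖l3_X u σ h τ‖ * ‖l3_X v σ h' (-τ)‖) := by
  refine (l3_int_Gamma hσ).mul_bdd (c := (∑' n, ‖u n‖ * Nr n ^ σ) * (∑' n, ‖v n‖ * Nr n ^ σ))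
    ((f1_X_cont hσ hu h).norm.mul
      ((f1_X_cont hσ hv h').comp continuous_neg).norm).aestronglyMeasurable
    (Eventually.of_forall fun t => ?_)
  rw [Real.norm_of_nonneg (by positivity)]
  exact mul_le_mul (f1_X_le hσ hu h t) (f1_X_le hσ hv h' (-t)) (norm_nonneg _)
    ((norm_nonneg _).trans (f1_X_le hσ hu h t))

theorem f1_sum_mid {σ : ℝ} (hσ : 0 < σ) {u v : O → ℂ} (hu : ∀ n, u n ≠ 0 → Prim n)
    (hv : ∀ n, v n ≠ 0 → Prim n) (ru : Rap u) (rv : Rap v) (t t' : O) {G : O → ℂ} {K : ℝ}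
    (hG : ∀ h, ‖G h‖ ≤ K) {R : ℝ} (hR : 0 < R) {h : O} (hh : h ≠ 0) :
    ‖∑' p, f1_term u v t t' G R p h‖ ≤ (K * c0 ^ (-σ) * R ^ (-σ)) *
      ∫ τ : ℝ, ‖Complex.Gamma (σ + τ * I)‖ *
        (‖l3_X u σ (h * t) τ‖ * ‖l3_X v σ (h * t') (-τ)‖) := by
  have b0 := Nr_pos hh
  have hc := c0_pos
  have hK : 0 ≤ K := (norm_nonneg _).trans (hG 0)
  have hnn : ∀ (a : O → ℂ) (n : O), 0 ≤ ‖a n‖ * Nr n ^ σ := fun a n =>
    mul_nonneg (norm_nonneg _) (Real.rpow_nonneg (Nr_nonneg _) _)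
  have h1 := l3_sep hσ (mul_pos hR b0)
    (fun p : O × O => u p.1 * conj (chi p.1 (h * t)) * conj (v p.2 * conj (chi p.2 (h * t'))))
    (fun p hp => ⟨(hu _ fun h0 => hp (by simp [h0])).ne_zero,
      (hv _ fun h0 => hp (by simp [h0])).ne_zero⟩)
    (Summable.of_nonneg_of_le
      (fun p => mul_nonneg (norm_nonneg _)
        (Real.rpow_nonneg (mul_nonneg (Nr_nonneg _) (Nr_nonneg _)) _))
      (fun p => by
        rw [norm_mul, Complex.norm_conj, Real.mul_rpow (Nr_nonneg _) (Nr_nonneg _),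
          mul_mul_mul_comm]
        exact mul_le_mul
          (mul_le_mul_of_nonneg_right (l3_norm_b u _ _) (Real.rpow_nonneg (Nr_nonneg _) _))
          (mul_le_mul_of_nonneg_right (l3_norm_b v _ _) (Real.rpow_nonneg (Nr_nonneg _) _))
          (mul_nonneg (norm_nonneg _) (Real.rpow_nonneg (Nr_nonneg _) _)) (hnn _ _))
      ((ru σ).mul_of_nonneg (rv σ) (hnn u) (hnn v)))
  have h2 : ∀ τ : ℝ, ∑' p : O × O,
      u p.1 * conj (chi p.1 (h * t)) * conj (v p.2 * conj (chi p.2 (h * t'))) *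
      ((Nr p.1 : ℂ) ^ ((σ : ℂ) + τ * I) * (Nr p.2 : ℂ) ^ ((σ : ℂ) + τ * I)) =
      l3_X u σ (h * t) τ * conj (l3_X v σ (h * t') (-τ)) := by
    intro τ
    have s1 : ∀ (a : O → ℂ), Rap a → ∀ (k : O) (τ : ℝ),
        Summable fun n => ‖a n * (Nr n : ℂ) ^ ((σ : ℂ) + τ * I) * conj (chi n k)‖ :=
      fun a hr k τ => Summable.of_nonneg_of_le (fun _ => norm_nonneg _)
        (fun n => l3_X_term hσ a k n τ) (hr σ)
    have s2 : Summable fun n =>
        ‖conj (v n * (Nr n : ℂ) ^ ((σ : ℂ) + (-τ : ℝ) * I) * conj (chi n (h * t')))‖ := by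
      simpa only [Complex.norm_conj] using s1 v rv (h * t') (-τ)
    rw [l3_X, l3_X, colF, colF, Complex.conj_tsum,
      tsum_mul_tsum_of_summable_norm (s1 u ru (h * t) τ) s2]
    refine tsum_congr fun p => ?_
    simp only [map_mul]
    rw [l3_conj_cpow (Nr_nonneg _)]
    ring
  simp only [h2] at h1
  set g : ℝ → ℝ := fun τ => ‖Complex.Gamma (σ + τ * I)‖ *
    (‖l3_X u σ (h * t) τ‖ * ‖l3_X v σ (h * t') (-τ)‖) with hg
  have gi : Integrable g := f1_X_int hσ ru rv _ _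
  have hI : 0 ≤ ∫ τ, g τ := integral_nonneg fun τ => by positivity
  have h3 : ‖∫ τ : ℝ, Complex.Gamma (σ + τ * I) * ((c0 * (R * Nr h) : ℝ) : ℂ) ^ (-(σ + τ * I)) *
      (l3_X u σ (h * t) τ * conj (l3_X v σ (h * t') (-τ)))‖ ≤
      ∫ τ : ℝ, (c0 ^ (-σ) * R ^ (-σ)) * g τ := by
    refine norm_integral_le_of_norm_le (gi.const_mul _) (Eventually.of_forall fun τ => ?_)
    rw [norm_mul, norm_mul, norm_mul, Complex.norm_conj,
      Complex.norm_cpow_eq_rpow_re_of_pos (by positivity), neg_re, l3_re,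
      Real.mul_rpow hc.le (by positivity), Real.mul_rpow hR.le b0.le]
    simp only [hg]
    have e1 : Nr h ^ (-σ) ≤ 1 :=
      Real.rpow_le_one_of_one_le_of_nonpos (one_le_Nr hh) (by linarith)
    calc _ ≤ ‖Complex.Gamma (σ + τ * I)‖ * (c0 ^ (-σ) * (R ^ (-σ) * 1)) *
          (‖l3_X u σ (h * t) τ‖ * ‖l3_X v σ (h * t') (-τ)‖) := by gcongr
      _ = _ := by ring
  rw [integral_const_mul] at h3
  have h4 : ‖(1 / (2 * Real.pi) : ℂ)‖ ≤ 1 := by
    rw [norm_div, norm_one, norm_mul, norm_real, Real.norm_of_nonneg Real.pi_pos.le,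
      Complex.norm_two, div_le_one (by positivity)]
    linarith [Real.two_le_pi]
  have h5 : ∑' p, f1_term u v t t' G R p h = G h * ∑' p : O × O,
      u p.1 * conj (chi p.1 (h * t)) * conj (v p.2 * conj (chi p.2 (h * t'))) *
        (Phi (R * Nr h / (Nr p.1 * Nr p.2)) : ℂ) := by
    rw [← tsum_mul_left]
    exact tsum_congr fun p => by rw [f1_term]; ring
  rw [h5, h1, norm_mul, norm_mul]
  refine (mul_le_mul (hG h) ((mul_le_of_le_one_left (norm_nonneg _) h4).trans h3)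
    (by positivity) hK).trans (le_of_eq (by ring))

theorem f1_dual {σ A : ℝ} (D : ℝ) (hσ : 0 < σ) (hA : 2 ≤ A) : ∃ C : ℝ, 0 ≤ C ∧
    ∀ (u v G : O → ℂ) (t t' : O) (R H K U V : ℝ), (∀ n, u n ≠ 0 → Prim n) →
      (∀ n, v n ≠ 0 → Prim n) → Rap u → Rap v → 0 < R → 0 < H → (∀ h, ‖G h‖ ≤ K) → 0 ≤ U → 0 ≤ V →
      (∀ τ : ℝ, NS H (fun h => l3_X u σ (h * t) τ) ≤ U ^ 2 * (1 + |τ|) ^ D) →
      (∀ τ : ℝ, NS H (fun h => l3_X v σ (h * t') τ) ≤ V ^ 2 * (1 + |τ|) ^ D) →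
      ‖∑' p, ∑' h, f1_term u v t t' G R p h‖ ≤ K * (‖u 1‖ * ‖v 1‖ + C *
        (R ^ (-σ) * (U * V) + R ^ (-A) * H ^ (1 - A) *
          ((∑' n : O, ‖u n‖ * Nr n ^ A) * ∑' n : O, ‖v n‖ * Nr n ^ A))) := by
  classical
  obtain ⟨C₁, hC₁⟩ := Phi_le_rpow (A := A) (by linarith)
  have hC₁0 : 0 ≤ C₁ := by simpa using (Phi_pos 1).le.trans (hC₁ 1 one_pos)
  obtain ⟨C₂, hC₂⟩ := tsum_tail_rpow_le (σ := A) (by linarith)
  have hc := c0_pos
  set I₀ := ∫ τ : ℝ, ‖Complex.Gamma (σ + τ * I)‖ * (1 + |τ|) ^ D with hI₀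
  have hI0 : 0 ≤ I₀ := integral_nonneg fun τ => by positivity
  refine ⟨c0 ^ (-σ) * I₀ + C₁ * |C₂|, by positivity,
    fun u v G t t' R H K U V hu hv ru rv hR hH hG hU hV bu bv => ?_⟩
  have hK : 0 ≤ K := (norm_nonneg _).trans (hG 0)
  have hnn : ∀ (a : O → ℂ) (n : O), 0 ≤ ‖a n‖ * Nr n ^ A := fun a n =>
    mul_nonneg (norm_nonneg _) (Real.rpow_nonneg (Nr_nonneg _) _)
  have hNA : ∀ n : O, 0 ≤ Nr n ^ (-A) := fun n => Real.rpow_nonneg (Nr_nonneg _) _
  have sA : Summable fun h : O => Nr h ^ (-A) := summable_Nr_rpow (by linarith)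
  have s2 := (ru A).mul_of_nonneg (rv A) (hnn u) (hnn v)
  have hle : ∀ a : O → ℂ, (∀ n, a n ≠ 0 → Prim n) → ∀ n, ‖a n‖ ≤ ‖a n‖ * Nr n ^ A :=
    fun a ha n => by
      by_cases h : a n = 0
      · simp [h]
      · exact le_mul_of_one_le_right (norm_nonneg _)
          (Real.one_le_rpow (one_le_Nr (ha n h).ne_zero) (by linarith))
  have hsum : Summable (Function.uncurry (f1_term u v t t' G R)) := by
    have sβ : Summable fun h : O =>
        (if h = 0 then K else 0) + K * C₁ * R ^ (-A) * Nr h ^ (-A) :=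
      (hasSum_ite_eq (0 : O) K).summable.add (sA.mul_left _)
    refine Summable.of_norm_bounded (s2.mul_of_nonneg sβ (fun p => mul_nonneg (hnn _ _) (hnn _ _))
      fun h => add_nonneg (by split_ifs; exacts [hK, le_rfl]) (mul_nonneg (by positivity) (hNA _)))
      fun ⟨p, h⟩ => ?_
    simp only [Function.uncurry_apply_pair]
    by_cases hh : h = 0
    · subst hh
      refine (f1_term_le u v t t' hG R p 0).trans ?_
      rw [if_pos rfl]
      have q1 : ‖u p.1‖ * ‖v p.2‖ * Phi (R * Nr 0 / (Nr p.1 * Nr p.2)) ≤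
          ‖u p.1‖ * Nr p.1 ^ A * (‖v p.2‖ * Nr p.2 ^ A) :=
        (mul_le_of_le_one_right (by positivity) (Phi_le_one (by simp [Nr_zero]))).trans
          (mul_le_mul (hle u hu _) (hle v hv _) (norm_nonneg _) (hnn _ _))
      have q2 : 0 ≤ K * C₁ * R ^ (-A) * Nr 0 ^ (-A) := mul_nonneg (by positivity) (hNA _)
      have q3 := mul_nonneg (hnn u p.1) (hnn v p.2)
      nlinarith [mul_le_mul_of_nonneg_left q1 hK, mul_nonneg q3 q2]
    · rw [if_neg hh, zero_add, mul_comm]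
      exact f1_term_tail hu hv t t' hG hR hC₁ p hh
  rw [← hsum.tsum_comm]
  set S := (∑' n : O, ‖u n‖ * Nr n ^ A) * ∑' n : O, ‖v n‖ * Nr n ^ A with hS
  have hS0 : 0 ≤ S := mul_nonneg (tsum_nonneg (hnn u)) (tsum_nonneg (hnn v))
  set J : O → ℝ := fun h => ∫ τ : ℝ, ‖Complex.Gamma (σ + τ * I)‖ *
    (‖l3_X u σ (h * t) τ‖ * ‖l3_X v σ (h * t') (-τ)‖) with hJ
  have hJ0 : ∀ h, 0 ≤ J h := fun h => integral_nonneg fun t => by positivity
  have f0 := hasSum_ite_eq (0 : O) (K * (‖u 1‖ * ‖v 1‖))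
  have f1 : HasSum (fun h => if h ∈ box H then K * c0 ^ (-σ) * R ^ (-σ) * J h else 0)
      (∑ h ∈ box H, K * c0 ^ (-σ) * R ^ (-σ) * J h) := by
    have := hasSum_sum_of_ne_finset_zero (L := SummationFilter.unconditional O)
      (f := fun h => if h ∈ box H then K * c0 ^ (-σ) * R ^ (-σ) * J h else 0) (s := box H)
      fun b hb => if_neg hb
    rwa [Finset.sum_congr rfl fun x hx => if_pos hx] at this
  have st : Summable fun h : O => if H < Nr h then Nr h ^ (-A) else 0 :=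
    Summable.of_nonneg_of_le (fun h => by split_ifs; exacts [hNA h, le_rfl])
      (fun h => by split_ifs; exacts [le_rfl, hNA h]) sA
  have f2 := st.hasSum.mul_left (K * C₁ * R ^ (-A) * S)
  refine (tsum_of_norm_bounded ((f0.add f1).add f2) fun h => ?_).trans ?_
  · have p1 : 0 ≤ if h = 0 then K * (‖u 1‖ * ‖v 1‖) else 0 := by
      split_ifs; exacts [by positivity, le_rfl]
    have p2 : 0 ≤ if h ∈ box H then K * c0 ^ (-σ) * R ^ (-σ) * J h else 0 := by
      split_ifs; exacts [mul_nonneg (by positivity) (hJ0 h), le_rfl]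
    have p3 : 0 ≤ K * C₁ * R ^ (-A) * S * if H < Nr h then Nr h ^ (-A) else 0 :=
      mul_nonneg (by positivity) (by split_ifs; exacts [hNA h, le_rfl])
    by_cases hh : h = 0
    · subst hh
      have := f1_sum_zero hu hv t t' hG R
      rw [if_pos rfl]
      linarith
    by_cases hb : h ∈ box H
    · have := f1_sum_mid hσ hu hv ru rv t t' hG hR hh
      rw [if_pos hb]
      linarith
    · have hlt : H < Nr h := by
        by_contra hle
        exact hb (mem_box.2 ⟨hh, not_lt.1 hle⟩)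
      have h1 := tsum_of_norm_bounded (s2.hasSum.mul_left (K * C₁ * R ^ (-A) * Nr h ^ (-A)))
        fun p => f1_term_tail hu hv t t' hG hR hC₁ p hh
      rw [← (ru A).tsum_mul_tsum (rv A) s2, ← hS] at h1
      rw [if_pos hlt]
      calc _ ≤ _ := h1
        _ = K * C₁ * R ^ (-A) * S * Nr h ^ (-A) := by ring
        _ ≤ _ := by linarith
  · have e : ∑ h ∈ box H, J h ≤ U * V * I₀ := by
      rw [hJ, ← integral_finsetSum _ fun h _ => f1_X_int hσ ru rv _ _, hI₀, ← integral_const_mul]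
      refine integral_mono (integrable_finsetSum _ fun h _ => f1_X_int hσ ru rv _ _)
        ((integrable_Gamma_mul hσ D).const_mul _) fun τ => ?_
      simp only
      rw [← Finset.mul_sum, mul_left_comm]
      refine mul_le_mul_of_nonneg_left ?_ (norm_nonneg _)
      have w : 0 ≤ (1 + |τ|) ^ D := by positivity
      refine (Real.sum_mul_le_sqrt_mul_sqrt _ _ _).trans ?_
      have b1 := Real.sqrt_le_sqrt (bu τ)
      have b2 := Real.sqrt_le_sqrt (bv (-τ))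
      rw [abs_neg] at b2
      rw [Real.sqrt_mul (sq_nonneg _), Real.sqrt_sq hU] at b1
      rw [Real.sqrt_mul (sq_nonneg _), Real.sqrt_sq hV] at b2
      refine (mul_le_mul b1 b2 (Real.sqrt_nonneg _) (by positivity)).trans (le_of_eq ?_)
      rw [mul_mul_mul_comm, Real.mul_self_sqrt w]
    rw [← Finset.mul_sum]
    have h0 := mul_le_mul_of_nonneg_left e (by positivity : 0 ≤ K * c0 ^ (-σ) * R ^ (-σ))
    have h1 : ∑' h : O, (if H < Nr h then Nr h ^ (-A) else 0) ≤ |C₂| * H ^ (1 - A) :=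
      (hC₂ H hH).trans (mul_le_mul_of_nonneg_right (le_abs_self _) (by positivity))
    have h2 := mul_le_mul_of_nonneg_left h1 (by positivity : 0 ≤ K * C₁ * R ^ (-A) * S)
    have q1 : 0 ≤ K * (C₁ * |C₂| * (R ^ (-σ) * (U * V))) := by positivity
    have q2 : 0 ≤ K * (c0 ^ (-σ) * I₀ * (R ^ (-A) * H ^ (1 - A) * S)) := by positivity
    nlinarith

end Crest.Agent.R017

end
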