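import Crest.Agent.R017.FMDual1Aux2
import Crest.Agent.R017.CF
import Crest.Agent.R017.Gnorm

/-! # Row 17: the coefficients of the dual sum -/

set_option autoImplicit false

noncomputable section

open scoped BigOperators ComplexConjugate
open Complex MeasureTheory Filter Topology

namespace Crest.Agent.R017

/-- the weight without the origin -/
def f1_w (Y : ℝ) (n : O) : ℝ := if n = 0 then 0 else W 1 (Nr n / Y)

theorem f1_w_nonneg (Y : ℝ) (n : O) : 0 ≤ f1_w Y n := by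
  unfold f1_w; split_ifs; exacts [le_rfl, (W_pos _ _).le]

theorem f1_w_eq (Y A : ℝ) (n : O) :
    f1_w Y n * Nr n ^ A = if n = 0 then 0 else Nr n ^ A * W 1 (Nr n / Y) := by
  unfold f1_w; split_ifs; exacts [zero_mul _, mul_comm _ _]

theorem f1_w_summable {Y : ℝ} (hY : 0 < Y) (A : ℝ) : Summable fun n => f1_w Y n * Nr n ^ A := by
  simp only [f1_w_eq]; exact summable_W one_pos hY A

theorem f1_w_tsum {A : ℝ} (hA : 0 ≤ A) : ∃ C : ℝ, 0 ≤ C ∧ ∀ Y : ℝ, 0 < Y →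
    ∑' n, f1_w Y n * Nr n ^ A ≤ C * Y ^ (1 + A) := by
  obtain ⟨C, hC⟩ := tsum_W_le one_pos A (by linarith)
  refine ⟨|C|, abs_nonneg _, fun Y hY => ?_⟩
  simp only [f1_w_eq]
  exact (hC Y hY).trans (mul_le_mul_of_nonneg_right (le_abs_self _) (by positivity))

theorem f1_rap_of_le {f : O → ℂ} {g : O → ℝ} (h : ∀ n, ‖f n‖ ≤ g n)
    (hg : ∀ A : ℝ, Summable fun n => g n * Nr n ^ A) : Rap f := fun A =>
  Summable.of_nonneg_of_le (fun _ => mul_nonneg (norm_nonneg _) (Real.rpow_nonneg (Nr_nonneg _) _))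
    (fun n => mul_le_mul_of_nonneg_right (h n) (Real.rpow_nonneg (Nr_nonneg _) _)) (hg A)

theorem f1_tsum_of_le {f : O → ℂ} {g : O → ℝ} (h : ∀ n, ‖f n‖ ≤ g n)
    (hg : ∀ A : ℝ, Summable fun n => g n * Nr n ^ A) (A : ℝ) :
    ∑' n, ‖f n‖ * Nr n ^ A ≤ ∑' n, g n * Nr n ^ A :=
  (f1_rap_of_le h hg A).tsum_le_tsum
    (fun n => mul_le_mul_of_nonneg_right (h n) (Real.rpow_nonneg (Nr_nonneg _) _)) (hg A)

open Classical in
/-- the coefficient of the first variable -/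
def f1_al (ψ a : O → ℂ) (B X : ℝ) (N : O) : ℂ :=
  ∑ b ∈ box B, a b * (if Prim N ∧ b ∣ N then ψ N * (W 1 (Nr N / (Nr b * X)) : ℂ) else 0)

/-- its majorant -/
def f1_om (a : O → ℂ) (B X : ℝ) (N : O) : ℝ := ∑ b ∈ box B, ‖a b‖ * f1_w (Nr b * X) N

/-- the coefficient of the second variable -/
def f1_be (Q : O) (M : ℝ) (m : O) : ℂ := if Prim m then psi0 Q m * (W 1 (Nr m / M) : ℂ) else 0

theorem f1_al_le {ψ : O → ℂ} (hψ : ∀ n, ‖ψ n‖ ≤ 1) (a : O → ℂ) (B X : ℝ) (N : O) :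
    ‖f1_al ψ a B X N‖ ≤ f1_om a B X N := by
  refine norm_sum_le_of_le _ fun b _ => ?_
  rw [norm_mul]
  refine mul_le_mul_of_nonneg_left ?_ (norm_nonneg _)
  split_ifs with h
  · rw [f1_w, if_neg h.1.ne_zero, norm_mul, norm_real, Real.norm_of_nonneg (W_pos _ _).le]
    exact mul_le_of_le_one_left (W_pos _ _).le (hψ N)
  · rw [norm_zero]; exact f1_w_nonneg _ _

theorem f1_al_supp {Q : O} {ψ : O → ℂ} (hψ : IsCh Q ψ) {a : O → ℂ} {B X : ℝ} {N : O}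
    (h : f1_al ψ a B X N ≠ 0) : Prim N ∧ IsCoprime N Q := by
  obtain ⟨b, -, hb⟩ := Finset.exists_ne_zero_of_sum_ne_zero h
  have h1 := right_ne_zero_of_mul hb
  split_ifs at h1 with h2
  · exact ⟨h2.1, ch_cop hψ (left_ne_zero_of_mul h1)⟩
  · exact absurd rfl h1

theorem f1_om_summable (a : O → ℂ) (B : ℝ) {X : ℝ} (hX : 0 < X) (A : ℝ) :
    Summable fun n => f1_om a B X n * Nr n ^ A := by
  simp only [f1_om, Finset.sum_mul, mul_assoc]
  exact summable_sum fun b hb =>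
    (f1_w_summable (mul_pos (Nr_pos (mem_box.1 hb).1) hX) A).mul_left _

theorem f1_l1 (a : O → ℂ) {B : ℝ} (hB : 1 ≤ B) :
    ∑ b ∈ box B, ‖a b‖ ≤ 5 * B * Real.sqrt (∑ b ∈ box B, ‖a b‖ ^ 2) := by
  have h := Real.sum_mul_le_sqrt_mul_sqrt (box B) (fun _ => (1 : ℝ)) fun b => ‖a b‖
  simp only [one_mul, one_pow, Finset.sum_const, nsmul_eq_mul, mul_one] at h
  refine h.trans (mul_le_mul_of_nonneg_right ?_ (Real.sqrt_nonneg _))
  rw [Real.sqrt_le_left (by positivity)]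
  have := card_box_le (Y := B) (by linarith)
  nlinarith

theorem f1_om_tsum {A : ℝ} (hA : 0 ≤ A) : ∃ C : ℝ, 0 ≤ C ∧ ∀ (a : O → ℂ) (B X : ℝ), 1 ≤ B → 0 < X →
    ∑' n, f1_om a B X n * Nr n ^ A ≤
      C * (B * (B * X) ^ (1 + A)) * Real.sqrt (∑ b ∈ box B, ‖a b‖ ^ 2) := by
  obtain ⟨C, hC0, hC⟩ := f1_w_tsum hA
  refine ⟨5 * C, by positivity, fun a B X hB hX => ?_⟩
  simp only [f1_om, Finset.sum_mul, mul_assoc]
  rw [Summable.tsum_finsetSum fun b hb =>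
    (f1_w_summable (mul_pos (Nr_pos (mem_box.1 hb).1) hX) A).mul_left _]
  have h1 : ∀ b ∈ box B, ∑' n, ‖a b‖ * (f1_w (Nr b * X) n * Nr n ^ A) ≤
      ‖a b‖ * (C * (B * X) ^ (1 + A)) := fun b hb => by
    have b0 := Nr_pos (mem_box.1 hb).1
    rw [tsum_mul_left]
    refine mul_le_mul_of_nonneg_left ((hC _ (mul_pos b0 hX)).trans ?_) (norm_nonneg _)
    have := (mem_box.1 hb).2
    gcongr
  refine (Finset.sum_le_sum h1).trans ?_
  rw [← Finset.sum_mul]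
  refine (mul_le_mul_of_nonneg_right (f1_l1 a hB) (by positivity)).trans (le_of_eq (by ring))

theorem f1_al_one {Q : O} {ψ : O → ℂ} (hψ : ∀ n, ‖ψ n‖ ≤ 1) {a : O → ℂ} {B : ℝ} (hB : 1 ≤ B)
    (ha : Dy Q B a) (X : ℝ) : ‖f1_al ψ a B X 1‖ ≤ Real.sqrt (∑ b ∈ box B, ‖a b‖ ^ 2) := by
  have h1 : (1 : O) ∈ box B := mem_box.2 ⟨one_ne_zero, by rwa [Nr_one]⟩
  unfold f1_al
  rw [Finset.sum_eq_single_of_mem 1 h1]
  · refine le_trans ?_ (Real.le_sqrt_of_sq_le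
      (Finset.single_le_sum (f := fun b => ‖a b‖ ^ 2) (fun _ _ => sq_nonneg _) h1))
    rw [norm_mul]
    refine mul_le_of_le_one_right (norm_nonneg _) ?_
    rw [if_pos ⟨prim_one, dvd_rfl⟩, norm_mul, norm_real, Real.norm_of_nonneg (W_pos _ _).le]
    exact mul_le_one₀ (hψ 1) (W_pos _ _).le (W_le_one one_pos _)
  · intro b _ hb
    by_cases h : a b = 0
    · rw [h, zero_mul]
    · rw [if_neg, mul_zero]
      exact fun hh => hb ((ha b h).1.1.eq_one_of_isUnit (isUnit_of_dvd_one hh.2))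

theorem f1_be_le (Q : O) (M : ℝ) (m : O) : ‖f1_be Q M m‖ ≤ f1_w M m := by
  unfold f1_be
  split_ifs with h
  · rw [f1_w, if_neg h.ne_zero, norm_mul, norm_real, Real.norm_of_nonneg (W_pos _ _).le]
    exact mul_le_of_le_one_left (W_pos _ _).le (f1_norm_psi0 _ _)
  · rw [norm_zero]; exact f1_w_nonneg _ _

theorem f1_be_supp {Q : O} {M : ℝ} {m : O} (h : f1_be Q M m ≠ 0) : Prim m ∧ IsCoprime m Q := by
  unfold f1_be at h
  split_ifs at h with h1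
  · refine ⟨h1, ?_⟩
    by_contra hc
    exact h (by simp [psi0, hc])
  · exact absurd rfl h

theorem f1_norm_sig {x y : O} (hx : ¬ (2 : O) ∣ x) (hy : ¬ (2 : O) ∣ y) : ‖sig x y‖ = 1 := by
  rcases sig_cases hx hy with h | h <;> simp [h]

theorem f1_uu_le {s c N : O} (hs : ¬ (2 : O) ∣ s) (hc : ¬ (2 : O) ∣ c) (hN : Prim N)
    (hN2 : ¬ (2 : O) ∣ N) : ‖f1_uu s c N‖ ≤ 1 := by
  have h1 := one_le_Nr hN.ne_zero
  rw [f1_uu, norm_mul, norm_mul, norm_mul, norm_mul, f1_norm_sig hN2 hc, f1_norm_sig hN2 hs,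
    f1_norm_sig hN2 k1_odd_neg_one, norm_real, Real.norm_of_nonneg (by positivity)]
  simp only [mul_one]
  refine (mul_le_mul_of_nonneg_right (norm_vth_le hN) (by positivity)).trans ?_
  rw [← Real.rpow_add (by linarith)]
  exact Real.rpow_le_one_of_one_le_of_nonpos h1 (by norm_num)

theorem f1_vv_le {s m : O} (hs : ¬ (2 : O) ∣ s) (hm : IsCoprime m 6) (hm2 : Squarefree m) :
    ‖f1_vv s m‖ ≤ 1 := by
  have h1 := one_le_Nr (k1_ne hm)
  rw [f1_vv, norm_mul, norm_mul, f1_norm_sig (coprime_six_iff.1 hm).2 hs, norm_g6 hm hm2,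
    norm_real, Real.norm_of_nonneg (by positivity), one_mul, one_mul]
  exact Real.rpow_le_one_of_one_le_of_nonpos h1 (by norm_num)

/-- the first sequence of the bilinear form -/
def f1_u (ψ a : O → ℂ) (B X : ℝ) (s c N : O) : ℂ := f1_al ψ a B X N * f1_uu s c N

open Classical in
/-- the second sequence of the bilinear form -/
def f1_v (Q : O) (M : ℝ) (s c m : O) : ℂ :=
  if Squarefree m ∧ (4 : O) ∣ m - c then f1_be Q M m * f1_vv s m else 0

theorem f1_u_le {Q : O} {ψ : O → ℂ} (h2 : (2 : O) ∣ Q) (hψ : IsCh Q ψ) (a : O → ℂ) (B X : ℝ)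
    {s c : O} (hs : ¬ (2 : O) ∣ s) (hc : ¬ (2 : O) ∣ c) (N : O) :
    ‖f1_u ψ a B X s c N‖ ≤ ‖f1_al ψ a B X N‖ := by
  by_cases h : f1_al ψ a B X N = 0
  · simp [f1_u, h]
  obtain ⟨h3, h4⟩ := f1_al_supp hψ h
  rw [f1_u, norm_mul]
  exact mul_le_of_le_one_right (norm_nonneg _) (f1_uu_le hs hc h3 (ch_odd h2 h4))

theorem f1_v_le {Q : O} (h6 : (6 : O) ∣ Q) (M : ℝ) {s : O} (hs : ¬ (2 : O) ∣ s) (c m : O) :
    ‖f1_v Q M s c m‖ ≤ ‖f1_be Q M m‖ := by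
  unfold f1_v
  split_ifs with h
  · by_cases h0 : f1_be Q M m = 0
    · simp [h0]
    rw [norm_mul]
    exact mul_le_of_le_one_right (norm_nonneg _)
      (f1_vv_le hs ((f1_be_supp h0).2.of_isCoprime_of_dvd_right h6) h.1)
  · simp

theorem f1_cpow {n : O} (hn : n ≠ 0) (σ τ : ℝ) :
    ((Nr n ^ (-(1 / 2) : ℝ) : ℝ) : ℂ) * (Nr n : ℂ) ^ ((σ : ℂ) + τ * I) =
      (Nr n : ℂ) ^ (((σ - 1 / 2 : ℝ) : ℂ) + τ * I) * (Nr n : ℂ) ^ (-(((0 : ℝ) : ℂ) * I)) := by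
  have hN := Nr_pos hn
  have hN' : (Nr n : ℂ) ≠ 0 := by exact_mod_cast hN.ne'
  rw [Complex.ofReal_cpow hN.le, ← Complex.cpow_add _ _ hN', ← Complex.cpow_add _ _ hN']
  congr 1
  push_cast
  ring

theorem f1_X_u {Q : O} {ψ : O → ℂ} (h4 : (4 : O) ∣ Q) (hψ : IsCh Q ψ) (a : O → ℂ) (B : ℝ) {X : ℝ}
    (hX : 0 < X) {s c : O} (hs : ¬ (2 : O) ∣ s) (hc : ¬ (2 : O) ∣ c) (σ τ : ℝ) (t h : O) :
    l3_X (f1_u ψ a B X s c) σ (h * t) τ =
      ((X ^ (σ - 1 / 2) * Real.exp ((σ - 1 / 2) ^ 2) : ℝ) : ℂ) *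
        CFull 1 (fun N => ψ N * sig N c * sig N (-1) * sig N s)
          (fun b => a b * ((Nr b ^ (σ - 1 / 2) : ℝ) : ℂ)) B (X * Real.exp (2 * (σ - 1 / 2))) (-τ)
          (t * 1 ^ 6) h := by
  classical
  have hψ' := ((hψ.mul_sig h4 hc).mul_sig h4 k1_odd_neg_one).mul_sig h4 hs
  set ψ' : O → ℂ := fun N => ψ N * sig N c * sig N (-1) * sig N s with hψ'd
  set cb : O → O → ℂ := fun b N => if b ∣ N then vth N * ψ' N * conj (chi N (h * t)) else 0
    with hcb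
  have e1 : ∀ N, f1_u ψ a B X s c N * (Nr N : ℂ) ^ ((σ : ℂ) + τ * I) * conj (chi N (h * t)) =
      ∑ b ∈ box B, a b * (if Prim N then
        cb b N * (Nr N : ℂ) ^ (((σ - 1 / 2 : ℝ) : ℂ) + τ * I) * (Nr N : ℂ) ^ (-(((0 : ℝ) : ℂ) * I)) *
          (W 1 (Nr N / (Nr b * X)) : ℂ) else 0) := by
    intro N
    rw [f1_u, f1_al, Finset.sum_mul, Finset.sum_mul, Finset.sum_mul]
    refine Finset.sum_congr rfl fun b _ => ?_
    by_cases hN : Prim N
    swap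
    · simp [hN]
    by_cases hb : b ∣ N
    swap
    · simp [hcb, hb]
    simp only [hcb, hψ'd, hN, hb, and_self, if_true, f1_uu]
    linear_combination (a b * ψ N * (W 1 (Nr N / (Nr b * X)) : ℂ) * vth N *
      (sig N c * sig N (-1) * sig N s) * conj (chi N (h * t))) * f1_cpow hN.ne_zero σ τ
  have hb : ∀ b n, Prim n → ‖cb b n * (Nr n : ℂ) ^ (((σ - 1 / 2 : ℝ) : ℂ) + τ * I)‖ ≤
      1 * Nr n ^ (1 / 6 + (σ - 1 / 2)) := by
    intro b n hn
    have n0 := Nr_pos hn.ne_zero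
    rw [norm_mul, Complex.norm_cpow_eq_rpow_re_of_pos n0, l3_re, Real.rpow_add n0, one_mul]
    refine mul_le_mul_of_nonneg_right ?_ (by positivity)
    simp only [hcb]
    split_ifs
    · rw [norm_mul, norm_mul, Complex.norm_conj, mul_assoc]
      exact (mul_le_of_le_one_right (norm_nonneg _)
        (mul_le_one₀ (hψ'.norm_le _) (norm_nonneg _) (norm_chi_le _ _))).trans (norm_vth_le hn)
    · rw [norm_zero]; positivity
  rw [l3_X, colF]
  simp only [e1]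
  rw [Summable.tsum_finsetSum fun b hb' => (summable_sm one_pos
    (mul_pos (Nr_pos (mem_box.1 hb').1) hX) (hb b) 0).mul_left _, CFull, Finset.mul_sum]
  refine Finset.sum_congr rfl fun b hb' => ?_
  have b0 := Nr_pos (mem_box.1 hb').1
  rw [tsum_mul_left]
  have := sm_rpow one_pos (mul_pos b0 hX) (cb b) (σ - 1 / 2) τ 0
  rw [sm] at this
  rw [this, Real.mul_rpow b0.le hX.le]
  simp only [hcb, one_mul, mul_one, one_pow, zero_sub, mul_assoc (Nr b)]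
  push_cast
  ring

open Classical in
theorem f1_X_v (Q : O) {M : ℝ} (hM : 0 < M) (s c : O) (σ τ : ℝ) (k : O) :
    l3_X (f1_v Q M s c) σ k τ = ((M ^ (σ - 1 / 2) * Real.exp ((σ - 1 / 2) ^ 2) : ℝ) : ℂ) *
      sm 1 (fun m => if Squarefree m ∧ (4 : O) ∣ m - c then
        (psi0 Q m * sig m s) * g6 m * conj (chi m k) else 0)
        (M * Real.exp (2 * (σ - 1 / 2))) (-τ) := by
  have := sm_rpow one_pos hM (fun m => if Squarefree m ∧ (4 : O) ∣ m - c then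
    (psi0 Q m * sig m s) * g6 m * conj (chi m k) else 0) (σ - 1 / 2) τ 0
  simp only [one_mul, mul_one, zero_sub] at this
  rw [← this, sm, l3_X, colF]
  refine tsum_congr fun m => ?_
  by_cases hm : Prim m
  swap
  · simp [f1_v, f1_be, hm]
  by_cases h : Squarefree m ∧ (4 : O) ∣ m - c
  swap
  · simp [f1_v, h]
  simp only [f1_v, f1_be, f1_vv, hm, h, and_self, if_true]
  linear_combination (psi0 Q m * (W 1 (Nr m / M) : ℂ) * sig m s * g6 m * conj (chi m k)) *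
    f1_cpow hm.ne_zero σ τ

theorem f1_NS_mul (H : ℝ) {κ : ℝ} (f : O → ℂ) :
    NS H (fun h => (κ : ℂ) * f h) = κ ^ 2 * NS H f := by
  simp only [NS, Finset.mul_sum, norm_mul, mul_pow, norm_real, Real.norm_eq_abs, sq_abs]

end Crest.Agent.R017

end
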