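import Crest.Agent.R017.FMK

/-! # Row 17: local identities for the rows of the first moment -/

set_option autoImplicit false

noncomputable section

open scoped BigOperators ComplexConjugate
open Complex MeasureTheory

namespace Crest.Agent.R017

theorem fi_congr {α : Type*} {f g : α → ℂ} {a : ℂ} (h : HasSum f a) (e : ∀ x, g x = f x) :
    HasSum g a := (funext e).symm ▸ h

theorem fi_prod0 {α : Type*} {f g : α → ℂ} {a b : ℂ} (h1 : HasSum f a) (h2 : HasSum g b) :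
    HasSum (fun q : α × α => f q.1 * g q.2) (a * b) := by
  have h3 := summable_mul_of_summable_norm h1.summable.norm h2.summable.norm
  exact h1.mul h2 h3

theorem fi_prod {α : Type*} {f g : α → ℂ} {a b : ℂ} (h1 : HasSum f a) (h2 : HasSum g b) :
    HasSum (fun q : α × α => f q.1 * conj (g q.2)) (a * conj b) :=
  fi_prod0 (g := fun x => conj (g x)) h1 (Complex.hasSum_conj'.2 h2)

theorem fi_split {ι α : Type*} (S : Finset ι) (φ : ι → α → α)
    (hφ : ∀ i ∈ S, Function.Injective (φ i)) {f : α → ℂ} (hf : Summable f) (g : ι → α → ℂ)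
    (P : α → Prop) (h1 : ∀ i ∈ S, ∀ x, P x → f (φ i x) = g i x)
    (h2 : ∀ i ∈ S, ∀ x, ¬ P x → g i x = 0)
    (h3 : ∀ y, f y ≠ 0 → ∃ i ∈ S, ∃ x, P x ∧ φ i x = y)
    (h4 : ∀ i ∈ S, ∀ j ∈ S, ∀ x y, P x → P y → φ i x = φ j y → i = j) :
    ∑' y, f y = ∑ i ∈ S, ∑' x, g i x := by
  classical
  have e1 : ∀ y, f y = ∑ i ∈ S, {y | ∃ x, P x ∧ φ i x = y}.indicator f y := by
    intro y
    by_cases hy : f y = 0
    · rw [hy, Finset.sum_eq_zero fun i _ => ?_]
      simp [Set.indicator, hy]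
    · obtain ⟨i, hi, x, hx, rfl⟩ := h3 y hy
      rw [Finset.sum_eq_single_of_mem i hi, Set.indicator_of_mem]
      · exact ⟨x, hx, rfl⟩
      · intro j hj hji
        refine Set.indicator_of_notMem ?_ _
        rintro ⟨x', hx', h⟩
        exact hji (h4 j hj i hi x' x hx' hx h)
  rw [tsum_congr e1, Summable.tsum_finsetSum fun i _ => hf.indicator _]
  refine Finset.sum_congr rfl fun i hi => ?_
  rw [← (hφ i hi).tsum_eq]
  · refine tsum_congr fun x => ?_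
    by_cases hx : P x
    · rw [Set.indicator_of_mem (by exact ⟨x, hx, rfl⟩), h1 i hi x hx]
    · rw [h2 i hi x hx, Set.indicator_of_notMem]
      rintro ⟨x', hx', h⟩
      exact hx (hφ i hi h ▸ hx')
  · intro y hy
    obtain ⟨x, -, rfl⟩ := Set.mem_of_indicator_ne_zero hy
    exact ⟨x, rfl⟩

theorem fi_pow_inj {p x y : O} (hp : Prime p) {a b : ℕ} (h : p ^ a * x = p ^ b * y) (hx : ¬ p ∣ x)
    (hy : ¬ p ∣ y) : a = b := by
  have key : ∀ {x y : O} {a b : ℕ}, p ^ a * x = p ^ b * y → ¬ p ∣ x → b ≤ a := by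
    intro x y a b h hx
    by_contra hlt
    obtain ⟨c, rfl⟩ := Nat.exists_eq_add_of_lt (not_le.1 hlt)
    rw [add_assoc, pow_add, mul_assoc] at h
    exact hx (mul_left_cancel₀ (pow_ne_zero _ hp.ne_zero) h ▸
      Dvd.dvd.mul_right (dvd_pow_self p (Nat.succ_ne_zero c)) y)
  exact le_antisymm (key h.symm hy) (key h hx)

theorem fi_decomp {p x : O} (hp : Prime p) (hpp : Prim p) (hx : Prim x) :
    ∃ (a : ℕ) (y : O), ¬ p ∣ y ∧ Prim y ∧ x = p ^ a * y := by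
  obtain ⟨y, h1, h2⟩ := (FiniteMultiplicity.of_prime_left hp hx.ne_zero).exists_eq_pow_mul_and_not_dvd
  exact ⟨_, y, h2, (hpp.pow _).of_mul (h1 ▸ hx), h1⟩

theorem fi_cop {p x : O} (hp : Prime p) : IsCoprime p x ↔ ¬ p ∣ x := hp.coprime_iff_not_dvd

theorem fi_KK_one_pow {p r : O} (hp : Prime p) (hpp : Prim p) (hr : ¬ p ∣ r) (c : ℕ) :
    KK 1 (p ^ c) r = conj (chi p r) ^ c := by
  rw [KK_coprime prim_one (hpp.pow c) (by rw [one_mul]; exact ((fi_cop hp).2 hr).pow_left),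
    if_pos isCoprime_one_left, mu_one, chi_unit_left isUnit_one, chi_pow_left hp.ne_zero, map_pow]
  ring

theorem fi_KK_pm {p r N m : O} (hp : Prime p) (hpp : Prim p) (hr : ¬ p ∣ r) (hN : Prim N)
    (hm : Prim m) (hpN : ¬ p ∣ N) : KK N (p * m) r = conj (chi p r) * KK N m r := by
  obtain ⟨c, y, hy, hy', rfl⟩ := fi_decomp hp hpp hm
  have h : ∀ k : ℕ, KK N (p ^ k * y) r = conj (chi p r) ^ k * KK N y r := fun k => by
    have := KK_mul prim_one hN (hpp.pow k) hy' (by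
      rw [one_mul]
      exact (((fi_cop hp).2 hpN).mul_right ((fi_cop hp).2 hy)).pow_left) r
    rwa [one_mul, fi_KK_one_pow hp hpp hr] at this
  rw [← mul_assoc, ← pow_succ', h, h]
  ring

open Classical in
/-- The summand of `TB`. -/
def fi_tb (ψ : O → ℂ) (r e b : O) (X M : ℝ) (q : O × O) : ℂ :=
  if Prim q.1 ∧ Prim q.2 ∧ IsCoprime (q.1 * q.2) e ∧ b ∣ q.1 then
    ψ q.1 * KK q.1 q.2 r * ((W 1 (Nr q.1 / (Nr b * X)) * W 1 (Nr q.2 / M) : ℝ) : ℂ) else 0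

theorem fi_TB (ψ : O → ℂ) (r e b : O) (X M : ℝ) : TB ψ r e b X M = ∑' q, fi_tb ψ r e b X M q := rfl

theorem fi_summable {Q : O} {ψ : O → ℂ} (hψ : IsCh Q ψ) (r e : O) {b : O} (hb : b ≠ 0) {X M : ℝ}
    (hX : 0 < X) (hM : 0 < M) : Summable (fi_tb ψ r e b X M) :=
  summable_TB hψ.norm_le r e hb hX hM

theorem fi_tb_p {Q : O} {ψ : O → ℂ} {r e b p : O} {X M : ℝ} (hψ : IsCh Q ψ) (hp : Prime p)
    (hpp : Prim p) (hc : IsCoprime p (e * b)) (a c : ℕ) {N m : O} (hN : ¬ p ∣ N) (hm : ¬ p ∣ m) :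
    fi_tb ψ r e (b * p) X M (p ^ (a + 1) * N, p ^ c * m) =
      ψ p ^ (a + 1) * KK (p ^ (a + 1)) (p ^ c) r *
        fi_tb ψ r (e * p) b (X / Nr p ^ a) (M / Nr p ^ c) (N, m) := by
  have hNm : IsCoprime p (N * m) := ((fi_cop hp).2 hN).mul_right ((fi_cop hp).2 hm)
  have hiff : (Prim (p ^ (a + 1) * N) ∧ Prim (p ^ c * m) ∧
      IsCoprime (p ^ (a + 1) * N * (p ^ c * m)) e ∧ b * p ∣ p ^ (a + 1) * N) ↔
      (Prim N ∧ Prim m ∧ IsCoprime (N * m) (e * p) ∧ b ∣ N) := by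
    constructor
    · rintro ⟨h1, h2, h3, h4⟩
      refine ⟨(hpp.pow _).of_mul h1, (hpp.pow _).of_mul h2, IsCoprime.mul_right
        (h3.of_isCoprime_of_dvd_left (mul_dvd_mul (dvd_mul_left _ _) (dvd_mul_left _ _))) hNm.symm, ?_⟩
      exact (hc.of_mul_right_right.symm.pow_right).dvd_of_dvd_mul_left ((dvd_mul_right _ _).trans h4)
    · rintro ⟨h1, h2, h3, h4⟩
      refine ⟨(hpp.pow _).mul h1, (hpp.pow _).mul h2, ?_, ?_⟩
      · rw [mul_mul_mul_comm, ← pow_add]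
        exact hc.of_mul_right_left.pow_left.mul_left h3.of_mul_right_left
      · rw [mul_comm b p]
        exact mul_dvd_mul (dvd_pow_self p (Nat.succ_ne_zero a)) h4
  unfold fi_tb
  dsimp only
  by_cases h : Prim N ∧ Prim m ∧ IsCoprime (N * m) (e * p) ∧ b ∣ N
  · rw [if_pos h, if_pos (hiff.2 h)]
    have hp0 : Nr p ≠ 0 := (Nr_pos hp.ne_zero).ne'
    have e1 : Nr (p ^ (a + 1) * N) / (Nr (b * p) * X) = Nr N / (Nr b * (X / Nr p ^ a)) := by
      rw [Nr_mul, Nr_mul, Nr_pow]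
      field_simp
      try ring
    have e2 : Nr (p ^ c * m) / M = Nr m / (M / Nr p ^ c) := by
      rw [Nr_mul, Nr_pow]
      field_simp
    rw [e1, e2, hψ.mul, hψ.map_pow, KK_mul (hpp.pow _) h.1 (hpp.pow _) h.2.1
      (by rw [← pow_add]; exact hNm.pow_left)]
    ring
  · rw [if_neg h, if_neg (mt hiff.1 h), mul_zero]

theorem fi_TB_p {Q : O} {ψ : O → ℂ} {r e b p : O} {X M : ℝ} (hψ : IsCh Q ψ) (hp : Prime p)
    (hpp : Prim p) (hb : b ≠ 0) (hc : IsCoprime p (e * b)) (hX : 0 < X) (hM : 0 < M)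
    (S : Finset (ℕ × ℕ)) (hS : ∀ a c, KK (p ^ (a + 1)) (p ^ c) r ≠ 0 → (a, c) ∈ S) :
    TB ψ r e (b * p) X M = ∑ i ∈ S, ψ p ^ (i.1 + 1) * KK (p ^ (i.1 + 1)) (p ^ i.2) r *
      TB ψ r (e * p) b (X / Nr p ^ i.1) (M / Nr p ^ i.2) := by
  rw [fi_TB, fi_split S (fun i q => (p ^ (i.1 + 1) * q.1, p ^ i.2 * q.2)) ?_
    (fi_summable hψ r e (mul_ne_zero hb hp.ne_zero) hX hM)
    (fun i q => ψ p ^ (i.1 + 1) * KK (p ^ (i.1 + 1)) (p ^ i.2) r *
      fi_tb ψ r (e * p) b (X / Nr p ^ i.1) (M / Nr p ^ i.2) q) (fun q => ¬ p ∣ q.1 ∧ ¬ p ∣ q.2)]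
  · exact Finset.sum_congr rfl fun i _ => by rw [tsum_mul_left, fi_TB]
  · exact fun i _ q hq => fi_tb_p hψ hp hpp hc _ _ hq.1 hq.2
  · intro i _ q hq
    rw [fi_tb, if_neg, mul_zero]
    rintro ⟨-, -, h, -⟩
    have := (fi_cop hp).1 h.of_mul_right_right.symm
    exact hq ⟨fun h => this (h.mul_right _), fun h => this (h.mul_left _)⟩
  · rintro ⟨N, m⟩ hy
    have h0 : Prim N ∧ Prim m ∧ IsCoprime (N * m) e ∧ b * p ∣ N := by
      by_contra hcon
      exact hy (if_neg hcon)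
    obtain ⟨a, N', hN, -, rfl⟩ := fi_decomp hp hpp h0.1
    obtain ⟨c, m', hm, -, rfl⟩ := fi_decomp hp hpp h0.2.1
    rcases a with _ | a
    · exact absurd (by simpa using (dvd_mul_left p b).trans h0.2.2.2) hN
    rw [fi_tb_p hψ hp hpp hc _ _ hN hm] at hy
    exact ⟨(a, c), hS a c (right_ne_zero_of_mul (left_ne_zero_of_mul hy)), (N', m'), ⟨hN, hm⟩, rfl⟩
  · intro i _ j _ x y hx hy h
    obtain ⟨h1, h2⟩ := Prod.mk.inj h
    exact Prod.ext (Nat.succ_injective (fi_pow_inj hp h1 hx.1 hy.1)) (fi_pow_inj hp h2 hx.2 hy.2)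
  · intro i _ x y h
    obtain ⟨h1, h2⟩ := Prod.mk.inj h
    exact Prod.ext (mul_left_cancel₀ (pow_ne_zero _ hp.ne_zero) h1)
      (mul_left_cancel₀ (pow_ne_zero _ hp.ne_zero) h2)

open Classical in
theorem fi_tb_dvd {ψ : O → ℂ} {r e b p : O} {X M : ℝ} (hp : Prime p) (hc : IsCoprime p (e * b))
    (q : O × O) :
    fi_tb ψ r e (b * p) (X / Nr p) M q = if p ∣ q.1 then fi_tb ψ r e b X M q else 0 := by
  have hp0 : Nr p ≠ 0 := (Nr_pos hp.ne_zero).ne'
  have e1 : Nr (b * p) * (X / Nr p) = Nr b * X := by rw [Nr_mul]; field_simp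
  have h1 : b * p ∣ q.1 ↔ p ∣ q.1 ∧ b ∣ q.1 :=
    ⟨fun h => ⟨(dvd_mul_left _ _).trans h, (dvd_mul_right _ _).trans h⟩,
      fun h => hc.of_mul_right_right.symm.mul_dvd h.2 h.1⟩
  unfold fi_tb
  rw [e1, h1]
  by_cases h : p ∣ q.1 <;> simp [h]

open Classical in
theorem fi_tb_cop {ψ : O → ℂ} {r e b p : O} {X M : ℝ} (hp : Prime p) (q : O × O) :
    fi_tb ψ r (e * p) b X M q = if ¬ p ∣ q.1 ∧ ¬ p ∣ q.2 then fi_tb ψ r e b X M q else 0 := by
  have h1 : IsCoprime (q.1 * q.2) (e * p) ↔ (¬ p ∣ q.1 ∧ ¬ p ∣ q.2) ∧ IsCoprime (q.1 * q.2) e := by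
    rw [IsCoprime.mul_right_iff, isCoprime_comm (y := p), fi_cop hp, hp.dvd_mul, not_or, and_comm]
  unfold fi_tb
  rw [h1]
  by_cases h : ¬ p ∣ q.1 ∧ ¬ p ∣ q.2
  · rw [if_pos h]; simp only [h, not_false_eq_true, and_self, true_and]
  · rw [if_neg h, if_neg (by tauto)]

theorem fi_tb_pm {ψ : O → ℂ} {r e b p : O} {X M : ℝ} (hp : Prime p) (hpp : Prim p) (hr : ¬ p ∣ r)
    (hc : IsCoprime p (e * b)) {N : O} (hN : ¬ p ∣ N) (m : O) :
    fi_tb ψ r e b X M (N, p * m) = conj (chi p r) * fi_tb ψ r e b X (M / Nr p) (N, m) := by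
  have h1 : Prim (p * m) ↔ Prim m := ⟨hpp.of_mul, hpp.mul⟩
  have h2 : IsCoprime (N * (p * m)) e ↔ IsCoprime (N * m) e := by
    rw [mul_left_comm, IsCoprime.mul_left_iff, and_iff_right hc.of_mul_right_left]
  unfold fi_tb
  dsimp only
  by_cases h : Prim N ∧ Prim m ∧ IsCoprime (N * m) e ∧ b ∣ N
  · have hp0 : Nr p ≠ 0 := (Nr_pos hp.ne_zero).ne'
    have e2 : Nr (p * m) / M = Nr m / (M / Nr p) := by rw [Nr_mul]; field_simp
    rw [if_pos h, if_pos ⟨h.1, h1.2 h.2.1, h2.2 h.2.2.1, h.2.2.2⟩, e2,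
      fi_KK_pm hp hpp hr h.1 h.2.1 hN]
    ring
  · rw [if_neg h, if_neg fun h' => h ⟨h'.1, h1.1 h'.2.1, h2.1 h'.2.2.1, h'.2.2.2⟩, mul_zero]

theorem fi_slot {Q p p' e b : O} {Z y : ℝ} (hp : Prime p) (hpp : Prim p) (h0 : slot Q Z y p = 0)
    (h : slot Q Z y p' ≠ 0) (hc : IsCoprime p (e * b)) : p' ≠ 0 ∧ IsCoprime p (e * (b * p')) := by
  have h1 : Prime p' ∧ Prim p' := by
    by_contra hcon
    exact h (if_neg fun h' => hcon ⟨h'.1, h'.2.1⟩)
  refine ⟨h1.1.ne_zero, ?_⟩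
  rw [← mul_assoc]
  exact hc.mul_right (a1_coprime ⟨hp, Or.inl hpp⟩ ⟨h1.1, Or.inl h1.2⟩ fun e => h (e ▸ h0))

section
variable {Q : O} {ψ : O → ℂ} {r e b p : O} {X M : ℝ}

theorem TB_I1 (hψ : IsCh Q ψ) (hp : Prime p) (hpp : Prim p) (hr : ¬ p ∣ r) (hb : b ≠ 0)
    (hc : IsCoprime p (e * b)) (hX : 0 < X) (hM : 0 < M) :
    TB ψ r e (b * p) X M = -(ψ p * chi p r) * TB ψ r (e * p) b X M := by
  rw [fi_TB_p hψ hp hpp hb hc hX hM {(0, 0)}]
  · have h := KK_coprime hpp prim_one (r := r) (by rw [mul_one]; exact (fi_cop hp).2 hr)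
    rw [if_pos isCoprime_one_right, mu_prime hp, chi_unit_left isUnit_one] at h
    simp only [Finset.sum_singleton, zero_add, pow_one, pow_zero, div_one, h, map_one]
    ring
  · intro a c h
    rw [KK_coprime (hpp.pow _) (hpp.pow _) (by rw [← pow_add]; exact ((fi_cop hp).2 hr).pow_left)] at h
    split_ifs at h with h1
    · have h2 : Squarefree (p ^ (a + 1)) := by
        by_contra h3
        rw [mu_eq_zero.2 h3] at h
        simp at h
      have ha := h2.eq_zero_or_one_of_pow_of_not_isUnit hp.not_isUnit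
      have hc0 : c = 0 := by
        by_contra h3
        exact hp.not_isUnit (h1.isUnit_of_dvd' (dvd_pow_self p (Nat.succ_ne_zero a)) (dvd_pow_self p h3))
      rw [Finset.mem_singleton, hc0, show a = 0 by omega]
    · exact absurd rfl h
theorem TB_I2 (hψ : IsCh Q ψ) (hp : Prime p) (hpp : Prim p) (hr : ¬ p ∣ r) (hb : b ≠ 0)
    (hc : IsCoprime p (e * b)) (hX : 0 < X) (hM : 0 < M) :
    TB ψ r (e * p) b X M = TB ψ r e b X M - conj (chi p r) * TB ψ r e b X (M / Nr p) +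
      ψ p * chi p r * TB ψ r (e * p) b (X / Nr p) M -
      ψ p * chi p r * conj (chi p r) * TB ψ r (e * p) b (X / Nr p) (M / Nr p) := by
  classical
  have hp0 := Nr_pos hp.ne_zero
  have hbp := mul_ne_zero hb hp.ne_zero
  have hXp := div_pos hX hp0
  have hMp := div_pos hM hp0
  have hA : ∀ M, 0 < M → HasSum (fun q => if ¬ p ∣ q.1 then fi_tb ψ r e b X M q else 0)
      (TB ψ r e b X M + ψ p * chi p r * TB ψ r (e * p) b (X / Nr p) M) := fun M hM => by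
    have h1 := (fi_summable hψ r e hb hX hM).hasSum.sub (fi_summable hψ r e hbp hXp hM).hasSum
    rw [← fi_TB, ← fi_TB, TB_I1 hψ hp hpp hr hb hc hXp hM] at h1
    rw [neg_mul, sub_neg_eq_add] at h1
    refine fi_congr h1 fun q => ?_
    rw [fi_tb_dvd hp hc]
    by_cases h : p ∣ q.1 <;> simp [h]
  have h2 := (hA M hM).sub (fi_summable hψ r (e * p) hb hX hM).hasSum
  have h3 := (hA _ hMp).mul_left (conj (chi p r))
  have hinj : Function.Injective fun q : O × O => (q.1, p * q.2) := fun x y h => by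
    obtain ⟨h1, h2⟩ := Prod.mk.inj h
    exact Prod.ext h1 (mul_left_cancel₀ hp.ne_zero h2)
  rw [← hinj.hasSum_iff, ← fi_TB] at h2
  · have h4 := h2.unique (fi_congr h3 fun q => by
      rw [Function.comp_apply, fi_tb_cop hp, if_neg (not_and_of_not_right _ (not_not.2 (dvd_mul_right _ _))),
        sub_zero]
      by_cases h : p ∣ q.1
      · simp [h]
      · rw [if_pos h, if_pos h, fi_tb_pm hp hpp hr hc h])
    linear_combination -h4
  · intro q hq
    have h5 : ¬ p ∣ q.2 := by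
      rintro ⟨m, hm⟩
      exact hq ⟨(q.1, m), Prod.ext rfl hm.symm⟩
    rw [fi_tb_cop hp]
    simp [h5]
theorem TB_I3 (hψ : IsCh Q ψ) (hp : Prime p) (hpp : Prim p) (hr0 : r ≠ 0) (hr : p ∣ r) (hb : b ≠ 0)
    (hc : IsCoprime p (e * b)) (hX : 0 < X) (hM : 0 < M) :
    TB ψ r e (b * p) X M = ∑ a ∈ Finset.range (multiplicity p r + 1), ∑ c ∈ Finset.range 2,
      ψ p ^ (a + 1) * KK (p ^ (a + 1)) (p ^ c) r * TB ψ r (e * p) b (X / Nr p ^ a) (M / Nr p ^ c) := by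
  rw [fi_TB_p hψ hp hpp hb hc hX hM (Finset.range (multiplicity p r + 1) ×ˢ Finset.range 2),
    Finset.sum_product]
  intro a c h
  have hrad : rad (p ^ (a + 1) * p ^ c) = p := by
    rw [← pow_add, rad_pow (by omega), rad_eq_self hpp hp.irreducible.squarefree]
  obtain ⟨h1, -, h3, -⟩ := KK_part (hpp.pow _) (hpp.pow _) hr0 (by rw [hrad]; exact hr) h
  rw [hrad, pow_succ, mul_right_comm, ← pow_add,
    mul_dvd_mul_iff_right hp.ne_zero, a3_pow_dvd hp hr0] at h3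
  have hc1 := h1.eq_zero_or_one_of_pow_of_not_isUnit hp.not_isUnit
  simp only [Finset.mem_product, Finset.mem_range]
  omega

open Classical in
/-- The part prime to `r`. -/
def T0 (ψ : O → ℂ) (r e : O) (X M : ℝ) : ℂ :=
  ∑' q : O × O, if Prim q.1 ∧ Prim q.2 ∧ IsCoprime (q.1 * q.2) e ∧ IsCoprime q.1 q.2 then
    mu q.1 * (ψ q.1 * chi q.1 r) * conj (chi q.2 r) * ((W 1 (Nr q.1 / X) * W 1 (Nr q.2 / M) : ℝ) : ℂ) else 0

open Classical in
/-- The summand of `T0`. -/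
def fi_t0 (ψ : O → ℂ) (r e : O) (X M : ℝ) (q : O × O) : ℂ :=
  if Prim q.1 ∧ Prim q.2 ∧ IsCoprime (q.1 * q.2) e ∧ IsCoprime q.1 q.2 then
    mu q.1 * (ψ q.1 * chi q.1 r) * conj (chi q.2 r) * ((W 1 (Nr q.1 / X) * W 1 (Nr q.2 / M) : ℝ) : ℂ) else 0

theorem fi_T0 (ψ : O → ℂ) (r e : O) (X M : ℝ) : T0 ψ r e X M = ∑' q, fi_t0 ψ r e X M q := rfl

open Classical in
theorem fi_tb_r (hψ : IsCh Q ψ) {N m N' m' : O} (hN : Prim N) (hm : Prim m) (hN' : Prim N')
    (hm' : Prim m') (hc : IsCoprime (N * m) (N' * m')) (hr : IsCoprime (N' * m') r) :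
    fi_tb ψ r e 1 X M (N * N', m * m') = if IsCoprime (N * m) e then
      ψ N * KK N m r * fi_t0 ψ r e (X / Nr N) (M / Nr m) (N', m') else 0 := by
  have hN0 : Nr N ≠ 0 := (Nr_pos hN.ne_zero).ne'
  have hm0 : Nr m ≠ 0 := (Nr_pos hm.ne_zero).ne'
  have e1 : Nr (N * N') / (Nr 1 * X) = Nr N' / (X / Nr N) := by rw [Nr_mul, Nr_one]; field_simp
  have e2 : Nr (m * m') / M = Nr m' / (M / Nr m) := by rw [Nr_mul]; field_simp
  have h1 : IsCoprime (N * N' * (m * m')) e ↔ IsCoprime (N * m) e ∧ IsCoprime (N' * m') e := by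
    rw [mul_mul_mul_comm, IsCoprime.mul_left_iff]
  unfold fi_tb fi_t0
  simp only [h1, hN.mul hN', hm.mul hm', hN', hm', one_dvd, true_and, and_true]
  rw [e1, e2, hψ.mul, KK_mul hN hN' hm hm' hc, KK_coprime hN' hm' hr]
  by_cases a1 : IsCoprime (N * m) e <;> by_cases a2 : IsCoprime (N' * m') e <;>
    by_cases a3 : IsCoprime N' m' <;> simp only [a1, a2, a3, and_self, and_true, and_false,
      if_true, if_false, mul_zero, zero_mul]
  ring

open Classical in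
/-- The summand without the coprimality condition. -/
def fi_u (ψ : O → ℂ) (r e : O) (X M : ℝ) (q : O × O) : ℂ :=
  if Prim q.1 ∧ Prim q.2 ∧ IsCoprime (q.1 * q.2) e then
    mu q.1 * (ψ q.1 * chi q.1 r) * conj (chi q.2 r) * ((W 1 (Nr q.1 / X) * W 1 (Nr q.2 / M) : ℝ) : ℂ) else 0

open Classical in
/-- The summand of the triple sum. -/
def fi_h (ψ : O → ℂ) (r e : O) (X M : ℝ) (z : O × O × O) : ℂ :=
  if Prim z.1 ∧ z.1 ∣ z.2.1 ∧ z.1 ∣ z.2.2 then mu z.1 * fi_u ψ r e X M z.2 else 0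

theorem fi_h_summable (hψ : IsCh Q ψ) (hX : 0 < X) (hM : 0 < M) : Summable (fi_h ψ r e X M) := by
  classical
  have s1 := summable_Nr_rpow (σ := 2) (by norm_num)
  have s2 := summable_W one_pos hX 2
  have s3 := summable_W one_pos hM 0
  have s4 := s2.mul_of_nonneg s3 (fun n => w1_nonneg _ _ _ n) (fun n => w1_nonneg _ _ _ n)
  have s5 := s1.mul_of_nonneg s4 (fun n => Real.rpow_nonneg (Nr_nonneg n) _)
    (fun q => mul_nonneg (w1_nonneg _ _ _ q.1) (w1_nonneg _ _ _ q.2))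
  refine Summable.of_norm_bounded s5 fun z => ?_
  have h0 : 0 ≤ Nr z.1 ^ (-2 : ℝ) *
      ((if z.2.1 = 0 then 0 else Nr z.2.1 ^ (2 : ℝ) * W 1 (Nr z.2.1 / X)) *
        (if z.2.2 = 0 then 0 else Nr z.2.2 ^ (0 : ℝ) * W 1 (Nr z.2.2 / M))) :=
    mul_nonneg (Real.rpow_nonneg (Nr_nonneg _) _)
      (mul_nonneg (w1_nonneg _ _ _ _) (w1_nonneg _ _ _ _))
  unfold fi_h fi_u
  by_cases h1 : Prim z.1 ∧ z.1 ∣ z.2.1 ∧ z.1 ∣ z.2.2
  swap
  · rw [if_neg h1, norm_zero]; exact h0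
  by_cases h2 : Prim z.2.1 ∧ Prim z.2.2 ∧ IsCoprime (z.2.1 * z.2.2) e
  swap
  · rw [if_neg h2, mul_zero, ite_self, norm_zero]; exact h0
  rw [if_pos h1, if_pos h2, if_neg h2.1.ne_zero, if_neg h2.2.1.ne_zero, Real.rpow_zero, one_mul]
  have hw : 0 ≤ W 1 (Nr z.2.1 / X) * W 1 (Nr z.2.2 / M) := (mul_pos (W_pos _ _) (W_pos _ _)).le
  have b1 : ‖mu z.1 * (mu z.2.1 * (ψ z.2.1 * chi z.2.1 r) * conj (chi z.2.2 r))‖ ≤ 1 := by
    simp only [norm_mul, Complex.norm_conj]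
    exact mul_le_one₀ (norm_mu_le _) (by positivity) (mul_le_one₀ (mul_le_one₀ (norm_mu_le _)
      (by positivity) (mul_le_one₀ (hψ.norm_le _) (norm_nonneg _) (norm_chi_le _ _)))
      (norm_nonneg _) (norm_chi_le _ _))
  have b2 : 1 ≤ Nr z.1 ^ (-2 : ℝ) * Nr z.2.1 ^ (2 : ℝ) := by
    have hd := Nr_pos h1.1.ne_zero
    rw [Real.rpow_neg hd.le, ← div_eq_inv_mul, one_le_div (Real.rpow_pos_of_pos hd _)]
    exact Real.rpow_le_rpow hd.le (Nr_le_of_dvd h2.1.ne_zero h1.2.1) (by norm_num)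
  rw [← mul_assoc (mu z.1), norm_mul, Complex.norm_real, Real.norm_of_nonneg hw]
  exact (mul_le_mul_of_nonneg_right (b1.trans b2) hw).trans (le_of_eq (by ring))

theorem fi_h_d (ψ : O → ℂ) (r e : O) (X M : ℝ) (q : O × O) :
    HasSum (fun d => fi_h ψ r e X M (d, q)) (fi_t0 ψ r e X M q) := by
  classical
  by_cases h : Prim q.1 ∧ Prim q.2 ∧ IsCoprime (q.1 * q.2) e
  swap
  · have h1 : fi_u ψ r e X M q = 0 := if_neg h
    have h2 : fi_t0 ψ r e X M q = 0 := if_neg (by tauto)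
    simp only [fi_h, h1, h2, mul_zero, ite_self]
    exact hasSum_zero
  have h0 := h.1.ne_zero
  have e1 : fi_t0 ψ r e X M q = ∑ d ∈ pdiv q.1, fi_h ψ r e X M (d, q) := by
    have : ∀ d ∈ pdiv q.1, fi_h ψ r e X M (d, q) =
        (if d ∣ q.2 then mu d else 0) * fi_u ψ r e X M q := fun d hd => by
      have := (mem_pdiv h0).1 hd
      simp [fi_h, this.1, this.2]
    rw [Finset.sum_congr rfl this, ← Finset.sum_mul]
    have h3 := sum_pdiv_mu_dvd h.1 q.2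
    rw [show (∑ d ∈ pdiv q.1, if d ∣ q.2 then mu d else 0) = if IsCoprime q.1 q.2 then 1 else 0 by
      convert h3]
    unfold fi_t0 fi_u
    rw [if_pos h]
    by_cases h4 : IsCoprime q.1 q.2
    · rw [if_pos h4, if_pos ⟨h.1, h.2.1, h.2.2, h4⟩, one_mul]
    · rw [if_neg h4, if_neg (by tauto), zero_mul]
  rw [e1]
  refine hasSum_sum_of_ne_finset_zero fun d hd => if_neg fun h' => hd ?_
  exact (mem_pdiv h0).2 ⟨h'.1, h'.2.1⟩

theorem fi_mu_mul {d n : O} (h : ¬ IsCoprime n d) : mu (d * n) = 0 := by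
  rw [mu_eq_zero]
  intro hs
  exact h (isRelPrime_iff_isCoprime.1 (squarefree_mul_iff.1 hs).1).symm

theorem fi_h_zero {d : O} (hd : ¬ (Prim d ∧ IsCoprime d e)) (q : O × O) :
    fi_h ψ r e X M (d, q) = 0 := by
  unfold fi_h fi_u
  split_ifs with a1 a2
  · exact absurd ⟨a1.1, a2.2.2.of_mul_left_left.of_isCoprime_of_dvd_left a1.2.1⟩ hd
  · exact mul_zero _
  · rfl

/-- The summand of `sm` at `τ = 0`. -/
def fi_s (c : O → ℂ) (X : ℝ) (n : O) : ℂ := if Prim n then c n * (W 1 (Nr n / X) : ℂ) else 0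

theorem fi_s_hasSum {c : O → ℂ} (hc : ∀ n, ‖c n‖ ≤ 1) (hX : 0 < X) :
    HasSum (fi_s c X) (sm 1 c X 0) := by
  have s1 := (summable_sm one_pos hX (K := 1) (A := 0) (c := c)
    (fun n _ => by simpa using hc n) 0).hasSum
  refine fi_congr s1 fun n => ?_
  simp [fi_s]

open Classical in
theorem fi_h_eq (hψ : IsCh Q ψ) {d : O} (hd : Prim d) (hde : IsCoprime d e) (n m : O) :
    fi_h ψ r e X M (d, d * n, d * m) = mu d * mu d * (ψ d * chi d r) * conj (chi d r) *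
      (fi_s (fun n => if IsCoprime n (e * d) then mu n * (ψ n * chi n r) else 0) (X / Nr d) n *
        conj (fi_s (fun m => if IsCoprime m e then chi m r else 0) (M / Nr d) m)) := by
  have hd0 := hd.ne_zero
  have hN := (Nr_pos hd0).ne'
  have e1 : Nr (d * n) / X = Nr n / (X / Nr d) := by rw [Nr_mul]; field_simp
  have e2 : Nr (d * m) / M = Nr m / (M / Nr d) := by rw [Nr_mul]; field_simp
  have i1 : Prim (d * n) ↔ Prim n := ⟨hd.of_mul, hd.mul⟩
  have i2 : Prim (d * m) ↔ Prim m := ⟨hd.of_mul, hd.mul⟩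
  have i3 : IsCoprime (d * n * (d * m)) e ↔ IsCoprime n e ∧ IsCoprime m e := by
    simp only [IsCoprime.mul_left_iff, hde, true_and]
  unfold fi_h fi_u fi_s
  dsimp only
  rw [if_pos ⟨hd, dvd_mul_right _ _, dvd_mul_right _ _⟩, e1, e2]
  by_cases a1 : Prim n
  swap
  · rw [if_neg fun h => a1 (i1.1 h.1), if_neg a1]; simp
  by_cases a2 : Prim m
  swap
  · rw [if_neg fun h => a2 (i2.1 h.2.1), if_neg a2]; simp
  by_cases a3 : IsCoprime n e
  swap
  · rw [if_neg fun h => a3 (i3.1 h.2.2).1, if_neg fun h : IsCoprime n (e * d) => a3 h.of_mul_right_left]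
    simp
  by_cases a4 : IsCoprime m e
  swap
  · rw [if_neg fun h => a4 (i3.1 h.2.2).2, if_neg a4]; simp
  by_cases a5 : IsCoprime n d
  swap
  · rw [fi_mu_mul a5, if_neg fun h : IsCoprime n (e * d) => a5 h.of_mul_right_right]
    simp
  rw [if_pos ⟨i1.2 a1, i2.2 a2, i3.2 ⟨a3, a4⟩⟩, if_pos a1, if_pos a2, if_pos (a3.mul_right a5), if_pos a4,
    mu_mul a5.symm, hψ.mul, chi_mul_left hd0 a1.ne_zero, chi_mul_left hd0 a2.ne_zero, map_mul, map_mul,
    conj_ofReal, ofReal_mul]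
  ring

open Classical in
theorem fi_h_q (hψ : IsCh Q ψ) (hX : 0 < X) (hM : 0 < M) {d : O} (hd : Prim d)
    (hde : IsCoprime d e) :
    HasSum (fun q => fi_h ψ r e X M (d, q)) (mu d * mu d * (ψ d * chi d r) * conj (chi d r) *
      sm 1 (fun n => if IsCoprime n (e * d) then mu n * (ψ n * chi n r) else 0) (X / Nr d) 0 *
      conj (sm 1 (fun m => if IsCoprime m e then chi m r else 0) (M / Nr d) 0)) := by
  have hd0 := hd.ne_zero
  have hN := Nr_pos hd0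
  have hinj : Function.Injective fun q : O × O => (d * q.1, d * q.2) := fun x y h => by
    obtain ⟨h1, h2⟩ := Prod.mk.inj h
    exact Prod.ext (mul_left_cancel₀ hd0 h1) (mul_left_cancel₀ hd0 h2)
  have s1 := fi_s_hasSum (c := fun n => if IsCoprime n (e * d) then mu n * (ψ n * chi n r) else 0)
    (fun n => by
      split_ifs
      · simp only [norm_mul]
        exact mul_le_one₀ (norm_mu_le _) (by positivity)
          (mul_le_one₀ (hψ.norm_le _) (norm_nonneg _) (norm_chi_le _ _))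
      · simp) (div_pos hX hN)
  have s2 := fi_s_hasSum (c := fun m => if IsCoprime m e then chi m r else 0) (fun n => by
      split_ifs
      · exact norm_chi_le _ _
      · simp) (div_pos hM hN)
  have s4 := (fi_prod s1 s2).mul_left (mu d * mu d * (ψ d * chi d r) * conj (chi d r))
  rw [mul_assoc]
  refine (hinj.hasSum_iff fun q hq => ?_).1 (fi_congr s4 fun q => ?_)
  · refine if_neg ?_
    rintro ⟨-, ⟨n, hn⟩, ⟨m, hm⟩⟩
    exact hq ⟨(n, m), Prod.ext hn.symm hm.symm⟩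
  · exact fi_h_eq hψ hd hde q.1 q.2

open Classical in
theorem TB_I4 (hψ : IsCh Q ψ) (hr0 : r ≠ 0) (hX : 0 < X) (hM : 0 < M) :
    TB ψ r e 1 X M = ∑ N ∈ pdiv (r ^ 2), ∑ m ∈ pdiv r,
      if IsCoprime (N * m) e then ψ N * KK N m r * T0 ψ r e (X / Nr N) (M / Nr m) else 0 := by
  have hr2 : r ^ 2 ≠ 0 := pow_ne_zero _ hr0
  rw [fi_TB, fi_split (pdiv (r ^ 2) ×ˢ pdiv r) (fun i q => (i.1 * q.1, i.2 * q.2)) ?_
    (fi_summable hψ r e one_ne_zero hX hM)
    (fun i q => if IsCoprime (i.1 * i.2) e then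
      ψ i.1 * KK i.1 i.2 r * fi_t0 ψ r e (X / Nr i.1) (M / Nr i.2) q else 0)
    (fun q => Prim q.1 ∧ Prim q.2 ∧ IsCoprime (q.1 * q.2) r), Finset.sum_product]
  · refine Finset.sum_congr rfl fun N _ => Finset.sum_congr rfl fun m _ => ?_
    split_ifs
    · rw [tsum_mul_left, fi_T0]
    · exact tsum_zero
  · intro i hi q hq
    obtain ⟨h1, h2⟩ := Finset.mem_product.1 hi
    rw [mem_pdiv hr2] at h1
    rw [mem_pdiv hr0] at h2
    refine fi_tb_r hψ h1.1 h2.1 hq.1 hq.2.1 ?_ hq.2.2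
    exact ((hq.2.2.pow_right (n := 2)).symm.of_isCoprime_of_dvd_left h1.2).mul_left
      (hq.2.2.symm.of_isCoprime_of_dvd_left h2.2)
  · intro i _ q hq
    have : fi_t0 ψ r e (X / Nr i.1) (M / Nr i.2) q = 0 := by
      unfold fi_t0
      split_ifs with h
      · by_cases h1 : IsCoprime q.1 r
        · have h2 : chi q.2 r = 0 := (chi_eq_zero h.2.1.ne_zero).2 fun h3 =>
            hq ⟨h.1, h.2.1, h1.mul_left h3.of_mul_right_right⟩
          simp [h2]
        · have h2 : chi q.1 r = 0 := (chi_eq_zero h.1.ne_zero).2 fun h3 => h1 h3.of_mul_right_right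
          simp [h2]
      · rfl
    simp [this]
  · rintro ⟨N, m⟩ hy
    have h0 : Prim N ∧ Prim m ∧ IsCoprime (N * m) e ∧ 1 ∣ N := by
      by_contra hcon
      exact hy (if_neg hcon)
    obtain ⟨⟨N₁, N₂⟩, ⟨a1, a2, a3, a4, a5⟩, -⟩ := exists_part h0.1 hr0
    obtain ⟨⟨m₁, m₂⟩, ⟨b1, b2, b3, b4, b5⟩, -⟩ := exists_part h0.2.1 hr0
    dsimp only at a1 a2 a3 a4 a5 b1 b2 b3 b4 b5
    subst a5 b5
    have hrad : rad (N₁ * m₁) ∣ r := a1_rad_dvd_of fun p hp h => (hp.dvd_or_dvd h).elim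
      (fun h => ((prime_dvd_rad a1.ne_zero hp).2 h).trans a3)
      (fun h => ((prime_dvd_rad b1.ne_zero hp).2 h).trans b3)
    have hcr : IsCoprime (N₂ * m₂) r := a4.mul_left b4
    have hcc : IsCoprime (N₁ * m₁) (N₂ * m₂) :=
      ((coprime_rad_iff (a1.mul b1).ne_zero).1 (hcr.of_isCoprime_of_dvd_right hrad)).symm
    rw [fi_tb_r hψ a1 b1 a2 b2 hcc hcr] at hy
    have hK : KK N₁ m₁ r ≠ 0 := fun h => hy (by simp [h])
    obtain ⟨c1, -, c3, -⟩ := KK_part a1 b1 hr0 hrad hK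
    refine ⟨(N₁, m₁), Finset.mem_product.2 ⟨(mem_pdiv hr2).2 ⟨a1, ?_⟩, (mem_pdiv hr0).2 ⟨b1, ?_⟩⟩,
      (N₂, m₂), ⟨a2, b2, hcr⟩, rfl⟩
    · rw [sq]
      exact (dvd_mul_right _ _).trans (c3.trans (mul_dvd_mul_left _ hrad))
    · exact rad_eq_self b1 c1 ▸ b3
  · have key : ∀ {N K x y : O}, Prim N → Prim K → N ∣ r ^ 2 → K ∣ r ^ 2 → IsCoprime x r →
        IsCoprime y r → N * x = K * y → N = K := by
      intro N K x y hN hK h1 h2 hx hy h
      refine hN.eq_of_associated hK (associated_of_dvd_dvd ?_ ?_)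
      · exact ((hy.pow_right (n := 2)).symm.of_isCoprime_of_dvd_left h1).dvd_of_dvd_mul_right
          (h ▸ dvd_mul_right _ _)
      · exact ((hx.pow_right (n := 2)).symm.of_isCoprime_of_dvd_left h2).dvd_of_dvd_mul_right
          (h ▸ dvd_mul_right _ _)
    intro i hi j hj x y hx hy h
    obtain ⟨h1, h2⟩ := Prod.mk.inj h
    obtain ⟨a1, a2⟩ := Finset.mem_product.1 hi
    obtain ⟨b1, b2⟩ := Finset.mem_product.1 hj
    rw [mem_pdiv hr2] at a1 b1
    rw [mem_pdiv hr0] at a2 b2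
    exact Prod.ext (key a1.1 b1.1 a1.2 b1.2 hx.2.2.of_mul_left_left hy.2.2.of_mul_left_left h1)
      (key a2.1 b2.1 (a2.2.pow two_ne_zero) (b2.2.pow two_ne_zero) hx.2.2.of_mul_left_right
        hy.2.2.of_mul_left_right h2)
  · intro i hi x y h
    obtain ⟨h1, h2⟩ := Prod.mk.inj h
    obtain ⟨a1, a2⟩ := Finset.mem_product.1 hi
    exact Prod.ext (mul_left_cancel₀ ((mem_pdiv hr2).1 a1).1.ne_zero h1)
      (mul_left_cancel₀ ((mem_pdiv hr0).1 a2).1.ne_zero h2)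

open Classical in
theorem T0_I5 (hψ : IsCh Q ψ) (hX : 0 < X) (hM : 0 < M) :
    HasSum (fun d : O => if Prim d ∧ IsCoprime d e then
        mu d * mu d * (ψ d * chi d r) * conj (chi d r) *
          sm 1 (fun n => if IsCoprime n (e * d) then mu n * (ψ n * chi n r) else 0) (X / Nr d) 0 *
          conj (sm 1 (fun m => if IsCoprime m e then chi m r else 0) (M / Nr d) 0) else 0)
      (T0 ψ r e X M) := by
  have hs := (fi_h_summable (r := r) (e := e) hψ hX hM).hasSum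
  have h1 : HasSum (fun z : (O × O) × O => fi_h ψ r e X M (z.2, z.1)) (∑' z, fi_h ψ r e X M z) :=
    (Equiv.prodComm (O × O) O).hasSum_iff.2 hs
  rw [fi_T0, (h1.prod_fiberwise fun q => fi_h_d ψ r e X M q).tsum_eq]
  refine hs.prod_fiberwise fun d => ?_
  by_cases hd : Prim d ∧ IsCoprime d e
  · rw [if_pos hd]
    exact fi_h_q hψ hX hM hd.1 hd.2
  · rw [if_neg hd, funext (fi_h_zero hd)]
    exact hasSum_zero

/-! The same identities with further slots that do not contain `p`. -/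

theorem VV_I1 (hψ : IsCh Q ψ) (hp : Prime p) (hpp : Prim p) (hr : ¬ p ∣ r) {y : ℝ} {J : ℕ} {Z : Fin J → ℝ}
    (hZ : ∀ i, slot Q (Z i) y p = 0) (hb : b ≠ 0)
    (hc : IsCoprime p (e * b)) (hX : 0 < X) (hM : 0 < M) :
    VV Q ψ r y J Z e (b * p) X M = -(ψ p * chi p r) * VV Q ψ r y J Z (e * p) b X M := by
  induction J generalizing b M with
  | zero => exact TB_I1 hψ hp hpp hr hb hc hX hM
  | succ J ih =>
    simp only [VV]
    rw [Finset.mul_sum]
    refine Finset.sum_congr rfl fun p' _ => ?_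
    by_cases h0 : slot Q (Z 0) y p' = 0
    · simp [h0]
    obtain ⟨h1, h2⟩ := fi_slot hp hpp (hZ 0) h0 hc
    rw [ih (Z := Fin.tail Z) (fun i => hZ i.succ) hb hc (div_pos hM (Nr_pos h1)), mul_right_comm b p p',
      ih (Z := Fin.tail Z) (fun i => hZ i.succ) (mul_ne_zero hb h1) h2 hM]
    ring
theorem VV_I2 (hψ : IsCh Q ψ) (hp : Prime p) (hpp : Prim p) (hr : ¬ p ∣ r) {y : ℝ} {J : ℕ} {Z : Fin J → ℝ}
    (hZ : ∀ i, slot Q (Z i) y p = 0) (hb : b ≠ 0)
    (hc : IsCoprime p (e * b)) (hX : 0 < X) (hM : 0 < M) :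
    VV Q ψ r y J Z (e * p) b X M = VV Q ψ r y J Z e b X M - conj (chi p r) * VV Q ψ r y J Z e b X (M / Nr p) +
      ψ p * chi p r * VV Q ψ r y J Z (e * p) b (X / Nr p) M -
      ψ p * chi p r * conj (chi p r) * VV Q ψ r y J Z (e * p) b (X / Nr p) (M / Nr p) := by
  induction J generalizing b M with
  | zero => exact TB_I2 hψ hp hpp hr hb hc hX hM
  | succ J ih =>
    simp only [VV]
    rw [Finset.mul_sum, Finset.mul_sum, Finset.mul_sum, ← Finset.sum_sub_distrib,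
      ← Finset.sum_add_distrib, ← Finset.sum_sub_distrib]
    refine Finset.sum_congr rfl fun p' _ => ?_
    by_cases h0 : slot Q (Z 0) y p' = 0
    · simp [h0]
    obtain ⟨h1, h2⟩ := fi_slot hp hpp (hZ 0) h0 hc
    rw [ih (Z := Fin.tail Z) (fun i => hZ i.succ) hb hc (div_pos hM (Nr_pos h1)),
      ih (Z := Fin.tail Z) (fun i => hZ i.succ) (mul_ne_zero hb h1) h2 hM, div_right_comm M (Nr p') (Nr p)]
    ring
theorem VV_I3 (hψ : IsCh Q ψ) (hp : Prime p) (hpp : Prim p) (hr0 : r ≠ 0) (hr : p ∣ r) {y : ℝ} {J : ℕ}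
    {Z : Fin J → ℝ} (hZ : ∀ i, slot Q (Z i) y p = 0) (hb : b ≠ 0)
    (hc : IsCoprime p (e * b)) (hX : 0 < X) (hM : 0 < M) :
    VV Q ψ r y J Z e (b * p) X M = ∑ a ∈ Finset.range (multiplicity p r + 1), ∑ c ∈ Finset.range 2,
      ψ p ^ (a + 1) * KK (p ^ (a + 1)) (p ^ c) r *
        VV Q ψ r y J Z (e * p) b (X / Nr p ^ a) (M / Nr p ^ c) := by
  induction J generalizing b M with
  | zero => exact TB_I3 hψ hp hpp hr0 hr hb hc hX hM
  | succ J ih =>
    simp only [VV, Finset.mul_sum]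
    simp_rw [Finset.sum_comm (s := Finset.range 2)]
    rw [Finset.sum_comm]
    refine Finset.sum_congr rfl fun p' _ => ?_
    by_cases h0 : slot Q (Z 0) y p' = 0
    · simp [h0]
    obtain ⟨h1, h2⟩ := fi_slot hp hpp (hZ 0) h0 hc
    rw [ih (Z := Fin.tail Z) (fun i => hZ i.succ) hb hc (div_pos hM (Nr_pos h1)), mul_right_comm b p p',
      ih (Z := Fin.tail Z) (fun i => hZ i.succ) (mul_ne_zero hb h1) h2 hM]
    simp only [Finset.mul_sum, ← Finset.sum_sub_distrib]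
    refine Finset.sum_congr rfl fun a _ => Finset.sum_congr rfl fun c _ => ?_
    rw [div_right_comm M (Nr p') (Nr p ^ c)]
    ring
end

end Crest.Agent.R017

end
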