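import Crest.Agent.R017.LS
import Crest.Agent.R017.Pointwise

/-! # Row 17: prime slots -/

set_option autoImplicit false

noncomputable section

open scoped BigOperators ComplexConjugate
open Complex MeasureTheory

namespace Crest.Agent.R017

open Classical in
/-- Coefficients of a truncated smooth prime sum at scale `Z`, window `(Z / y, Z y]`. -/
def slot (Q : O) (Z y : ℝ) (p : O) : ℂ :=
  if Prime p ∧ Prim p ∧ IsCoprime p Q ∧ Z / y < Nr p ∧ Nr p ≤ Z * y then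
    ((Real.log (Nr p) * W 1 (Nr p / Z) : ℝ) : ℂ) else 0

/-- The prime sum of a slot against a completely multiplicative twist. -/
def PS (Q : O) (Z y : ℝ) (η : O → ℂ) : ℂ := ∑ p ∈ box (Z * y), slot Q Z y p * η p

/-- The windows of the slots are disjoint. -/
def Sep {j : ℕ} (Z : Fin j → ℝ) (y : ℝ) : Prop := ∀ i i', i < i' → Z i * y ≤ Z i' / y

theorem sl_nonneg (Q : O) (Z y : ℝ) (p : O) :
    0 ≤ (slot Q Z y p).re ∧ (slot Q Z y p).im = 0 := by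
  unfold slot
  split_ifs with h
  · refine ⟨?_, Complex.ofReal_im _⟩
    rw [Complex.ofReal_re]
    exact mul_nonneg (Real.log_nonneg (one_le_Nr h.1.ne_zero)) (W_pos _ _).le
  · simp

/-- The basic pointwise bound. -/
theorem sl_le (Q : O) {Z : ℝ} (y : ℝ) (p : O) (hZ : 1 ≤ Z) (σ : ℝ) :
    ‖slot Q Z y p‖ * Nr p ^ σ ≤ (1 + Real.log Z) *
      ((if p = 0 then 0 else Nr p ^ σ * W 1 (Nr p / Z)) +
        Z⁻¹ * (if p = 0 then 0 else Nr p ^ (σ + 1) * W 1 (Nr p / Z))) := by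
  have hZ0 : 0 < Z := by linarith
  have hL : 0 ≤ Real.log Z := Real.log_nonneg hZ
  unfold slot
  split_ifs with h h0
  · exact absurd h0 h.1.ne_zero
  · have hN := Nr_pos h0
    have hW := W_pos 1 (Nr p / Z)
    have ht : 0 < Nr p / Z := div_pos hN hZ0
    have h1 : Real.log (Nr p) ≤ (1 + Real.log Z) * (1 + Nr p / Z) := by
      have h2 : Real.log (Nr p / Z) ≤ Nr p / Z - 1 := Real.log_le_sub_one_of_pos ht
      rw [Real.log_div hN.ne' hZ0.ne'] at h2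
      nlinarith [mul_nonneg hL ht.le]
    rw [Complex.norm_real, Real.norm_of_nonneg
      (mul_nonneg (Real.log_nonneg (one_le_Nr h0)) hW.le), Real.rpow_add hN, Real.rpow_one]
    have h3 : 0 < Nr p ^ σ := Real.rpow_pos_of_pos hN σ
    calc Real.log (Nr p) * W 1 (Nr p / Z) * Nr p ^ σ
        ≤ (1 + Real.log Z) * (1 + Nr p / Z) * W 1 (Nr p / Z) * Nr p ^ σ := by gcongr
      _ = _ := by field_simp
  · simp
  · rw [norm_zero, zero_mul]
    have hW := W_pos 1 (Nr p / Z)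
    have hN := Nr_nonneg p
    positivity

theorem sl_W_le {t : ℝ} (ht : 0 < t) {A : ℝ} (h0 : 0 ≤ A) (h2 : A ≤ 2) :
    t ^ A * W 1 t ≤ Real.exp 4 := by
  have h1 := W_le_rpow one_pos ht (-A)
  have h3 : 0 < t ^ A := Real.rpow_pos_of_pos ht A
  rw [Real.rpow_neg ht.le] at h1
  calc t ^ A * W 1 t ≤ t ^ A * (Real.exp (1 * (-A) ^ 2) * (t ^ A)⁻¹) := by gcongr
    _ = Real.exp (1 * (-A) ^ 2) := by field_simp
    _ ≤ Real.exp 4 := Real.exp_le_exp.2 (by nlinarith)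

theorem sl_sum (σ : ℝ) : ∃ C : ℝ, 0 ≤ C ∧ ∀ (Q : O) (Z y : ℝ), 1 ≤ Z → -1 < σ →
    ∑ p ∈ box (Z * y), ‖slot Q Z y p‖ * Nr p ^ σ ≤ C * Z ^ (1 + σ) * (1 + Real.log Z) := by
  by_cases hσ : -1 < σ
  swap
  · exact ⟨0, le_rfl, fun _ _ _ _ h => absurd h hσ⟩
  obtain ⟨C₁, h₁⟩ := tsum_W_le one_pos σ hσ
  obtain ⟨C₂, h₂⟩ := tsum_W_le one_pos (σ + 1) (by linarith)
  refine ⟨|C₁| + |C₂|, by positivity, fun Q Z y hZ _ => ?_⟩
  have hZ0 : 0 < Z := by linarith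
  have hL : 0 ≤ Real.log Z := Real.log_nonneg hZ
  have h3 := (summable_W one_pos hZ0 σ).sum_le_tsum (box (Z * y)) fun n _ => w1_nonneg 1 Z σ n
  have h4 := (summable_W one_pos hZ0 (σ + 1)).sum_le_tsum (box (Z * y))
    fun n _ => w1_nonneg 1 Z (σ + 1) n
  have h5 := h3.trans (h₁ Z hZ0)
  have h6 := h4.trans (h₂ Z hZ0)
  have h7 : Z ^ (1 + (σ + 1)) = Z * Z ^ (1 + σ) := by
    rw [show 1 + (σ + 1) = 1 + (1 + σ) by ring, Real.rpow_add hZ0, Real.rpow_one]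
  have h8 : 0 < Z ^ (1 + σ) := Real.rpow_pos_of_pos hZ0 _
  refine (Finset.sum_le_sum fun p _ => sl_le Q y p hZ σ).trans ?_
  rw [← Finset.mul_sum, Finset.sum_add_distrib, ← Finset.mul_sum, mul_comm]
  gcongr
  calc _ ≤ C₁ * Z ^ (1 + σ) + Z⁻¹ * (C₂ * Z ^ (1 + (σ + 1))) := by gcongr
    _ = (C₁ + C₂) * Z ^ (1 + σ) := by rw [h7]; field_simp
    _ ≤ _ := by gcongr <;> exact le_abs_self _

theorem norm_slot_rpow_le : ∃ C : ℝ, 0 ≤ C ∧ ∀ (Q : O) (Z y : ℝ) (p : O) (γ : ℝ), 1 ≤ Z → 0 ≤ γ →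
    γ ≤ 1 → ‖slot Q Z y p‖ * Nr p ^ γ ≤ C * Z ^ γ * (1 + Real.log Z) := by
  refine ⟨2 * Real.exp 4, by positivity, fun Q Z y p γ hZ h0 h1 => ?_⟩
  have hZ0 : 0 < Z := by linarith
  have hL : 0 ≤ Real.log Z := Real.log_nonneg hZ
  have h8 : 0 < Z ^ γ := Real.rpow_pos_of_pos hZ0 _
  refine (sl_le Q y p hZ γ).trans ?_
  rw [mul_comm]
  gcongr
  split_ifs with h
  · simp only [mul_zero, add_zero]
    positivity
  · have hN := Nr_pos h
    have ht : 0 < Nr p / Z := div_pos hN hZ0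
    have h2 := sl_W_le ht h0 (by linarith)
    have h3 := sl_W_le ht (A := γ + 1) (by linarith) (by linarith)
    rw [Real.div_rpow hN.le hZ0.le] at h2 h3
    rw [Real.rpow_add hZ0, Real.rpow_one] at h3
    calc _ = Z ^ γ * (Nr p ^ γ / Z ^ γ * W 1 (Nr p / Z) +
          Nr p ^ (γ + 1) / (Z ^ γ * Z) * W 1 (Nr p / Z)) := by field_simp
      _ ≤ Z ^ γ * (Real.exp 4 + Real.exp 4) := by gcongr
      _ = _ := by ring

theorem sl_norm : ∃ C : ℝ, 0 ≤ C ∧ ∀ (Q : O) (Z y : ℝ) (p : O), 1 ≤ Z →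
    ‖slot Q Z y p‖ ≤ C * (1 + Real.log Z) := by
  obtain ⟨C, hC, h⟩ := norm_slot_rpow_le
  refine ⟨C, hC, fun Q Z y p hZ => ?_⟩
  simpa using h Q Z y p 0 hZ le_rfl zero_le_one

/-- A slot sum differs from the full smooth prime sum by the tails. -/
theorem sl_tail {η₀ : ℝ} (hη : 0 < η₀) : ∃ C : ℝ, 0 ≤ C ∧
    ∀ (x : ℝ) (Q : O) (c : O → ℂ) (Z : ℝ), 1 ≤ x → 0 < Z → Z ≤ x →
    (∀ n, Prim n → ‖c n‖ ≤ Nr n) → (∀ n, c n ≠ 0 → IsCoprime n Q) →
      ‖sm 1 (fun n => pr n * c n) Z 0 - PS Q Z (x ^ η₀) c‖ ≤ C * x ^ (-(1 : ℝ)) := by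
  obtain ⟨C, hC⟩ := tsum_W_tail one_pos hη 2 1 (by norm_num)
  refine ⟨|C|, abs_nonneg _, fun x Q c Z hx hZ hZx hc hQ => ?_⟩
  have hx0 : 0 < x := by linarith
  have hb : ∀ n, Prim n → ‖pr n * c n‖ ≤ 1 * Nr n ^ (2 : ℝ) := by
    intro n hn
    have hN := Nr_pos hn.ne_zero
    have h1 : ‖pr n‖ ≤ Nr n := by
      unfold pr
      split_ifs
      · rw [Complex.norm_real, Real.norm_of_nonneg (Real.log_nonneg (one_le_Nr hn.ne_zero))]
        linarith [Real.log_le_sub_one_of_pos hN]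
      · simpa using hN.le
    rw [norm_mul, one_mul, Real.rpow_two, sq]
    exact mul_le_mul h1 (hc n hn) (norm_nonneg _) hN.le
  have hs := summable_sm one_pos hZ hb 0
  have hPS : PS Q Z (x ^ η₀) c = ∑' n, slot Q Z (x ^ η₀) n * c n := by
    refine (tsum_eq_sum fun n hn => ?_).symm
    unfold slot
    rw [if_neg, zero_mul]
    exact fun h => hn (mem_box.2 ⟨h.1.ne_zero, h.2.2.2.2⟩)
  have hs' : Summable fun n => slot Q Z (x ^ η₀) n * c n := by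
    refine summable_of_ne_finset_zero (s := box (Z * x ^ η₀)) fun n hn => ?_
    unfold slot
    rw [if_neg, zero_mul]
    exact fun h => hn (mem_box.2 ⟨h.1.ne_zero, h.2.2.2.2⟩)
  have hg0 : ∀ n : O, 0 ≤ (if n ≠ 0 ∧ (Nr n ≤ Z * x ^ (-η₀) ∨ Z * x ^ η₀ ≤ Nr n) then
      Nr n ^ (2 : ℝ) * W 1 (Nr n / Z) else 0) := by
    intro n
    have hW := W_pos 1 (Nr n / Z)
    have hN := Nr_nonneg n
    split_ifs
    · positivity
    · exact le_rfl
  have hg : Summable fun n : O => (if n ≠ 0 ∧ (Nr n ≤ Z * x ^ (-η₀) ∨ Z * x ^ η₀ ≤ Nr n) then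
      Nr n ^ (2 : ℝ) * W 1 (Nr n / Z) else 0) := by
    refine Summable.of_nonneg_of_le hg0 (fun n => ?_) (summable_W one_pos hZ 2)
    split_ifs with h1 h2 h2
    · exact absurd h2 h1.1
    · exact le_rfl
    · exact le_rfl
    · have hW := W_pos 1 (Nr n / Z)
      have hN := Nr_nonneg n
      positivity
  rw [hPS, sm, ← hs.tsum_sub hs']
  refine (tsum_of_norm_bounded hg.hasSum fun n => ?_).trans
    ((hC x Z hx hZ hZx).trans (by gcongr; exact le_abs_self _))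
  by_cases hn : Prim n
  swap
  · have : slot Q Z (x ^ η₀) n = 0 := by
      unfold slot
      exact if_neg fun h => hn h.2.1
    rw [if_neg hn, this, zero_mul, sub_zero, norm_zero]
    exact hg0 n
  rw [if_pos hn]
  by_cases hc0 : c n = 0
  · simp only [hc0, mul_zero, zero_mul, sub_zero, norm_zero]
    exact hg0 n
  by_cases hp : Prime n
  swap
  · have : slot Q Z (x ^ η₀) n = 0 := by
      unfold slot
      exact if_neg fun h => hp h.1
    have h2 : pr n = 0 := by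
      unfold pr
      exact if_neg hp
    simp only [this, h2, zero_mul, sub_zero, norm_zero]
    exact hg0 n
  by_cases hw : Z / x ^ η₀ < Nr n ∧ Nr n ≤ Z * x ^ η₀
  · have : slot Q Z (x ^ η₀) n = ((Real.log (Nr n) * W 1 (Nr n / Z) : ℝ) : ℂ) := by
      unfold slot
      exact if_pos ⟨hp, hn, hQ n hc0, hw⟩
    have h2 : pr n = (Real.log (Nr n) : ℂ) := by
      unfold pr
      exact if_pos hp
    have h3 : pr n * c n * (Nr n : ℂ) ^ (-(((0 : ℝ) : ℂ) * I)) * (W 1 (Nr n / Z) : ℂ) -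
        slot Q Z (x ^ η₀) n * c n = 0 := by
      rw [this, h2]
      simp only [Complex.ofReal_zero, zero_mul, neg_zero, Complex.cpow_zero, Complex.ofReal_mul]
      ring
    rw [h3, norm_zero]
    exact hg0 n
  · have : slot Q Z (x ^ η₀) n = 0 := by
      unfold slot
      exact if_neg fun h => hw h.2.2.2
    rw [this, zero_mul, sub_zero, w2_norm_term (c := fun n => pr n * c n) hn, if_pos]
    · have := hb n hn
      rw [one_mul] at this
      exact mul_le_mul_of_nonneg_right this (W_pos _ _).le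
    · refine ⟨hn.ne_zero, ?_⟩
      rw [Real.rpow_neg hx0.le, ← div_eq_mul_inv]
      by_contra hcon
      push Not at hcon
      exact hw ⟨hcon.1, hcon.2.le⟩

theorem norm_PS_le : ∃ C : ℝ, 0 ≤ C ∧ ∀ (Q : O) (Z y : ℝ) (η : O → ℂ), 1 ≤ Z → (∀ p, ‖η p‖ ≤ 1) →
    ‖PS Q Z y η‖ ≤ C * Z * (1 + Real.log Z) := by
  obtain ⟨C, hC, h⟩ := sl_sum 0
  refine ⟨C, hC, fun Q Z y η hZ hη => ?_⟩
  have h1 := h Q Z y hZ (by norm_num)
  simp only [Real.rpow_zero, mul_one, add_zero, Real.rpow_one] at h1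
  refine le_trans ((norm_sum_le _ _).trans (Finset.sum_le_sum fun p _ => ?_)) h1
  rw [norm_mul]
  exact mul_le_of_le_one_right (norm_nonneg _) (hη p)

theorem sum_slot_rpow_le (σ : ℝ) : ∃ C : ℝ, 0 ≤ C ∧ ∀ (Q : O) (Z y : ℝ), 1 ≤ Z → -1 < σ →
    ∑ p ∈ box (Z * y), ‖slot Q Z y p‖ * Nr p ^ σ ≤ C * Z ^ (1 + σ) * (1 + Real.log Z) :=
  sl_sum σ

theorem sum_slot_sq_le : ∃ C : ℝ, 0 ≤ C ∧ ∀ (Q : O) (Z y : ℝ), 1 ≤ Z →
    ∑ p ∈ box (Z * y), ‖slot Q Z y p‖ ^ 2 ≤ C * Z * (1 + Real.log Z) ^ 2 := by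
  obtain ⟨C, hC, h⟩ := sl_sum 0
  obtain ⟨C', hC', h'⟩ := sl_norm
  refine ⟨C' * C, by positivity, fun Q Z y hZ => ?_⟩
  have hL : 0 ≤ Real.log Z := Real.log_nonneg hZ
  have h1 := h Q Z y hZ (by norm_num)
  simp only [Real.rpow_zero, mul_one, add_zero, Real.rpow_one] at h1
  calc _ ≤ ∑ p ∈ box (Z * y), C' * (1 + Real.log Z) * ‖slot Q Z y p‖ := by
        refine Finset.sum_le_sum fun p _ => ?_
        rw [sq]
        exact mul_le_mul_of_nonneg_right (h' Q Z y p hZ) (norm_nonneg _)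
    _ = C' * (1 + Real.log Z) * ∑ p ∈ box (Z * y), ‖slot Q Z y p‖ := by rw [Finset.mul_sum]
    _ ≤ C' * (1 + Real.log Z) * (C * Z * (1 + Real.log Z)) := by gcongr
    _ = _ := by ring

theorem norm_slot_le : ∃ C : ℝ, 0 ≤ C ∧ ∀ (Q : O) (Z y : ℝ) (p : O), 1 ≤ Z →
    ‖slot Q Z y p‖ ≤ C * (1 + Real.log Z) :=
  sl_norm

/-- Lower bound on principal rows: few primes are lost. -/
theorem le_sum_slot {Q : O} (hQ : Q ≠ 0) {ε : ℝ} (hε : 0 < ε) : ∃ Z₀ : ℝ, ∀ Z y : ℝ, Z₀ ≤ Z → 2 ≤ y →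
    Z ^ (1 - ε) ≤ ∑ p ∈ box (Z * y), (slot Q Z y p).re := by
  classical
  obtain ⟨Y₀, hY₀⟩ := card_primes_ge hQ hε
  refine ⟨max Y₀ (2 * Real.exp 2), fun Z y hZ hy => ?_⟩
  have hZ1 : 2 * Real.exp 2 ≤ Z := (le_max_right _ _).trans hZ
  have hZ0 : 0 < Z := lt_of_lt_of_le (by positivity) hZ1
  refine (hY₀ Z ((le_max_left _ _).trans hZ)).trans ?_
  rw [Finset.card_eq_sum_ones, Nat.cast_sum]
  have hZy : Z ≤ Z * y := le_mul_of_one_le_right hZ0.le (by linarith)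
  refine le_trans (Finset.sum_le_sum fun p hp => ?_) (Finset.sum_le_sum_of_subset_of_nonneg
    ((Finset.filter_subset _ _).trans (box_mono hZy)) fun p _ _ => (sl_nonneg Q Z y p).1)
  obtain ⟨hp1, hp2, hp3, hp4, hp5⟩ := Finset.mem_filter.1 hp
  have hp6 := (mem_box.1 hp1).2
  have h1 : Z / y ≤ Z / 2 := by gcongr
  unfold slot
  rw [if_pos ⟨hp2, hp3, hp4, h1.trans_lt hp5, hp6.trans hZy⟩, Complex.ofReal_re]
  have hN : 0 < Nr p := by linarith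
  have h2 : 2 ≤ Real.log (Nr p) := by
    rw [Real.le_log_iff_exp_le hN]
    linarith
  have ht : 0 < Nr p / Z := div_pos hN hZ0
  have h3 : Real.log (Nr p / Z) ≤ 0 := Real.log_nonpos ht.le ((div_le_one hZ0).2 hp6)
  have h4 : -1 ≤ Real.log (Nr p / Z) := by
    have h5 := Real.one_sub_inv_le_log_of_pos ht
    have h6 : (Nr p / Z)⁻¹ ≤ 2 := by
      rw [inv_div, div_le_iff₀ hN]
      linarith
    linarith
  have h5 : 1 / 2 ≤ W 1 (Nr p / Z) := by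
    unfold W
    have := Real.add_one_le_exp (-Real.log (Nr p / Z) ^ 2 / (4 * 1))
    nlinarith
  push_cast
  nlinarith

theorem slot_nonneg (Q : O) (Z y : ℝ) (p : O) : 0 ≤ (slot Q Z y p).re ∧ (slot Q Z y p).im = 0 :=
  sl_nonneg Q Z y p

/-- Pointwise bound for a slot, with a power twist. -/
theorem pw_PS {ε η₀ : ℝ} (hε : 0 < ε) (hη : 0 < η₀) : ∃ C : ℝ, 0 ≤ C ∧
    ∀ (x : ℝ) (Q q : O) (η : O → ℂ) (σ T Z α τ : ℝ),
    1 ≤ x → IsCh q η → Q ∣ q → ¬ Princ η → Nr q ≤ x → 1 / 2 ≤ σ → σ ≤ 1 → ZFl η σ T →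
    1 ≤ Z → Z ≤ x → |α| ≤ 1 → |τ| ≤ x → |τ| + Real.log (9 * x) + 4 ≤ T →
      ‖PS Q Z (x ^ η₀) (fun p => η p * (Nr p : ℂ) ^ ((α : ℂ) + τ * I))‖ ≤ C * x ^ ε * Z ^ (σ + α) := by
  obtain ⟨C₁, hC₁, h₁⟩ := sl_tail hη
  obtain ⟨C₂, hC₂, h₂⟩ := pw_P one_pos hε
  refine ⟨C₁ + Real.exp 1 * Real.exp 2 * 9 ^ ε * C₂, by positivity,
    fun x Q q η σ T Z α τ hx hq hQ hP hqx hσ hσ1 hZF hZ hZx hα hτ hT => ?_⟩
  have hx0 : 0 < x := by linarith
  have hZ0 : 0 < Z := by linarith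
  obtain ⟨hα1, hα2⟩ := abs_le.1 hα
  have h3 := h₁ x Q (fun p => η p * (Nr p : ℂ) ^ ((α : ℂ) + τ * I)) Z hx hZ0 hZx
    (fun n hn => by
      have hN := Nr_pos hn.ne_zero
      rw [norm_mul, Complex.norm_cpow_eq_rpow_re_of_pos hN]
      have h4 : Nr n ^ ((α : ℂ) + τ * I).re ≤ Nr n := by
        conv_rhs => rw [← Real.rpow_one (Nr n)]
        exact Real.rpow_le_rpow_of_exponent_le (one_le_Nr hn.ne_zero) (by simpa using hα2)
      calc _ ≤ 1 * Nr n := mul_le_mul (hq.norm_le n) h4 (Real.rpow_nonneg hN.le _) zero_le_one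
        _ = _ := one_mul _)
    (fun n hn => by
      have h4 : η n ≠ 0 := left_ne_zero_of_mul hn
      exact (not_not.1 fun h => h4 ((hq.zero n).2 h)).of_isCoprime_of_dvd_right hQ)
  have he : Real.exp (2 * 1 * α) ≤ 9 := by
    have h4 : Real.exp (2 * 1 * α) ≤ Real.exp 1 * Real.exp 1 := by
      rw [← Real.exp_add]
      exact Real.exp_le_exp.2 (by linarith)
    have h5 := Real.exp_one_lt_three
    nlinarith [Real.exp_pos 1]
  have h4 := h₂ (9 * x) q η σ T (Z * Real.exp (2 * 1 * α)) (0 - τ) (by linarith) hq hP (by linarith)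
    hσ hσ1 hZF (by positivity) (by nlinarith [Real.exp_pos (2 * 1 * α)])
    (by rw [zero_sub, abs_neg]; linarith) (by rw [zero_sub, abs_neg]; exact hT)
  have h5 := sm_rpow one_pos hZ0 (fun n => pr n * η n) α τ 0
  simp only [mul_assoc (pr _)] at h5
  have hxε : 1 ≤ x ^ ε := Real.one_le_rpow hx hε.le
  have hZs : 0 < Z ^ (σ + α) := Real.rpow_pos_of_pos hZ0 _
  have h6 : x ^ (-(1 : ℝ)) ≤ x ^ ε * Z ^ (σ + α) := by
    calc x ^ (-(1 : ℝ)) ≤ Z ^ (-(1 : ℝ)) := Real.rpow_le_rpow_of_nonpos hZ0 hZx (by norm_num)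
      _ ≤ Z ^ (σ + α) := Real.rpow_le_rpow_of_exponent_le hZ (by linarith)
      _ ≤ _ := le_mul_of_one_le_left hZs.le hxε
  have h7 : ‖sm 1 (fun n => pr n * (η n * (Nr n : ℂ) ^ ((α : ℂ) + τ * I))) Z 0‖ ≤
      Real.exp 1 * Real.exp 2 * 9 ^ ε * C₂ * (x ^ ε * Z ^ (σ + α)) := by
    rw [h5, norm_mul, Complex.norm_real, Real.norm_of_nonneg (by positivity)]
    rw [Real.mul_rpow (by norm_num) hx0.le, Real.mul_rpow hZ0.le (Real.exp_pos _).le,
      ← Real.exp_mul] at h4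
    have h8 : Real.exp (1 * α ^ 2) ≤ Real.exp 1 := Real.exp_le_exp.2 (by nlinarith)
    have h9 : Real.exp (2 * 1 * α * σ) ≤ Real.exp 2 := Real.exp_le_exp.2 (by nlinarith)
    calc _ ≤ Z ^ α * Real.exp 1 * (C₂ * (9 ^ ε * x ^ ε) * (Z ^ σ * Real.exp 2)) := by
          refine mul_le_mul (by gcongr) (h4.trans (by gcongr)) (norm_nonneg _) (by positivity)
      _ = _ := by rw [Real.rpow_add hZ0]; ring
  calc _ ≤ ‖sm 1 (fun n => pr n * (η n * (Nr n : ℂ) ^ ((α : ℂ) + τ * I))) Z 0 -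
          PS Q Z (x ^ η₀) (fun p => η p * (Nr p : ℂ) ^ ((α : ℂ) + τ * I))‖ +
        ‖sm 1 (fun n => pr n * (η n * (Nr n : ℂ) ^ ((α : ℂ) + τ * I))) Z 0‖ := by
        rw [norm_sub_rev]
        exact norm_le_norm_sub_add _ _
    _ ≤ C₁ * (x ^ ε * Z ^ (σ + α)) +
        Real.exp 1 * Real.exp 2 * 9 ^ ε * C₂ * (x ^ ε * Z ^ (σ + α)) :=
        add_le_add (h3.trans (by gcongr)) h7
    _ = _ := by ring

end Crest.Agent.R017

end
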