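import Crest.Agent.R017.Kernel
import Crest.Agent.R017.Slots
import Crest.Agent.R017.Sieve

/-! # Row 17: the kernel of the first moment -/

set_option autoImplicit false

noncomputable section

open scoped BigOperators ComplexConjugate
open Complex MeasureTheory

namespace Crest.Agent.R017

open Classical in
/-- The powerful part of `m`. -/
def p2 (m : O) : O := ∏ p ∈ (pf m).filter (fun p => p ^ 2 ∣ m), p ^ multiplicity p m

open Classical in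
/-- The kernel of the first moment: for `m = m₀ s` (`m₀` squarefree, `s` powerful, coprime) it is
`μ(m₀) KT(N, m₀; r) conj χ_s(r) 1_{(s, N) = 1}`. -/
def KK (N m r : O) : ℂ :=
  if IsCoprime (p2 m) N then mu (m / p2 m) * KT N (m / p2 m) r * conj (chi (p2 m) r) else 0

theorem fk_p2 {m s : O} (hm : Prim m) (hs : Prim s) (hm2 : Squarefree m) (hs2 : Pow2 s)
    (hc : IsCoprime m s) : p2 (m * s) = s := by
  classical
  have h0 := mul_ne_zero hm.ne_zero hs.ne_zero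
  have key : ∀ p : O, Prime p → multiplicity p m ≤ 1 ∧
      (multiplicity p s = 0 ∨ 2 ≤ multiplicity p s) ∧ (multiplicity p m = 0 ∨ multiplicity p s = 0) ∧
      multiplicity p (m * s) = multiplicity p m + multiplicity p s := fun p hp =>
    ⟨(a3_sqf hm.ne_zero).1 hm2 p hp, (a3_pow2 hs.ne_zero).1 hs2 p hp,
      (a3_coprime hm.ne_zero).1 hc p hp, a3_mul hp hm.ne_zero hs.ne_zero⟩
  conv_rhs => rw [hs.eq_prod_pf]
  unfold p2
  refine Finset.prod_congr ?_ fun p hp => ?_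
  · ext p
    rw [Finset.mem_filter, mem_pf h0, mem_pf hs.ne_zero, and_assoc]
    refine and_congr_right fun hp => ?_
    have h1 := a3_pow_dvd hp.1 h0 1
    have h2 := a3_pow_dvd hp.1 hs.ne_zero 1
    rw [pow_one] at h1 h2
    rw [h1, h2, a3_pow_dvd hp.1 h0]
    have := key p hp.1
    omega
  · obtain ⟨hp1, hp2⟩ := (mem_pf hs.ne_zero).1 hp
    have h2 := a3_pow_dvd hp1.1 hs.ne_zero 1
    rw [pow_one] at h2
    have := key p hp1.1
    have := h2.1 hp2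
    congr 1
    omega

theorem fk_dec {n : O} (hn : Prim n) : ∃ m s : O, Prim m ∧ Prim s ∧ Squarefree m ∧ Pow2 s ∧
    IsCoprime m s ∧ n = m * s := by
  obtain ⟨q, hq, -⟩ := exists_sqf_pow2 hn
  exact ⟨q.1, q.2, hq⟩

theorem fk_pow2_one : Pow2 1 := fun _ hp h => absurd (isUnit_of_dvd_one h) hp.not_isUnit

theorem fk_pow2_mul {s t : O} (hs : Pow2 s) (ht : Pow2 t) : Pow2 (s * t) := fun p hp h =>
  (hp.dvd_or_dvd h).elim (fun h => (hs p hp h).mul_right _) fun h => (ht p hp h).mul_left _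

open Classical in
theorem KK_eq {N m s : O} (hm : Prim m) (hs : Prim s) (hm2 : Squarefree m) (hs2 : Pow2 s)
    (hc : IsCoprime m s) (r : O) :
    KK N (m * s) r = if IsCoprime s N then mu m * KT N m r * conj (chi s r) else 0 := by
  rw [KK, fk_p2 hm hs hm2 hs2 hc, mul_div_cancel_right₀ _ hs.ne_zero]
theorem KK_mul {N₁ N₂ m₁ m₂ : O} (h₁ : Prim N₁) (h₂ : Prim N₂) (h₃ : Prim m₁) (h₄ : Prim m₂)
    (hc : IsCoprime (N₁ * m₁) (N₂ * m₂)) (r : O) :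
    KK (N₁ * N₂) (m₁ * m₂) r = KK N₁ m₁ r * KK N₂ m₂ r := by
  obtain ⟨a₁, s₁, ha₁, hs₁, qa₁, qs₁, c₁, rfl⟩ := fk_dec h₃
  obtain ⟨a₂, s₂, ha₂, hs₂, qa₂, qs₂, c₂, rfl⟩ := fk_dec h₄
  simp only [IsCoprime.mul_left_iff, IsCoprime.mul_right_iff] at hc
  obtain ⟨⟨c1, c2, c3⟩, ⟨c4, c5, c6⟩, c7, c8, c9⟩ := hc
  rw [mul_mul_mul_comm a₁ s₁, KK_eq (ha₁.mul ha₂) (hs₁.mul hs₂)
    (squarefree_mul_iff.2 ⟨c5.isRelPrime, qa₁, qa₂⟩) (fk_pow2_mul qs₁ qs₂)
    ((c₁.mul_right c8).mul_left (c6.symm.mul_right c₂)),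
    KK_eq ha₁ hs₁ qa₁ qs₁ c₁, KK_eq ha₂ hs₂ qa₂ qs₂ c₂,
    KT_mul h₁ h₂ ha₁ ha₂ ((c1.mul_right c4).mul_left (c2.mul_right c5)), mu_mul c5,
    chi_mul_left hs₁.ne_zero hs₂.ne_zero, map_mul]
  by_cases d₁ : IsCoprime s₁ N₁
  · by_cases d₂ : IsCoprime s₂ N₂
    · rw [if_pos d₁, if_pos d₂, if_pos ((d₁.mul_right c3).mul_left (c7.symm.mul_right d₂))]
      ring
    · rw [if_neg d₂, if_neg fun h => d₂ h.of_mul_left_right.of_mul_right_right, mul_zero]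
  · rw [if_neg d₁, if_neg fun h => d₁ h.of_mul_left_left.of_mul_right_left, zero_mul]
theorem KK_one (r : O) : KK 1 1 r = 1 := by
  have h := KK_eq (N := 1) prim_one prim_one squarefree_one fk_pow2_one isCoprime_one_left r
  rw [mul_one] at h
  rw [h, if_pos isCoprime_one_left, mu_one, k2_KT_one, chi_unit_left isUnit_one]
  simp
open Classical in
theorem KK_coprime {N m r : O} (hN : Prim N) (hm : Prim m) (hc : IsCoprime (N * m) r) :
    KK N m r = if IsCoprime N m then mu N * chi N r * conj (chi m r) else 0 := by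
  obtain ⟨a, s, ha, hs, qa, qs, c, rfl⟩ := fk_dec hm
  rw [← mul_assoc] at hc
  rw [KK_eq ha hs qa qs c, KT_coprime hN ha hc.of_mul_left_left,
    chi_mul_left ha.ne_zero hs.ne_zero, map_mul]
  by_cases d₁ : IsCoprime s N
  · by_cases d₂ : IsCoprime N a
    · rw [if_pos d₁, if_pos d₂, if_pos (d₂.mul_right d₁.symm)]
      linear_combination (mu N * chi N r * conj (chi a r) * conj (chi s r)) * mu_sq qa
    · rw [if_pos d₁, if_neg d₂, if_neg fun h => d₂ h.of_mul_right_left, mul_zero, zero_mul]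
  · rw [if_neg d₁, if_neg fun h => d₁ h.of_mul_right_right.symm]
/-- On the `r`-part. -/
theorem KK_part {N m r : O} (hN : Prim N) (hm : Prim m) (hr : r ≠ 0) (hrad : rad (N * m) ∣ r)
    (h : KK N m r ≠ 0) :
    Squarefree m ∧ m ∣ N ∧ N * m ∣ r * rad (N * m) ∧ KK N m r = mu m * KT N m r := by
  obtain ⟨a, s, ha, hs, qa, qs, c, rfl⟩ := fk_dec hm
  have h1 := KK_eq (N := N) ha hs qa qs c r
  by_cases d₁ : IsCoprime s N
  swap
  · exact absurd (by rw [h1, if_neg d₁]) h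
  rw [if_pos d₁] at h1
  have h2 : chi s r ≠ 0 := fun h0 => h (by rw [h1, h0, map_zero, mul_zero])
  have h3 : KT N a r ≠ 0 := fun h0 => h (by rw [h1, h0, mul_zero, zero_mul])
  have h4 : IsCoprime s (6 * r) := by
    by_contra hc
    exact h2 ((chi_eq_zero hs.ne_zero).2 hc)
  have h5 : IsCoprime s (N * (a * s)) :=
    (coprime_rad_iff (hN.mul hm).ne_zero).1 (h4.of_mul_right_right.of_isCoprime_of_dvd_right hrad)
  obtain rfl : s = 1 := hs.eq_one_of_isUnit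
    (isCoprime_self.1 h5.of_mul_right_right.of_mul_right_right)
  rw [mul_one] at h1 hrad ⊢
  refine ⟨qa, KT_dvd_of_sqf hN ha qa hr hrad h3, KT_dvd hN ha hr h3, ?_⟩
  rw [h1, chi_unit_left isUnit_one, map_one, mul_one]
theorem norm_KK_le {N m : O} (hN : Prim N) (hm : Prim m) (r : O) :
    ‖KK N m r‖ ≤ Nr N ^ (2 / 3 : ℝ) * Nr m ^ (1 / 2 : ℝ) := by
  obtain ⟨a, s, ha, hs, qa, qs, c, rfl⟩ := fk_dec hm
  have h0 := Nr_nonneg N
  have h0' := Nr_nonneg (a * s)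
  rw [KK_eq ha hs qa qs c]
  split_ifs
  swap
  · rw [norm_zero]; positivity
  rw [norm_mul, norm_mul, Complex.norm_conj]
  calc ‖mu a‖ * ‖KT N a r‖ * ‖chi s r‖ ≤ 1 * ‖KT N a r‖ * 1 := by
        gcongr
        · exact norm_mu_le a
        · exact norm_chi_le s r
    _ ≤ Nr N ^ (2 / 3 : ℝ) * Nr a ^ (1 / 2 : ℝ) := by
        rw [one_mul, mul_one]; exact norm_KT_le' hN ha qa r
    _ ≤ _ := by
        gcongr
        · exact Nr_nonneg a
        · exact Nr_le_of_dvd hm.ne_zero (dvd_mul_right _ _)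
theorem fk_local {p r : O} (hp : Prime p) (hpp : Prim p) (hr : r ≠ 0) (hpr : p ∣ r) {a c : ℕ}
    (h : KK (p ^ a) (p ^ c) r ≠ 0) : ∃ e : ℕ, ‖KK (p ^ a) (p ^ c) r‖ ≤ Nr p ^ ((e : ℝ) / 2) ∧
      c ≤ 1 ∧ c ≤ a ∧ e ≤ a + c + 2 * (multiplicity p r / 6) ∧ (multiplicity p r = 1 → e = 0) := by
  have hrad : rad (p ^ a * p ^ c) ∣ r := a1_rad_dvd_of fun q hq hd => by
    rw [← pow_add] at hd
    exact (hq.dvd_of_dvd_pow hd).trans hpr
  obtain ⟨h1, h2, -, h4⟩ := KK_part (hpp.pow a) (hpp.pow c) hr hrad h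
  have hc1 : c ≤ 1 := by simpa only [k2_mult_self hp] using a4_sqf hp h1
  have hca : c ≤ a := by
    rwa [a3_pow_dvd hp (pow_ne_zero _ hp.ne_zero), k2_mult_self hp] at h2
  rcases Nat.eq_zero_or_pos (a + c) with h0 | h0
  · obtain rfl : a = 0 := by omega
    obtain rfl : c = 0 := by omega
    exact ⟨0, by simp [KK_one], hc1, hca, by omega, fun _ => rfl⟩
  have h5 : KT (p ^ a) (p ^ c) r ≠ 0 := fun h0 => h (by rw [h4, h0, mul_zero])
  obtain ⟨ha3, hb3, hd, e, he, hc⟩ := k2_local hp hpp h0 h5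
  rw [a3_pow_dvd hp hr] at hd hc
  obtain ⟨g1, g2⟩ := k2_arith (κ := multiplicity p r / 6) h0 ha3 hb3 hd (by omega) hc
  refine ⟨e, ?_, hc1, hca, g1, g2⟩
  rw [h4, norm_mul]
  refine (mul_le_of_le_one_left (norm_nonneg _) (norm_mu_le _)).trans
    (k2_sq (Real.rpow_nonneg (Nr_nonneg _) _) ?_)
  rwa [← Real.rpow_natCast (_ ^ _), ← Real.rpow_mul (Nr_nonneg _), Nat.cast_ofNat,
    div_mul_cancel₀ _ two_ne_zero, Real.rpow_natCast]

/-- The local bounds used for rows with a zero-free region. -/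
theorem norm_KK_local {p r : O} (hp : Prime p) (hpp : Prim p) (hr : r ≠ 0) (hpr : p ∣ r) {σ : ℝ}
    (h1 : 1 / 2 ≤ σ) (h2 : σ ≤ 1) (a c : ℕ) :
    ‖KK (p ^ a) (p ^ c) r‖ * Nr p ^ (-(a * σ + c * (1 - σ))) ≤ Nr p ^ (multiplicity p r / 6) ∧
    ‖KK (p ^ (a + 1)) (p ^ c) r‖ * Nr p ^ (-(a * σ + c * (1 - σ))) ≤
      Nr p ^ (1 / 2 : ℝ) * Nr p ^ (multiplicity p r / 6) *
        Nr p ^ (if 2 ≤ multiplicity p r then σ - 1 / 2 else 0) := by
  have hP := one_le_Nr hp.ne_zero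
  have hP0 := Nr_pos hp.ne_zero
  constructor
  · by_cases h : KK (p ^ a) (p ^ c) r = 0
    · rw [h, norm_zero, zero_mul]; positivity
    obtain ⟨e, he, hc1, hca, he1, -⟩ := fk_local hp hpp hr hpr h
    refine (mul_le_mul_of_nonneg_right he (by positivity)).trans ?_
    rw [← Real.rpow_add hP0, ← Real.rpow_natCast]
    refine Real.rpow_le_rpow_of_exponent_le hP ?_
    have e1 : (e : ℝ) ≤ a + c + 2 * ((multiplicity p r / 6 : ℕ) : ℝ) := by exact_mod_cast he1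
    have e2 : (c : ℝ) ≤ a := by exact_mod_cast hca
    nlinarith
  · by_cases h : KK (p ^ (a + 1)) (p ^ c) r = 0
    · rw [h, norm_zero, zero_mul]; positivity
    obtain ⟨e, he, hc1, hca, he1, he2⟩ := fk_local hp hpp hr hpr h
    refine (mul_le_mul_of_nonneg_right he (by positivity)).trans ?_
    rw [← Real.rpow_add hP0, ← Real.rpow_natCast, ← Real.rpow_add hP0, ← Real.rpow_add hP0]
    refine Real.rpow_le_rpow_of_exponent_le hP ?_
    have e1 : (e : ℝ) ≤ a + 1 + c + 2 * ((multiplicity p r / 6 : ℕ) : ℝ) := by exact_mod_cast he1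
    have e0 : (0 : ℝ) ≤ ((multiplicity p r / 6 : ℕ) : ℝ) := Nat.cast_nonneg _
    have e2 : (c : ℝ) ≤ a + 1 := by exact_mod_cast hca
    have a0 : (0 : ℝ) ≤ a := Nat.cast_nonneg _
    have c0 : (0 : ℝ) ≤ c := Nat.cast_nonneg _
    split_ifs with hv
    · nlinarith
    · have hv1 := (a3_pow_dvd hp hr 1).1 (by simpa using hpr)
      rw [he2 (by omega), Nat.cast_zero]
      nlinarith

open Classical in
/-- The basic double sum of a row `r`: `b ∣ N`, everything prime to `e`. -/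
def TB (ψ : O → ℂ) (r e b : O) (X M : ℝ) : ℂ :=
  ∑' q : O × O, if Prim q.1 ∧ Prim q.2 ∧ IsCoprime (q.1 * q.2) e ∧ b ∣ q.1 then
    ψ q.1 * KK q.1 q.2 r * ((W 1 (Nr q.1 / (Nr b * X)) * W 1 (Nr q.2 / M) : ℝ) : ℂ) else 0

/-- The row of the first moment, with prime slots `Z`. -/
def VV (Q : O) (ψ : O → ℂ) (r : O) (y : ℝ) : (J : ℕ) → (Fin J → ℝ) → O → O → ℝ → ℝ → ℂ
  | 0, _, e, b, X, M => TB ψ r e b X M
  | J + 1, Z, e, b, X, M => ∑ p ∈ box (Z 0 * y), slot Q (Z 0) y p *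
      (VV Q ψ r y J (Fin.tail Z) e b X (M / Nr p) - conj (ψ p) * VV Q ψ r y J (Fin.tail Z) e (b * p) X M)

open Classical in
theorem fk_term {ψ : O → ℂ} (hψ : ∀ n, ‖ψ n‖ ≤ 1) (r e b : O) (X M : ℝ) (q : O × O) :
    ‖(if Prim q.1 ∧ Prim q.2 ∧ IsCoprime (q.1 * q.2) e ∧ b ∣ q.1 then
      ψ q.1 * KK q.1 q.2 r * ((W 1 (Nr q.1 / (Nr b * X)) * W 1 (Nr q.2 / M) : ℝ) : ℂ) else 0)‖ ≤
      (if q.1 = 0 then 0 else Nr q.1 ^ (2 / 3 : ℝ) * W 1 (Nr q.1 / (Nr b * X))) *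
        (if q.2 = 0 then 0 else Nr q.2 ^ (1 / 2 : ℝ) * W 1 (Nr q.2 / M)) := by
  by_cases h : Prim q.1 ∧ Prim q.2 ∧ IsCoprime (q.1 * q.2) e ∧ b ∣ q.1
  swap
  · rw [if_neg h, norm_zero]
    exact mul_nonneg (w1_nonneg _ _ _ _) (w1_nonneg _ _ _ _)
  have h1 := W_pos 1 (Nr q.1 / (Nr b * X))
  have h2 := W_pos 1 (Nr q.2 / M)
  rw [if_pos h, if_neg h.1.ne_zero, if_neg h.2.1.ne_zero, norm_mul, norm_mul, Complex.norm_real,
    Real.norm_of_nonneg (by positivity), mul_mul_mul_comm (Nr q.1 ^ _)]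
  refine mul_le_mul_of_nonneg_right ?_ (mul_pos h1 h2).le
  exact (mul_le_of_le_one_left (norm_nonneg _) (hψ _)).trans (norm_KK_le h.1 h.2.1 r)

open Classical in
theorem summable_TB {ψ : O → ℂ} (hψ : ∀ n, ‖ψ n‖ ≤ 1) (r e : O) {b : O} (hb : b ≠ 0) {X M : ℝ}
    (hX : 0 < X) (hM : 0 < M) :
    Summable (fun q : O × O => if Prim q.1 ∧ Prim q.2 ∧ IsCoprime (q.1 * q.2) e ∧ b ∣ q.1 then
      ψ q.1 * KK q.1 q.2 r * ((W 1 (Nr q.1 / (Nr b * X)) * W 1 (Nr q.2 / M) : ℝ) : ℂ) else 0) := by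
  exact Summable.of_norm_bounded
    ((summable_W one_pos (mul_pos (Nr_pos hb) hX) (2 / 3)).mul_of_nonneg
      (summable_W one_pos hM (1 / 2)) (w1_nonneg _ _ _) (w1_nonneg _ _ _)) (fk_term hψ r e b X M)
/-- The trivial bound. -/
theorem norm_TB_le : ∃ C : ℝ, 0 ≤ C ∧ ∀ (ψ : O → ℂ) (r e b : O) (X M : ℝ), (∀ n, ‖ψ n‖ ≤ 1) → b ≠ 0 →
    0 < X → 0 < M → ‖TB ψ r e b X M‖ ≤ C * (Nr b * X) ^ (5 / 3 : ℝ) * M ^ (3 / 2 : ℝ) := by
  obtain ⟨C₁, h₁⟩ := tsum_W_le one_pos (2 / 3) (by norm_num)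
  obtain ⟨C₂, h₂⟩ := tsum_W_le one_pos (1 / 2) (by norm_num)
  refine ⟨|C₁| * |C₂|, by positivity, fun ψ r e b X M hψ hb hX hM => ?_⟩
  have hbX := mul_pos (Nr_pos hb) hX
  have s₁ := summable_W one_pos hbX (2 / 3)
  have s₂ := summable_W one_pos hM (1 / 2)
  have s₃ := s₁.mul_of_nonneg s₂ (w1_nonneg _ _ _) (w1_nonneg _ _ _)
  refine (tsum_of_norm_bounded s₃.hasSum (fk_term hψ r e b X M)).trans ?_
  rw [← s₁.tsum_mul_tsum s₂ s₃]
  have g₁ := (h₁ _ hbX).trans (mul_le_mul_of_nonneg_right (le_abs_self C₁) (by positivity))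
  have g₂ := (h₂ _ hM).trans (mul_le_mul_of_nonneg_right (le_abs_self C₂) (by positivity))
  refine (mul_le_mul g₁ g₂ (tsum_nonneg (w1_nonneg _ _ _))
    (mul_nonneg (abs_nonneg _) (Real.rpow_nonneg hbX.le _))).trans (le_of_eq ?_)
  norm_num
  ring

theorem fk_push {ι : Type} (I : Finset ι) (f : ι → O × O) (w : ι → ℂ) (S : Finset O)
    (h : ∀ i ∈ I, (f i).1 ∈ S ∧ (f i).2 ∈ S) (T : O → O → ℂ) :
    ∑ c₁ ∈ S, ∑ c₂ ∈ S, (∑ i ∈ I.filter (fun i => f i = (c₁, c₂)), w i) * T c₁ c₂ =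
      ∑ i ∈ I, w i * T (f i).1 (f i).2 := by
  rw [← Finset.sum_fiberwise_of_maps_to (g := f) (t := S ×ˢ S)
    (fun i hi => Finset.mem_product.2 (h i hi)), Finset.sum_product]
  refine Finset.sum_congr rfl fun c₁ _ => Finset.sum_congr rfl fun c₂ _ => ?_
  rw [Finset.sum_mul]
  refine Finset.sum_congr rfl fun i hi => ?_
  rw [(Finset.mem_filter.1 hi).2]

theorem fk_card {ε : ℝ} (hε : 0 < ε) : ∃ C : ℝ, 0 ≤ C ∧ ∀ (P B : ℝ) (I : Finset (O × O × O))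
    (w : O × O × O → ℂ) (t : O), 0 ≤ P → 0 ≤ B → Set.InjOn Prod.fst (I : Set (O × O × O)) →
    (∀ i ∈ I, i.1 ∣ t ∧ t ∈ box P ∧ ‖w i‖ ≤ B) → ‖∑ i ∈ I, w i‖ ≤ C * P ^ ε * B := by
  obtain ⟨C, hC⟩ := a2_card_div hε
  refine ⟨|C|, abs_nonneg _, fun P B I w t hP hB hinj h => ?_⟩
  rcases I.eq_empty_or_nonempty with rfl | ⟨i, hi⟩
  · rw [Finset.sum_empty, norm_zero]; positivity
  obtain ⟨ht, htP⟩ := mem_box.1 (h i hi).2.1
  have h1 := hC t ht (I.image Prod.fst) fun d hd => by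
    obtain ⟨j, hj, rfl⟩ := Finset.mem_image.1 hd
    exact (h j hj).1
  rw [Finset.card_image_of_injOn hinj] at h1
  refine (norm_sum_le _ _).trans ((Finset.sum_le_card_nsmul _ _ B fun j hj => (h j hj).2.2).trans ?_)
  rw [nsmul_eq_mul]
  refine mul_le_mul_of_nonneg_right (h1.trans ?_) hB
  have := Nr_nonneg t
  gcongr
  exact le_abs_self C

theorem fk_slot {Q : O} {Z y : ℝ} {p : O} (h : slot Q Z y p ≠ 0) :
    Prime p ∧ Prim p ∧ IsCoprime p Q ∧ Z / y < Nr p ∧ Nr p ≤ Z * y := by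
  by_contra hc
  exact h (if_neg hc)

theorem fk_expand (J : ℕ) : ∀ {ε : ℝ}, 0 < ε → ∃ C : ℝ, 0 ≤ C ∧
    ∀ (Q : O) (ψ : O → ℂ) (y : ℝ) (Z : Fin J → ℝ), (∀ n, ‖ψ n‖ ≤ 1) → 1 ≤ y → (∀ i, 1 ≤ Z i) → Sep Z y →
    ∃ A : O → O → ℂ, (∀ b₁ b₂, ‖A b₁ b₂‖ ≤ C * (∏ i, Z i * y) ^ ε) ∧
      (∀ b₁ b₂, A b₁ b₂ ≠ 0 → Adm Q b₂ ∧ Nr b₁ * Nr b₂ ≤ ∏ i, Z i * y ∧
        ∀ q : O, Prime q → q ∣ b₂ → ∃ i, Z i / y < Nr q) ∧
      ∀ (r e b : O) (X M : ℝ), VV Q ψ r y J Z e b X M =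
        ∑ b₁ ∈ box (∏ i, Z i * y), ∑ b₂ ∈ box (∏ i, Z i * y),
          A b₁ b₂ * TB ψ r e (b * b₂) X (M / Nr b₁) := by
  induction J with
  | zero =>
    intro ε _
    refine ⟨1, zero_le_one, fun Q ψ y Z _ _ _ _ =>
      ⟨fun b₁ b₂ => if b₁ = 1 then if b₂ = 1 then 1 else 0 else 0, fun b₁ b₂ => ?_,
        fun b₁ b₂ h => ?_, fun r e b X M => ?_⟩⟩
    · dsimp only
      split_ifs <;> simp
    · obtain rfl : b₁ = 1 := by
        by_contra h1
        exact h (if_neg h1)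
      obtain rfl : b₂ = 1 := by
        by_contra h1
        exact h (by simp [h1])
      exact ⟨⟨prim_one, squarefree_one, isCoprime_one_left⟩, by simp [Nr_one],
        fun q hq hd => absurd (isUnit_of_dvd_one hd) hq.not_isUnit⟩
    · have h1 : (1 : O) ∈ box 1 := mem_box.2 ⟨one_ne_zero, Nr_one.le⟩
      simp [VV, h1, Nr_one]
  | succ J ih =>
    intro ε hε
    have hε3 : 0 < ε / 3 := by positivity
    obtain ⟨C₁, hC₁, ih⟩ := ih hε3
    obtain ⟨C₂, hC₂, hcard⟩ := fk_card hε3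
    obtain ⟨C₃, hC₃, hslot⟩ := norm_slot_le
    refine ⟨2 * (C₂ * (C₃ * (1 + 3 / ε) * C₁)), by positivity, fun Q ψ y Z hψ hy hZ hS => ?_⟩
    obtain ⟨A, hA1, hA2, hA3⟩ := ih Q ψ y (Fin.tail Z) hψ hy (fun i => hZ i.succ)
      (fun i i' h => hS i.succ i'.succ (Fin.succ_lt_succ_iff.2 h))
    rw [Fin.prod_univ_succ]
    set Y := Z 0 * y with hY
    have hPe : (∏ i : Fin J, Z i.succ * y) = ∏ i, Fin.tail Z i * y := rfl
    rw [hPe]
    set P := ∏ i, Fin.tail Z i * y with hP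
    have hY1 : 1 ≤ Y := one_le_mul_of_one_le_of_one_le (hZ 0) hy
    have hP1 : 1 ≤ P := Finset.one_le_prod fun i _ => one_le_mul_of_one_le_of_one_le (hZ i.succ) hy
    have hPYP : P ≤ Y * P := le_mul_of_one_le_left (by linarith) hY1
    have hZYP : Z 0 ≤ Y * P :=
      (le_mul_of_one_le_right (by linarith [hZ 0]) hy).trans (le_mul_of_one_le_right (by linarith) hP1)
    have hYP : 1 ≤ Y * P := hP1.trans hPYP
    set I : Finset (O × O × O) := box Y ×ˢ box P ×ˢ box P with hI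
    have hmem : ∀ i ∈ I, i.1 ≠ 0 ∧ i.1 * i.2.1 ∈ box (Y * P) ∧ i.1 * i.2.2 ∈ box (Y * P) ∧
        i.2.1 ∈ box (Y * P) ∧ i.2.2 ∈ box (Y * P) := fun i hi => by
      simp only [hI, Finset.mem_product, mem_box] at hi ⊢
      obtain ⟨⟨a1, a2⟩, ⟨a3, a4⟩, a5, a6⟩ := hi
      refine ⟨a1, ⟨mul_ne_zero a1 a3, ?_⟩, ⟨mul_ne_zero a1 a5, ?_⟩, ⟨a3, a4.trans hPYP⟩, a5,
        a6.trans hPYP⟩ <;> rw [Nr_mul] <;> exact mul_le_mul a2 ‹_› (Nr_nonneg _) (by linarith)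
    have hw : ∀ i : O × O × O, ‖slot Q (Z 0) y i.1 * A i.2.1 i.2.2‖ ≤
        C₃ * (1 + 3 / ε) * C₁ * ((Y * P) ^ (ε / 3) * (Y * P) ^ (ε / 3)) := fun i => by
      have h1 : 1 + Real.log (Z 0) ≤ (1 + 3 / ε) * (Y * P) ^ (ε / 3) := by
        have h2 := Real.log_le_rpow_div (x := Y * P) (by linarith) hε3
        have h3 := Real.log_le_log (by linarith [hZ 0]) hZYP
        have h4 := Real.one_le_rpow hYP hε3.le
        rw [div_div_eq_mul_div, mul_div_assoc] at h2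
        linarith
      have h2 : ‖A i.2.1 i.2.2‖ ≤ C₁ * (Y * P) ^ (ε / 3) := (hA1 _ _).trans (by gcongr)
      rw [norm_mul]
      refine (mul_le_mul ((hslot Q (Z 0) y i.1 (hZ 0)).trans (mul_le_mul_of_nonneg_left h1 hC₃)) h2
        (norm_nonneg _) (by positivity)).trans (le_of_eq (by ring))
    refine ⟨fun c₁ c₂ =>
      (∑ i ∈ I.filter (fun i => (i.1 * i.2.1, i.2.2) = (c₁, c₂)), slot Q (Z 0) y i.1 * A i.2.1 i.2.2) -
      ∑ i ∈ I.filter (fun i => (i.2.1, i.1 * i.2.2) = (c₁, c₂)),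
        conj (ψ i.1) * (slot Q (Z 0) y i.1 * A i.2.1 i.2.2), fun c₁ c₂ => ?_, fun c₁ c₂ h => ?_,
      fun r e b X M => ?_⟩
    · have e : (Y * P) ^ ε = (Y * P) ^ (ε / 3) * ((Y * P) ^ (ε / 3) * (Y * P) ^ (ε / 3)) := by
        rw [← Real.rpow_add (by linarith), ← Real.rpow_add (by linarith)]
        congr 1; ring
      have hB : 0 ≤ C₃ * (1 + 3 / ε) * C₁ * ((Y * P) ^ (ε / 3) * (Y * P) ^ (ε / 3)) := by positivity
      refine (norm_sub_le _ _).trans ((add_le_add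
        (hcard (Y * P) _ _ _ c₁ (by linarith) hB ?_ fun i hi => ⟨?_, ?_, hw i⟩)
        (hcard (Y * P) _ _ _ c₂ (by linarith) hB ?_ fun i hi => ⟨?_, ?_, ?_⟩)).trans
        (le_of_eq (by rw [e]; ring)))
      · rintro ⟨p, b₁, b₂⟩ hi ⟨p', b₁', b₂'⟩ hi' (rfl : p = p')
        simp only [Finset.coe_filter, Set.mem_ofPred_eq, Prod.mk.injEq] at hi hi'
        have h1 := mul_left_cancel₀ (hmem _ hi.1).1 (hi.2.1.trans hi'.2.1.symm)
        have h2 := hi.2.2.trans hi'.2.2.symm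
        rw [h1, h2]
      · rw [← (Prod.mk.inj (Finset.mem_filter.1 hi).2).1]; exact dvd_mul_right _ _
      · rw [← (Prod.mk.inj (Finset.mem_filter.1 hi).2).1]
        exact (hmem i (Finset.mem_filter.1 hi).1).2.1
      · rintro ⟨p, b₁, b₂⟩ hi ⟨p', b₁', b₂'⟩ hi' (rfl : p = p')
        simp only [Finset.coe_filter, Set.mem_ofPred_eq, Prod.mk.injEq] at hi hi'
        have h1 := mul_left_cancel₀ (hmem _ hi.1).1 (hi.2.2.trans hi'.2.2.symm)
        have h2 := hi.2.1.trans hi'.2.1.symm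
        rw [h1, h2]
      · rw [← (Prod.mk.inj (Finset.mem_filter.1 hi).2).2]; exact dvd_mul_right _ _
      · rw [← (Prod.mk.inj (Finset.mem_filter.1 hi).2).2]
        exact (hmem i (Finset.mem_filter.1 hi).1).2.2.1
      · rw [norm_mul, Complex.norm_conj]
        exact (mul_le_of_le_one_left (norm_nonneg _) (hψ _)).trans (hw i)
    · have hex : ∃ p b₁ b₂ : O, slot Q (Z 0) y p ≠ 0 ∧ A b₁ b₂ ≠ 0 ∧
          ((p * b₁, b₂) = (c₁, c₂) ∨ (b₁, p * b₂) = (c₁, c₂)) := by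
        by_contra hc
        push Not at hc
        refine h ?_
        dsimp only
        rw [Finset.sum_eq_zero, Finset.sum_eq_zero, sub_zero]
        · intro i hi
          by_contra h0
          exact (hc _ _ _ (left_ne_zero_of_mul (right_ne_zero_of_mul h0))
            (right_ne_zero_of_mul (right_ne_zero_of_mul h0))).2 (Finset.mem_filter.1 hi).2
        · intro i hi
          by_contra h0
          exact (hc _ _ _ (left_ne_zero_of_mul h0) (right_ne_zero_of_mul h0)).1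
            (Finset.mem_filter.1 hi).2
      obtain ⟨p, b₁, b₂, h1, h2, h3⟩ := hex
      obtain ⟨p1, p2, p3, p4, p5⟩ := fk_slot h1
      obtain ⟨a1, a2, a3⟩ := hA2 b₁ b₂ h2
      have a4 : Nr p * (Nr b₁ * Nr b₂) ≤ Y * P :=
        mul_le_mul p5 a2 (mul_nonneg (Nr_nonneg _) (Nr_nonneg _)) (by linarith)
      rcases h3 with h3 | h3
      · obtain ⟨rfl, rfl⟩ := Prod.ext_iff.1 h3
        refine ⟨a1, by rw [Nr_mul, mul_assoc]; exact a4, fun q hq hd => ?_⟩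
        obtain ⟨i, hi⟩ := a3 q hq hd
        exact ⟨i.succ, hi⟩
      · obtain ⟨rfl, rfl⟩ := Prod.ext_iff.1 h3
        have hnd : ¬ p ∣ b₂ := fun hd => by
          obtain ⟨i, hi⟩ := a3 p p1 hd
          have := hS 0 i.succ (Fin.succ_pos i)
          exact absurd (hi.trans_le p5) (not_lt.2 this)
        refine ⟨⟨p2.mul a1.1, squarefree_mul_iff.2
          ⟨(p1.irreducible.coprime_iff_not_dvd.2 hnd).isRelPrime, p1.squarefree, a1.2.1⟩,
          p3.mul_left a1.2.2⟩, by rw [Nr_mul, mul_left_comm]; exact a4, fun q hq hd => ?_⟩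
        rcases hq.dvd_or_dvd hd with hd | hd
        · exact ⟨0, by rw [Nr_eq_of_associated (hq.associated_of_dvd p1 hd)]; exact p4⟩
        · obtain ⟨i, hi⟩ := a3 q hq hd
          exact ⟨i.succ, hi⟩
    · simp only [sub_mul, Finset.sum_sub_distrib]
      rw [fk_push I (fun i => (i.1 * i.2.1, i.2.2)) _ _
          (fun i hi => ⟨(hmem i hi).2.1, (hmem i hi).2.2.2.2⟩)
          (fun b₁ b₂ => TB ψ r e (b * b₂) X (M / Nr b₁)),
        fk_push I (fun i => (i.2.1, i.1 * i.2.2)) _ _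
          (fun i hi => ⟨(hmem i hi).2.2.2.1, (hmem i hi).2.2.1⟩)
          (fun b₁ b₂ => TB ψ r e (b * b₂) X (M / Nr b₁)),
        ← Finset.sum_sub_distrib, hI, Finset.sum_product, VV]
      refine Finset.sum_congr rfl fun p _ => ?_
      rw [hA3, hA3, Finset.sum_product, Finset.mul_sum, ← Finset.sum_sub_distrib, Finset.mul_sum]
      refine Finset.sum_congr rfl fun b₁ _ => ?_
      rw [Finset.mul_sum, ← Finset.sum_sub_distrib, Finset.mul_sum]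
      refine Finset.sum_congr rfl fun b₂ _ => ?_
      simp only [Nr_mul, div_div, mul_assoc]
      ring

/-- Expansion of `VV` into basic sums with bounded coefficients (independent of `r`). -/
theorem VV_expand {ε : ℝ} (hε : 0 < ε) (J : ℕ) : ∃ C : ℝ, 0 ≤ C ∧
    ∀ (Q : O) (ψ : O → ℂ) (y : ℝ) (Z : Fin J → ℝ), (∀ n, ‖ψ n‖ ≤ 1) → 1 ≤ y → (∀ i, 1 ≤ Z i) → Sep Z y →
    ∃ A : O → O → ℂ, (∀ b₁ b₂, ‖A b₁ b₂‖ ≤ C * (∏ i, Z i * y) ^ ε) ∧
      (∀ b₁ b₂, A b₁ b₂ ≠ 0 → Adm Q b₂ ∧ Nr b₁ * Nr b₂ ≤ ∏ i, Z i * y) ∧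
      ∀ (r e b : O) (X M : ℝ), VV Q ψ r y J Z e b X M =
        ∑ b₁ ∈ box (∏ i, Z i * y), ∑ b₂ ∈ box (∏ i, Z i * y), A b₁ b₂ * TB ψ r e (b * b₂) X (M / Nr b₁) := by
  obtain ⟨C, hC, h⟩ := fk_expand J hε
  refine ⟨C, hC, fun Q ψ y Z hψ hy hZ hS => ?_⟩
  obtain ⟨A, h1, h2, h3⟩ := h Q ψ y Z hψ hy hZ hS
  exact ⟨A, h1, fun b₁ b₂ hb => ⟨(h2 b₁ b₂ hb).1, (h2 b₁ b₂ hb).2.1⟩, h3⟩

end Crest.Agent.R017

end
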