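import Crest.Agent.R017.FMMainAux

/-! # Row 17: the pointwise estimate and the average for the principal rows -/

set_option autoImplicit false

noncomputable section

open scoped BigOperators ComplexConjugate
open Complex MeasureTheory Filter

namespace Crest.Agent.R017

theorem mm_alg {V T S : ℂ} {p P k a b s d : ℝ} (h1 : ‖V - T * p‖ ≤ a) (h2 : ‖T - S * k‖ ≤ b)
    (h3 : ‖S‖ ≤ s) (hp : 0 ≤ p) (hpP : p ≤ P) (hd : |p - P| ≤ d) (hk : 0 ≤ k) :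
    ‖V - S * ((k * P : ℝ) : ℂ)‖ ≤ a + b * P + s * k * d := by
  have e : V - S * ((k * P : ℝ) : ℂ) =
      (V - T * p) + (T - S * k) * p + S * k * ((p - P : ℝ) : ℂ) := by
    push_cast; ring
  rw [e]
  refine (norm_add₃_le).trans ?_
  have hb : 0 ≤ b := (norm_nonneg _).trans h2
  have hs : 0 ≤ s := (norm_nonneg _).trans h3
  rw [norm_mul, norm_mul, norm_mul, Complex.norm_real, Complex.norm_real, Complex.norm_real,
    Real.norm_eq_abs, Real.norm_eq_abs, Real.norm_eq_abs, abs_of_nonneg hp, abs_of_nonneg hk]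
  gcongr

theorem mm_P_ge {Q : O} (hQ : Q ≠ 0) {J : ℕ} {η₀ e : ℝ} (hJ : 0 < J) (hη : 0 < η₀) (he : 0 < e) :
    ∀ᶠ X : ℝ in atTop, ∀ i, Zs X η₀ J i ^ (1 - e) ≤ mmP Q (Zs X η₀ J i) (X ^ η₀) := by
  obtain ⟨Z₀, h⟩ := le_sum_slot hQ he
  have hJ' : (0 : ℝ) < J := by exact_mod_cast hJ
  filter_upwards [eventually_ge_atTop (1 : ℝ), mm_ev' (a := 1 / (6 * (J : ℝ))) (by positivity) Z₀,
    mm_ev' hη 2] with X hX h1 h2 i
  exact h _ _ (h1.trans (mm_Z_ge hX hη i)) h2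

theorem mm_log_ev {b : ℝ} (hb : 0 < b) (C : ℝ) (hC : 0 ≤ C) :
    ∀ᶠ X : ℝ in atTop, Real.log X * (C * (1 + Real.log X)) ≤ X ^ (4 * b) := by
  filter_upwards [eventually_ge_atTop (1 : ℝ),
    mm_ev' (a := 2 * b) (by positivity) (C * (1 / b) * (1 + 1 / b))] with X hX h1
  have hX0 : 0 < X := by linarith
  have h2 := Real.log_le_rpow_div hX0.le hb
  have h3 : 1 ≤ X ^ b := Real.one_le_rpow hX hb.le
  have h4 := Real.log_nonneg hX
  have h5 : 1 + Real.log X ≤ X ^ b * (1 + 1 / b) := by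
    rw [mul_add, mul_one, mul_one_div]
    linarith
  calc Real.log X * (C * (1 + Real.log X)) ≤ (X ^ b / b) * (C * (X ^ b * (1 + 1 / b))) := by
        gcongr
    _ = (C * (1 / b) * (1 + 1 / b)) * (X ^ b * X ^ b) := by ring
    _ ≤ X ^ (2 * b) * (X ^ b * X ^ b) := by gcongr
    _ = X ^ (4 * b) := by
        rw [← Real.rpow_add hX0, ← Real.rpow_add hX0]; ring_nf

theorem mm_GG_one (r : O) : 1 ≤ GG r := by
  unfold GG
  refine Finset.one_le_prod fun p _ => ?_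
  have := Nr_nonneg p
  have : 0 ≤ 100 * Nr p ^ (-(1 / 12 : ℝ)) := by positivity
  linarith

theorem mm_row {Q : O} (hQ : Q ≠ 0) (h72 : (72 : O) ∣ Q) {J : ℕ} {η₀ κ Cm : ℝ} (hJ : 0 < J)
    (hη : 0 < η₀) (hηJ : η₀ * J ^ 2 ≤ 1 / 100) (hκ : 0 < κ) (hCm : 0 ≤ Cm)
    (hmain : ∀ (θ F X M : ℝ) (ψ : O → ℂ) (r : O), IsCh Q ψ → r ≠ 0 → IsCoprime r Q →
      Princ (fun n => psi0 Q n * chi n r) → 3 / 4 ≤ θ → θ ≤ 1 → 0 ≤ F → 0 < X → 0 < M →
      (∀ Y, 0 < Y → Y ≤ X → ‖sm 1 (fun n => mu n * ψ n) Y 0‖ ≤ F * Y ^ θ) →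
      ‖TB ψ r Q 1 X M - sm 1 (fun n => mu n * ψ n) X 0 * ((κ * M : ℝ) : ℂ)‖ ≤
        F * X ^ θ * (κ * M * ((1 + 1 / 10) * GG r - 1) + Cm * Nr r ^ (1 / 10 : ℝ) * Real.sqrt M)) :
    ∀ᶠ X : ℝ in atTop, ∀ (θ F : ℝ) (ψ : O → ℂ) (r : O), IsCh Q ψ → 3 / 4 ≤ θ → θ ≤ 1 → 1 ≤ F →
      (∀ Y, 0 < Y → Y ≤ X → ‖sm 1 (fun n => mu n * ψ n) Y 0‖ ≤ F * Y ^ θ) → mmC Q r → Nr r ≤ X →
      ‖VV Q ψ r (X ^ η₀) J (Zs X η₀ J) Q 1 X (X ^ (143 / 300 : ℝ)) -
          sm 1 (fun n => mu n * ψ n) X 0 *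
            ((κ * X ^ (143 / 300 : ℝ) * ∏ i, mmP Q (Zs X η₀ J i) (X ^ η₀) : ℝ) : ℂ)‖ ≤
        F * X ^ θ * (κ * X ^ (143 / 300 : ℝ) * ∏ i, mmP Q (Zs X η₀ J i) (X ^ η₀)) *
          ((1 + 1 / 10) * GG r - 1 + 1 / 10) := by
  have hJ' : (0 : ℝ) < J := by exact_mod_cast hJ
  obtain ⟨b, hb⟩ : ∃ b : ℝ, b = 1 / (36 * (J : ℝ)) := ⟨_, rfl⟩
  have hb0 : 0 < b := by rw [hb]; positivity
  have hb6 : 1 / (6 * (J : ℝ)) = 6 * b := by rw [hb]; field_simp; norm_num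
  obtain ⟨C₁, hC₁, hVV⟩ := VV_sub_le (ε := b / 12) (by positivity) J
  obtain ⟨C₃, hC₃, hTB⟩ := mm_TB_all h72 (ε := b / 12) (by positivity)
  obtain ⟨C₄, hC₄, hPS⟩ := mm_PS
  filter_upwards [eventually_ge_atTop (1 : ℝ), eventually_ge_atTop (Nr Q),
    mm_P_ge hQ hJ hη (e := 1 / 6) (by norm_num), mm_log_ev hb0 C₄ hC₄,
    mm_ev (a := 143 / 600 - 1 / 10) (δ := κ / 30) (by norm_num) (by positivity) Cm,
    mm_ev hb0 (δ := 1 / 30) (by norm_num) (J * 2 ^ J),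
    mm_ev (a := b / 2) (δ := κ / 30) (by positivity) (by positivity) (C₁ * C₃ * (J * 2 ^ J))]
    with X hX hXQ hP hlog hs1 hs2 hs3
  intro θ F ψ r hψ hθ hθ1 hF hS hr hrX
  have hX0 : 0 < X := by linarith
  have hr0 := mm_ne h72 hr.1
  have hZ1 := mm_Z_one (J := J) hX hη
  have hXX : X ≤ X ^ 2 := by nlinarith
  have hx1 : 1 ≤ X ^ 2 := hX.trans hXX
  obtain ⟨M, hM⟩ : ∃ M, M = X ^ (143 / 300 : ℝ) := ⟨_, rfl⟩
  have hM0 : 0 < M := hM ▸ Real.rpow_pos_of_pos hX0 _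
  have hMX : M ≤ X := by
    rw [hM]
    conv_rhs => rw [← Real.rpow_one X]
    exact Real.rpow_le_rpow_of_exponent_le hX (by norm_num)
  rw [← hM]
  choose t ht ht0 htP hPt using fun i => hPS Q r (Zs X η₀ J i) (X ^ η₀) h72 hr (hZ1 i)
  obtain ⟨τ, hτ⟩ : ∃ τ, τ = X ^ (-b) := ⟨_, rfl⟩
  have hτ0 : 0 ≤ τ := hτ ▸ (Real.rpow_pos_of_pos hX0 _).le
  have hτ1 : τ ≤ 1 := hτ ▸ Real.rpow_le_one_of_one_le_of_nonpos hX (by linarith)
  have hP0 : ∀ i, 0 ≤ mmP Q (Zs X η₀ J i) (X ^ η₀) := fun i => (ht0 i).trans (htP i)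
  have hZτ : ∀ i, Zs X η₀ J i ^ (2 / 3 : ℝ) ≤ τ * mmP Q (Zs X η₀ J i) (X ^ η₀) := by
    intro i
    have hZ0 : 0 < Zs X η₀ J i := by linarith [hZ1 i]
    have h1 : Zs X η₀ J i ^ (-(1 / 6) : ℝ) ≤ τ := by
      have h2 := mm_Z_ge hX hη i
      rw [hb6] at h2
      refine (Real.rpow_le_rpow_of_nonpos (Real.rpow_pos_of_pos hX0 _) h2 (by norm_num)).trans
        (le_of_eq ?_)
      rw [hτ, ← Real.rpow_mul hX0.le]
      ring_nf
    calc Zs X η₀ J i ^ (2 / 3 : ℝ)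
        = Zs X η₀ J i ^ (-(1 / 6) : ℝ) * Zs X η₀ J i ^ (1 - 1 / 6 : ℝ) := by
          rw [← Real.rpow_add hZ0]; norm_num
      _ ≤ _ := mul_le_mul h1 (hP i) (by positivity) hτ0
  have hPt' : ∀ i, |t i - mmP Q (Zs X η₀ J i) (X ^ η₀)| ≤ τ * mmP Q (Zs X η₀ J i) (X ^ η₀) := by
    intro i
    rw [abs_sub_comm, abs_of_nonneg (sub_nonneg.2 (htP i))]
    refine (hPt i).trans (le_trans ?_ (hZτ i))
    have h1 : Real.log (Nr r) ≤ Real.log X := Real.log_le_log (Nr_pos hr0) hrX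
    have h2 : Real.log (Zs X η₀ J i) ≤ Real.log X :=
      Real.log_le_log (by linarith [hZ1 i]) (mm_Z_le hX hη hηJ i)
    have h3 := Real.log_nonneg (hZ1 i)
    have h4 := Real.log_nonneg hX
    have h5 : X ^ (4 * b) ≤ Zs X η₀ J i ^ (2 / 3 : ℝ) := by
      have h2 := mm_Z_ge hX hη i
      rw [hb6] at h2
      refine le_trans (le_of_eq ?_)
        (Real.rpow_le_rpow (Real.rpow_pos_of_pos hX0 _).le h2 (by norm_num))
      rw [← Real.rpow_mul hX0.le]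
      ring_nf
    refine le_trans ?_ (hlog.trans h5)
    gcongr
  obtain ⟨Pi, hPi⟩ : ∃ Pi, Pi = ∏ i, mmP Q (Zs X η₀ J i) (X ^ η₀) := ⟨_, rfl⟩
  have hPi0 : 0 ≤ Pi := hPi ▸ Finset.prod_nonneg fun i _ => hP0 i
  have hd1 : |∏ i, t i - Pi| ≤ J * 2 ^ J * τ * Pi := by
    have := mm_prod Finset.univ t (fun i => mmP Q (Zs X η₀ J i) (X ^ η₀))
      (fun i => mmP Q (Zs X η₀ J i) (X ^ η₀)) hτ0
      (fun i => ⟨ht0 i, by linarith [htP i, hP0 i]⟩) (fun i => ⟨hP0 i, by linarith [hP0 i]⟩) hPt'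
    simpa only [Finset.card_univ, Fintype.card_fin, ← hPi] using this
  have hd2 : ∏ i, (t i + Zs X η₀ J i ^ (2 / 3 : ℝ)) - ∏ i, t i ≤ J * 2 ^ J * τ * Pi := by
    have hz : ∀ i, 0 ≤ Zs X η₀ J i ^ (2 / 3 : ℝ) := fun i => by
      have := hZ1 i
      positivity
    have := mm_prod Finset.univ (fun i => t i + Zs X η₀ J i ^ (2 / 3 : ℝ)) t
      (fun i => mmP Q (Zs X η₀ J i) (X ^ η₀)) hτ0
      (fun i => ⟨add_nonneg (ht0 i) (hz i), by
        have h1 := hZτ i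
        have h2 : τ * mmP Q (Zs X η₀ J i) (X ^ η₀) ≤ 1 * mmP Q (Zs X η₀ J i) (X ^ η₀) :=
          mul_le_mul_of_nonneg_right hτ1 (hP0 i)
        linarith [htP i]⟩)
      (fun i => ⟨ht0 i, by linarith [htP i, hP0 i]⟩)
      (fun i => by rw [add_sub_cancel_left, abs_of_nonneg (hz i)]; exact hZτ i)
    refine (le_abs_self _).trans ?_
    simpa only [Finset.card_univ, Fintype.card_fin, ← hPi] using this
  have hQL : Nr Q * ∏ i, (Zs X η₀ J i * X ^ η₀) ≤ X ^ 2 := by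
    have h1 := mm_L hX hη hηJ
    have h2 : X ^ (1 / 5 : ℝ) ≤ X := by
      conv_rhs => rw [← Real.rpow_one X]
      exact Real.rpow_le_rpow_of_exponent_le hX (by norm_num)
    have h3 : 0 ≤ ∏ i, (Zs X η₀ J i * X ^ η₀) := Finset.prod_nonneg fun i _ => by
      have := hZ1 i
      positivity
    rw [sq]
    exact mul_le_mul hXQ (h1.trans h2) h3 hX0.le
  have key := hVV (X ^ 2) (X ^ η₀) θ 1 (2 / 3) (C₃ * (X ^ 2) ^ (2 * (b / 12)) * F) X M Q ψ r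
    (fun _ => 1) (Zs X η₀ J) hx1 (Real.one_le_rpow hX hη.le) hψ (mm_six h72) hr0 (hrX.trans hXX) hZ1
    (mm_sep hX hη) (by linarith) zero_le_one (by norm_num) (by norm_num) (by positivity)
    (fun _ => le_rfl)
    (fun p _ a c hp => by simpa using mm_KK (r := r) hp hθ a c 1)
    (hTB (X ^ 2) θ F X M ψ r hx1 hψ hr (hrX.trans hXX) hXX (hMX.trans hXX) hθ hθ1 hF hS)
    Q X M dvd_rfl hQ hQL (fun i p h => (mm_slot h).2.2) hX0 le_rfl hM0 le_rfl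
  have hnt : ∀ i, ‖PS Q (Zs X η₀ J i) (X ^ η₀) (fun p => chi p r)‖ = t i := fun i => by
    rw [ht i, Complex.norm_real, Real.norm_eq_abs, abs_of_nonneg (ht0 i)]
  simp only [hnt, Finset.prod_const_one, mul_one, Real.rpow_one] at key
  simp only [ht, ← Complex.ofReal_prod] at key
  have hFX : 0 ≤ F * X ^ θ := by positivity
  have ha : ‖VV Q ψ r (X ^ η₀) J (Zs X η₀ J) Q 1 X M - TB ψ r Q 1 X M * ((∏ i, t i : ℝ) : ℂ)‖ ≤
      F * X ^ θ * (M * Pi) * (κ / 30) := by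
    refine key.trans ?_
    have e1 : (X ^ 2) ^ (b / 12) * (X ^ 2) ^ (2 * (b / 12)) * τ = X ^ (-(b / 2)) := by
      rw [hτ, ← Real.rpow_natCast, ← Real.rpow_mul hX0.le, ← Real.rpow_mul hX0.le,
        ← Real.rpow_add hX0, ← Real.rpow_add hX0]
      push_cast
      ring_nf
    calc _ ≤ C₁ * (X ^ 2) ^ (b / 12) * (C₃ * (X ^ 2) ^ (2 * (b / 12)) * F) * X ^ θ * M *
          (J * 2 ^ J * τ * Pi) := by gcongr
      _ = F * X ^ θ * (M * Pi) * (C₁ * C₃ * (J * 2 ^ J) *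
          ((X ^ 2) ^ (b / 12) * (X ^ 2) ^ (2 * (b / 12)) * τ)) := by ring
      _ ≤ _ := by rw [e1]; gcongr
  have hb' : ‖TB ψ r Q 1 X M - sm 1 (fun n => mu n * ψ n) X 0 * ((κ * M : ℝ) : ℂ)‖ ≤
      F * X ^ θ * (κ * M * ((1 + 1 / 10) * GG r - 1) + M * (κ / 30)) := by
    refine (hmain θ F X M ψ r hψ hr0 hr.1 hr.2 hθ hθ1 (by linarith) hX0 hM0 hS).trans ?_
    have h1 : Nr r ^ (1 / 10 : ℝ) ≤ X ^ (1 / 10 : ℝ) :=
      Real.rpow_le_rpow (Nr_nonneg r) hrX (by norm_num)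
    have h2 : X ^ (1 / 10 : ℝ) * Real.sqrt M = M * X ^ (-(143 / 600 - 1 / 10 : ℝ)) := by
      rw [Real.sqrt_eq_rpow, hM, ← Real.rpow_mul hX0.le, ← Real.rpow_add hX0, ← Real.rpow_add hX0]
      norm_num
    have h3 : Cm * Nr r ^ (1 / 10 : ℝ) * Real.sqrt M ≤ M * (κ / 30) := by
      calc Cm * Nr r ^ (1 / 10 : ℝ) * Real.sqrt M ≤ Cm * X ^ (1 / 10 : ℝ) * Real.sqrt M := by gcongr
        _ = M * (Cm * X ^ (-(143 / 600 - 1 / 10 : ℝ))) := by rw [mul_assoc, h2]; ring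
        _ ≤ _ := by gcongr
    gcongr
  have hd1' : |∏ i, t i - Pi| ≤ 1 / 30 * Pi := by
    refine hd1.trans ?_
    rw [hτ]
    gcongr
  have hpP : ∏ i, t i ≤ Pi := hPi ▸ Finset.prod_le_prod (fun i _ => ht0 i) (fun i _ => htP i)
  rw [← hPi]
  refine (mm_alg ha hb' (hS X hX0 le_rfl) (Finset.prod_nonneg fun i _ => ht0 i) hpP hd1'
    (by positivity)).trans (le_of_eq ?_)
  ring

open Classical in
/-- The principal unit rows. -/
def mmU (Q : O) : Finset O :=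
  (box 1).filter (fun u => IsUnit u ∧ Princ (fun n => psi0 Q n * chi n u))

theorem mm_mem_U {Q u : O} : u ∈ mmU Q ↔ IsUnit u ∧ Princ (fun n => psi0 Q n * chi n u) := by
  classical
  unfold mmU
  rw [Finset.mem_filter, mem_box]
  exact ⟨fun h => h.2, fun h => ⟨⟨h.1.ne_zero, (isUnit_iff_Nr.1 h.1).le⟩, h⟩⟩

theorem mm_one_mem {Q : O} (h72 : (72 : O) ∣ Q) : (1 : O) ∈ mmU Q := by
  rw [mm_mem_U]
  refine ⟨isUnit_one, fun n _ h => ?_⟩
  by_cases hc : IsCoprime n Q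
  · simp only [psi0, if_pos hc, one_mul]
    exact chi_one_right (hc.of_isCoprime_of_dvd_right (mm_six h72))
  · simp [psi0, hc] at h

theorem mm_princ_iff {Q u k : O} (hQ : Q ≠ 0) (h72 : (72 : O) ∣ Q) (hu : IsUnit u) (hk : k ≠ 0) :
    Princ (fun n => psi0 Q n * chi n (u * k ^ 6)) ↔ Princ (fun n => psi0 Q n * chi n u) := by
  classical
  rw [← ((isCh_psi0 hQ (mm_three h72)).mul_chi h72 hu.ne_zero).princ_coprime hk]
  have e : (fun n => psi0 Q n * chi n (u * k ^ 6)) =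
      (fun n => if IsCoprime n k then psi0 Q n * chi n u else 0) := by
    ext n
    by_cases hc : IsCoprime n Q
    · have hn := mm_ne h72 hc
      have h6 : IsCoprime n 6 := hc.of_isCoprime_of_dvd_right (mm_six h72)
      rw [chi_mul_right, chi_pow_right _ _ (by norm_num), chi_pow_six hn]
      by_cases h1 : IsCoprime n k
      · rw [if_pos h1, if_pos (h6.mul_right h1), mul_one]
      · rw [if_neg h1, if_neg (fun h => h1 h.of_mul_right_right), mul_zero, mul_zero]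
    · simp [psi0, hc]
  rw [e]

theorem mm_six_free_one : ∀ q : O, Prime q → ¬ q ^ 6 ∣ 1 := fun _ hq h =>
  hq.not_isUnit (isUnit_of_dvd_one ((dvd_pow_self _ (by norm_num)).trans h))

theorem mm_struct {Q r : O} (hQ : Q ≠ 0) (h72 : (72 : O) ∣ Q) (h : mmC Q r) :
    ∃ u k, u ∈ mmU Q ∧ Prim k ∧ IsCoprime k Q ∧ r = u * k ^ 6 := by
  have hr0 := mm_ne h72 h.1
  have hl : ¬ lam ∣ r := coprime_three_iff.1 (h.1.of_isCoprime_of_dvd_right (mm_three h72))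
  obtain ⟨v, hv, hvr⟩ := exists_prim hl
  obtain ⟨⟨k, r'⟩, ⟨hk, hr', hfree, he⟩, -⟩ := exists_six hvr
  simp only at hk hr' hfree he
  have hE : Exc Q 1 r := by
    by_contra hne
    have := not_princ_of_not_exc (isCh_psi0 hQ (mm_three h72)) h72 (by simpa using hr0) hne
    rw [mul_one] at this
    exact this h.2
  have hcop : IsCoprime (k ^ 6 * r') Q := by
    rw [← he]
    exact (isCoprime_mul_unit_left_left hv _ _).2 h.1
  have hr1 : r' = 1 := by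
    apply hr'.eq_one_of_isUnit
    by_contra hnu
    obtain ⟨p, hp, hpr⟩ := WfDvdMonoid.exists_irreducible_factor hnu hr'.ne_zero
    have hpp := hp.prime
    have hpQ : ¬ p ∣ Q := fun hd =>
      hpp.not_isUnit (hcop.isUnit_of_dvd' (hpr.mul_left _) hd)
    have h6 := hE p hpp hpQ
    rw [mul_one] at h6
    have hm : multiplicity p (v * r) = multiplicity p r := by
      rw [a4_mm hpp hv.ne_zero hr0, multiplicity_eq_zero.2 (fun hd => hpp.not_isUnit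
        (isUnit_of_dvd_unit hd hv)), zero_add]
    rw [he, a4_mm hpp (pow_ne_zero _ hk.ne_zero) hr'.ne_zero, a4_mp hpp hk.ne_zero] at hm
    have hpos : multiplicity p r' ≠ 0 := fun h0 => (multiplicity_eq_zero.1 h0) hpr
    apply hfree p hpp
    refine (pow_dvd_pow p ?_).trans (pow_multiplicity_dvd p r')
    omega
  rw [hr1, mul_one] at he hcop
  obtain ⟨v, rfl⟩ := hv
  have hre : r = (↑v⁻¹ : O) * k ^ 6 := by rw [← he, Units.inv_mul_cancel_left]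
  refine ⟨↑v⁻¹, k, ?_, hk, (IsCoprime.pow_left_iff (by norm_num)).1 hcop, hre⟩
  rw [mm_mem_U]
  refine ⟨Units.isUnit _, ?_⟩
  rw [← mm_princ_iff hQ h72 (Units.isUnit _) hk.ne_zero, ← hre]
  exact h.2

theorem mm_struct' {Q u k : O} (hQ : Q ≠ 0) (h72 : (72 : O) ∣ Q) (hu : u ∈ mmU Q) (hk : Prim k)
    (hkQ : IsCoprime k Q) : mmC Q (u * k ^ 6) := by
  rw [mm_mem_U] at hu
  exact ⟨(isCoprime_mul_unit_left_left hu.1 _ _).2 hkQ.pow_left,
    (mm_princ_iff hQ h72 hu.1 hk.ne_zero).2 hu.2⟩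

open Classical in
theorem mm_hasSum {Q : O} (hQ : Q ≠ 0) (h72 : (72 : O) ∣ Q) (h g : O → ℝ) (hg0 : ∀ k, 0 ≤ g k)
    (hg : Summable g) (hs : ∀ k, g k ≠ 0 → Prim k ∧ IsCoprime k Q)
    (hhg : ∀ u k, IsUnit u → Prim k → IsCoprime k Q → h (u * k ^ 6) = g k) :
    HasSum (fun r => if mmC Q r then h r else 0) ((mmU Q).card * ∑' k, g k) := by
  let φ : mmU Q × {k : O | Prim k ∧ IsCoprime k Q} → O := fun x => x.1.1 * x.2.1 ^ 6
  have hφ : Function.Injective φ := by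
    rintro ⟨⟨u, hu⟩, ⟨k, hk, hkQ⟩⟩ ⟨⟨u', hu'⟩, ⟨k', hk', hkQ'⟩⟩ he
    have he' : u * k ^ 6 = u' * k' ^ 6 := he
    have h1 : k ^ 6 = k' ^ 6 := by
      apply (hk.pow 6).eq_of_associated (hk'.pow 6)
      have a1 := (associated_unit_mul_left (k ^ 6) u (mm_mem_U.1 hu).1)
      have a2 := (associated_unit_mul_left (k' ^ 6) u' (mm_mem_U.1 hu').1)
      rw [he'] at a1
      exact a1.symm.trans a2
    have h2 : u = u' := by
      rw [h1] at he'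
      exact mul_right_cancel₀ (pow_ne_zero _ hk'.ne_zero) he'
    have h3 : k = k' := by
      have := (exists_six (hk.pow 6)).unique (y₁ := (k, 1)) (y₂ := (k', 1))
        ⟨hk, prim_one, mm_six_free_one, by simp⟩ ⟨hk', prim_one, mm_six_free_one, by simp [h1]⟩
      exact congrArg Prod.fst this
    subst h2 h3
    rfl
  rw [← hφ.hasSum_iff]
  · have h1 : HasSum (fun _ : mmU Q => (1 : ℝ)) ((mmU Q).card) := by
      simpa using hasSum_fintype (fun _ : mmU Q => (1 : ℝ))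
    have h2 : HasSum (g ∘ ((↑) : {k : O | Prim k ∧ IsCoprime k Q} → O)) (∑' k, g k) :=
      (hasSum_subtype_iff_of_support_subset (fun k hk => hs k hk)).2 hg.hasSum
    have h3 := h1.mul h2 (h1.summable.mul_of_nonneg h2.summable (fun _ => zero_le_one)
      (fun k => hg0 k))
    rw [show ((fun r => if mmC Q r then h r else 0) ∘ φ) = fun x => (1 : ℝ) *
      (g ∘ ((↑) : {k : O | Prim k ∧ IsCoprime k Q} → O)) x.2 from ?_]
    · exact h3
    funext ⟨⟨u, hu⟩, ⟨k, hk, hkQ⟩⟩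
    simp only [Function.comp, φ, one_mul]
    rw [if_pos (mm_struct' hQ h72 hu hk hkQ), hhg u k (mm_mem_U.1 hu).1 hk hkQ]
  · intro r hr
    rw [if_neg]
    intro hc
    obtain ⟨u, k, hu, hk, hkQ, he⟩ := mm_struct hQ h72 hc
    exact hr ⟨(⟨u, hu⟩, ⟨k, hk, hkQ⟩), he.symm⟩

theorem mm_GG_eq {u k : O} (hu : IsUnit u) (hk : k ≠ 0) : GG (u * k ^ 6) = GG k := by
  unfold GG
  congr 1
  ext p
  rw [mem_pf (mul_ne_zero hu.ne_zero (pow_ne_zero _ hk)), mem_pf hk]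
  refine and_congr_right fun hp => ?_
  rw [hu.dvd_mul_left, hp.1.dvd_pow_iff_dvd (by norm_num)]

open Classical in
/-- The weight of a row. -/
def mmW (Q : O) (R : ℝ) (r : O) : ℝ := if mmC Q r then Phi (Nr r / R) else 0

theorem mm_avg {Q : O} (hQ : Q ≠ 0) (h72 : (72 : O) ∣ Q) {R c η : ℝ}
    (h : Summable (wk Q R) ∧ Summable (fun k => wk Q R k * GG k) ∧
      c ≤ ∑' k, wk Q R k ∧ ∑' k, wk Q R k * GG k ≤ η * ∑' k, wk Q R k) :
    Summable (mmW Q R) ∧ Summable (fun r => mmW Q R r * GG r) ∧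
      c ≤ ∑' r, mmW Q R r ∧ ∑' r, mmW Q R r * GG r ≤ η * ∑' r, mmW Q R r := by
  classical
  obtain ⟨h1, h2, h3, h4⟩ := h
  have hw0 : ∀ k, 0 ≤ wk Q R k := fun k => by
    unfold wk; split_ifs
    · exact (Phi_pos _).le
    · exact le_rfl
  have hws : ∀ k, wk Q R k ≠ 0 → Prim k ∧ IsCoprime k Q := fun k hk => by
    by_contra hc
    exact hk (if_neg hc)
  have hN : ∀ u k : O, IsUnit u → Prim k → IsCoprime k Q →
      Phi (Nr (u * k ^ 6) / R) = wk Q R k := fun u k hu hk hkQ => by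
    rw [wk, if_pos ⟨hk, hkQ⟩, Nr_mul, isUnit_iff_Nr.1 hu, one_mul, Nr_pow]
  have a1 : HasSum (mmW Q R) ((mmU Q).card * ∑' k, wk Q R k) :=
    mm_hasSum hQ h72 (fun r => Phi (Nr r / R)) (wk Q R) hw0 h1 hws hN
  have a2 : HasSum (fun r => mmW Q R r * GG r) ((mmU Q).card * ∑' k, wk Q R k * GG k) := by
    have := mm_hasSum hQ h72 (fun r => Phi (Nr r / R) * GG r) (fun k => wk Q R k * GG k)
      (fun k => mul_nonneg (hw0 k) (zero_le_one.trans (mm_GG_one k))) h2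
      (fun k hk => hws k (left_ne_zero_of_mul hk))
      (fun u k hu hk hkQ => by rw [hN u k hu hk hkQ, mm_GG_eq hu hk.ne_zero])
    convert this using 1
    ext r
    unfold mmW
    split_ifs <;> simp
  have hc1 : (1 : ℝ) ≤ (mmU Q).card := by
    exact_mod_cast Finset.card_pos.2 ⟨1, mm_one_mem h72⟩
  have hS0 : 0 ≤ ∑' k, wk Q R k := tsum_nonneg hw0
  refine ⟨a1.summable, a2.summable, ?_, ?_⟩
  · rw [a1.tsum_eq]
    nlinarith
  · rw [a1.tsum_eq, a2.tsum_eq]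
    calc _ ≤ ((mmU Q).card : ℝ) * (η * ∑' k, wk Q R k) := by gcongr
      _ = _ := by ring

theorem mm_W_nonneg (Q : O) (R : ℝ) (r : O) : 0 ≤ mmW Q R r := by
  unfold mmW; split_ifs
  · exact (Phi_pos _).le
  · exact le_rfl

theorem mm_tail (Q : O) {D δ : ℝ} (hD : 0 ≤ D) (hδ : 0 < δ) : ∀ᶠ X : ℝ in atTop,
    Summable (fun r => mmW Q (X ^ (81 / 100 : ℝ)) r * (if X < Nr r then D * X ^ (4 : ℕ) else 0)) ∧
    ∑' r, mmW Q (X ^ (81 / 100 : ℝ)) r * (if X < Nr r then D * X ^ (4 : ℕ) else 0) ≤ δ := by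
  obtain ⟨C₁, h₁⟩ := Phi_le_rpow (A := 30) (by norm_num)
  obtain ⟨C₂, h₂⟩ := tsum_tail_rpow_le (σ := 30) (by norm_num)
  have hC₁ : 0 ≤ C₁ := by
    have := (Phi_pos 1).le.trans (h₁ 1 one_pos)
    simpa using this
  filter_upwards [eventually_ge_atTop (1 : ℝ),
    mm_ev (a := 7 / 10) (δ := δ) (by norm_num) hδ (D * C₁ * C₂)] with X hX hs
  have hX0 : 0 < X := by linarith
  have hR : 0 < X ^ (81 / 100 : ℝ) := Real.rpow_pos_of_pos hX0 _
  have hsum : Summable (fun r : O => if X < Nr r then Nr r ^ (-(30 : ℝ)) else 0) := by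
    refine Summable.of_nonneg_of_le (b2_ite_nonneg _ _) (fun r => ?_)
      (summable_Nr_rpow (σ := 30) (by norm_num))
    have := Nr_nonneg r
    split_ifs
    · exact le_rfl
    · positivity
  have hle : ∀ r, mmW Q (X ^ (81 / 100 : ℝ)) r * (if X < Nr r then D * X ^ (4 : ℕ) else 0) ≤
      (D * X ^ (4 : ℕ) * C₁ * X ^ (243 / 10 : ℝ)) * (if X < Nr r then Nr r ^ (-(30 : ℝ)) else 0) := by
    intro r
    split_ifs with hr
    · have hr0 : 0 < Nr r := hX0.trans hr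
      have h1 : mmW Q (X ^ (81 / 100 : ℝ)) r ≤ Phi (Nr r / X ^ (81 / 100 : ℝ)) := by
        unfold mmW; split_ifs
        · exact le_rfl
        · exact (Phi_pos _).le
      have h2 := h₁ _ (div_pos hr0 hR)
      have e : (Nr r / X ^ (81 / 100 : ℝ)) ^ (-(30 : ℝ)) =
          Nr r ^ (-(30 : ℝ)) * X ^ (243 / 10 : ℝ) := by
        rw [Real.div_rpow hr0.le hR.le, ← Real.rpow_mul hX0.le, div_eq_mul_inv,
          ← Real.rpow_neg hX0.le]
        norm_num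
      rw [e] at h2
      calc _ ≤ (C₁ * (Nr r ^ (-(30 : ℝ)) * X ^ (243 / 10 : ℝ))) * (D * X ^ (4 : ℕ)) := by
            gcongr
            exact h1.trans h2
        _ = _ := by ring
    · simp
  have hnn : ∀ r, 0 ≤ mmW Q (X ^ (81 / 100 : ℝ)) r * (if X < Nr r then D * X ^ (4 : ℕ) else 0) := by
    intro r
    have := mm_W_nonneg Q (X ^ (81 / 100 : ℝ)) r
    split_ifs <;> positivity
  have hS := Summable.of_nonneg_of_le hnn hle (hsum.mul_left _)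
  refine ⟨hS, (hS.tsum_le_tsum hle (hsum.mul_left _)).trans ?_⟩
  rw [tsum_mul_left]
  refine le_trans ?_ hs
  calc _ ≤ (D * X ^ (4 : ℕ) * C₁ * X ^ (243 / 10 : ℝ)) * (C₂ * X ^ (1 - 30 : ℝ)) := by
        gcongr
        exact h₂ X hX0
    _ = D * C₁ * C₂ * (X ^ (4 : ℕ) * X ^ (243 / 10 : ℝ) * X ^ (1 - 30 : ℝ)) := by ring
    _ = _ := by
        rw [← Real.rpow_natCast, ← Real.rpow_add hX0, ← Real.rpow_add hX0]
        norm_num

end Crest.Agent.R017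

end
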