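import Crest.Agent.R017.FMRow1

/-! # Row 17: the slot induction -/

set_option autoImplicit false

noncomputable section

open scoped BigOperators ComplexConjugate
open Complex MeasureTheory

namespace Crest.Agent.R017

theorem r2v_prod (c : ℝ) (hc : 1 ≤ c) : ∀ (J : ℕ) (a z : Fin J → ℝ), (∀ i, 0 ≤ a i) → (∀ i, 0 ≤ z i) →
    ∏ i, (a i + c * z i) - ∏ i, a i ≤ c ^ J * (∏ i, (a i + z i) - ∏ i, a i) := by
  intro J
  induction J with
  | zero => intro a z _ _; simp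
  | succ J ih =>
    intro a z ha hz
    have h1 := ih (fun i => a i.succ) (fun i => z i.succ) (fun i => ha _) (fun i => hz _)
    have h2 : ∏ i : Fin J, (a i.succ + c * z i.succ) ≤ c ^ J * ∏ i : Fin J, (a i.succ + z i.succ) := by
      calc ∏ i : Fin J, (a i.succ + c * z i.succ) ≤ ∏ i : Fin J, (c * (a i.succ + z i.succ)) :=
            Finset.prod_le_prod (fun i _ => by nlinarith [ha i.succ, hz i.succ])
              (fun i _ => by nlinarith [ha i.succ, hz i.succ])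
        _ = _ := by rw [Finset.prod_mul_distrib]; simp
    have h3 : ∏ i : Fin J, a i.succ ≤ ∏ i : Fin J, (a i.succ + z i.succ) :=
      Finset.prod_le_prod (fun i _ => ha _) (fun i _ => by linarith [hz i.succ])
    simp only [Fin.prod_univ_succ]
    generalize ∏ i : Fin J, (a i.succ + c * z i.succ) = P at *
    generalize ∏ i : Fin J, (a i.succ + z i.succ) = B at *
    generalize ∏ i : Fin J, a i.succ = A at *
    have hk : 0 ≤ c ^ J := by positivity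
    have h4 := mul_le_mul_of_nonneg_left h1 (ha 0)
    have h5 := mul_le_mul_of_nonneg_left h2 (mul_nonneg (by linarith : 0 ≤ c) (hz 0))
    have h6 : 0 ≤ (c - 1) * (a 0 * (c ^ J * (B - A))) :=
      mul_nonneg (by linarith) (mul_nonneg (ha 0) (mul_nonneg hk (by linarith)))
    rw [pow_succ]
    nlinarith

theorem r2v_slot_ne {Q p : O} {Z y : ℝ} (h : slot Q Z y p ≠ 0) :
    Prime p ∧ Prim p ∧ IsCoprime p Q ∧ Z / y < Nr p ∧ Nr p ≤ Z * y := by
  by_contra h'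
  exact h (by unfold slot; rw [if_neg h'])

theorem r2v_slot_rpow {Q p : O} {Z y γ : ℝ} (hZ : 1 ≤ Z) (h0 : 0 ≤ γ) (h1 : γ ≤ 1) :
    ‖slot Q Z y p‖ * Nr p ^ γ ≤ Real.exp 4 * Z ^ γ * (1 + Real.log Z) := by
  have hL : 0 ≤ Real.log Z := Real.log_nonneg hZ
  by_cases h : slot Q Z y p = 0
  · rw [h, norm_zero, zero_mul]; positivity
  have h' := r2v_slot_ne h
  have hn : 1 ≤ Nr p := one_le_Nr h'.1.ne_zero
  have hW : 0 ≤ W 1 (Nr p / Z) := (Real.exp_pos _).le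
  unfold slot
  rw [if_pos h', Complex.norm_real, Real.norm_of_nonneg (mul_nonneg (Real.log_nonneg hn) hW)]
  obtain ⟨u, hu⟩ : ∃ u, u = Real.log (Nr p / Z) := ⟨_, rfl⟩
  have e1 : Real.log (Nr p) = Real.log Z + u := by
    rw [hu, Real.log_div (by linarith) (by linarith)]; ring
  have e2 : Nr p ^ γ = Z ^ γ * Real.exp (u * γ) := by
    rw [Real.rpow_def_of_pos (by linarith), Real.rpow_def_of_pos (by linarith), e1, ← Real.exp_add]
    ring_nf
  unfold W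
  rw [← hu, e1, e2]
  have h2 : Real.log Z + u ≤ (1 + Real.log Z) * Real.exp |u| := by
    have := Real.add_one_le_exp |u|
    have := le_abs_self u
    nlinarith [abs_nonneg u]
  have h3 : Real.exp |u| * (Real.exp (-u ^ 2 / (4 * 1)) * Real.exp (u * γ)) ≤ Real.exp 4 := by
    rw [← Real.exp_add, ← Real.exp_add, Real.exp_le_exp]
    have : u * γ ≤ |u| := by nlinarith [le_abs_self u, abs_nonneg u]
    nlinarith [sq_abs u, sq_nonneg (|u| - 4)]
  have hZγ : 0 ≤ Z ^ γ := by positivity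
  calc (Real.log Z + u) * Real.exp (-u ^ 2 / (4 * 1)) * (Z ^ γ * Real.exp (u * γ))
      = (Real.log Z + u) * (Real.exp (-u ^ 2 / (4 * 1)) * Real.exp (u * γ)) * Z ^ γ := by ring
    _ ≤ ((1 + Real.log Z) * Real.exp |u|) * (Real.exp (-u ^ 2 / (4 * 1)) * Real.exp (u * γ)) * Z ^ γ := by
        gcongr
    _ = (1 + Real.log Z) * (Real.exp |u| * (Real.exp (-u ^ 2 / (4 * 1)) * Real.exp (u * γ))) * Z ^ γ := by
        ring
    _ ≤ (1 + Real.log Z) * Real.exp 4 * Z ^ γ := by gcongr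
    _ = _ := by ring

theorem r2v_mult {p r : O} (hp : Prime p) (hr : r ≠ 0) : (multiplicity p r : ℝ) ≤ Real.log (Nr r) := by
  have h1 := Nr_le_of_dvd hr (pow_multiplicity_dvd p r)
  rw [Nr_pow] at h1
  have h3 := three_le_Nr_prime hp
  have h2 : Real.exp 1 ^ multiplicity p r ≤ Nr p ^ multiplicity p r :=
    pow_le_pow_left₀ (Real.exp_pos _).le (by linarith [Real.exp_one_lt_d9]) _
  rw [← Real.exp_nat_mul, mul_one] at h2
  exact (Real.le_log_iff_exp_le (Nr_pos hr)).2 (h2.trans h1)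

open Classical in
/-- the local error weight -/
def r2v_g (r : O) (γ : ℝ) (p : O) : ℝ :=
  if p ∣ r then 1 + 2 * (multiplicity p r + 1) * Nr p ^ γ else 2 * Nr p ^ (-(1 / 2) : ℝ)

theorem r2v_sum : ∃ K : ℝ, 1 ≤ K ∧ ∀ (x y γ Z : ℝ) (Q r : O), r ≠ 0 → Nr r ≤ x → 1 ≤ Z → Z ≤ x →
    1 / 2 ≤ γ → γ ≤ 1 → ∑ p ∈ box (Z * y), ‖slot Q Z y p‖ * r2v_g r γ p ≤
      K * (1 + Real.log x) ^ 3 * Z ^ γ := by
  classical
  obtain ⟨C, hC, h⟩ := sum_slot_rpow_le (-(1 / 2) : ℝ)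
  refine ⟨1 + 2 * C + 3 * Real.exp 4, by linarith [Real.exp_pos 4], fun x y γ Z Q r hr hrx hZ hZx h0 h1 => ?_⟩
  have hL : 0 ≤ Real.log x := Real.log_nonneg (hZ.trans hZx)
  have hLZ0 : 0 ≤ Real.log Z := Real.log_nonneg hZ
  have hLZ : Real.log Z ≤ Real.log x := Real.log_le_log (by linarith) hZx
  have hLr : Real.log (Nr r) ≤ Real.log x := Real.log_le_log (Nr_pos hr) hrx
  obtain ⟨L, hLe⟩ : ∃ L, L = Real.log x := ⟨_, rfl⟩
  rw [← hLe] at hL hLZ hLr ⊢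
  have hZγ : 0 ≤ Z ^ γ := by positivity
  have hb : ∀ p ∈ box (Z * y), ‖slot Q Z y p‖ * r2v_g r γ p ≤
      2 * (‖slot Q Z y p‖ * Nr p ^ (-(1 / 2) : ℝ)) +
        if p ∈ pf r then (3 + 2 * L) * (Real.exp 4 * Z ^ γ * (1 + L)) else 0 := by
    intro p _
    have hn0 : 0 ≤ Nr p ^ (-(1 / 2) : ℝ) := Real.rpow_nonneg (Nr_nonneg p) _
    by_cases hs : slot Q Z y p = 0
    · rw [hs, norm_zero, zero_mul, zero_mul, mul_zero, zero_add]
      split_ifs <;> positivity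
    have h' := r2v_slot_ne hs
    unfold r2v_g
    by_cases hpr : p ∣ r
    · rw [if_pos hpr, if_pos ((mem_pf hr).2 ⟨⟨h'.1, Or.inl h'.2.1⟩, hpr⟩)]
      have h2 : 1 ≤ Nr p ^ γ := Real.one_le_rpow (one_le_Nr h'.1.ne_zero) (by linarith)
      have h3 := (r2v_mult h'.1 hr).trans hLr
      have h4 : 1 + 2 * (multiplicity p r + 1) * Nr p ^ γ ≤ (3 + 2 * L) * Nr p ^ γ := by nlinarith
      have h5 : ‖slot Q Z y p‖ * Nr p ^ γ ≤ Real.exp 4 * Z ^ γ * (1 + L) :=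
        (r2v_slot_rpow hZ (by linarith) h1).trans (by gcongr)
      have h6 := mul_le_mul_of_nonneg_left h4 (norm_nonneg (slot Q Z y p))
      have h7 := mul_le_mul_of_nonneg_left h5 (by linarith : 0 ≤ 3 + 2 * L)
      have h8 : 0 ≤ ‖slot Q Z y p‖ * Nr p ^ (-(1 / 2) : ℝ) := by positivity
      linarith
    · rw [if_neg hpr]
      have : (0:ℝ) ≤ if p ∈ pf r then (3 + 2 * L) * (Real.exp 4 * Z ^ γ * (1 + L)) else 0 := by
        split_ifs <;> positivity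
      linarith
  refine (Finset.sum_le_sum hb).trans ?_
  rw [Finset.sum_add_distrib, ← Finset.mul_sum, ← Finset.sum_filter, Finset.sum_const, nsmul_eq_mul]
  have h2 := h Q Z y hZ (by norm_num)
  have h3 : Z ^ (1 + -(1 / 2) : ℝ) ≤ Z ^ γ := Real.rpow_le_rpow_of_exponent_le hZ (by linarith)
  have h4 : (((box (Z * y)).filter (fun p => p ∈ pf r)).card : ℝ) ≤ L := by
    refine le_trans ?_ ((card_pf_le hr).trans hLr)
    exact_mod_cast Finset.card_le_card fun p hp => (Finset.mem_filter.1 hp).2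
  have h5 : C * Z ^ (1 + -(1 / 2) : ℝ) * (1 + Real.log Z) ≤ C * Z ^ γ * (1 + L) ^ 3 := by
    have : 1 + Real.log Z ≤ (1 + L) ^ 3 := by nlinarith [sq_nonneg L, mul_nonneg hL (sq_nonneg L)]
    gcongr
  have h6 : (((box (Z * y)).filter (fun p => p ∈ pf r)).card : ℝ) *
      ((3 + 2 * L) * (Real.exp 4 * Z ^ γ * (1 + L))) ≤ 3 * Real.exp 4 * (1 + L) ^ 3 * Z ^ γ := by
    calc _ ≤ (1 + L) * ((3 * (1 + L)) * (Real.exp 4 * Z ^ γ * (1 + L))) := by
          gcongr <;> linarith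
      _ = _ := by ring
  have h7 : 0 ≤ (1 + L) ^ 3 * Z ^ γ := by positivity
  nlinarith

open Classical in
/-- the weight at the primes of `r` not dividing `e` -/
def r2v_P (r : O) (w : O → ℝ) (e : O) : ℝ := ∏ p ∈ (pf r).filter (fun p => ¬ p ∣ e), w p

theorem r2v_P_nonneg {r : O} {w : O → ℝ} (hw : ∀ p, 1 ≤ w p) (e : O) : 0 ≤ r2v_P r w e :=
  Finset.prod_nonneg fun p _ => zero_le_one.trans (hw p)

theorem r2v_P_le {r : O} {w : O → ℝ} (hw : ∀ p, 1 ≤ w p) (e p : O) : r2v_P r w (e * p) ≤ r2v_P r w e := by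
  classical
  refine Finset.prod_le_prod_of_subset_of_one_le (fun q hq => ?_)
    (fun q _ => zero_le_one.trans (hw q)) (fun q _ _ => hw q)
  rw [Finset.mem_filter] at hq ⊢
  exact ⟨hq.1, fun h => hq.2 (h.mul_right p)⟩

theorem r2v_P_le' {r : O} {w : O → ℝ} (hw : ∀ p, 1 ≤ w p) {e p : O} (hp : p ∈ pf r) (hpe : ¬ p ∣ e) :
    w p * r2v_P r w (e * p) ≤ r2v_P r w e := by
  classical
  unfold r2v_P
  rw [← Finset.prod_insert (by simp)]
  refine Finset.prod_le_prod_of_subset_of_one_le (fun q hq => ?_)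
    (fun q _ => zero_le_one.trans (hw q)) (fun q _ _ => hw q)
  rw [Finset.mem_insert, Finset.mem_filter] at hq
  rw [Finset.mem_filter]
  rcases hq with rfl | hq
  · exact ⟨hp, hpe⟩
  · exact ⟨hq.1, fun h => hq.2 (h.mul_right p)⟩

/-- one prime of the outer slot -/
theorem r2v_step {y α β γ E B : ℝ} {Q : O} {ψ : O → ℂ} {r : O} {w : O → ℝ} {J : ℕ} {Z : Fin J → ℝ}
    (hψ : IsCh Q ψ) (h6 : (6 : O) ∣ Q) (hr : r ≠ 0) (hα : 1 / 2 ≤ α) (hβ : 0 ≤ β) (hE : 0 ≤ E)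
    (hw : ∀ p, 1 ≤ w p) (hB : 0 ≤ B) {p e : O} (hp : Prime p) (hpp : Prim p) (hpQ : IsCoprime p Q)
    (hpe : IsCoprime p e) (hZ : ∀ i, slot Q (Z i) y p = 0)
    (hK : p ∈ pf r → ∀ a c : ℕ,
      ‖KK (p ^ (a + 1)) (p ^ c) r‖ * Nr p ^ (-(a * α + c * β)) ≤ Nr p ^ γ * w p)
    {X M : ℝ} (hX : 0 < X) (hM : 0 < M)
    (h1 : ∀ M', 0 < M' → M' ≤ M → ‖VV Q ψ r y J Z e 1 X M'‖ ≤ E * X ^ α * M' ^ β * r2v_P r w e * B)
    (h2 : ∀ X' M', 0 < X' → X' ≤ X → 0 < M' → M' ≤ M →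
      ‖VV Q ψ r y J Z (e * p) 1 X' M'‖ ≤ E * X' ^ α * M' ^ β * r2v_P r w (e * p) * B) :
    ‖VV Q ψ r y J Z e 1 X (M / Nr p) - conj (ψ p) * VV Q ψ r y J Z e (1 * p) X M -
      chi p r * VV Q ψ r y J Z e 1 X M‖ ≤ r2v_g r γ p * (E * X ^ α * M ^ β * r2v_P r w e * B) := by
  have hn : 1 ≤ Nr p := one_le_Nr hp.ne_zero
  have hn0 : 0 < Nr p := by linarith
  have hc : IsCoprime p (e * 1) := by rwa [mul_one]
  have hP := r2v_P_nonneg (r := r) hw e
  have hP' := r2v_P_nonneg (r := r) hw (e * p)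
  have hMp : (M / Nr p) ^ β ≤ M ^ β :=
    Real.rpow_le_rpow (by positivity) (div_le_self hM.le hn) hβ
  have hXα : 0 ≤ X ^ α := by positivity
  have hMβ : 0 ≤ M ^ β := by positivity
  unfold r2v_g
  by_cases hpr : p ∣ r
  · have hχ : chi p r = 0 := (chi_eq_zero hp.ne_zero).2 fun h =>
      hp.not_isUnit (h.isUnit_of_dvd' dvd_rfl (hpr.mul_left _))
    have hpf : p ∈ pf r := (mem_pf hr).2 ⟨⟨hp, Or.inl hpp⟩, hpr⟩
    have hwP := r2v_P_le' hw hpf fun h => hp.not_isUnit (hpe.isUnit_of_dvd' dvd_rfl h)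
    rw [if_pos hpr, hχ, zero_mul, sub_zero, VV_I3 hψ hp hpp hr hpr hZ one_ne_zero hc hX hM]
    refine (norm_sub_le _ _).trans ?_
    have a1 : ‖VV Q ψ r y J Z e 1 X (M / Nr p)‖ ≤ E * X ^ α * M ^ β * r2v_P r w e * B :=
      (h1 _ (by positivity) (div_le_self hM.le hn)).trans (by gcongr)
    have a2 : ∀ a c : ℕ, ‖ψ p ^ (a + 1) * KK (p ^ (a + 1)) (p ^ c) r *
        VV Q ψ r y J Z (e * p) 1 (X / Nr p ^ a) (M / Nr p ^ c)‖ ≤
        Nr p ^ γ * (E * X ^ α * M ^ β * r2v_P r w e * B) := by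
      intro a c
      have b1 := h2 (X / Nr p ^ a) (M / Nr p ^ c) (by positivity) (div_le_self hX.le (one_le_pow₀ hn))
        (by positivity) (div_le_self hM.le (one_le_pow₀ hn))
      have b2 : (X / Nr p ^ a) ^ α * (M / Nr p ^ c) ^ β = X ^ α * M ^ β * Nr p ^ (-(a * α + c * β)) := by
        rw [Real.div_rpow hX.le (by positivity), Real.div_rpow hM.le (by positivity),
          ← Real.rpow_natCast_mul hn0.le, ← Real.rpow_natCast_mul hn0.le, Real.rpow_neg hn0.le,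
          Real.rpow_add hn0]
        field_simp
      have b3 : ‖ψ p ^ (a + 1)‖ ≤ 1 := by
        rw [norm_pow]; exact pow_le_one₀ (norm_nonneg _) (hψ.norm_le p)
      rw [norm_mul, norm_mul]
      calc _ ≤ 1 * ‖KK (p ^ (a + 1)) (p ^ c) r‖ *
            (E * (X / Nr p ^ a) ^ α * (M / Nr p ^ c) ^ β * r2v_P r w (e * p) * B) := by gcongr
        _ = (‖KK (p ^ (a + 1)) (p ^ c) r‖ * Nr p ^ (-(a * α + c * β))) *
            (E * X ^ α * M ^ β * r2v_P r w (e * p) * B) := by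
          rw [mul_assoc E, b2]; ring
        _ ≤ (Nr p ^ γ * w p) * (E * X ^ α * M ^ β * r2v_P r w (e * p) * B) :=
          mul_le_mul_of_nonneg_right (hK hpf a c) (by positivity)
        _ = Nr p ^ γ * (E * X ^ α * M ^ β * (w p * r2v_P r w (e * p)) * B) := by ring
        _ ≤ _ := by gcongr
    have a3 : ‖conj (ψ p) * ∑ a ∈ Finset.range (multiplicity p r + 1), ∑ c ∈ Finset.range 2,
        ψ p ^ (a + 1) * KK (p ^ (a + 1)) (p ^ c) r *
        VV Q ψ r y J Z (e * p) 1 (X / Nr p ^ a) (M / Nr p ^ c)‖ ≤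
        2 * (multiplicity p r + 1) * Nr p ^ γ * (E * X ^ α * M ^ β * r2v_P r w e * B) := by
      rw [norm_mul, Complex.norm_conj]
      refine (mul_le_of_le_one_left (norm_nonneg _) (hψ.norm_le p)).trans ?_
      refine (norm_sum_le_of_le _ fun a _ => norm_sum_le_of_le _ fun c _ => a2 a c).trans (le_of_eq ?_)
      simp only [Finset.sum_const, Finset.card_range, nsmul_eq_mul]
      push_cast; ring
    linarith
  · have hψ1 : conj (ψ p) * ψ p = 1 := by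
      rw [Complex.conj_mul', hψ.norm_eq fun h => (hψ.zero p).1 h hpQ]; simp
    have hχn : ‖chi p r‖ = 1 :=
      k1_norm_chi (hpQ.of_isCoprime_of_dvd_right h6) (hp.irreducible.coprime_iff_not_dvd.2 hpr)
    have hχ1 : chi p r * conj (chi p r) = 1 := by rw [Complex.mul_conj', hχn]; simp
    have key : VV Q ψ r y J Z e 1 X (M / Nr p) - conj (ψ p) * VV Q ψ r y J Z e (1 * p) X M -
        chi p r * VV Q ψ r y J Z e 1 X M =
        ψ p * chi p r * chi p r * VV Q ψ r y J Z (e * p) 1 (X / Nr p) M -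
          ψ p * chi p r * VV Q ψ r y J Z (e * p) 1 (X / Nr p) (M / Nr p) := by
      have e1 := VV_I1 hψ hp hpp hpr hZ one_ne_zero hc hX hM
      have e2 := VV_I2 hψ hp hpp hpr hZ one_ne_zero hc hX hM
      rw [e1]
      linear_combination (chi p r * VV Q ψ r y J Z (e * p) 1 X M) * hψ1 + chi p r * e2 -
        (VV Q ψ r y J Z e 1 X (M / Nr p) +
          ψ p * chi p r * VV Q ψ r y J Z (e * p) 1 (X / Nr p) (M / Nr p)) * hχ1
    have hXp : (X / Nr p) ^ α ≤ Nr p ^ (-(1 / 2) : ℝ) * X ^ α := by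
      rw [Real.div_rpow hX.le hn0.le, div_eq_mul_inv, ← Real.rpow_neg hn0.le, mul_comm]
      exact mul_le_mul_of_nonneg_right (Real.rpow_le_rpow_of_exponent_le hn (by linarith)) hXα
    have hPP := r2v_P_le (r := r) hw e p
    have a1 : ∀ M', 0 < M' → M' ≤ M → ‖VV Q ψ r y J Z (e * p) 1 (X / Nr p) M'‖ ≤
        Nr p ^ (-(1 / 2) : ℝ) * (E * X ^ α * M ^ β * r2v_P r w e * B) := by
      intro M' h3 h4
      have h5 : M' ^ β ≤ M ^ β := Real.rpow_le_rpow h3.le h4 hβ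
      calc _ ≤ _ := h2 _ _ (by positivity) (div_le_self hX.le hn) h3 h4
        _ ≤ E * (Nr p ^ (-(1 / 2) : ℝ) * X ^ α) * M ^ β * r2v_P r w e * B := by gcongr
        _ = _ := by ring
    rw [if_neg hpr, key]
    refine (norm_sub_le _ _).trans ?_
    simp only [norm_mul, hχn, mul_one]
    have a2 := a1 M hM le_rfl
    have a3 := a1 (M / Nr p) (div_pos hM hn0) (div_le_self hM.le hn)
    have a4 := mul_le_of_le_one_left (norm_nonneg (VV Q ψ r y J Z (e * p) 1 (X / Nr p) M)) (hψ.norm_le p)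
    have a5 := mul_le_of_le_one_left
      (norm_nonneg (VV Q ψ r y J Z (e * p) 1 (X / Nr p) (M / Nr p))) (hψ.norm_le p)
    linarith

theorem r2v_ind {x y α β γ E X₀ M₀ c : ℝ} {Q : O} {ψ : O → ℂ} {r : O} {w : O → ℝ} (hy : 1 ≤ y)
    (hψ : IsCh Q ψ) (h6 : (6 : O) ∣ Q) (hr : r ≠ 0) (hα : 1 / 2 ≤ α) (hβ : 0 ≤ β) (hE : 0 ≤ E)
    (hw : ∀ p, 1 ≤ w p) (hc : 0 ≤ c)
    (hK : ∀ p ∈ pf r, ∀ a c : ℕ, Prim p →
      ‖KK (p ^ (a + 1)) (p ^ c) r‖ * Nr p ^ (-(a * α + c * β)) ≤ Nr p ^ γ * w p)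
    (hT : ∀ (e : O) (X M : ℝ), Q ∣ e → e ≠ 0 → Nr e ≤ x → 0 < X → X ≤ X₀ → 0 < M → M ≤ M₀ →
      ‖TB ψ r e 1 X M‖ ≤ E * X ^ α * M ^ β * r2v_P r w e)
    (hs : ∀ Z : ℝ, 1 ≤ Z → Z ≤ x → ∑ p ∈ box (Z * y), ‖slot Q Z y p‖ * r2v_g r γ p ≤ c * Z ^ γ) :
    ∀ (J : ℕ) (Z : Fin J → ℝ), (∀ i, 1 ≤ Z i) → Sep Z y → ∀ (e : O) (X M : ℝ), Q ∣ e → e ≠ 0 →
      Nr e * ∏ i, (Z i * y) ≤ x → (∀ i p, slot Q (Z i) y p ≠ 0 → IsCoprime p e) → 0 < X → X ≤ X₀ →
      0 < M → M ≤ M₀ →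
      ‖VV Q ψ r y J Z e 1 X M - TB ψ r e 1 X M * ∏ i, PS Q (Z i) y (fun p => chi p r)‖ ≤
        E * X ^ α * M ^ β * r2v_P r w e *
          (∏ i, (‖PS Q (Z i) y (fun p => chi p r)‖ + c * Z i ^ γ) -
            ∏ i, ‖PS Q (Z i) y (fun p => chi p r)‖) := by
  intro J
  induction J with
  | zero => intro Z _ _ e X M _ _ _ _ _ _ _ _; simp [VV]
  | succ J ih =>
    intro Z hZ hsep e X M hQe he hex hcop hX hX₀ hM hM₀
    have hZ' : ∀ i, 1 ≤ Fin.tail Z i := fun i => hZ _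
    have hsep' : Sep (Fin.tail Z) y := fun i i' h => hsep _ _ (Fin.succ_lt_succ_iff.2 h)
    have hpr1 : 1 ≤ ∏ i, (Fin.tail Z i * y) :=
      Finset.prod_induction _ (fun t : ℝ => 1 ≤ t) (fun _ _ => one_le_mul_of_one_le_of_one_le) le_rfl
        fun i _ => one_le_mul_of_one_le_of_one_le (hZ' i) hy
    have hZy : 1 ≤ Z 0 * y := one_le_mul_of_one_le_of_one_le (hZ 0) hy
    rw [Fin.prod_univ_succ] at hex
    change Nr e * (Z 0 * y * ∏ i, (Fin.tail Z i * y)) ≤ x at hex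
    have hne := one_le_Nr he
    obtain ⟨B, hBe⟩ : ∃ B, B = ∏ i, (‖PS Q (Fin.tail Z i) y (fun p => chi p r)‖ + c * Fin.tail Z i ^ γ) :=
      ⟨_, rfl⟩
    obtain ⟨A, hAe⟩ : ∃ A, A = ∏ i, PS Q (Fin.tail Z i) y (fun p => chi p r) := ⟨_, rfl⟩
    have hA : ∏ i, ‖PS Q (Fin.tail Z i) y (fun p => chi p r)‖ = ‖A‖ := by rw [hAe, norm_prod]
    have hB : 0 ≤ B := hBe ▸ Finset.prod_nonneg fun i _ =>
      add_nonneg (norm_nonneg _) (mul_nonneg hc (Real.rpow_nonneg (by linarith [hZ' i]) _))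
    have ih1 := ih (Fin.tail Z) hZ' hsep'
    rw [← hBe, ← hAe, hA] at ih1
    have ih2 : ∀ (e : O) (X M : ℝ), Q ∣ e → e ≠ 0 → Nr e * ∏ i, (Fin.tail Z i * y) ≤ x →
        (∀ i p, slot Q (Fin.tail Z i) y p ≠ 0 → IsCoprime p e) → 0 < X → X ≤ X₀ → 0 < M → M ≤ M₀ →
        ‖VV Q ψ r y J (Fin.tail Z) e 1 X M‖ ≤ E * X ^ α * M ^ β * r2v_P r w e * B := by
      intro e X M a1 a2 a3 a4 a5 a6 a7 a8
      have b1 := ih1 e X M a1 a2 a3 a4 a5 a6 a7 a8
      have b2 := hT e X M a1 a2 ((le_mul_of_one_le_right (Nr_nonneg e) hpr1).trans a3) a5 a6 a7 a8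
      have b3 := norm_le_norm_add_norm_sub' (VV Q ψ r y J (Fin.tail Z) e 1 X M) (TB ψ r e 1 X M * A)
      rw [norm_mul] at b3
      have b4 := mul_le_mul_of_nonneg_right b2 (norm_nonneg A)
      linarith
    have hex' : Nr e * ∏ i, (Fin.tail Z i * y) ≤ x := by
      refine le_trans ?_ hex
      gcongr
      exact le_mul_of_one_le_left (by linarith) hZy
    have hZx : Z 0 ≤ x := by
      refine le_trans ?_ hex
      refine le_trans ?_ (le_mul_of_one_le_left (by positivity) hne)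
      exact (le_mul_of_one_le_right (by linarith [hZ 0]) hy).trans
        (le_mul_of_one_le_right (by linarith) hpr1)
    obtain ⟨D, hD⟩ : ∃ D, D = E * X ^ α * M ^ β * r2v_P r w e := ⟨_, rfl⟩
    have hD0 : 0 ≤ D := by
      have := r2v_P_nonneg (r := r) hw e
      rw [hD]; positivity
    have herr : ∀ p ∈ box (Z 0 * y), ‖slot Q (Z 0) y p *
        (VV Q ψ r y J (Fin.tail Z) e 1 X (M / Nr p) -
          conj (ψ p) * VV Q ψ r y J (Fin.tail Z) e (1 * p) X M -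
          chi p r * VV Q ψ r y J (Fin.tail Z) e 1 X M)‖ ≤
        ‖slot Q (Z 0) y p‖ * r2v_g r γ p * (D * B) := by
      intro p _
      by_cases h0 : slot Q (Z 0) y p = 0
      · simp [h0]
      obtain ⟨p1, p2, p3, -, p5⟩ := r2v_slot_ne h0
      have hlt : ∀ i q, slot Q (Fin.tail Z i) y q ≠ 0 → Nr p < Nr q := fun i q hq =>
        (p5.trans (hsep 0 i.succ (Fin.succ_pos i))).trans_lt (r2v_slot_ne hq).2.2.2.1
      rw [norm_mul, mul_assoc, hD]
      refine mul_le_mul_of_nonneg_left ?_ (norm_nonneg _)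
      refine r2v_step hψ h6 hr hα hβ hE hw hB p1 p2 p3 (hcop 0 p h0)
        (fun i => of_not_not fun h => lt_irrefl _ (hlt i p h)) (fun h a c => hK p h a c p2) hX hM
        (fun M' a1 a2 => ih2 e X M' hQe he hex' (fun i => hcop i.succ) hX hX₀ a1 (a2.trans hM₀))
        (fun X' M' a1 a2 a3 a4 => ih2 (e * p) X' M' (hQe.mul_right p) (mul_ne_zero he p1.ne_zero) ?_
          (fun i q hq => ?_) a1 (a2.trans hX₀) a3 (a4.trans hM₀))
      · refine le_trans ?_ hex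
        rw [Nr_mul, mul_assoc]
        gcongr
      · have hq' := r2v_slot_ne hq
        refine (hcop i.succ q hq).mul_right (a1_coprime ⟨hq'.1, Or.inl hq'.2.1⟩ ⟨p1, Or.inl p2⟩ ?_)
        rintro rfl
        exact lt_irrefl _ (hlt i q hq)
    have hsum := norm_sum_le_of_le _ herr
    rw [← Finset.sum_mul] at hsum
    have hsum' := hsum.trans (mul_le_mul_of_nonneg_right (hs _ (hZ 0) hZx) (mul_nonneg hD0 hB))
    have hmain := ih1 e X M hQe he hex' (fun i => hcop i.succ) hX hX₀ hM hM₀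
    rw [← hD] at hmain ⊢
    simp only [Fin.prod_univ_succ]
    change ‖VV Q ψ r y (J + 1) Z e 1 X M - TB ψ r e 1 X M * (PS Q (Z 0) y (fun p => chi p r) *
        ∏ i, PS Q (Fin.tail Z i) y (fun p => chi p r))‖ ≤
      D * ((‖PS Q (Z 0) y (fun p => chi p r)‖ + c * Z 0 ^ γ) *
        ∏ i, (‖PS Q (Fin.tail Z i) y (fun p => chi p r)‖ + c * Fin.tail Z i ^ γ) -
        ‖PS Q (Z 0) y (fun p => chi p r)‖ * ∏ i, ‖PS Q (Fin.tail Z i) y (fun p => chi p r)‖)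
    rw [← hBe, ← hAe, hA]
    have key : VV Q ψ r y (J + 1) Z e 1 X M - TB ψ r e 1 X M * (PS Q (Z 0) y (fun p => chi p r) * A) =
        (∑ p ∈ box (Z 0 * y), slot Q (Z 0) y p *
          (VV Q ψ r y J (Fin.tail Z) e 1 X (M / Nr p) -
            conj (ψ p) * VV Q ψ r y J (Fin.tail Z) e (1 * p) X M -
            chi p r * VV Q ψ r y J (Fin.tail Z) e 1 X M)) +
        PS Q (Z 0) y (fun p => chi p r) *
          (VV Q ψ r y J (Fin.tail Z) e 1 X M - TB ψ r e 1 X M * A) := by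
      have e1 : PS Q (Z 0) y (fun p => chi p r) * VV Q ψ r y J (Fin.tail Z) e 1 X M =
          ∑ p ∈ box (Z 0 * y), slot Q (Z 0) y p * (chi p r * VV Q ψ r y J (Fin.tail Z) e 1 X M) := by
        rw [PS, Finset.sum_mul]
        exact Finset.sum_congr rfl fun p _ => mul_assoc _ _ _
      rw [mul_sub (PS Q (Z 0) y fun p => chi p r), e1, ← add_sub_assoc, ← Finset.sum_add_distrib, VV]
      congr 1
      · exact Finset.sum_congr rfl fun p _ => by ring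
      · ring
    rw [key]
    refine (norm_add_le _ _).trans ?_
    rw [norm_mul]
    have := mul_le_mul_of_nonneg_left hmain (norm_nonneg (PS Q (Z 0) y (fun p => chi p r)))
    linarith

open Classical in
/-- If all basic sums obey a bound of the shape `E X^α M^β ∏ w`, the rows with slots are the basic
sum times the prime sums, up to a small error. -/
theorem VV_sub_le {ε : ℝ} (hε : 0 < ε) (J : ℕ) : ∃ C : ℝ, 1 ≤ C ∧
    ∀ (x y α β γ E X₀ M₀ : ℝ) (Q : O) (ψ : O → ℂ) (r : O) (w : O → ℝ) (Z : Fin J → ℝ),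
    1 ≤ x → 1 ≤ y → IsCh Q ψ → (6 : O) ∣ Q → r ≠ 0 → Nr r ≤ x → (∀ i, 1 ≤ Z i) → Sep Z y →
    1 / 2 ≤ α → 0 ≤ β → 1 / 2 ≤ γ → γ ≤ 1 → 0 ≤ E → (∀ p, 1 ≤ w p) →
    (∀ p ∈ pf r, ∀ a c : ℕ, Prim p →
      ‖KK (p ^ (a + 1)) (p ^ c) r‖ * Nr p ^ (-(a * α + c * β)) ≤ Nr p ^ γ * w p) →
    (∀ (e : O) (X M : ℝ), Q ∣ e → e ≠ 0 → Nr e ≤ x → 0 < X → X ≤ X₀ → 0 < M → M ≤ M₀ →
      ‖TB ψ r e 1 X M‖ ≤ E * X ^ α * M ^ β * ∏ p ∈ (pf r).filter (fun p => ¬ p ∣ e), w p) →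
    ∀ (e : O) (X M : ℝ), Q ∣ e → e ≠ 0 → Nr e * ∏ i, (Z i * y) ≤ x →
      (∀ i p, slot Q (Z i) y p ≠ 0 → IsCoprime p e) → 0 < X → X ≤ X₀ → 0 < M → M ≤ M₀ →
      ‖VV Q ψ r y J Z e 1 X M - TB ψ r e 1 X M * ∏ i, PS Q (Z i) y (fun p => chi p r)‖ ≤
        C * x ^ ε * E * X ^ α * M ^ β * (∏ p ∈ (pf r).filter (fun p => ¬ p ∣ e), w p) *
          (∏ i, (‖PS Q (Z i) y (fun p => chi p r)‖ + Z i ^ γ) - ∏ i, ‖PS Q (Z i) y (fun p => chi p r)‖) := by
  obtain ⟨K, hK, hsum⟩ := r2v_sum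
  obtain ⟨δ, hδ⟩ : ∃ δ : ℝ, δ = ε / (3 * J + 1) := ⟨_, rfl⟩
  have hδ0 : 0 < δ := by rw [hδ]; positivity
  have hδ1 : 1 ≤ 1 + 1 / δ := by have := one_div_pos.2 hδ0; linarith
  refine ⟨K ^ J * (1 + 1 / δ) ^ (3 * J), one_le_mul_of_one_le_of_one_le (one_le_pow₀ hK) (one_le_pow₀ hδ1),
    fun x y α β γ E X₀ M₀ Q ψ r w Z hx hy hψ h6 hr hrx hZ hsep hα hβ hγ hγ1 hE hw hKK hT
      e X M a1 a2 a3 a4 a5 a6 a7 a8 => ?_⟩
  have hL : 0 ≤ Real.log x := Real.log_nonneg hx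
  have hc : 1 ≤ K * (1 + Real.log x) ^ 3 :=
    one_le_mul_of_one_le_of_one_le hK (one_le_pow₀ (by linarith))
  have h1 := r2v_ind hy hψ h6 hr hα hβ hE hw (zero_le_one.trans hc) hKK hT
    (fun Z h1 h2 => hsum x y γ Z Q r hr hrx h1 h2 hγ hγ1) J Z hZ hsep e X M a1 a2 a3 a4 a5 a6 a7 a8
  have h2 := r2v_prod _ hc J (fun i => ‖PS Q (Z i) y (fun p => chi p r)‖) (fun i => Z i ^ γ)
    (fun _ => norm_nonneg _) (fun i => Real.rpow_nonneg (by linarith [hZ i]) _)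
  have h3 : (K * (1 + Real.log x) ^ 3) ^ J ≤ K ^ J * (1 + 1 / δ) ^ (3 * J) * x ^ ε := by
    have b1 : 1 + Real.log x ≤ (1 + 1 / δ) * x ^ δ := by
      have := Real.log_le_rpow_div (by linarith : 0 ≤ x) hδ0
      have h4 : 1 ≤ x ^ δ := Real.one_le_rpow hx hδ0.le
      have h5 : (1 + 1 / δ) * x ^ δ = x ^ δ + x ^ δ / δ := by ring
      linarith
    have b2 : (x ^ δ) ^ (3 * J) ≤ x ^ ε := by
      rw [← Real.rpow_mul_natCast (by linarith)]
      refine Real.rpow_le_rpow_of_exponent_le hx ?_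
      rw [hδ, div_mul_eq_mul_div, div_le_iff₀ (by positivity)]
      push_cast; nlinarith
    rw [mul_pow, ← pow_mul, mul_assoc]
    refine mul_le_mul_of_nonneg_left ?_ (by positivity)
    calc (1 + Real.log x) ^ (3 * J) ≤ ((1 + 1 / δ) * x ^ δ) ^ (3 * J) := by gcongr
      _ = (1 + 1 / δ) ^ (3 * J) * (x ^ δ) ^ (3 * J) := mul_pow _ _ _
      _ ≤ _ := by gcongr
  have h4 : 0 ≤ ∏ i, (‖PS Q (Z i) y (fun p => chi p r)‖ + Z i ^ γ) -
      ∏ i, ‖PS Q (Z i) y (fun p => chi p r)‖ :=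
    sub_nonneg.2 (Finset.prod_le_prod (fun _ _ => norm_nonneg _)
      fun i _ => le_add_of_nonneg_right (Real.rpow_nonneg (by linarith [hZ i]) _))
  have hP := r2v_P_nonneg (r := r) hw e
  have hD : 0 ≤ E * X ^ α * M ^ β * r2v_P r w e := by positivity
  calc _ ≤ _ := h1
    _ ≤ E * X ^ α * M ^ β * r2v_P r w e * (K ^ J * (1 + 1 / δ) ^ (3 * J) * x ^ ε *
        (∏ i, (‖PS Q (Z i) y (fun p => chi p r)‖ + Z i ^ γ) - ∏ i, ‖PS Q (Z i) y (fun p => chi p r)‖)) :=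
      mul_le_mul_of_nonneg_left (h2.trans (mul_le_mul_of_nonneg_right h3 h4)) hD
    _ = _ := by unfold r2v_P; ring

end Crest.Agent.R017

end
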