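import Crest.Agent.R017.FMMain2
import Crest.Agent.R017.FMRow2
import Crest.Agent.R017.Count
import Crest.Agent.R017.FMMainAux2

/-! # Row 17: the contribution of the principal rows -/

set_option autoImplicit false

noncomputable section

open scoped BigOperators ComplexConjugate
open Complex MeasureTheory

namespace Crest.Agent.R017

/-- The row of the final argument. -/
def Row (Q : O) (ψ : O → ℂ) (X η₀ : ℝ) (J : ℕ) (r : O) : ℂ :=
  VV Q ψ r (X ^ η₀) J (Zs X η₀ J) Q 1 X (X ^ (143 / 300 : ℝ))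

/-- The trivial bound. -/
theorem norm_Row_le (Q : O) (J : ℕ) : ∃ C : ℝ, 0 ≤ C ∧ ∀ (ψ : O → ℂ) (X η₀ : ℝ) (r : O),
    (∀ n, ‖ψ n‖ ≤ 1) → 1 ≤ X → 0 < η₀ → η₀ * J ^ 2 ≤ 1 / 100 → ‖Row Q ψ X η₀ J r‖ ≤ C * X ^ (4 : ℕ) :=
  mm_triv Q J

open Classical in
theorem fm_princ : ∃ P₀ : ℝ, ∀ Q : O, Q ≠ 0 → (72 : O) ∣ Q → (∀ p : O, Prime p → Nr p ≤ P₀ → p ∣ Q) →
    ∀ (J : ℕ) (η₀ ε : ℝ), 0 < J → 0 < η₀ → η₀ * J ^ 2 ≤ 1 / 100 → 0 < ε → ∃ X₀ : ℝ,
    ∀ (θ F X : ℝ) (ψ : O → ℂ), X₀ ≤ X → IsCh Q ψ → 3 / 4 ≤ θ → θ ≤ 1 → 1 ≤ F →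
      (∀ Y, 0 < Y → Y ≤ X → ‖sm 1 (fun n => mu n * ψ n) Y 0‖ ≤ F * Y ^ θ) →
      ∃ Λ : ℝ, X ^ (467 / 600 - ε) ≤ Λ ∧
        ‖(∑' r : O, if IsCoprime r Q ∧ Princ (fun n => psi0 Q n * chi n r) then
            (Phi (Nr r / X ^ (81 / 100 : ℝ)) : ℂ) * Row Q ψ X η₀ J r else 0) -
          sm 1 (fun n => mu n * ψ n) X 0 * (Λ : ℂ)‖ ≤ F * X ^ θ * Λ / 2 := by
  obtain ⟨P₁, hP₁⟩ := main_TB (η := 1 / 10) (by norm_num)
  obtain ⟨P₂, hP₂⟩ := avg_GG (η := 1 / 10) (by norm_num)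
  refine ⟨max P₁ P₂, fun Q hQ h72 hP J η₀ ε hJ hη hηJ hε => ?_⟩
  obtain ⟨κ, hκ, hm⟩ := hP₁ Q hQ h72 (fun p hp h => hP p hp (h.trans (le_max_left _ _)))
  obtain ⟨Cm, hCm, hmain⟩ := hm (1 / 10) (by norm_num)
  obtain ⟨c, R₀, hc, havg⟩ := hP₂ Q hQ (mm_three h72)
    (fun p hp h => hP p hp (h.trans (le_max_right _ _)))
  obtain ⟨Ct, hCt, htriv⟩ := norm_Row_le Q J
  have hJ' : (0 : ℝ) < J := by exact_mod_cast hJ
  have he0 : 0 < min ε 1 := lt_min hε one_pos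
  obtain ⟨X₀, hX₀⟩ := Filter.eventually_atTop.1 ((Filter.eventually_ge_atTop (1 : ℝ)).and
    ((mm_row hQ h72 hJ hη hηJ hκ hCm hmain).and ((mm_P_ge hQ hJ hη he0).and
    ((mm_ev' (a := 81 / 100) (by norm_num) R₀).and
    ((mm_tail Q (D := 1 + Ct / κ) (δ := c / 10) (by positivity) (by positivity)).and
    (mm_ev' (a := 5 * ε / 6) (by positivity) (1 / (κ * c))))))))
  refine ⟨X₀, fun θ F X ψ hXX hψ hθ hθ1 hF hS => ?_⟩
  obtain ⟨hX, hrow, hPge, hR₀, ⟨hT1, hT2⟩, hbig⟩ := hX₀ X hXX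
  have hX0 : 0 < X := by linarith
  obtain ⟨hW1, hW2, hW3, hW4⟩ := mm_avg hQ h72 (havg _ hR₀)
  obtain ⟨Pi, hPi⟩ : ∃ Pi, Pi = ∏ i, mmP Q (Zs X η₀ J i) (X ^ η₀) := ⟨_, rfl⟩
  obtain ⟨M, hM⟩ : ∃ M, M = X ^ (143 / 300 : ℝ) := ⟨_, rfl⟩
  obtain ⟨Wt, hWt⟩ : ∃ Wt, Wt = ∑' r, mmW Q (X ^ (81 / 100 : ℝ)) r := ⟨_, rfl⟩
  obtain ⟨S, hSe⟩ : ∃ S, S = sm 1 (fun n => mu n * ψ n) X 0 := ⟨_, rfl⟩
  have hSle : ‖S‖ ≤ F * X ^ θ := hSe ▸ hS X hX0 le_rfl
  have hrow' := fun r => hrow θ F ψ r hψ hθ hθ1 hF hS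
  rw [← hPi, ← hSe] at hrow'
  rw [← hWt] at hW3 hW4
  rw [← hSe]
  have hPi1 : X ^ ((1 - min ε 1) / 6) ≤ Pi := by
    have h1 : 0 ≤ 1 - min ε 1 := sub_nonneg.2 (min_le_right _ _)
    calc X ^ ((1 - min ε 1) / 6) = ∏ _i : Fin J, (X ^ (1 / (6 * (J : ℝ)))) ^ (1 - min ε 1) := by
          rw [Finset.prod_const, Finset.card_univ, Fintype.card_fin, ← Real.rpow_mul hX0.le,
            ← Real.rpow_natCast, ← Real.rpow_mul hX0.le]
          congr 1
          field_simp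
      _ ≤ Pi := by
          rw [hPi]
          refine Finset.prod_le_prod (fun i _ => by positivity) (fun i _ => le_trans ?_ (hPge i))
          exact Real.rpow_le_rpow (by positivity) (mm_Z_ge hX hη i) h1
  have hPi2 : 1 ≤ Pi := (Real.one_le_rpow hX (by linarith [min_le_right ε 1])).trans hPi1
  have hM1 : 1 ≤ M := hM ▸ Real.one_le_rpow hX (by norm_num)
  have hcW : c ≤ Wt := by
    refine le_trans ?_ hW3
    exact le_mul_of_one_le_right hc.le
      (Real.one_le_rpow (Real.one_le_rpow hX (by norm_num)) (by norm_num))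
  have hXθ : 1 ≤ X ^ θ := Real.one_le_rpow hX (by linarith)
  refine ⟨κ * M * Pi * Wt, ?_, ?_⟩
  · have h1 : X ^ ((1 - ε) / 6) ≤ Pi :=
      (Real.rpow_le_rpow_of_exponent_le hX (by linarith [min_le_left ε 1])).trans hPi1
    have h2 : 1 ≤ κ * c * X ^ (5 * ε / 6) := by
      rw [div_le_iff₀ (by positivity)] at hbig
      linarith
    calc X ^ (467 / 600 - ε) = 1 * X ^ (467 / 600 - ε) := (one_mul _).symm
      _ ≤ (κ * c * X ^ (5 * ε / 6)) * X ^ (467 / 600 - ε) := by gcongr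
      _ = κ * M * X ^ ((1 - ε) / 6) * (c * (X ^ (81 / 100 : ℝ)) ^ (1 / 6 : ℝ)) := by
          have e : X ^ (5 * ε / 6) * X ^ (467 / 600 - ε) =
              M * X ^ ((1 - ε) / 6) * (X ^ (81 / 100 : ℝ)) ^ (1 / 6 : ℝ) := by
            rw [hM, ← Real.rpow_mul hX0.le, ← Real.rpow_add hX0, ← Real.rpow_add hX0,
              ← Real.rpow_add hX0]
            congr 1
            ring
          linear_combination (κ * c) * e
      _ ≤ _ := by gcongr
  · obtain ⟨B, hB⟩ : ∃ B, B = F * X ^ θ * (κ * M * Pi) := ⟨_, rfl⟩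
    have hB0 : 0 ≤ B := by rw [hB]; positivity
    obtain ⟨f, hf⟩ : ∃ f : O → ℂ, f = fun r =>
        if IsCoprime r Q ∧ Princ (fun n => psi0 Q n * chi n r) then
          (Phi (Nr r / X ^ (81 / 100 : ℝ)) : ℂ) * Row Q ψ X η₀ J r else 0 := ⟨_, rfl⟩
    rw [← hf]
    have hbd : ∀ r, ‖f r - (mmW Q (X ^ (81 / 100 : ℝ)) r : ℂ) * (S * ((κ * M * Pi : ℝ) : ℂ))‖ ≤
        B * ((1 + 1 / 10) * (mmW Q (X ^ (81 / 100 : ℝ)) r * GG r) -
          9 / 10 * mmW Q (X ^ (81 / 100 : ℝ)) r +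
          mmW Q (X ^ (81 / 100 : ℝ)) r * (if X < Nr r then (1 + Ct / κ) * X ^ (4 : ℕ) else 0)) := by
      intro r
      by_cases hr : mmC Q r
      · have hr' : IsCoprime r Q ∧ Princ (fun n => psi0 Q n * chi n r) := hr
        have hw : mmW Q (X ^ (81 / 100 : ℝ)) r = Phi (Nr r / X ^ (81 / 100 : ℝ)) := if_pos hr
        have hw0 := mm_W_nonneg Q (X ^ (81 / 100 : ℝ)) r
        have hG := mm_GG_one r
        rw [hf]
        simp only [if_pos hr']
        rw [← hw, ← mul_sub, norm_mul, Complex.norm_real, Real.norm_eq_abs, abs_of_nonneg hw0]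
        have key : ‖Row Q ψ X η₀ J r - S * ((κ * M * Pi : ℝ) : ℂ)‖ ≤
            B * ((1 + 1 / 10) * GG r - 9 / 10 +
              (if X < Nr r then (1 + Ct / κ) * X ^ (4 : ℕ) else 0)) := by
          split_ifs with hbig
          · have h1 := htriv ψ X η₀ r hψ.norm_le hX hη hηJ
            have h2 : ‖S * ((κ * M * Pi : ℝ) : ℂ)‖ ≤ B := by
              rw [norm_mul, Complex.norm_real, Real.norm_eq_abs, abs_of_nonneg (by positivity), hB]
              gcongr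
            have h3 : 1 ≤ X ^ (4 : ℕ) := one_le_pow₀ hX
            have h4 : κ ≤ B := by
              rw [hB]
              calc κ = 1 * 1 * (κ * 1 * 1) := by ring
                _ ≤ _ := by gcongr
            have h5 : Ct * X ^ (4 : ℕ) ≤ B * (Ct / κ * X ^ (4 : ℕ)) := by
              calc Ct * X ^ (4 : ℕ) = κ * (Ct / κ * X ^ (4 : ℕ)) := by field_simp
                _ ≤ _ := by gcongr
            have h6 : B * 1 ≤ B * X ^ (4 : ℕ) := by gcongr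
            have h7 : 0 ≤ B * ((1 + 1 / 10) * GG r - 9 / 10) := mul_nonneg hB0 (by linarith)
            refine (norm_sub_le _ _).trans ?_
            nlinarith
          · have h1 := hrow' r hr (not_lt.1 hbig)
            rw [← hM, ← hB] at h1
            unfold Row
            rw [← hM]
            refine h1.trans (le_of_eq ?_)
            ring
        calc _ ≤ mmW Q (X ^ (81 / 100 : ℝ)) r * (B * ((1 + 1 / 10) * GG r - 9 / 10 +
              (if X < Nr r then (1 + Ct / κ) * X ^ (4 : ℕ) else 0))) := by gcongr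
          _ = _ := by ring
      · have hr' : ¬ (IsCoprime r Q ∧ Princ (fun n => psi0 Q n * chi n r)) := hr
        have hw : mmW Q (X ^ (81 / 100 : ℝ)) r = 0 := if_neg hr
        rw [hf]
        simp only [if_neg hr']
        rw [hw]
        simp
    have hsb := ((((hW2.hasSum.mul_left (1 + 1 / 10)).sub (hW1.hasSum.mul_left (9 / 10))).add
      hT1.hasSum).mul_left B)
    have hn := tsum_of_norm_bounded hsb hbd
    have hg : Summable (fun r => f r - (mmW Q (X ^ (81 / 100 : ℝ)) r : ℂ) *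
        (S * ((κ * M * Pi : ℝ) : ℂ))) := Summable.of_norm_bounded hsb.summable hbd
    have hw : HasSum (fun r => (mmW Q (X ^ (81 / 100 : ℝ)) r : ℂ) * (S * ((κ * M * Pi : ℝ) : ℂ)))
        ((Wt : ℂ) * (S * ((κ * M * Pi : ℝ) : ℂ))) := by
      rw [hWt]
      exact (Complex.hasSum_ofReal.2 hW1.hasSum).mul_right _
    have hfs := hg.hasSum.add hw
    simp only [sub_add_cancel] at hfs
    rw [hfs.tsum_eq]
    rw [← hWt] at hn
    have e : (Wt : ℂ) * (S * ((κ * M * Pi : ℝ) : ℂ)) = S * ((κ * M * Pi * Wt : ℝ) : ℂ) := by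
      push_cast; ring
    rw [e, add_sub_cancel_right]
    refine hn.trans ?_
    calc _ ≤ B * (Wt / 2) := by
          gcongr
          linarith
      _ = _ := by rw [hB]; ring

end Crest.Agent.R017

end
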