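import Crest.Agent.R017.FMMain1AuxC

/-! # Row 17: principal rows: the basic sum -/

set_option autoImplicit false

noncomputable section

open scoped BigOperators ComplexConjugate
open Complex MeasureTheory

namespace Crest.Agent.R017

/-- The local correction at the primes dividing a principal row. -/
def GG (r : O) : ℝ := ∏ p ∈ pf r, (1 + 100 * Nr p ^ (-(1 / 12 : ℝ)))

open Classical in
theorem m1_TB {Q r : O} {ψ : O → ℂ} (hψ : IsCh Q ψ) (hr0 : r ≠ 0)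
    (hP : ∀ p ∈ pf r, 4096 ≤ Nr p) {κ θ F X a b : ℝ} (hκ : 0 ≤ κ) (hθ : 3 / 4 ≤ θ) (hF : 0 ≤ F)
    (ha : 0 ≤ a) (hb : 0 ≤ b) {S : ℝ → ℂ} (hS : ∀ Y, 0 < Y → Y ≤ X → ‖S Y‖ ≤ F * Y ^ θ)
    (hT : ∀ Y Z, 0 < Y → Y ≤ X → 0 < Z → ‖T0 ψ r Q Y Z - S Y * ((κ * Z : ℝ) : ℂ)‖ ≤
      F * Y ^ θ * (κ * Z * (a - 1) + b * Real.sqrt Z)) (hX : 0 < X) {M : ℝ} (hM : 0 < M) :
    ‖TB ψ r Q 1 X M - S X * ((κ * M : ℝ) : ℂ)‖ ≤
      F * X ^ θ * (κ * M * (a * m1_E r ^ 2 - 1) + b * m1_E r * (pdiv r).card * Real.sqrt M) := by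
  have hr2 : r ^ 2 ≠ 0 := pow_ne_zero 2 hr0
  have hT' : ∀ Y Z, 0 < Y → Y ≤ X → 0 < Z →
      ‖T0 ψ r Q Y Z‖ ≤ F * Y ^ θ * (κ * Z * a + b * Real.sqrt Z) := by
    intro Y Z hY hYX hZ
    have h1 := norm_add_le (S Y * ((κ * Z : ℝ) : ℂ)) (T0 ψ r Q Y Z - S Y * ((κ * Z : ℝ) : ℂ))
    rw [add_sub_cancel, norm_mul, Complex.norm_real, Real.norm_of_nonneg (by positivity)] at h1
    have h2 := mul_le_mul_of_nonneg_right (hS Y hY hYX) (show 0 ≤ κ * Z by positivity)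
    have h3 := hT Y Z hY hYX hZ
    linarith
  have h0 : ((1, 1) : O × O) ∈ pdiv (r ^ 2) ×ˢ pdiv r :=
    Finset.mem_product.2 ⟨(mem_pdiv hr2).2 ⟨prim_one, one_dvd _⟩, (mem_pdiv hr0).2 ⟨prim_one, one_dvd _⟩⟩
  have h1 := m1_fs h0
    (t := fun i : O × O => if IsCoprime (i.1 * i.2) Q then
      ψ i.1 * KK i.1 i.2 r * T0 ψ r Q (X / Nr i.1) (M / Nr i.2) else 0)
    (g := fun i : O × O =>
      F * X ^ θ * (κ * M * a) * (Nr i.1 ^ (-(1 / 12 : ℝ)) * Nr i.2 ^ (-(1 / 12 : ℝ))) +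
        F * X ^ θ * (b * Real.sqrt M) * (Nr i.1 ^ (-(1 / 12 : ℝ)) * 1)) (by
      rintro ⟨N, m⟩ hi -
      obtain ⟨hN, hm⟩ := Finset.mem_product.1 hi
      have hNp := ((mem_pdiv hr2).1 hN).1
      have hmp := ((mem_pdiv hr0).1 hm).1
      have hN0 := Nr_pos hNp.ne_zero
      have hm0 := Nr_pos hmp.ne_zero
      have hN1 := one_le_Nr hNp.ne_zero
      have hm1 := one_le_Nr hmp.ne_zero
      dsimp only at *
      split_ifs with hc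
      swap
      · rw [norm_zero]; positivity
      have b1 := hT' (X / Nr N) (M / Nr m) (div_pos hX hN0) (div_le_self hX.le hN1) (div_pos hM hm0)
      have b2 := m1_div hX.le hN1 (θ := θ) (a := 3 / 4) hθ
      have b3 := m1_div1 hM.le hm1 (a := 7 / 12) (by norm_num)
      have b4 := m1_div2 hM.le hm1 (a := 1 / 2) le_rfl
      have b5 : ‖T0 ψ r Q (X / Nr N) (M / Nr m)‖ ≤ F * (X ^ θ * Nr N ^ (-(3 / 4 : ℝ))) *
          (κ * (M * Nr m ^ (-(7 / 12 : ℝ))) * a + b * (Real.sqrt M * Nr m ^ (-(1 / 2 : ℝ)))) :=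
        b1.trans (by gcongr)
      have b6 := norm_KK_le hNp hmp r
      have b7 := hψ.norm_le N
      have e1 : Nr N ^ (-(1 / 12 : ℝ)) = Nr N ^ (2 / 3 : ℝ) * Nr N ^ (-(3 / 4 : ℝ)) := by
        rw [← Real.rpow_add hN0]; norm_num
      have e2 : Nr m ^ (-(1 / 12 : ℝ)) = Nr m ^ (1 / 2 : ℝ) * Nr m ^ (-(7 / 12 : ℝ)) := by
        rw [← Real.rpow_add hm0]; norm_num
      have e3 : (1 : ℝ) = Nr m ^ (1 / 2 : ℝ) * Nr m ^ (-(1 / 2 : ℝ)) := by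
        rw [← Real.rpow_add hm0]; norm_num
      rw [norm_mul, norm_mul]
      calc _ ≤ 1 * (Nr N ^ (2 / 3 : ℝ) * Nr m ^ (1 / 2 : ℝ)) *
            (F * (X ^ θ * Nr N ^ (-(3 / 4 : ℝ))) *
              (κ * (M * Nr m ^ (-(7 / 12 : ℝ))) * a +
                b * (Real.sqrt M * Nr m ^ (-(1 / 2 : ℝ))))) := by gcongr
        _ = F * X ^ θ * (κ * M * a) * ((Nr N ^ (2 / 3 : ℝ) * Nr N ^ (-(3 / 4 : ℝ))) *
              (Nr m ^ (1 / 2 : ℝ) * Nr m ^ (-(7 / 12 : ℝ)))) +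
            F * X ^ θ * (b * Real.sqrt M) * ((Nr N ^ (2 / 3 : ℝ) * Nr N ^ (-(3 / 4 : ℝ))) *
              (Nr m ^ (1 / 2 : ℝ) * Nr m ^ (-(1 / 2 : ℝ)))) := by ring
        _ = _ := by rw [← e1, ← e2, ← e3])
  rw [Finset.sum_product, ← TB_I4 hψ hr0 hX hM, Finset.sum_add_distrib, ← Finset.mul_sum,
    ← Finset.mul_sum, Finset.sum_product' (f := fun N m : O =>
      Nr N ^ (-(1 / 12 : ℝ)) * Nr m ^ (-(1 / 12 : ℝ))), Finset.sum_product' (f := fun N _ : O =>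
      Nr N ^ (-(1 / 12 : ℝ)) * 1), ← Finset.sum_mul_sum, ← Finset.sum_mul_sum] at h1
  simp only [mul_one, isCoprime_one_left, if_true, hψ.one, KK_one, Nr_one, div_one, one_mul,
    Real.one_rpow, Finset.sum_const, nsmul_eq_mul] at h1
  have s1 := m1_euler hr0 hP (pdiv (r ^ 2)) fun x hx => by
    obtain ⟨hx1, hx2⟩ := (mem_pdiv hr2).1 hx
    refine ⟨hx1, ?_⟩
    have := rad_dvd_rad hr2 hx2
    rw [rad_pow two_ne_zero] at this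
    exact this.trans (rad_dvd hr0)
  have s2 := m1_euler hr0 hP (pdiv r) fun x hx => by
    obtain ⟨hx1, hx2⟩ := (mem_pdiv hr0).1 hx
    exact ⟨hx1, (rad_dvd hx1.ne_zero).trans hx2⟩
  have hE := m1_one_le_E r
  have s3 : (∑ x ∈ pdiv (r ^ 2), Nr x ^ (-(1 / 12 : ℝ))) * ∑ x ∈ pdiv r, Nr x ^ (-(1 / 12 : ℝ)) ≤
      m1_E r * m1_E r :=
    mul_le_mul s1 s2 (Finset.sum_nonneg fun x _ => m1_nn x _) (by linarith)
  have s4 := mul_le_mul_of_nonneg_right s1 (Nat.cast_nonneg (α := ℝ) (pdiv r).card)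
  have s5 := mul_le_mul_of_nonneg_left s3 (show 0 ≤ F * X ^ θ * (κ * M * a) by positivity)
  have s6 := mul_le_mul_of_nonneg_left s4 (show 0 ≤ F * X ^ θ * (b * Real.sqrt M) by positivity)
  have h2 := hT X M hX le_rfl hM
  have h3 := norm_add_le (TB ψ r Q 1 X M - T0 ψ r Q X M)
    (T0 ψ r Q X M - S X * ((κ * M : ℝ) : ℂ))
  rw [sub_add_sub_cancel] at h3
  linarith

theorem m1_tail {η : ℝ} (hη : 0 < η) : ∃ P₀ : ℝ, 4096 ≤ P₀ ∧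
    ∀ S : Finset O, ∑ x ∈ S, (if P₀ < Nr x then Nr x ^ (-(7 / 6 : ℝ)) else 0) ≤ η := by
  obtain ⟨C, hC, h⟩ := b2_tail (σ := 7 / 6) (by norm_num)
  have h1 : Filter.Tendsto (fun Y : ℝ => C * Y ^ (-(1 / 6 : ℝ))) Filter.atTop (nhds (C * 0)) :=
    (tendsto_rpow_neg_atTop (by norm_num)).const_mul C
  rw [mul_zero] at h1
  obtain ⟨Y, hY1, hY2⟩ :=
    ((h1.eventually (gt_mem_nhds hη)).and (Filter.eventually_ge_atTop (4096 : ℝ))).exists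
  refine ⟨Y, hY2, fun S => (h Y (by linarith) S).trans ?_⟩
  rw [show (1 - 7 / 6 : ℝ) = -(1 / 6) by norm_num]
  exact hY1.le

theorem main_TB {η : ℝ} (hη : 0 < η) : ∃ P₀ : ℝ, ∀ Q : O, Q ≠ 0 → (72 : O) ∣ Q →
    (∀ p : O, Prime p → Nr p ≤ P₀ → p ∣ Q) → ∃ κ : ℝ, 0 < κ ∧ ∀ ε : ℝ, 0 < ε → ∃ C : ℝ, 0 ≤ C ∧
    ∀ (θ F X M : ℝ) (ψ : O → ℂ) (r : O), IsCh Q ψ → r ≠ 0 → IsCoprime r Q →
      Princ (fun n => psi0 Q n * chi n r) → 3 / 4 ≤ θ → θ ≤ 1 → 0 ≤ F → 0 < X → 0 < M →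
      (∀ Y, 0 < Y → Y ≤ X → ‖sm 1 (fun n => mu n * ψ n) Y 0‖ ≤ F * Y ^ θ) →
      ‖TB ψ r Q 1 X M - sm 1 (fun n => mu n * ψ n) X 0 * ((κ * M : ℝ) : ℂ)‖ ≤
        F * X ^ θ * (κ * M * ((1 + η) * GG r - 1) + C * Nr r ^ ε * Real.sqrt M) := by
  obtain ⟨P₀, hP₀, htail⟩ := m1_tail hη
  refine ⟨P₀, fun Q hQ h72 hbig => ?_⟩
  have h6 : (6 : O) ∣ Q := (Dvd.intro 12 (by norm_num)).trans h72
  have h3 : (3 : O) ∣ Q := (Dvd.intro 24 (by norm_num)).trans h72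
  obtain ⟨κ, C, hκ, hC, hA⟩ := sm_psi0 hQ h3 one_pos
  refine ⟨κ, hκ, fun ε hε => ?_⟩
  obtain ⟨C₁, hC₁⟩ := card_pdiv_le (half_pos hε)
  obtain ⟨C₂, hC₂⟩ := pow_card_pf_le (A := 8) (half_pos hε) (by norm_num)
  refine ⟨(1 + η) * C * (|C₂| * |C₁|), by positivity,
    fun θ F X M ψ r hψ hr0 hrQ hpr hθ _ hF hX hM hS => ?_⟩
  have hP := m1_big' hP₀ hbig hrQ
  have hE := m1_one_le_E r
  have h1 := m1_TB hψ hr0 hP hκ.le hθ hF (a := (1 + η) * m1_E r ^ 2) (b := (1 + η) * C * m1_E r ^ 2)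
    (by positivity) (by positivity) hS
    (fun Y Z hY hYX hZ => m1_T0 hψ h6 hr0 hrQ hpr hP₀ hbig htail hκ.le hC hA hθ hF hS hY hYX hZ)
    hX hM
  refine h1.trans (mul_le_mul_of_nonneg_left (add_le_add ?_ ?_) (by positivity))
  · refine mul_le_mul_of_nonneg_left ?_ (by positivity)
    have h2 : m1_E r ^ 4 ≤ GG r := m1_E_four hP
    have h4 := mul_le_mul_of_nonneg_left h2 (show 0 ≤ 1 + η by positivity)
    linarith
  · refine mul_le_mul_of_nonneg_right ?_ (Real.sqrt_nonneg _)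
    have hN := Nr_pos hr0
    have h2 : m1_E r ^ 3 ≤ |C₂| * Nr r ^ (ε / 2) := by
      calc m1_E r ^ 3 ≤ (2 ^ (pf r).card) ^ 3 :=
            pow_le_pow_left₀ (by linarith) (m1_E_le_two hP) 3
        _ = 8 ^ (pf r).card := by rw [← pow_mul, mul_comm, pow_mul]; norm_num
        _ ≤ C₂ * Nr r ^ (ε / 2) := hC₂ r hr0
        _ ≤ _ := by gcongr; exact le_abs_self _
    have h4 : ((pdiv r).card : ℝ) ≤ |C₁| * Nr r ^ (ε / 2) :=
      (hC₁ r hr0).trans (by gcongr; exact le_abs_self _)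
    have h5 : Nr r ^ ε = Nr r ^ (ε / 2) * Nr r ^ (ε / 2) := by
      rw [← Real.rpow_add hN]; norm_num
    calc _ = (1 + η) * C * (m1_E r ^ 3 * (pdiv r).card) := by ring
      _ ≤ (1 + η) * C * ((|C₂| * Nr r ^ (ε / 2)) * (|C₁| * Nr r ^ (ε / 2))) := by gcongr
      _ = _ := by rw [h5]; ring

end Crest.Agent.R017

end
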