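import Crest.Agent.R017.FMI

/-! # Row 17: principal rows: Euler products and elementary sums -/

set_option autoImplicit false

noncomputable section

open scoped BigOperators ComplexConjugate
open Complex MeasureTheory

namespace Crest.Agent.R017

/-- The majorant of the sums over elements supported on the primes of `t`. -/
def m1_E (t : O) : ℝ := ∏ p ∈ pf t, (1 + 2 * Nr p ^ (-(1 / 12 : ℝ)))

theorem m1_nn (x : O) (σ : ℝ) : 0 ≤ Nr x ^ σ := Real.rpow_nonneg (Nr_nonneg x) _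

theorem m1_two_le {x : ℝ} (hx : 4096 ≤ x) : 2 ≤ x ^ (1 / 12 : ℝ) := by
  have h : ((2 : ℝ) ^ (12 : ℕ)) ^ (1 / 12 : ℝ) = 2 := by
    rw [one_div]
    exact_mod_cast Real.pow_rpow_inv_natCast (x := 2) (by norm_num) (n := 12) (by norm_num)
  rw [← h]
  exact Real.rpow_le_rpow (by positivity) (by linarith) (by norm_num)

theorem m1_half {x : ℝ} (hx : 4096 ≤ x) : x ^ (-(1 / 12 : ℝ)) ≤ 1 / 2 := by
  have h := m1_two_le hx
  rw [Real.rpow_neg (by linarith), one_div (2 : ℝ)]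
  exact inv_anti₀ (by norm_num) h

theorem m1_one_le_E (t : O) : 1 ≤ m1_E t :=
  Finset.one_le_prod fun p _ => by have := m1_nn p (-(1 / 12 : ℝ)); linarith

open Classical in
theorem m1_box (Y : ℝ) (P : Finset O) (hP : ∀ p ∈ P, PP p ∧ 4096 ≤ Nr p) :
    ∑ x ∈ (box Y).filter (fun x => Prim x ∧ ∀ p, PP p → p ∣ x → p ∈ P), Nr x ^ (-(1 / 12 : ℝ)) ≤
      ∏ p ∈ P, (1 + 2 * Nr p ^ (-(1 / 12 : ℝ))) := by
  have hnn : ∀ x : O, 0 ≤ Nr x ^ (-(1 / 12 : ℝ)) := fun x => m1_nn x _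
  induction P using Finset.induction_on with
  | empty =>
    have h1 : (box Y).filter (fun x => Prim x ∧ ∀ p, PP p → p ∣ x → p ∈ (∅ : Finset O)) ⊆ {1} := by
      intro x hx
      obtain ⟨hx1, hx2, hx3⟩ := Finset.mem_filter.1 hx
      have hx0 := hx2.ne_zero
      refine Finset.mem_singleton.2 (hx2.eq_one_of_isUnit ?_)
      by_contra hu
      obtain ⟨q, hq, hqx⟩ := WfDvdMonoid.exists_irreducible_factor hu hx0
      obtain ⟨p, hp, hqp⟩ := exists_PP hq.prime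
      exact Finset.notMem_empty _ (hx3 p hp (hqp.symm.dvd.trans hqx))
    refine (Finset.sum_le_sum_of_subset_of_nonneg h1 fun x _ _ => hnn x).trans ?_
    simp [Nr_one]
  | insert q P hq ih =>
    have ih' := ih fun p hp => hP p (Finset.mem_insert_of_mem hp)
    obtain ⟨hqP, hq3⟩ := hP q (Finset.mem_insert_self _ _)
    have hq0 : q ≠ 0 := hqP.1.ne_zero
    have hqp : Prim q := by
      rcases hqP.2 with h | h
      · exact h
      · rw [h, Nr_lam] at hq3; linarith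
    set T := (box Y).filter (fun x => Prim x ∧ ∀ p, PP p → p ∣ x → p ∈ insert q P) with hT
    have h0 : ∑ x ∈ T.filter (fun x => ¬ q ∣ x), Nr x ^ (-(1 / 12 : ℝ)) ≤
        ∏ p ∈ P, (1 + 2 * Nr p ^ (-(1 / 12 : ℝ))) := by
      refine le_trans (Finset.sum_le_sum_of_subset_of_nonneg (fun x hx => ?_) fun x _ _ => hnn x) ih'
      obtain ⟨hx1, hx2⟩ := Finset.mem_filter.1 hx
      obtain ⟨hx3, hx4, hx5⟩ := Finset.mem_filter.1 hx1
      refine Finset.mem_filter.2 ⟨hx3, hx4, fun p hp hpx => ?_⟩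
      rcases Finset.mem_insert.1 (hx5 p hp hpx) with h | h
      · exact absurd (h ▸ hpx) hx2
      · exact h
    have h1 : ∑ x ∈ T.filter (fun x => q ∣ x), Nr x ^ (-(1 / 12 : ℝ)) ≤
        Nr q ^ (-(1 / 12 : ℝ)) * ∑ x ∈ T, Nr x ^ (-(1 / 12 : ℝ)) := by
      have hsub : T.filter (fun x => q ∣ x) ⊆ T.image (fun y => q * y) := by
        intro x hx
        obtain ⟨hx1, y, rfl⟩ := Finset.mem_filter.1 hx
        obtain ⟨hx3, hx7, hx4⟩ := Finset.mem_filter.1 hx1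
        obtain ⟨hx5, hx6⟩ := mem_box.1 hx3
        refine Finset.mem_image.2 ⟨y, Finset.mem_filter.2 ⟨mem_box.2 ⟨right_ne_zero_of_mul hx5,
          (Nr_le_of_dvd hx5 (dvd_mul_left y q)).trans hx6⟩, hqp.of_mul hx7, fun p hp hpy => ?_⟩, rfl⟩
        exact hx4 p hp (hpy.mul_left q)
      refine (Finset.sum_le_sum_of_subset_of_nonneg hsub fun x _ _ => hnn x).trans ?_
      rw [Finset.sum_image fun x _ y _ h => mul_left_cancel₀ hq0 h, Finset.mul_sum]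
      refine Finset.sum_le_sum fun y _ => ?_
      rw [Nr_mul, Real.mul_rpow (Nr_nonneg _) (Nr_nonneg _)]
    have h2 := Finset.sum_filter_add_sum_filter_not T (fun x => q ∣ x)
      (fun x => Nr x ^ (-(1 / 12 : ℝ)))
    rw [Finset.prod_insert hq]
    have h3 := m1_half hq3
    have h4 := hnn q
    have h5 : 0 ≤ ∑ x ∈ T, Nr x ^ (-(1 / 12 : ℝ)) := Finset.sum_nonneg fun x _ => hnn x
    set s := ∑ x ∈ T, Nr x ^ (-(1 / 12 : ℝ))
    set u := Nr q ^ (-(1 / 12 : ℝ))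
    set B := ∏ p ∈ P, (1 + 2 * Nr p ^ (-(1 / 12 : ℝ)))
    have h6 : (1 - u) * s ≤ B := by linarith
    have h7 : 0 ≤ u * (1 - 2 * u) * s := mul_nonneg (mul_nonneg h4 (by linarith)) h5
    have h8 : (1 + 2 * u) * ((1 - u) * s) ≤ (1 + 2 * u) * B :=
      mul_le_mul_of_nonneg_left h6 (by linarith)
    nlinarith

theorem m1_euler {t : O} (ht : t ≠ 0) (hP : ∀ p ∈ pf t, 4096 ≤ Nr p) (S : Finset O)
    (hS : ∀ x ∈ S, Prim x ∧ rad x ∣ t) : ∑ x ∈ S, Nr x ^ (-(1 / 12 : ℝ)) ≤ m1_E t := by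
  classical
  have h1 := m1_box (∑ x ∈ S, Nr x) (pf t) fun p hp => ⟨((mem_pf ht).1 hp).1, hP p hp⟩
  refine le_trans (Finset.sum_le_sum_of_subset_of_nonneg (fun x hx => ?_)
    fun x _ _ => m1_nn x _) h1
  obtain ⟨hx0, hxt⟩ := hS x hx
  refine Finset.mem_filter.2 ⟨mem_box.2 ⟨hx0.ne_zero,
    Finset.single_le_sum (f := Nr) (fun y _ => Nr_nonneg y) hx⟩, hx0, fun p hp hpx => ?_⟩
  exact (mem_pf ht).2 ⟨hp, ((prime_dvd_rad hx0.ne_zero hp.1).2 hpx).trans hxt⟩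

theorem m1_E_mul {s t : O} (hs : s ≠ 0) (ht : t ≠ 0) : m1_E (s * t) ≤ m1_E s * m1_E t := by
  classical
  have h1 : ∀ p : O, 1 ≤ 1 + 2 * Nr p ^ (-(1 / 12 : ℝ)) := fun p => by
    have := m1_nn p (-(1 / 12 : ℝ)); linarith
  have h2 : pf (s * t) ⊆ pf s ∪ pf t := by
    intro p hp
    obtain ⟨hp1, hp2⟩ := a1_of_mem_pf hp
    rcases hp1.1.dvd_or_dvd hp2 with h | h
    · exact Finset.mem_union_left _ ((mem_pf hs).2 ⟨hp1, h⟩)
    · exact Finset.mem_union_right _ ((mem_pf ht).2 ⟨hp1, h⟩)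
  have h3 := Finset.prod_union_inter (s₁ := pf s) (s₂ := pf t)
    (f := fun p => 1 + 2 * Nr p ^ (-(1 / 12 : ℝ)))
  have h4 : m1_E (s * t) ≤ ∏ p ∈ pf s ∪ pf t, (1 + 2 * Nr p ^ (-(1 / 12 : ℝ))) :=
    Finset.prod_le_prod_of_subset_of_one_le h2 (fun p _ => zero_le_one.trans (h1 p))
      fun p _ _ => h1 p
  have h5 : 1 ≤ ∏ p ∈ pf s ∩ pf t, (1 + 2 * Nr p ^ (-(1 / 12 : ℝ))) :=
    Finset.one_le_prod fun p _ => h1 p
  have h6 : 0 ≤ ∏ p ∈ pf s ∪ pf t, (1 + 2 * Nr p ^ (-(1 / 12 : ℝ))) :=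
    Finset.prod_nonneg fun p _ => zero_le_one.trans (h1 p)
  unfold m1_E at *
  rw [← h3]
  nlinarith

theorem m1_E_le {t : O} (ht : t ≠ 0) (hP : ∀ p ∈ pf t, 4096 ≤ Nr p) :
    m1_E t ≤ Nr t ^ (1 / 12 : ℝ) := by
  calc m1_E t ≤ ∏ p ∈ pf t, Nr p ^ (1 / 12 : ℝ) := by
        refine Finset.prod_le_prod (fun p _ => ?_) fun p hp => ?_
        · have := m1_nn p (-(1 / 12 : ℝ)); linarith
        · have h1 := m1_half (hP p hp)
          have h2 := m1_two_le (hP p hp)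
          linarith
    _ = (∏ p ∈ pf t, Nr p) ^ (1 / 12 : ℝ) := Real.finsetProd_rpow _ _ (fun p _ => Nr_nonneg p) _
    _ ≤ _ := Real.rpow_le_rpow (Finset.prod_nonneg fun p _ => Nr_nonneg p) (a2_prod_pf_le ht)
        (by norm_num)

theorem m1_E_le_two {t : O} (hP : ∀ p ∈ pf t, 4096 ≤ Nr p) : m1_E t ≤ 2 ^ (pf t).card := by
  rw [← Finset.prod_const]
  refine Finset.prod_le_prod (fun p _ => ?_) fun p hp => ?_
  · have := m1_nn p (-(1 / 12 : ℝ)); linarith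
  · have h1 := m1_half (hP p hp)
    linarith

theorem m1_E_four {t : O} (hP : ∀ p ∈ pf t, 4096 ≤ Nr p) :
    m1_E t ^ 4 ≤ ∏ p ∈ pf t, (1 + 100 * Nr p ^ (-(1 / 12 : ℝ))) := by
  rw [m1_E, ← Finset.prod_pow]
  refine Finset.prod_le_prod (fun p _ => ?_) fun p hp => ?_
  · positivity
  · have h1 := m1_half (hP p hp)
    have h2 := m1_nn p (-(1 / 12 : ℝ))
    set u := Nr p ^ (-(1 / 12 : ℝ))
    have h3 : u ^ 2 ≤ u := by nlinarith
    have h4 : u ^ 3 ≤ u := by nlinarith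
    have h5 : u ^ 4 ≤ u := by nlinarith
    nlinarith

/-- Removing the main term of a series. -/
theorem m1_hs {u : O → ℂ} {s : ℂ} (h : HasSum u s) {B : ℝ}
    (hB : ∀ T : Finset O, ∑ i ∈ T, (if i = 1 then 0 else ‖u i‖) ≤ B) : ‖s - u 1‖ ≤ B := by
  have h1 := hasSum_ite_sub_hasSum h 1
  refine le_of_tendsto' h1.norm fun T => ?_
  refine (norm_sum_le _ _).trans (le_trans (le_of_eq ?_) (hB T))
  refine Finset.sum_congr rfl fun i _ => ?_
  split_ifs <;> simp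

/-- The sum without the term `1`. -/
theorem m1_euler' {t : O} (ht : t ≠ 0) (hP : ∀ p ∈ pf t, 4096 ≤ Nr p) (T : Finset O) (g : O → ℝ)
    {K : ℝ} (hK : 0 ≤ K) (h1 : ∀ x ∈ T, x ≠ 1 → g x ≤ K * Nr x ^ (-(1 / 12 : ℝ)))
    (h2 : ∀ x ∈ T, x ≠ 1 → ¬ (Prim x ∧ rad x ∣ t) → g x ≤ 0) :
    ∑ i ∈ T, (if i = 1 then 0 else g i) ≤ K * (m1_E t - 1) := by
  classical
  set S := T.filter (fun x => x ≠ 1 ∧ Prim x ∧ rad x ∣ t) with hS
  have h3 : (1 : O) ∉ S := fun h => (Finset.mem_filter.1 h).2.1 rfl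
  have h4 := m1_euler ht hP (insert 1 S) fun x hx => by
    rcases Finset.mem_insert.1 hx with rfl | hx
    · exact ⟨prim_one, (rad_dvd one_ne_zero).trans (one_dvd _)⟩
    · exact (Finset.mem_filter.1 hx).2.2
  rw [Finset.sum_insert h3, Nr_one, Real.one_rpow] at h4
  calc _ ≤ ∑ x ∈ T, (if x ≠ 1 ∧ Prim x ∧ rad x ∣ t then K * Nr x ^ (-(1 / 12 : ℝ)) else 0) := by
        refine Finset.sum_le_sum fun x hx => ?_
        by_cases hx1 : x = 1
        · simp [hx1]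
        · rw [if_neg hx1]
          split_ifs with h
          · exact h1 x hx hx1
          · exact h2 x hx hx1 fun h' => h ⟨hx1, h'⟩
    _ = K * ∑ x ∈ S, Nr x ^ (-(1 / 12 : ℝ)) := by
        rw [← Finset.sum_filter, Finset.mul_sum]
    _ ≤ _ := mul_le_mul_of_nonneg_left (by linarith) hK

end Crest.Agent.R017

end
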