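import Crest.Agent.R017.FMMain1AuxA

/-! # Row 17: principal rows: the one-variable sums -/

set_option autoImplicit false

noncomputable section

open scoped BigOperators ComplexConjugate
open Complex MeasureTheory

namespace Crest.Agent.R017

theorem m1_sm_congr {a X τ : ℝ} {c c' : O → ℂ} (h : ∀ n, Prim n → c n = c' n) :
    sm a c X τ = sm a c' X τ := by
  unfold sm
  refine tsum_congr fun n => ?_
  split_ifs with hn
  · rw [h n hn]
  · rfl

theorem m1_fs {ι : Type*} [DecidableEq ι] {T : Finset ι} {i₀ : ι} (h0 : i₀ ∈ T) {t : ι → ℂ}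
    {g : ι → ℝ} (h : ∀ i ∈ T, i ≠ i₀ → ‖t i‖ ≤ g i) :
    ‖∑ i ∈ T, t i - t i₀‖ ≤ ∑ i ∈ T, g i - g i₀ := by
  rw [← Finset.add_sum_erase T t h0, ← Finset.add_sum_erase T g h0, add_sub_cancel_left,
    add_sub_cancel_left]
  exact (norm_sum_le _ _).trans (Finset.sum_le_sum fun i hi =>
    h i (Finset.mem_of_mem_erase hi) (Finset.ne_of_mem_erase hi))

theorem m1_div {Y x θ a : ℝ} (hY : 0 ≤ Y) (hx : 1 ≤ x) (ha : a ≤ θ) :
    (Y / x) ^ θ ≤ Y ^ θ * x ^ (-a) := by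
  rw [Real.div_rpow hY (by linarith), div_eq_mul_inv, ← Real.rpow_neg (by linarith)]
  exact mul_le_mul_of_nonneg_left (Real.rpow_le_rpow_of_exponent_le hx (by linarith))
    (Real.rpow_nonneg hY _)

theorem m1_div1 {Y x a : ℝ} (hY : 0 ≤ Y) (hx : 1 ≤ x) (ha : a ≤ 1) : Y / x ≤ Y * x ^ (-a) := by
  simpa using m1_div hY hx ha

theorem m1_div2 {Y x a : ℝ} (hY : 0 ≤ Y) (hx : 1 ≤ x) (ha : a ≤ 1 / 2) :
    Real.sqrt (Y / x) ≤ Real.sqrt Y * x ^ (-a) := by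
  rw [Real.sqrt_eq_rpow, Real.sqrt_eq_rpow]
  exact m1_div hY hx ha

theorem m1_cpow (x : ℂ) : x ^ (-(((0 : ℝ) : ℂ) * I)) = 1 := by simp

open Classical in
theorem m1_chi {Q r n : O} (h6 : (6 : O) ∣ Q) (hpr : Princ (fun n => psi0 Q n * chi n r))
    (hn : Prim n) (hc : IsCoprime n Q) : chi n r = if IsCoprime n r then 1 else 0 := by
  have h1 : psi0 Q n = 1 := by simp [psi0, hc]
  have h2 : IsCoprime n 6 := hc.of_isCoprime_of_dvd_right h6
  split_ifs with h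
  · have h3 : chi n r ≠ 0 := fun h0 => (chi_eq_zero hn.ne_zero).1 h0 (h2.mul_right h)
    have h4 := hpr n hn (by simpa [h1] using h3)
    simpa [h1] using h4
  · exact (chi_eq_zero hn.ne_zero).2 fun h' => h h'.of_mul_right_right

open Classical in
theorem m1_A {Q r : O} (h6 : (6 : O) ∣ Q) (hr0 : r ≠ 0) (hrQ : IsCoprime r Q)
    (hpr : Princ (fun n => psi0 Q n * chi n r)) (hP : ∀ p ∈ pf r, 4096 ≤ Nr p) {κ C : ℝ}
    (hκ : 0 ≤ κ) (hC : 0 ≤ C)
    (hA : ∀ Y : ℝ, 0 < Y → ‖sm 1 (psi0 Q) Y 0 - ((κ * Y : ℝ) : ℂ)‖ ≤ C * Real.sqrt Y)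
    {Z : ℝ} (hZ : 0 < Z) :
    ‖sm 1 (fun m => if IsCoprime m Q then chi m r else 0) Z 0 - ((κ * Z : ℝ) : ℂ)‖ ≤
      κ * Z * (m1_E r - 1) + C * m1_E r * Real.sqrt Z := by
  have e1 : sm 1 (fun m => if IsCoprime m Q then chi m r else 0) Z 0 =
      sm 1 (fun n => if IsCoprime n r then psi0 Q n else 0) Z 0 := by
    refine m1_sm_congr fun n hn => ?_
    by_cases h : IsCoprime n Q
    · rw [if_pos h, m1_chi h6 hpr hn h]
      simp [psi0, h]
    · simp [psi0, h]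
  have e2 := sm_coprime (a := 1) one_pos hZ (c := psi0 Q) (K := 1) (A := 0) (fun n _ => by
    simp only [psi0, Real.rpow_zero, mul_one]
    split_ifs <;> simp) hr0 0
  have e3 : ∀ d ∈ pdiv r, mu d * (Nr d : ℂ) ^ (-(((0 : ℝ) : ℂ) * I)) *
      sm 1 (fun n => psi0 Q (d * n)) (Z / Nr d) 0 = mu d * sm 1 (psi0 Q) (Z / Nr d) 0 := by
    intro d hd
    have hdQ : IsCoprime d Q := hrQ.of_isCoprime_of_dvd_left ((mem_pdiv hr0).1 hd).2
    rw [m1_cpow, mul_one]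
    congr 1
    refine m1_sm_congr fun n _ => ?_
    simp only [psi0, IsCoprime.mul_left_iff, hdQ, true_and]
  rw [Finset.sum_congr rfl e3] at e2
  have hA' : ∀ Y : ℝ, 0 < Y → ‖sm 1 (psi0 Q) Y 0‖ ≤ κ * Y + C * Real.sqrt Y := by
    intro Y hY
    have h1 := norm_add_le (((κ * Y : ℝ) : ℂ)) (sm 1 (psi0 Q) Y 0 - ((κ * Y : ℝ) : ℂ))
    rw [add_sub_cancel, Complex.norm_real, Real.norm_of_nonneg (by positivity)] at h1
    linarith [hA Y hY]
  have h1 : (1 : O) ∈ pdiv r := (mem_pdiv hr0).2 ⟨prim_one, one_dvd _⟩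
  have h2 := m1_fs h1 (t := fun d => mu d * sm 1 (psi0 Q) (Z / Nr d) 0)
    (g := fun d => (κ * Z + C * Real.sqrt Z) * Nr d ^ (-(1 / 12 : ℝ))) (fun d hd _ => by
      have hd0 := ((mem_pdiv hr0).1 hd).1.ne_zero
      have hd1 := one_le_Nr hd0
      have h3 := hA' (Z / Nr d) (div_pos hZ (Nr_pos hd0))
      have h4 := m1_div1 hZ.le hd1 (a := 1 / 12) (by norm_num)
      have h5 := m1_div2 hZ.le hd1 (a := 1 / 12) (by norm_num)
      have h6 := mul_le_mul_of_nonneg_left h4 hκ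
      have h7 := mul_le_mul_of_nonneg_left h5 hC
      rw [norm_mul]
      calc _ ≤ 1 * ‖sm 1 (psi0 Q) (Z / Nr d) 0‖ :=
            mul_le_mul_of_nonneg_right (norm_mu_le d) (norm_nonneg _)
        _ ≤ _ := by linarith)
  rw [← e2, ← e1, ← Finset.mul_sum] at h2
  simp only [mu_one, Nr_one, div_one, one_mul, Real.one_rpow, mul_one] at h2
  have h3 := m1_euler hr0 hP (pdiv r) fun x hx => by
    obtain ⟨hx1, hx2⟩ := (mem_pdiv hr0).1 hx
    exact ⟨hx1, (rad_dvd hx1.ne_zero).trans hx2⟩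
  have h4 : 0 ≤ κ * Z + C * Real.sqrt Z := by positivity
  have h5 := mul_le_mul_of_nonneg_left h3 h4
  have h6 := norm_add_le (sm 1 (fun m => if IsCoprime m Q then chi m r else 0) Z 0 -
    sm 1 (psi0 Q) Z 0) (sm 1 (psi0 Q) Z 0 - ((κ * Z : ℝ) : ℂ))
  rw [sub_add_sub_cancel] at h6
  have h7 := hA Z hZ
  linarith

open Classical in
theorem m1_S {Q r d : O} {ψ : O → ℂ} (hψ : IsCh Q ψ) (h6 : (6 : O) ∣ Q) (hr0 : r ≠ 0) (hd0 : d ≠ 0)
    (hpr : Princ (fun n => psi0 Q n * chi n r)) (hP : ∀ p ∈ pf (r * d), 4096 ≤ Nr p)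
    {θ F X : ℝ} (hθ : 3 / 4 ≤ θ) (hF : 0 ≤ F)
    (hS : ∀ Y, 0 < Y → Y ≤ X → ‖sm 1 (fun n => mu n * ψ n) Y 0‖ ≤ F * Y ^ θ)
    {Y : ℝ} (hY : 0 < Y) (hYX : Y ≤ X) :
    ‖sm 1 (fun n => if IsCoprime n (Q * d) then mu n * (ψ n * chi n r) else 0) Y 0 -
      sm 1 (fun n => mu n * ψ n) Y 0‖ ≤ F * Y ^ θ * (m1_E (r * d) - 1) := by
  have hrd : r * d ≠ 0 := mul_ne_zero hr0 hd0
  have e1 : sm 1 (fun n => if IsCoprime n (Q * d) then mu n * (ψ n * chi n r) else 0) Y 0 =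
      sm 1 (fun n => if IsCoprime n (1 * (r * d)) then mu n * ψ n else 0) Y 0 := by
    refine m1_sm_congr fun n hn => ?_
    by_cases h : IsCoprime n Q
    · rw [m1_chi h6 hpr hn h]
      simp only [one_mul, IsCoprime.mul_right_iff, h, true_and]
      by_cases h1 : IsCoprime n r <;> by_cases h2 : IsCoprime n d <;> simp [h1, h2]
    · have h0 : ψ n = 0 := (hψ.zero n).2 h
      simp [h0]
  have e2 := sm_mu_coprime (a := 1) one_pos hY (η := ψ) hψ.norm_le (fun x y _ _ => hψ.mul x y) 1 hrd 0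
  have e3 : ∀ Z : ℝ, sm 1 (fun n => if IsCoprime n 1 then mu n * ψ n else 0) Z 0 =
      sm 1 (fun n => mu n * ψ n) Z 0 := fun Z =>
    m1_sm_congr fun n _ => if_pos isCoprime_one_right
  simp only [e3, m1_cpow, mul_one] at e2
  rw [← e1] at e2
  have h1 := m1_hs e2 (B := F * Y ^ θ * (m1_E (r * d) - 1)) fun T => by
    refine m1_euler' hrd hP T _ (by positivity) (fun x _ _ => ?_) fun x _ _ hx => ?_
    · split_ifs with h
      · have hx0 := h.1.ne_zero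
        have hx1 := one_le_Nr hx0
        have h2 := hS (Y / Nr x) (div_pos hY (Nr_pos hx0)) ((div_le_self hY.le hx1).trans hYX)
        have h3 := m1_div hY.le hx1 (θ := θ) (a := 1 / 12) (by linarith)
        have h4 := mul_le_mul_of_nonneg_left h3 hF
        rw [norm_mul]
        calc _ ≤ 1 * ‖sm 1 (fun n => mu n * ψ n) (Y / Nr x) 0‖ :=
              mul_le_mul_of_nonneg_right (hψ.norm_le x) (norm_nonneg _)
          _ ≤ _ := by linarith
      · rw [norm_zero]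
        exact mul_nonneg (by positivity) (m1_nn _ _)
    · rw [if_neg fun h => hx ⟨h.1, h.2.1⟩, norm_zero]
  rw [if_pos ⟨prim_one, (rad_dvd one_ne_zero).trans (one_dvd _), isCoprime_one_right⟩, hψ.one,
    Nr_one, div_one, one_mul] at h1
  exact h1

end Crest.Agent.R017

end
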