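import Crest.Agent.R017.FMMain1AuxB

/-! # Row 17: principal rows: the double sums -/

set_option autoImplicit false

noncomputable section

open scoped BigOperators ComplexConjugate
open Complex MeasureTheory

namespace Crest.Agent.R017

theorem m1_big {Q t : O} {P₀ : ℝ} (hbig : ∀ p : O, Prime p → Nr p ≤ P₀ → p ∣ Q)
    (hc : IsCoprime t Q) {p : O} (hp : Prime p) (hpt : p ∣ t) : P₀ < Nr p := by
  by_contra h
  exact hp.not_unit (hc.isUnit_of_dvd' hpt (hbig p hp (not_lt.1 h)))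

theorem m1_big' {Q t : O} {P₀ : ℝ} (hP₀ : 4096 ≤ P₀) (hbig : ∀ p : O, Prime p → Nr p ≤ P₀ → p ∣ Q)
    (hc : IsCoprime t Q) : ∀ p ∈ pf t, 4096 ≤ Nr p := fun _ hp =>
  hP₀.trans (m1_big hbig hc (a1_of_mem_pf hp).1.1 (a1_of_mem_pf hp).2).le

theorem m1_big_d {Q d : O} {P₀ : ℝ} (hbig : ∀ p : O, Prime p → Nr p ≤ P₀ → p ∣ Q)
    (hd : Prim d) (hd1 : d ≠ 1) (hc : IsCoprime d Q) : P₀ < Nr d := by
  obtain ⟨q, hq, hqd⟩ := WfDvdMonoid.exists_irreducible_factor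
    (fun h => hd1 (hd.eq_one_of_isUnit h)) hd.ne_zero
  exact (m1_big hbig hc hq.prime hqd).trans_le (Nr_le_of_dvd hd.ne_zero hqd)

open Classical in
theorem m1_T0 {Q r : O} {ψ : O → ℂ} (hψ : IsCh Q ψ) (h6 : (6 : O) ∣ Q) (hr0 : r ≠ 0)
    (hrQ : IsCoprime r Q) (hpr : Princ (fun n => psi0 Q n * chi n r)) {P₀ η : ℝ} (hP₀ : 4096 ≤ P₀)
    (hbig : ∀ p : O, Prime p → Nr p ≤ P₀ → p ∣ Q)
    (htail : ∀ S : Finset O, ∑ x ∈ S, (if P₀ < Nr x then Nr x ^ (-(7 / 6 : ℝ)) else 0) ≤ η)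
    {κ C : ℝ} (hκ : 0 ≤ κ) (hC : 0 ≤ C)
    (hA : ∀ Y : ℝ, 0 < Y → ‖sm 1 (psi0 Q) Y 0 - ((κ * Y : ℝ) : ℂ)‖ ≤ C * Real.sqrt Y)
    {θ F X : ℝ} (hθ : 3 / 4 ≤ θ) (hF : 0 ≤ F)
    (hS : ∀ Y, 0 < Y → Y ≤ X → ‖sm 1 (fun n => mu n * ψ n) Y 0‖ ≤ F * Y ^ θ)
    {Y Z : ℝ} (hY : 0 < Y) (hYX : Y ≤ X) (hZ : 0 < Z) :
    ‖T0 ψ r Q Y Z - sm 1 (fun n => mu n * ψ n) Y 0 * ((κ * Z : ℝ) : ℂ)‖ ≤
      F * Y ^ θ * (κ * Z * ((1 + η) * m1_E r ^ 2 - 1) + (1 + η) * C * m1_E r ^ 2 * Real.sqrt Z) := by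
  have hPr := m1_big' hP₀ hbig hrQ
  have hE := m1_one_le_E r
  set E := m1_E r with hEdef
  set A1 : ℝ → ℂ := fun Z => sm 1 (fun m => if IsCoprime m Q then chi m r else 0) Z 0 with hA1
  set S1 : O → ℝ → ℂ := fun d Y =>
    sm 1 (fun n => if IsCoprime n (Q * d) then mu n * (ψ n * chi n r) else 0) Y 0 with hS1
  set S : ℝ → ℂ := fun Y => sm 1 (fun n => mu n * ψ n) Y 0 with hSdef
  have a1 : ∀ Z : ℝ, 0 < Z → ‖A1 Z - ((κ * Z : ℝ) : ℂ)‖ ≤ κ * Z * (E - 1) + C * E * Real.sqrt Z :=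
    fun Z hZ => m1_A h6 hr0 hrQ hpr hPr hκ hC hA hZ
  have a2 : ∀ Z : ℝ, 0 < Z → ‖A1 Z‖ ≤ E * (κ * Z + C * Real.sqrt Z) := by
    intro Z hZ
    have h1 := norm_add_le (((κ * Z : ℝ) : ℂ)) (A1 Z - ((κ * Z : ℝ) : ℂ))
    rw [add_sub_cancel, Complex.norm_real, Real.norm_of_nonneg (by positivity)] at h1
    linarith [a1 Z hZ]
  have s1 : ∀ d : O, d ≠ 0 → IsCoprime d Q → ∀ Y : ℝ, 0 < Y → Y ≤ X →
      ‖S1 d Y - S Y‖ ≤ F * Y ^ θ * (m1_E (r * d) - 1) := fun d hd hdQ Y hY hYX =>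
    m1_S hψ h6 hr0 hd hpr (m1_big' hP₀ hbig (hrQ.mul_left hdQ)) hθ hF hS hY hYX
  have s2 : ∀ d : O, d ≠ 0 → IsCoprime d Q → ∀ Y : ℝ, 0 < Y → Y ≤ X →
      ‖S1 d Y‖ ≤ F * Y ^ θ * (E * Nr d ^ (1 / 12 : ℝ)) := by
    intro d hd hdQ Y hY hYX
    have h1 := norm_add_le (S Y) (S1 d Y - S Y)
    rw [add_sub_cancel] at h1
    have h2 := s1 d hd hdQ Y hY hYX
    have h3 := hS Y hY hYX
    have h4 : m1_E (r * d) ≤ E * Nr d ^ (1 / 12 : ℝ) := (m1_E_mul hr0 hd).trans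
      (mul_le_mul_of_nonneg_left (m1_E_le hd (m1_big' hP₀ hbig hdQ)) (by linarith))
    have h5 := mul_le_mul_of_nonneg_left h4 (show 0 ≤ F * Y ^ θ by positivity)
    linarith
  have hK : 0 ≤ F * Y ^ θ * E ^ 2 * (κ * Z + C * Real.sqrt Z) := by positivity
  have h1 := m1_hs (T0_I5 (r := r) (e := Q) hψ hY hZ)
    (B := F * Y ^ θ * E ^ 2 * (κ * Z + C * Real.sqrt Z) * η) fun T => by
      refine le_trans ?_ (mul_le_mul_of_nonneg_left (htail T) hK)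
      rw [Finset.mul_sum]
      refine Finset.sum_le_sum fun d _ => ?_
      have h0 : 0 ≤ F * Y ^ θ * E ^ 2 * (κ * Z + C * Real.sqrt Z) *
          (if P₀ < Nr d then Nr d ^ (-(7 / 6 : ℝ)) else 0) :=
        mul_nonneg hK (b2_ite_nonneg _ _ _)
      by_cases hd1 : d = 1
      · rw [if_pos hd1]; exact h0
      rw [if_neg hd1]
      by_cases hd : Prim d ∧ IsCoprime d Q
      swap
      · rw [if_neg hd, norm_zero]; exact h0
      rw [if_pos hd, if_pos (m1_big_d hbig hd.1 hd1 hd.2)]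
      have hd0 := hd.1.ne_zero
      have hN := one_le_Nr hd0
      have hN0 := Nr_pos hd0
      have b1 := s2 d hd0 hd.2 (Y / Nr d) (div_pos hY hN0) ((div_le_self hY.le hN).trans hYX)
      have b2 := a2 (Z / Nr d) (div_pos hZ hN0)
      have b3 := m1_div hY.le hN (θ := θ) (a := 3 / 4) hθ
      have b4 := m1_div1 hZ.le hN (a := 1 / 2) (by norm_num)
      have b5 := m1_div2 hZ.le hN (a := 1 / 2) le_rfl
      have b6 : ‖mu d * mu d * (ψ d * chi d r) * conj (chi d r)‖ ≤ 1 := by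
        simp only [norm_mul, Complex.norm_conj]
        have := norm_mu_le d
        have := hψ.norm_le d
        have := norm_chi_le d r
        exact mul_le_one₀ (mul_le_one₀ (mul_le_one₀ ‹_› (norm_nonneg _) ‹_›) (by positivity)
          (mul_le_one₀ ‹_› (norm_nonneg _) ‹_›)) (norm_nonneg _) ‹_›
      have b7 : ‖S1 d (Y / Nr d)‖ ≤
          F * (Y ^ θ * Nr d ^ (-(3 / 4 : ℝ))) * (E * Nr d ^ (1 / 12 : ℝ)) :=
        b1.trans (by gcongr)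
      have b8 : ‖A1 (Z / Nr d)‖ ≤ E * ((κ * Z + C * Real.sqrt Z) * Nr d ^ (-(1 / 2 : ℝ))) := by
        refine b2.trans (mul_le_mul_of_nonneg_left ?_ (by linarith))
        have := mul_le_mul_of_nonneg_left b4 hκ
        have := mul_le_mul_of_nonneg_left b5 hC
        linarith
      have b9 : Nr d ^ (-(7 / 6 : ℝ)) =
          Nr d ^ (-(3 / 4 : ℝ)) * Nr d ^ (1 / 12 : ℝ) * Nr d ^ (-(1 / 2 : ℝ)) := by
        rw [← Real.rpow_add hN0, ← Real.rpow_add hN0]; norm_num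
      rw [norm_mul, norm_mul, Complex.norm_conj, b9]
      calc _ ≤ 1 * (F * (Y ^ θ * Nr d ^ (-(3 / 4 : ℝ))) * (E * Nr d ^ (1 / 12 : ℝ))) *
            (E * ((κ * Z + C * Real.sqrt Z) * Nr d ^ (-(1 / 2 : ℝ)))) := by
            gcongr
        _ = _ := by ring
  rw [if_pos ⟨prim_one, isCoprime_one_left⟩, mu_one, hψ.one, chi_unit_left isUnit_one, Nr_one,
    div_one, div_one, map_one] at h1
  simp only [one_mul] at h1
  change ‖T0 ψ r Q Y Z - S1 1 Y * conj (A1 Z)‖ ≤ _ at h1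
  have h2 := s1 1 one_ne_zero isCoprime_one_left Y hY hYX
  rw [mul_one] at h2
  have h3 : S1 1 Y * conj (A1 Z) - S Y * ((κ * Z : ℝ) : ℂ) =
      (S1 1 Y - S Y) * conj (A1 Z) + S Y * conj (A1 Z - ((κ * Z : ℝ) : ℂ)) := by
    rw [map_sub, Complex.conj_ofReal]; ring
  have h4 : ‖S1 1 Y * conj (A1 Z) - S Y * ((κ * Z : ℝ) : ℂ)‖ ≤
      F * Y ^ θ * (E - 1) * (E * (κ * Z + C * Real.sqrt Z)) +
        F * Y ^ θ * (κ * Z * (E - 1) + C * E * Real.sqrt Z) := by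
    rw [h3]
    refine (norm_add_le _ _).trans (add_le_add ?_ ?_)
    · rw [norm_mul, Complex.norm_conj]
      exact mul_le_mul h2 (a2 Z hZ) (norm_nonneg _) (mul_nonneg (by positivity) (by linarith))
    · rw [norm_mul, Complex.norm_conj]
      exact mul_le_mul (hS Y hY hYX) (a1 Z hZ) (norm_nonneg _) (by positivity)
  have h5 := norm_add_le (T0 ψ r Q Y Z - S1 1 Y * conj (A1 Z))
    (S1 1 Y * conj (A1 Z) - S Y * ((κ * Z : ℝ) : ℂ))
  rw [sub_add_sub_cancel] at h5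
  refine h5.trans ((add_le_add h1 h4).trans (le_of_eq ?_))
  ring

end Crest.Agent.R017

end
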