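import Crest.Agent.R017.FMMain1

/-! # Row 17: principal rows: the average of the local corrections -/

set_option autoImplicit false

noncomputable section

open scoped BigOperators ComplexConjugate
open Complex MeasureTheory

namespace Crest.Agent.R017

open Classical in
/-- The weight of the row `k⁶`. -/
def wk (Q : O) (R : ℝ) (k : O) : ℝ := if Prim k ∧ IsCoprime k Q then Phi (Nr k ^ 6 / R) else 0

theorem m2_good_congr {Q x a : O} (h3 : (3 : O) ∣ Q) (h : Q ∣ x - a)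
    (ha : Prim a ∧ IsCoprime a Q) : Prim x ∧ IsCoprime x Q := by
  obtain ⟨c, hc⟩ := h
  have e : x = a + Q * c := by linear_combination hc
  refine ⟨?_, by rw [e]; exact ha.2.add_mul_left_left c⟩
  unfold Prim
  rw [show x - 1 = (a - 1) + Q * c by linear_combination hc]
  exact dvd_add ha.1 (h3.mul_right c)

open Classical in
theorem m2_count {Q : O} (hQ : Q ≠ 0) (h3 : (3 : O) ∣ Q) : ∃ B D : ℝ, 0 ≤ B ∧ 0 < D ∧
    (∀ X : ℝ, 0 < X → (((box X).filter fun k => Prim k ∧ IsCoprime k Q).card : ℝ) ≤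
      B * X ^ (23 / 24 : ℝ) + 60 * D * X) ∧
    ∀ X : ℝ, 16 * Nr Q ≤ X →
      D * X / 8 ≤ (((box X).filter fun k => Prim k ∧ IsCoprime k Q).card : ℝ) := by
  set G := (reps Q).filter fun k => Prim k ∧ IsCoprime k Q with hG
  have hN := Nr_pos hQ
  have hcard : ∀ X : ℝ, (((box X).filter fun k => Prim k ∧ IsCoprime k Q).card : ℝ) =
      ∑ a ∈ G, (((box X).filter fun x => Q ∣ x - a).card : ℝ) := by
    intro X
    rw [← Nat.cast_sum, ← Finset.card_biUnion]
    · congr 2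
      ext x
      simp only [Finset.mem_filter, Finset.mem_biUnion, hG]
      constructor
      · rintro ⟨hx, hg⟩
        obtain ⟨a, ⟨ha, hd⟩, -⟩ := reps_existsUnique hQ x
        exact ⟨a, ⟨ha, m2_good_congr h3 hd hg⟩, hx, dvd_sub_comm.1 hd⟩
      · rintro ⟨a, ⟨-, hg⟩, hx, hd⟩
        exact ⟨hx, m2_good_congr h3 hd hg⟩
    · intro a ha b hb hab
      rw [Function.onFun, Finset.disjoint_left]
      intro x hx hx'
      obtain ⟨c, -, hc⟩ := reps_existsUnique hQ x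
      exact hab ((hc a ⟨(Finset.mem_filter.1 ha).1, dvd_sub_comm.1 (Finset.mem_filter.1 hx).2⟩).trans
        (hc b ⟨(Finset.mem_filter.1 hb).1, dvd_sub_comm.1 (Finset.mem_filter.1 hx').2⟩).symm)
  have hpos : (0 : ℝ) < G.card := by
    obtain ⟨a, ⟨ha, hd⟩, -⟩ := reps_existsUnique hQ 1
    exact_mod_cast Finset.card_pos.2 ⟨a, Finset.mem_filter.2
      ⟨ha, m2_good_congr h3 hd ⟨prim_one, isCoprime_one_left⟩⟩⟩
  refine ⟨60 * G.card, G.card / Nr Q, by positivity, by positivity, fun X hX => ?_, fun X hX => ?_⟩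
  · rcases lt_or_ge X 1 with h | h
    · rw [box_eq_empty h, Finset.filter_empty, Finset.card_empty, Nat.cast_zero]
      positivity
    · rw [hcard]
      refine (Finset.sum_le_card_nsmul _ _ _ fun a _ => card_box_class_le hQ a hX.le).trans ?_
      have h1 : 1 ≤ X ^ (23 / 24 : ℝ) := Real.one_le_rpow h (by norm_num)
      rw [nsmul_eq_mul]
      have e : (G.card : ℝ) * (60 * (1 + X / Nr Q)) =
        60 * G.card + 60 * (G.card / Nr Q) * X := by ring
      rw [e]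
      nlinarith
  · rw [hcard]
    refine le_trans (le_of_eq ?_)
      (Finset.card_nsmul_le_sum _ _ _ fun a _ => le_card_box_class hQ a hX)
    rw [nsmul_eq_mul]; field_simp

theorem m2_wk_nonneg (Q : O) (R : ℝ) (k : O) : 0 ≤ wk Q R k := by
  unfold wk; split_ifs
  · exact (Phi_pos _).le
  · exact le_rfl

theorem m2_wk_zero (Q : O) (R : ℝ) : wk Q R 0 = 0 := if_neg fun h => h.1.ne_zero rfl

theorem m2_sum_le_box (f : O → ℝ) (h0 : f 0 = 0) (hf : ∀ k, 0 ≤ f k) (S : Finset O) {X : ℝ}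
    (hX : ∑ x ∈ S, Nr x ≤ X) : ∑ k ∈ S, f k ≤ ∑ k ∈ box X, f k := by
  rw [← Finset.sum_erase S h0]
  refine Finset.sum_le_sum_of_subset_of_nonneg (fun k hk => ?_) fun k _ _ => hf k
  exact mem_box.2 ⟨(Finset.mem_erase.1 hk).1, (Finset.single_le_sum (fun y _ => Nr_nonneg y)
    (Finset.mem_erase.1 hk).2).trans hX⟩

open Classical in
theorem m2_psi_le : ∃ C : ℝ, 0 < C ∧ ∀ (Q : O) (Z E : ℝ), 0 < Z → 0 ≤ E →
    (∀ j : ℕ, (((box (2 ^ j * Z)).filter fun k => Prim k ∧ IsCoprime k Q).card : ℝ) ≤ 2 ^ j * E) →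
    ∀ S : Finset O, ∑ k ∈ S, wk Q (Z ^ 6) k ≤ C * E := by
  obtain ⟨C, hC⟩ := Phi_le_rpow (A := 1) zero_le_one
  have hC0 : 0 < C := by
    have := (Phi_pos 1).trans_le (hC 1 one_pos)
    simpa using this
  refine ⟨1 + 4 * C, by positivity, fun Q Z E hZ hE hA S => ?_⟩
  have hb : ∀ (T : Finset O) (X M : ℝ), 0 ≤ M → T ⊆ box X →
      (∀ k ∈ T, Phi (Nr k ^ 6 / Z ^ 6) ≤ M) → ∑ k ∈ T, wk Q (Z ^ 6) k ≤
        (((box X).filter fun k => Prim k ∧ IsCoprime k Q).card : ℝ) * M := by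
    intro T X M hM hT h
    unfold wk
    rw [← Finset.sum_filter]
    refine (Finset.sum_le_card_nsmul _ _ M fun k hk => h k (Finset.mem_filter.1 hk).1).trans ?_
    rw [nsmul_eq_mul]
    exact mul_le_mul_of_nonneg_right
      (by exact_mod_cast Finset.card_le_card (Finset.filter_subset_filter _ hT)) hM
  have key : ∀ n : ℕ, ∑ k ∈ box (2 ^ n * Z), wk Q (Z ^ 6) k ≤ E + 4 * C * E * (1 - 1 / 2 ^ n) := by
    intro n
    induction n with
    | zero =>
      have := hb (box (2 ^ 0 * Z)) _ 1 zero_le_one subset_rfl fun k _ =>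
        Phi_le_one (by have := Nr_nonneg k; positivity)
      have h1 := hA 0
      simp only [pow_zero, one_mul, mul_one] at this h1 ⊢
      linarith
    | succ n ih =>
      have hp : (0 : ℝ) < 2 ^ n := by positivity
      have h1 : (1 : ℝ) ≤ 2 ^ n := one_le_pow₀ one_le_two
      have hle : 2 ^ n * Z ≤ 2 ^ (n + 1) * Z := by rw [pow_succ]; nlinarith
      rw [← Finset.sum_sdiff (box_mono hle)]
      have h2 := hb (box (2 ^ (n + 1) * Z) \ box (2 ^ n * Z)) (2 ^ (n + 1) * Z)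
        (C / (2 ^ n) ^ 2) (by positivity) Finset.sdiff_subset fun k hk => by
          rw [Finset.mem_sdiff, mem_box, mem_box] at hk
          have h3 : 2 ^ n < Nr k / Z := by
            rw [lt_div_iff₀ hZ]; exact not_le.1 fun h => hk.2 ⟨hk.1.1, h⟩
          rw [← div_pow]
          refine (hC _ (pow_pos (hp.trans h3) 6)).trans ?_
          rw [Real.rpow_neg_one, ← div_eq_mul_inv]
          refine div_le_div_of_nonneg_left hC0.le (by positivity) ?_
          exact (pow_le_pow_right₀ h1 (by norm_num)).trans (pow_le_pow_left₀ hp.le h3.le 6)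
      have h4 := mul_le_mul_of_nonneg_right (hA (n + 1))
        (show 0 ≤ C / ((2 : ℝ) ^ n) ^ 2 by positivity)
      have e : (2 : ℝ) ^ (n + 1) * E * (C / (2 ^ n) ^ 2) + (E + 4 * C * E * (1 - 1 / 2 ^ n)) =
          E + 4 * C * E * (1 - 1 / 2 ^ (n + 1)) := by
        rw [pow_succ]; field_simp; ring
      linarith
  obtain ⟨n, hn⟩ := pow_unbounded_of_one_lt ((∑ x ∈ S, Nr x) / Z) one_lt_two
  rw [div_lt_iff₀ hZ] at hn
  refine (m2_sum_le_box _ (m2_wk_zero Q _) (m2_wk_nonneg Q _) S hn.le).trans ((key n).trans ?_)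
  have : 0 ≤ 4 * C * E * (1 / 2 ^ n) := by positivity
  linarith

theorem m2_one_le_GG (k : O) : 1 ≤ GG k :=
  Finset.prod_induction _ (fun x : ℝ => 1 ≤ x) (fun _ _ => one_le_mul_of_one_le_of_one_le) le_rfl
    fun p _ => by
    have := Real.rpow_nonneg (Nr_nonneg p) (-(1 / 12 : ℝ))
    linarith

theorem m2_pf_prod {T : Finset O} (hT : ∀ p ∈ T, PP p) : pf (∏ p ∈ T, p) = T := by
  have h0 : ∏ p ∈ T, p ≠ 0 := Finset.prod_ne_zero_iff.2 fun p hp => (hT p hp).1.ne_zero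
  ext q
  rw [mem_pf h0]
  constructor
  · rintro ⟨hq, hd⟩
    obtain ⟨p, hp, hqp⟩ := (hq.1.dvd_finsetProd_iff _).1 hd
    rwa [hq.eq_of_associated (hT p hp) (hq.1.associated_of_dvd (hT p hp).1 hqp)]
  · exact fun hq => ⟨hT q hq, Finset.dvd_prod_of_mem (fun p : O => p) hq⟩

theorem m2_GG_le : ∃ C : ℝ, 0 ≤ C ∧ ∀ k : O, Prim k →
    GG k - 1 ≤ C * ∑ d ∈ (pdiv k).erase 1, Nr d ^ (-(1 / 16 : ℝ)) := by
  obtain ⟨C, hC⟩ := pow_card_pf_le (ε := 1 / 48) (A := 100) (by norm_num) (by norm_num)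
  refine ⟨|C|, abs_nonneg C, fun k hk => ?_⟩
  have hpp : ∀ T ∈ (pf k).powerset.erase ∅, ∀ p ∈ T, PP p := fun T hT p hp =>
    (a1_of_mem_pf (Finset.mem_powerset.1 (Finset.mem_erase.1 hT).2 hp)).1
  rw [GG, Finset.prod_one_add, ← Finset.add_sum_erase _ _ (Finset.empty_mem_powerset _),
    Finset.prod_empty, add_sub_cancel_left]
  have hinj : Set.InjOn (fun T : Finset O => ∏ p ∈ T, p) ((pf k).powerset.erase ∅ : Finset _) :=
    fun T hT T' hT' e => by
      have e' : ∏ p ∈ T, p = ∏ p ∈ T', p := e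
      rw [← m2_pf_prod (hpp T hT), e', m2_pf_prod (hpp T' hT')]
  calc _ ≤ ∑ T ∈ (pf k).powerset.erase ∅, |C| * Nr (∏ p ∈ T, p) ^ (-(1 / 16 : ℝ)) := by
        refine Finset.sum_le_sum fun T hT => ?_
        have h0 : ∏ p ∈ T, p ≠ 0 := Finset.prod_ne_zero_iff.2 fun p hp => (hpp T hT p hp).1.ne_zero
        have h1 := hC _ h0
        have hN := Nr_pos h0
        rw [m2_pf_prod (hpp T hT)] at h1
        rw [Finset.prod_mul_distrib, Finset.prod_const,
          Real.finsetProd_rpow _ _ (fun p _ => Nr_nonneg p), ← Nr_prod,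
          show (-(1 / 16 : ℝ)) = 1 / 48 + -(1 / 12) by norm_num, Real.rpow_add hN, ← mul_assoc]
        refine mul_le_mul_of_nonneg_right (h1.trans ?_) (by positivity)
        exact mul_le_mul_of_nonneg_right (le_abs_self C) (by positivity)
    _ = |C| * ∑ d ∈ ((pf k).powerset.erase ∅).image (fun T : Finset O => ∏ p ∈ T, p),
          Nr d ^ (-(1 / 16 : ℝ)) := by rw [Finset.sum_image hinj, Finset.mul_sum]
    _ ≤ _ := by
        refine mul_le_mul_of_nonneg_left (Finset.sum_le_sum_of_subset_of_nonneg (fun d hd => ?_)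
          fun d _ _ => Real.rpow_nonneg (Nr_nonneg d) _) (abs_nonneg C)
        obtain ⟨T, hT, rfl⟩ := Finset.mem_image.1 hd
        have hs := Finset.mem_powerset.1 (Finset.mem_erase.1 hT).2
        refine Finset.mem_erase.2 ⟨fun e => ?_, (mem_pdiv hk.ne_zero).2 ⟨?_, ?_⟩⟩
        · obtain ⟨p, hp⟩ := Finset.nonempty_iff_ne_empty.2 (Finset.mem_erase.1 hT).1
          exact (hpp T hT p hp).1.not_dvd_one (e ▸ Finset.dvd_prod_of_mem (fun p : O => p) hp)
        · exact Finset.prod_induction (fun p : O => p) Prim (fun _ _ => Prim.mul) prim_one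
            fun p hp => a1_prim_of_mem_pf hk (hs hp)
        · exact (Finset.prod_dvd_prod_of_subset _ _ _ hs).trans (rad_dvd hk.ne_zero)

open Classical in
theorem m2_inner {Q d : O} {P₀ Y X M : ℝ} (hP : ∀ p : O, Prime p → Nr p ≤ P₀ → p ∣ Q)
    (hM : ∀ S : Finset O, ∑ k ∈ S, wk Q ((Y / Nr d) ^ 6) k ≤ M) :
    ∑ k ∈ box X, (if d ∈ (pdiv k).erase 1 then wk Q (Y ^ 6) k else 0) ≤
      if P₀ < Nr d then M else 0 := by
  have hM0 : 0 ≤ M := by simpa using hM ∅
  split_ifs with h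
  · rw [← Finset.sum_filter]
    by_cases hd : d = 0
    · refine le_trans (le_of_eq (Finset.sum_eq_zero fun k hk => ?_)) hM0
      obtain ⟨h1, h2⟩ := Finset.mem_filter.1 hk
      exact absurd hd ((mem_pdiv (mem_box.1 h1).1).1 (Finset.mem_erase.1 h2).2).1.ne_zero
    by_cases hp : Prim d
    swap
    · refine le_trans (le_of_eq (Finset.sum_eq_zero fun k hk => ?_)) hM0
      obtain ⟨h1, h2⟩ := Finset.mem_filter.1 hk
      exact absurd ((mem_pdiv (mem_box.1 h1).1).1 (Finset.mem_erase.1 h2).2).1 hp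
    refine le_trans (Finset.sum_le_sum_of_subset_of_nonneg (t := (box X).image (d * ·))
      (fun k hk => ?_) fun k _ _ => m2_wk_nonneg Q _ k) ?_
    · obtain ⟨h1, h2⟩ := Finset.mem_filter.1 hk
      obtain ⟨h3, h4⟩ := mem_box.1 h1
      obtain ⟨m, rfl⟩ := ((mem_pdiv h3).1 (Finset.mem_erase.1 h2).2).2
      exact Finset.mem_image.2 ⟨m, mem_box.2 ⟨right_ne_zero_of_mul h3,
        (Nr_le_of_dvd h3 (dvd_mul_left m d)).trans h4⟩, rfl⟩
    · rw [Finset.sum_image fun x _ y _ e => mul_left_cancel₀ hd e]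
      refine le_trans (Finset.sum_le_sum fun m _ => ?_) (hM (box X))
      by_cases hg : Prim (d * m) ∧ IsCoprime (d * m) Q
      · rw [wk, wk, if_pos hg, if_pos ⟨hp.of_mul hg.1, hg.2.of_mul_left_right⟩, Nr_mul]
        have := (Nr_pos hd).ne'
        refine le_of_eq (congrArg Phi ?_)
        rw [div_pow, div_div_eq_mul_div]; ring
      · rw [wk, if_neg hg]; exact m2_wk_nonneg _ _ _
  · refine le_of_eq (Finset.sum_eq_zero fun k hk => ?_)
    split_ifs with h2
    · refine if_neg fun hg => h ?_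
      obtain ⟨h3, h4⟩ := (mem_pdiv (mem_box.1 hk).1).1 (Finset.mem_erase.1 h2).2
      obtain ⟨p, m, hp, -, -, e, -⟩ := b1_factor h3 (Finset.mem_erase.1 h2).1
      have h5 : p ∣ d := ⟨m, e⟩
      by_contra h6
      exact hp.not_isUnit (hg.2.isUnit_of_dvd' (h5.trans h4)
        (hP p hp ((Nr_le_of_dvd h3.ne_zero h5).trans (not_lt.1 h6))))
    · rfl

open Classical in
theorem m2_main : ∃ C : ℝ, 0 < C ∧ ∀ (P₀ : ℝ) (Q : O) (B D Y : ℝ), 1 ≤ P₀ → 0 ≤ B → 0 < D → 0 < Y →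
    (∀ p : O, Prime p → Nr p ≤ P₀ → p ∣ Q) →
    (∀ X : ℝ, 0 < X → (((box X).filter fun k => Prim k ∧ IsCoprime k Q).card : ℝ) ≤
      B * X ^ (23 / 24 : ℝ) + 60 * D * X) →
    (∀ S : Finset O, ∑ k ∈ S, wk Q (Y ^ 6) k ≤ C * (B * Y ^ (23 / 24 : ℝ) + 60 * D * Y)) ∧
    ∀ S : Finset O, ∑ k ∈ S, wk Q (Y ^ 6) k * (GG k - 1) ≤
      C * (B * Y ^ (23 / 24 : ℝ) + D * Y * P₀ ^ (-(1 / 16 : ℝ))) := by
  obtain ⟨C1, hC1, h1⟩ := m2_psi_le
  obtain ⟨C2, hC2, h2⟩ := m2_GG_le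
  obtain ⟨C3, hC3, h3⟩ := b2_tail (σ := 17 / 16) (by norm_num)
  obtain ⟨C4, hC4, h4⟩ := b2_tail (σ := 49 / 48) (by norm_num)
  refine ⟨C1 + C1 * C2 * (C4 + 60 * C3), by positivity, fun P₀ Q B D Y hP hB hD hY hQ hA => ?_⟩
  have hΨ : ∀ Z : ℝ, 0 < Z → ∀ S : Finset O,
      ∑ k ∈ S, wk Q (Z ^ 6) k ≤ C1 * (B * Z ^ (23 / 24 : ℝ) + 60 * D * Z) := by
    intro Z hZ
    refine h1 Q Z _ hZ (by positivity) fun j => (hA _ (by positivity)).trans ?_
    have h5 : ((2 : ℝ) ^ j) ^ (23 / 24 : ℝ) ≤ 2 ^ j :=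
      Real.rpow_le_self_of_one_le (one_le_pow₀ one_le_two) (by norm_num)
    rw [Real.mul_rpow (by positivity) hZ.le]
    have h6 : 0 ≤ B * Z ^ (23 / 24 : ℝ) := by positivity
    nlinarith
  have hP0 : 0 < P₀ := by linarith
  refine ⟨fun S => (hΨ Y hY S).trans (mul_le_mul_of_nonneg_right
    (le_add_of_nonneg_right (by positivity)) (by positivity)), fun S => ?_⟩
  set X := ∑ x ∈ S, Nr x
  refine (m2_sum_le_box (fun k => wk Q (Y ^ 6) k * (GG k - 1)) (by simp [m2_wk_zero])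
    (fun k => mul_nonneg (m2_wk_nonneg _ _ _) (sub_nonneg.2 (m2_one_le_GG k))) S le_rfl).trans ?_
  calc _ ≤ ∑ k ∈ box X, ∑ d ∈ box X, C2 * Nr d ^ (-(1 / 16 : ℝ)) *
          (if d ∈ (pdiv k).erase 1 then wk Q (Y ^ 6) k else 0) := by
        refine Finset.sum_le_sum fun k hk => ?_
        by_cases hg : Prim k
        · refine (mul_le_mul_of_nonneg_left (h2 k hg) (m2_wk_nonneg _ _ _)).trans (le_of_eq ?_)
          simp only [mul_ite, mul_zero]
          rw [← Finset.sum_filter, Finset.filter_mem_eq_inter, Finset.inter_eq_right.2,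
            Finset.mul_sum, Finset.mul_sum]
          · exact Finset.sum_congr rfl fun d _ => by ring
          · intro d hd
            obtain ⟨h5, h6⟩ := (mem_pdiv hg.ne_zero).1 (Finset.mem_erase.1 hd).2
            exact mem_box.2 ⟨h5.ne_zero, (Nr_le_of_dvd hg.ne_zero h6).trans (mem_box.1 hk).2⟩
        · have : wk Q (Y ^ 6) k = 0 := if_neg fun h => hg h.1
          simp [this]
    _ ≤ ∑ d ∈ box X, C1 * C2 * (B * Y ^ (23 / 24 : ℝ) *
          (if P₀ < Nr d then Nr d ^ (-(49 / 48 : ℝ)) else 0) +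
          60 * D * Y * (if P₀ < Nr d then Nr d ^ (-(17 / 16 : ℝ)) else 0)) := by
        rw [Finset.sum_comm]
        refine Finset.sum_le_sum fun d hd => ?_
        have hN := Nr_pos (mem_box.1 hd).1
        rw [← Finset.mul_sum]
        refine (mul_le_mul_of_nonneg_left (m2_inner hQ (hΨ (Y / Nr d) (by positivity)))
          (by positivity)).trans (le_of_eq ?_)
        split_ifs
        · rw [Real.div_rpow hY.le hN.le,
            show (-(49 / 48 : ℝ)) = -(1 / 16) - 23 / 24 by norm_num,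
            show (-(17 / 16 : ℝ)) = -(1 / 16) - 1 by norm_num, Real.rpow_sub hN, Real.rpow_sub hN,
            Real.rpow_one]
          ring
        · simp
    _ ≤ _ := by
        rw [← Finset.mul_sum, Finset.sum_add_distrib, ← Finset.mul_sum, ← Finset.mul_sum]
        have h5 := h3 P₀ hP0 (box X)
        have h6 := (h4 P₀ hP0 (box X)).trans (mul_le_of_le_one_right hC4
          (Real.rpow_le_one_of_one_le_of_nonpos hP (by norm_num)))
        rw [show (1 - 17 / 16 : ℝ) = -(1 / 16) by norm_num] at h5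
        have a1 : 0 ≤ B * Y ^ (23 / 24 : ℝ) := by positivity
        have a2 : 0 ≤ D * Y * P₀ ^ (-(1 / 16 : ℝ)) := by positivity
        have h7 := mul_le_mul_of_nonneg_left h5 (show 0 ≤ 60 * D * Y by positivity)
        have h8 := mul_le_mul_of_nonneg_left h6 a1
        refine (mul_le_mul_of_nonneg_left (add_le_add h8 h7) (by positivity)).trans ?_
        have a3 : 0 ≤ C1 * C2 := by positivity
        nlinarith [mul_nonneg hC1.le a1, mul_nonneg hC1.le a2, mul_nonneg (mul_nonneg a3 hC3) a1,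
          mul_nonneg (mul_nonneg a3 hC4) a2]

theorem m2_exists_large {a c : ℝ} (ha : 0 < a) (hc : 0 < c) (b : ℝ) :
    ∃ P : ℝ, b ≤ P ∧ ∀ Y, P ≤ Y → Y ^ (-a) ≤ c := by
  obtain ⟨P, hP⟩ := Filter.eventually_atTop.1
    ((tendsto_rpow_neg_atTop ha).eventually (ge_mem_nhds hc))
  exact ⟨max b P, le_max_left _ _, fun Y hY => hP Y ((le_max_right _ _).trans hY)⟩

theorem avg_GG {η : ℝ} (hη : 0 < η) : ∃ P₀ : ℝ, ∀ Q : O, Q ≠ 0 → (3 : O) ∣ Q →
    (∀ p : O, Prime p → Nr p ≤ P₀ → p ∣ Q) → ∃ c R₀ : ℝ, 0 < c ∧ ∀ R : ℝ, R₀ ≤ R →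
      Summable (wk Q R) ∧ Summable (fun k => wk Q R k * GG k) ∧
      c * R ^ (1 / 6 : ℝ) ≤ ∑' k, wk Q R k ∧ ∑' k, wk Q R k * GG k ≤ (1 + η) * ∑' k, wk Q R k := by
  classical
  obtain ⟨C, hC, hm⟩ := m2_main
  have hΦ := Phi_pos 1
  obtain ⟨P₀, hP1, hP2⟩ := m2_exists_large (a := 1 / 16) (c := η * Phi 1 / (16 * C)) (by norm_num)
    (by positivity) 1
  refine ⟨P₀, fun Q hQ h3 hP => ?_⟩
  obtain ⟨B, D, hB, hD, hU, hL⟩ := m2_count hQ h3
  obtain ⟨Y₀, hY1, hY2⟩ := m2_exists_large (a := 1 / 24) (c := η * Phi 1 * D / (16 * C * (B + 1)))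
    (by norm_num) (by positivity) (16 * Nr Q)
  have hN := Nr_pos hQ
  have hY0 : 0 < Y₀ := by linarith
  refine ⟨Phi 1 * D / 8, Y₀ ^ 6, by positivity, fun R hR => ?_⟩
  have hR0 : 0 < R := (pow_pos hY0 6).trans_le hR
  set Y := R ^ (1 / 6 : ℝ) with hY
  have hYp : 0 < Y := Real.rpow_pos_of_pos hR0 _
  have hR6 : R = Y ^ 6 := by
    rw [hY, ← Real.rpow_natCast, ← Real.rpow_mul hR0.le]; norm_num
  have hYY : Y₀ ≤ Y := by
    rw [hR6] at hR
    exact le_of_pow_le_pow_left₀ (by norm_num) hYp.le hR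
  obtain ⟨b1, b2⟩ := hm P₀ Q B D Y hP1 hB hD hYp hP hU
  rw [← hR6] at b1 b2
  have n2 : ∀ k, 0 ≤ wk Q R k * (GG k - 1) := fun k =>
    mul_nonneg (m2_wk_nonneg _ _ _) (sub_nonneg.2 (m2_one_le_GG k))
  have s1 : Summable (wk Q R) := summable_of_sum_le (m2_wk_nonneg Q R) b1
  have s2 : Summable fun k => wk Q R k * (GG k - 1) := summable_of_sum_le n2 b2
  have e : (fun k => wk Q R k * GG k) = fun k => wk Q R k + wk Q R k * (GG k - 1) := by
    funext k; ring
  have low : Phi 1 * D / 8 * Y ≤ ∑' k, wk Q R k := by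
    refine le_trans ?_ (s1.sum_le_tsum ((box Y).filter fun k => Prim k ∧ IsCoprime k Q)
      fun k _ => m2_wk_nonneg Q R k)
    refine le_trans ?_ (Finset.card_nsmul_le_sum _ _ (Phi 1) fun k hk => ?_)
    · rw [nsmul_eq_mul]
      nlinarith [hL Y (hY1.trans hYY)]
    · obtain ⟨h1, h2⟩ := Finset.mem_filter.1 hk
      rw [wk, if_pos h2]
      refine Real.exp_le_exp.2 (neg_le_neg (mul_le_mul_of_nonneg_left ?_ c0_pos.le))
      rw [div_le_one hR0, hR6]
      exact pow_le_pow_left₀ (Nr_nonneg k) (mem_box.1 h1).2 6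
  refine ⟨s1, e ▸ s1.add s2, low, ?_⟩
  rw [e, s1.tsum_add s2]
  have up := s2.tsum_le_of_sum_le b2
  have t1 : C * (D * Y * P₀ ^ (-(1 / 16 : ℝ))) ≤ η * Phi 1 * D * Y / 16 := by
    have := hP2 P₀ le_rfl
    calc _ ≤ C * (D * Y * (η * Phi 1 / (16 * C))) := by gcongr
      _ = _ := by field_simp
  have t2 : C * (B * Y ^ (23 / 24 : ℝ)) ≤ η * Phi 1 * D * Y / 16 := by
    have := hY2 Y hYY
    rw [show (23 / 24 : ℝ) = 1 + -(1 / 24) by norm_num, Real.rpow_add hYp, Real.rpow_one]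
    calc _ ≤ C * ((B + 1) * (Y * (η * Phi 1 * D / (16 * C * (B + 1))))) := by
          gcongr; linarith
      _ = _ := by field_simp
  nlinarith [mul_le_mul_of_nonneg_left low hη.le]

end Crest.Agent.R017

end
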