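import Crest.Agent.R017.FMMain2
import Crest.Agent.R017.FMRow2
import Crest.Agent.R017.Count

/-! # Row 17: auxiliary lemmas for the principal rows -/

set_option autoImplicit false

noncomputable section

open scoped BigOperators ComplexConjugate
open Complex MeasureTheory Filter

namespace Crest.Agent.R017

theorem mm_ev {a δ : ℝ} (ha : 0 < a) (hδ : 0 < δ) (K : ℝ) :
    ∀ᶠ X : ℝ in atTop, K * X ^ (-a) ≤ δ := by
  have h := (tendsto_rpow_neg_atTop ha).const_mul K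
  rw [mul_zero] at h
  exact h.eventually (ge_mem_nhds hδ)

theorem mm_ev' {a : ℝ} (ha : 0 < a) (K : ℝ) : ∀ᶠ X : ℝ in atTop, K ≤ X ^ a :=
  (tendsto_rpow_atTop ha).eventually_ge_atTop K

theorem mm_Z_ge {X η₀ : ℝ} {J : ℕ} (hX : 1 ≤ X) (hη : 0 < η₀) (i : Fin J) :
    X ^ (1 / (6 * (J : ℝ))) ≤ Zs X η₀ J i := by
  unfold Zs
  apply Real.rpow_le_rpow_of_exponent_le hX
  have : 0 ≤ 2 * η₀ * ((i : ℕ) : ℝ) := by positivity
  linarith

theorem mm_Z_one {X η₀ : ℝ} {J : ℕ} (hX : 1 ≤ X) (hη : 0 < η₀) (i : Fin J) :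
    1 ≤ Zs X η₀ J i :=
  (Real.one_le_rpow hX (by positivity)).trans (mm_Z_ge hX hη i)

theorem mm_sep {X η₀ : ℝ} {J : ℕ} (hX : 1 ≤ X) (hη : 0 < η₀) : Sep (Zs X η₀ J) (X ^ η₀) := by
  intro i i' h
  have hX0 : 0 < X := by linarith
  unfold Zs
  rw [← Real.rpow_add hX0, ← Real.rpow_sub hX0]
  apply Real.rpow_le_rpow_of_exponent_le hX
  have h1 : ((i : ℕ) : ℝ) + 1 ≤ ((i' : ℕ) : ℝ) := by exact_mod_cast h
  nlinarith

theorem mm_L {X η₀ : ℝ} {J : ℕ} (hX : 1 ≤ X) (hη : 0 < η₀) (hJ : η₀ * J ^ 2 ≤ 1 / 100) :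
    ∏ i, (Zs X η₀ J i * X ^ η₀) ≤ X ^ (1 / 5 : ℝ) := by
  have hX0 : 0 < X := by linarith
  have h1 : ∀ i : Fin J, Zs X η₀ J i * X ^ η₀ ≤ X ^ (1 / (6 * (J : ℝ)) + 2 * η₀ * J) := by
    intro i
    unfold Zs
    rw [← Real.rpow_add hX0]
    apply Real.rpow_le_rpow_of_exponent_le hX
    have h1 : ((i : ℕ) : ℝ) + 1 ≤ (J : ℝ) := by exact_mod_cast i.2
    nlinarith
  calc ∏ i, (Zs X η₀ J i * X ^ η₀) ≤ ∏ _i : Fin J, X ^ (1 / (6 * (J : ℝ)) + 2 * η₀ * J) := by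
        refine Finset.prod_le_prod (fun i _ => ?_) (fun i _ => h1 i)
        have := mm_Z_one hX hη i
        positivity
    _ = X ^ ((1 / (6 * (J : ℝ)) + 2 * η₀ * J) * J) := by
        rw [Finset.prod_const, Finset.card_univ, Fintype.card_fin, Real.rpow_mul hX0.le,
          Real.rpow_natCast]
    _ ≤ X ^ (1 / 5 : ℝ) := by
        apply Real.rpow_le_rpow_of_exponent_le hX
        have h2 : 1 / (6 * (J : ℝ)) * J ≤ 1 / 6 := by
          rcases Nat.eq_zero_or_pos J with h | h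
          · subst h; simp
          · have : (0 : ℝ) < J := by exact_mod_cast h
            rw [show 1 / (6 * (J : ℝ)) * J = 1 / 6 by field_simp]
        nlinarith

theorem mm_Z_le {X η₀ : ℝ} {J : ℕ} (hX : 1 ≤ X) (hη : 0 < η₀) (hJ : η₀ * J ^ 2 ≤ 1 / 100)
    (i : Fin J) : Zs X η₀ J i ≤ X := by
  unfold Zs
  conv_rhs => rw [← Real.rpow_one X]
  apply Real.rpow_le_rpow_of_exponent_le hX
  have h1 : ((i : ℕ) : ℝ) + 1 ≤ (J : ℝ) := by exact_mod_cast i.2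
  have h0 : (0 : ℝ) ≤ (i : ℕ) := by positivity
  have h2 : 1 / (6 * (J : ℝ)) ≤ 1 / 6 := by
    apply one_div_le_one_div_of_le (by norm_num)
    linarith
  have h3 : η₀ * ((i : ℕ) : ℝ) ≤ η₀ * J ^ 2 := by
    apply mul_le_mul_of_nonneg_left _ hη.le
    nlinarith
  nlinarith

theorem mm_triv (Q : O) (J : ℕ) : ∃ C : ℝ, 0 ≤ C ∧ ∀ (ψ : O → ℂ) (X η₀ : ℝ) (r : O),
    (∀ n, ‖ψ n‖ ≤ 1) → 1 ≤ X → 0 < η₀ → η₀ * J ^ 2 ≤ 1 / 100 →
    ‖VV Q ψ r (X ^ η₀) J (Zs X η₀ J) Q 1 X (X ^ (143 / 300 : ℝ))‖ ≤ C * X ^ (4 : ℕ) := by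
  obtain ⟨C₁, hC₁, hexp⟩ := VV_expand one_pos J
  obtain ⟨C₂, hC₂, hTB⟩ := norm_TB_le
  refine ⟨625 * C₁ * C₂, by positivity, fun ψ X η₀ r hψ hX hη hJ => ?_⟩
  have hX0 : 0 < X := by linarith
  obtain ⟨A, hA, -, hV⟩ := hexp Q ψ (X ^ η₀) (Zs X η₀ J) hψ (Real.one_le_rpow hX hη.le)
    (mm_Z_one hX hη) (mm_sep hX hη)
  have hL := mm_L hX hη hJ
  have hL0 : 0 ≤ ∏ i, (Zs X η₀ J i * X ^ η₀) := Finset.prod_nonneg fun i _ => by
    have := mm_Z_one hX hη i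
    positivity
  rw [hV]
  obtain ⟨L, hLe⟩ : ∃ L, L = ∏ i, (Zs X η₀ J i * X ^ η₀) := ⟨_, rfl⟩
  rw [← hLe] at hA hL hL0 ⊢
  obtain ⟨t, ht⟩ : ∃ t, t = X ^ (1 / 5 : ℝ) := ⟨_, rfl⟩
  rw [← ht] at hL
  have ht0 : 0 < t := ht ▸ Real.rpow_pos_of_pos hX0 _
  have hM0 : 0 < X ^ (143 / 300 : ℝ) := Real.rpow_pos_of_pos hX0 _
  have h1 : (t * X) ^ (5 / 3 : ℝ) = X ^ 2 := by
    rw [ht, ← Real.rpow_add_one hX0.ne', ← Real.rpow_mul hX0.le]
    norm_num
  have h2 : (X ^ (143 / 300 : ℝ)) ^ (3 / 2 : ℝ) ≤ X := by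
    rw [← Real.rpow_mul hX0.le]
    conv_rhs => rw [← Real.rpow_one X]
    apply Real.rpow_le_rpow_of_exponent_le hX
    norm_num
  have h3 : t ^ 3 ≤ X := by
    rw [ht, ← Real.rpow_natCast, ← Real.rpow_mul hX0.le]
    conv_rhs => rw [← Real.rpow_one X]
    apply Real.rpow_le_rpow_of_exponent_le hX
    norm_num
  have hterm : ∀ b₁ ∈ box L, ∀ b₂ ∈ box L,
      ‖A b₁ b₂ * TB ψ r Q (1 * b₂) X (X ^ (143 / 300 : ℝ) / Nr b₁)‖ ≤
        C₁ * t * (C₂ * X ^ 2 * X) := by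
    intro b₁ hb₁ b₂ hb₂
    rw [mem_box] at hb₁ hb₂
    have hn1 := one_le_Nr hb₁.1
    have hn2 := one_le_Nr hb₂.1
    rw [norm_mul, one_mul]
    refine mul_le_mul ((hA _ _).trans ?_) ((hTB ψ r Q b₂ X _ hψ hb₂.1 hX0 (by positivity)).trans ?_)
      (norm_nonneg _) (by positivity)
    · rw [Real.rpow_one]; gcongr
    · rw [← h1]
      have h4 : (X ^ (143 / 300 : ℝ) / Nr b₁) ^ (3 / 2 : ℝ) ≤ X :=
        (Real.rpow_le_rpow (by positivity) (div_le_self hM0.le hn1) (by norm_num)).trans h2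
      have h5 : (Nr b₂ * X) ^ (5 / 3 : ℝ) ≤ (t * X) ^ (5 / 3 : ℝ) := by
        apply Real.rpow_le_rpow (by positivity) _ (by norm_num)
        have := hb₂.2.trans hL
        gcongr
      gcongr
  have hc : ((box L).card : ℝ) ≤ 25 * t := (card_box_le hL0).trans (by linarith)
  calc _ ≤ ∑ b₁ ∈ box L, ∑ b₂ ∈ box L, C₁ * t * (C₂ * X ^ 2 * X) := by
        refine (norm_sum_le _ _).trans (Finset.sum_le_sum fun b₁ hb₁ => ?_)
        exact (norm_sum_le _ _).trans (Finset.sum_le_sum fun b₂ hb₂ => hterm b₁ hb₁ b₂ hb₂)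
    _ = (box L).card * ((box L).card * (C₁ * t * (C₂ * X ^ 2 * X))) := by
        simp only [Finset.sum_const, nsmul_eq_mul]
    _ ≤ (25 * t) * ((25 * t) * (C₁ * t * (C₂ * X ^ 2 * X))) := by gcongr
    _ = 625 * C₁ * C₂ * (t ^ 3 * X ^ 3) := by ring
    _ ≤ 625 * C₁ * C₂ * (X * X ^ 3) := by gcongr
    _ = _ := by ring

theorem mm_prod {ι : Type*} (s : Finset ι) (a b P : ι → ℝ) {τ : ℝ} (hτ : 0 ≤ τ)
    (ha : ∀ i, 0 ≤ a i ∧ a i ≤ 2 * P i) (hb : ∀ i, 0 ≤ b i ∧ b i ≤ 2 * P i)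
    (hab : ∀ i, |a i - b i| ≤ τ * P i) :
    |∏ i ∈ s, a i - ∏ i ∈ s, b i| ≤ s.card * 2 ^ s.card * τ * ∏ i ∈ s, P i := by
  classical
  have hP : ∀ i, 0 ≤ P i := fun i => by have := ha i; linarith
  induction s using Finset.induction_on with
  | empty => simp
  | insert j s hj ih =>
    rw [Finset.prod_insert hj, Finset.prod_insert hj, Finset.prod_insert hj,
      Finset.card_insert_of_notMem hj]
    have hPs : 0 ≤ ∏ i ∈ s, P i := Finset.prod_nonneg fun i _ => hP i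
    have hB0 : 0 ≤ ∏ i ∈ s, b i := Finset.prod_nonneg fun i _ => (hb i).1
    have hB : ∏ i ∈ s, b i ≤ 2 ^ s.card * ∏ i ∈ s, P i := by
      rw [← Finset.prod_const, ← Finset.prod_mul_distrib]
      exact Finset.prod_le_prod (fun i _ => (hb i).1) (fun i _ => (hb i).2)
    have hPj := hP j
    calc |a j * ∏ i ∈ s, a i - b j * ∏ i ∈ s, b i|
        = |a j * (∏ i ∈ s, a i - ∏ i ∈ s, b i) + (a j - b j) * ∏ i ∈ s, b i| := by ring_nf
      _ ≤ a j * |∏ i ∈ s, a i - ∏ i ∈ s, b i| + |a j - b j| * ∏ i ∈ s, b i := by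
          refine (abs_add_le _ _).trans ?_
          rw [abs_mul, abs_mul, abs_of_nonneg (ha j).1, abs_of_nonneg hB0]
      _ ≤ (2 * P j) * (s.card * 2 ^ s.card * τ * ∏ i ∈ s, P i) +
            (τ * P j) * (2 ^ s.card * ∏ i ∈ s, P i) := by
          have := (ha j).1
          have := (ha j).2
          have := hab j
          gcongr
      _ ≤ _ := by
          push_cast
          have : 0 ≤ τ * P j * (2 ^ s.card * ∏ i ∈ s, P i) := by positivity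
          rw [pow_succ]
          nlinarith

/-- The rows under consideration. -/
def mmC (Q r : O) : Prop := IsCoprime r Q ∧ Princ (fun n => psi0 Q n * chi n r)

theorem mm_three {Q : O} (h72 : (72 : O) ∣ Q) : (3 : O) ∣ Q :=
  (Dvd.intro 24 (by norm_num)).trans h72

theorem mm_six {Q : O} (h72 : (72 : O) ∣ Q) : (6 : O) ∣ Q :=
  (Dvd.intro 12 (by norm_num)).trans h72

theorem mm_ne {Q r : O} (h72 : (72 : O) ∣ Q) (h : IsCoprime r Q) : r ≠ 0 := by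
  rintro rfl
  exact ch_not_cop_zero (mm_three h72) h

open Classical in
theorem mm_chi {Q r n : O} (h72 : (72 : O) ∣ Q) (h : mmC Q r) (hn : Prim n) (hnQ : IsCoprime n Q) :
    chi n r = if IsCoprime n r then 1 else 0 := by
  have h6 : IsCoprime n 6 := hnQ.of_isCoprime_of_dvd_right (mm_six h72)
  split_ifs with hc
  · have h1 := h.2 n hn
    simp only [psi0, if_pos hnQ, one_mul] at h1
    apply h1
    rw [Ne, chi_eq_zero hn.ne_zero, not_not]
    exact h6.mul_right hc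
  · rw [chi_eq_zero hn.ne_zero]
    exact fun h' => hc h'.of_mul_right_right

theorem mm_sm_congr {a X τ : ℝ} {c c' : O → ℂ} (h : ∀ n, Prim n → c n = c' n) :
    sm a c X τ = sm a c' X τ := by
  unfold sm
  refine tsum_congr fun n => ?_
  split_ifs with hn
  · rw [h n hn]
  · rfl

theorem mm_KK {p r : O} (hp : Prim p) {θ : ℝ} (hθ : 3 / 4 ≤ θ) (a c d : ℕ) :
    ‖KK (p ^ (a + d)) (p ^ c) r‖ * Nr p ^ (-(a * θ + c * (1 : ℝ))) ≤ Nr p ^ (d * (2 / 3 : ℝ)) := by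
  have h1 := one_le_Nr hp.ne_zero
  have h0 : 0 < Nr p := by linarith
  refine (mul_le_mul_of_nonneg_right (norm_KK_le (hp.pow _) (hp.pow _) r) (by positivity)).trans ?_
  rw [Nr_pow, Nr_pow, ← Real.rpow_natCast, ← Real.rpow_natCast, ← Real.rpow_mul h0.le,
    ← Real.rpow_mul h0.le, ← Real.rpow_add h0, ← Real.rpow_add h0]
  apply Real.rpow_le_rpow_of_exponent_le h1
  push_cast
  have ha : (0 : ℝ) ≤ a := by positivity
  have hc : (0 : ℝ) ≤ c := by positivity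
  nlinarith

open Classical in
theorem mm_TB_all {Q : O} (h72 : (72 : O) ∣ Q) {ε : ℝ} (hε : 0 < ε) : ∃ C : ℝ, 0 ≤ C ∧
    ∀ (x θ F X₀ M₀ : ℝ) (ψ : O → ℂ) (r : O), 1 ≤ x → IsCh Q ψ → mmC Q r → Nr r ≤ x → X₀ ≤ x →
    M₀ ≤ x → 3 / 4 ≤ θ → θ ≤ 1 → 1 ≤ F →
    (∀ Y, 0 < Y → Y ≤ X₀ → ‖sm 1 (fun n => mu n * ψ n) Y 0‖ ≤ F * Y ^ θ) →
    ∀ (e : O) (X M : ℝ), Q ∣ e → e ≠ 0 → Nr e ≤ x → 0 < X → X ≤ X₀ → 0 < M → M ≤ M₀ →
      ‖TB ψ r e 1 X M‖ ≤ (C * x ^ (2 * ε) * F) * X ^ θ * M ^ (1 : ℝ) *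
        ∏ _p ∈ (pf r).filter (fun p => ¬ p ∣ e), (1 : ℝ) := by
  obtain ⟨C₁, hC₁, h₁⟩ := TB_le hε Q
  obtain ⟨C₂, hC₂, h₂⟩ := norm_sm_mu_coprime_le one_pos hε
  obtain ⟨C₃, h₃⟩ := norm_sm_le one_pos 1
  refine ⟨C₁ * max C₂ 1 * max C₃ 1, by positivity, ?_⟩
  intro x θ F X₀ M₀ ψ r hx hψ hr hrx hX₀ hM₀ hθ hθ1 hF hS e X M he he0 hex hX hXX hM hMM
  have hr0 := mm_ne h72 hr.1
  have hxε : 1 ≤ x ^ ε := Real.one_le_rpow hx hε.le
  have hK : 1 ≤ max C₂ 1 * x ^ ε * F :=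
    one_le_mul_of_one_le_of_one_le (one_le_mul_of_one_le_of_one_le (le_max_right _ _) hxε) hF
  have key := h₁ x θ 1 (max C₂ 1 * x ^ ε * F) (max C₃ 1) X₀ M₀ ψ r e (fun _ => 1) hx hψ hr0 he he0
    hrx hex hX₀ hM₀ (by linarith) hθ1 zero_le_one le_rfl (by linarith) hK (le_max_right _ _)
    ?_ ?_ ?_ (fun _ => le_rfl) X M hX hXX hM hMM
  · refine key.trans (le_of_eq ?_)
    rw [show 2 * ε = ε + ε by ring, Real.rpow_add (by linarith)]
    ring
  · intro Y hY hYX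
    have e1 : sm 1 (fun n => mu n * (ψ n * chi n r)) Y 0 =
        sm 1 (fun n => if IsCoprime n r then mu n * ψ n else 0) Y 0 := by
      refine mm_sm_congr fun n hn => ?_
      by_cases hnQ : IsCoprime n Q
      · rw [mm_chi h72 hr hn hnQ]
        split_ifs <;> simp
      · rw [(hψ.zero n).2 hnQ]; simp
    rw [e1]
    refine (h₂ ψ r F X₀ θ 0 hψ.norm_le (fun x y _ _ => hψ.mul x y) hr0 (by linarith) hS Y hY hYX).trans ?_
    have := Nr_nonneg r
    have h4 : C₂ ≤ max C₂ 1 := le_max_left _ _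
    gcongr
  · intro Y hY _
    refine (h₃ _ Y 0 hY (fun n _ => ?_) (Or.inl le_rfl)).trans ?_
    · rw [norm_mul]
      refine mul_le_one₀ ?_ (norm_nonneg _) (norm_chi_le _ _)
      unfold psi0; split_ifs <;> simp
    · have h4 : C₃ ≤ max C₃ 1 := le_max_left _ _
      gcongr
  · intro p _ a c hp
    simpa using mm_KK (r := r) hp hθ a c 0

/-- The full mass of a slot. -/
def mmP (Q : O) (Z y : ℝ) : ℝ := ∑ p ∈ box (Z * y), (slot Q Z y p).re

theorem mm_slot {Q p : O} {Z y : ℝ} (h : slot Q Z y p ≠ 0) : Prime p ∧ Prim p ∧ IsCoprime p Q := by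
  unfold slot at h
  split_ifs at h with h1
  · exact ⟨h1.1, h1.2.1, h1.2.2.1⟩
  · exact absurd rfl h

theorem mm_PS : ∃ C : ℝ, 0 ≤ C ∧ ∀ (Q r : O) (Z y : ℝ), (72 : O) ∣ Q → mmC Q r → 1 ≤ Z →
    ∃ t : ℝ, PS Q Z y (fun p => chi p r) = (t : ℂ) ∧ 0 ≤ t ∧ t ≤ mmP Q Z y ∧
      mmP Q Z y - t ≤ Real.log (Nr r) * (C * (1 + Real.log Z)) := by
  classical
  obtain ⟨C, hC, h⟩ := norm_slot_le
  refine ⟨C, hC, fun Q r Z y h72 hr hZ => ?_⟩
  have hr0 := mm_ne h72 hr.1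
  refine ⟨∑ p ∈ box (Z * y), if IsCoprime p r then (slot Q Z y p).re else 0, ?_, ?_, ?_, ?_⟩
  · unfold PS
    push_cast
    refine Finset.sum_congr rfl fun p _ => ?_
    by_cases hs : slot Q Z y p = 0
    · rw [hs]; simp
    · obtain ⟨-, h2, h3⟩ := mm_slot hs
      rw [mm_chi h72 hr h2 h3]
      split_ifs
      · rw [mul_one]
        exact Complex.ext (by simp) (by simp [(slot_nonneg Q Z y p).2])
      · simp
  · refine Finset.sum_nonneg fun p _ => ?_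
    split_ifs
    · exact (slot_nonneg Q Z y p).1
    · exact le_rfl
  · refine Finset.sum_le_sum fun p _ => ?_
    split_ifs
    · exact le_rfl
    · exact (slot_nonneg Q Z y p).1
  · have hB : 0 ≤ C * (1 + Real.log Z) := by
      have := Real.log_nonneg hZ
      positivity
    unfold mmP
    rw [← Finset.sum_sub_distrib]
    calc _ ≤ ∑ p ∈ box (Z * y), if p ∈ pf r then C * (1 + Real.log Z) else 0 := by
          refine Finset.sum_le_sum fun p _ => ?_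
          by_cases hs : slot Q Z y p = 0
          · rw [hs]
            split_ifs <;> simp [hB]
          · obtain ⟨h1, h2, h3⟩ := mm_slot hs
            by_cases hc : IsCoprime p r
            · rw [if_pos hc, sub_self]
              split_ifs
              · exact hB
              · exact le_rfl
            · have hm : p ∈ pf r := by
                rw [mem_pf hr0]
                refine ⟨⟨h1, Or.inl h2⟩, ?_⟩
                by_contra hd
                exact hc ((h1.irreducible.coprime_iff_not_dvd).2 hd)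
              rw [if_neg hc, if_pos hm, sub_zero]
              exact (Complex.re_le_norm _).trans (h Q Z y p hZ)
      _ ≤ ∑ p ∈ pf r, C * (1 + Real.log Z) := by
          rw [← Finset.sum_filter]
          refine Finset.sum_le_sum_of_subset_of_nonneg (fun p hp => (Finset.mem_filter.1 hp).2)
            (fun _ _ _ => hB)
      _ ≤ _ := by
          rw [Finset.sum_const, nsmul_eq_mul]
          exact mul_le_mul_of_nonneg_right (card_pf_le hr0) hB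

end Crest.Agent.R017

end
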