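import Crest.Agent.R017.FMRowAux1

/-! # Row 17: pointwise bound for the non-principal rows -/

set_option autoImplicit false

noncomputable section

open scoped BigOperators ComplexConjugate
open Complex MeasureTheory

namespace Crest.Agent.R017

theorem row_le {Q : O} (hQ : Q ≠ 0) (h72 : (72 : O) ∣ Q) {ε : ℝ} (hε : 0 < ε) (J : ℕ) : ∃ C : ℝ, 0 ≤ C ∧
    ∀ (x y σ T X M : ℝ) (ψ : O → ℂ) (k r : O) (Z : Fin J → ℝ),
    1 ≤ x → 1 ≤ y → IsCh Q ψ → k ≠ 0 → r ≠ 0 → (∀ p : O, Prime p → ¬ p ^ 6 ∣ r) → Nr (k ^ 6 * r) ≤ x →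
    (∀ i, 1 ≤ Z i) → Sep Z y → ∏ i, (Z i * y) ≤ x → 0 < X → X ≤ x → 0 < M → M ≤ x →
    1 / 2 ≤ σ → σ ≤ 1 → Real.log (Nr Q * x) + 4 ≤ T →
    (σ = 1 ∨ (¬ Princ (fun n => ψ n * chi n r) ∧ ZFl (fun n => ψ n * chi n r) σ T)) →
    ¬ Princ (fun n => psi0 Q n * chi n r) → ZFl (fun n => psi0 Q n * chi n r) σ T →
      ‖VV Q ψ (k ^ 6 * r) y J Z Q 1 X M‖ ≤
        C * x ^ ε * Nr k ^ 2 * (X ^ σ * M ^ (1 - σ) * Nr r ^ (σ - 1 / 2) *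
          ∏ i, (‖PS Q (Z i) y (fun p => chi p r)‖ + Real.sqrt (Z i))) := by
  classical
  have hδ : 0 < ε / 7 := by positivity
  obtain ⟨C₁, hC₁, H₁⟩ := rw_HS h72 hδ
  obtain ⟨C₂, hC₂, H₂⟩ := rw_HA hQ h72 hδ
  obtain ⟨C₃, hC₃, H₃⟩ := TB_le hδ Q
  obtain ⟨C₄, hC₄, H₄⟩ := VV_sub_le hδ J
  obtain ⟨C₅, hC₅, H₅⟩ := rw_PS_prod hδ J
  have hN := one_le_Nr hQ
  refine ⟨C₄ * C₃ * C₁ * C₂ * C₅ * Nr Q * Nr Q ^ ε, by positivity, ?_⟩
  intro x y σ T X M ψ k r Z hx hy hψ hk hr h6 hRx hZ hsep hZy hX hXx hM hMx h1 h2 hT hc hp hZF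
  have hR : k ^ 6 * r ≠ 0 := mul_ne_zero (pow_ne_zero _ hk) hr
  have hxx : x ≤ Nr Q * x := le_mul_of_one_le_left (by linarith) hN
  have hx' : 1 ≤ Nr Q * x := hx.trans hxx
  obtain ⟨hkR, hrR⟩ := rw_le_of_six hk hr
  have hkx : Nr k ≤ Nr Q * x := hkR.trans (hRx.trans hxx)
  have hqx : Nr (Q * rad r) ≤ Nr Q * x := by
    rw [Nr_mul]
    exact mul_le_mul_of_nonneg_left ((Nr_le_of_dvd hr (rad_dvd hr)).trans (hrR.trans hRx)) (by linarith)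
  have hZx : ∀ i, Z i ≤ Nr Q * x := fun i => by
    have h3 : ∀ j, 1 ≤ Z j * y := fun j => one_le_mul_of_one_le_of_one_le (hZ j) hy
    have h4 : Z i * y ≤ ∏ j, Z j * y := by
      rw [← Finset.mul_prod_erase Finset.univ (fun j => Z j * y) (Finset.mem_univ i)]
      exact le_mul_of_one_le_right (by linarith [h3 i]) (Finset.one_le_prod fun j _ => h3 j)
    have h5 : Z i ≤ Z i * y := le_mul_of_one_le_right (by linarith [hZ i]) hy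
    linarith
  set u := (Nr Q * x) ^ (ε / 7) with hu
  have hu1 : 1 ≤ u := Real.one_le_rpow hx' hδ.le
  have hu2 : 1 ≤ u ^ 2 := one_le_pow₀ hu1
  set G := Nr (Q * rad r) ^ (σ - 1 / 2) with hG
  have hG1 : 1 ≤ G := Real.one_le_rpow (one_le_Nr (mul_ne_zero hQ (rad_ne_zero r))) (by linarith)
  have hw1 := rw_one_le_w (k ^ 6 * r) h1
  have hTB : ∀ (e : O) (X M : ℝ), Q ∣ e → e ≠ 0 → Nr e ≤ Nr Q * x → 0 < X → X ≤ Nr Q * x → 0 < M →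
      M ≤ Nr Q * x → ‖TB ψ (k ^ 6 * r) e 1 X M‖ ≤
        (C₃ * u * (C₁ * u ^ 2) * (C₂ * u ^ 2 * G)) * X ^ σ * M ^ (1 - σ) *
          ∏ p ∈ (pf (k ^ 6 * r)).filter (fun p => ¬ p ∣ e), rw_w (k ^ 6 * r) σ p := by
    intro e X M he he0 hex hX hXx hM hMx
    refine H₃ (Nr Q * x) σ (1 - σ) (C₁ * u ^ 2) (C₂ * u ^ 2 * G) (Nr Q * x) (Nr Q * x) ψ (k ^ 6 * r) e
      (rw_w (k ^ 6 * r) σ) hx' hψ hR he he0 (hRx.trans hxx) hex le_rfl le_rfl h1 h2 (by linarith)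
      (by linarith) (by linarith) (one_le_mul_of_one_le_of_one_le hC₁ hu2)
      (one_le_mul_of_one_le_of_one_le (one_le_mul_of_one_le_of_one_le hC₂ hu2) hG1)
      (H₁ _ σ T ψ k r hx' hψ hk hr hkx hqx h1 h2 hT hc)
      (H₂ _ σ T k r hx' hk hr hkx hqx h1 h2 hT hp hZF) (fun p hp a c hpp => ?_) hw1 X M hX hXx hM hMx
    obtain ⟨hp1, hp2⟩ := a1_of_mem_pf hp
    refine (norm_KK_local hp1.1 hpp hR hp2 h1 h2 a c).1.trans ?_
    unfold rw_w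
    rw [if_pos hp]
    refine le_mul_of_one_le_right (pow_nonneg (Nr_nonneg p) _)
      (Real.one_le_rpow (one_le_Nr hp1.1.ne_zero) ?_)
    split_ifs
    · linarith
    · exact le_rfl
  set E := C₃ * u * (C₁ * u ^ 2) * (C₂ * u ^ 2 * G) with hE
  have hE0 : 0 ≤ E := by positivity
  have hV := H₄ (Nr Q * x) y σ (1 - σ) (1 / 2) E (Nr Q * x) (Nr Q * x) Q ψ (k ^ 6 * r)
    (rw_w (k ^ 6 * r) σ) Z hx' hy hψ (Dvd.dvd.trans ⟨12, by norm_num⟩ h72) hR (hRx.trans hxx) hZ hsep h1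
    (by linarith) le_rfl (by norm_num) hE0 hw1
    (fun p hp a c hpp => by
      obtain ⟨hp1, hp2⟩ := a1_of_mem_pf hp
      refine (norm_KK_local hp1.1 hpp hR hp2 h1 h2 a c).2.trans_eq ?_
      unfold rw_w
      rw [if_pos hp, mul_assoc])
    hTB Q X M dvd_rfl hQ (mul_le_mul_of_nonneg_left hZy (by linarith))
    (fun i p h => by
      unfold slot at h
      by_contra hc
      exact h (if_neg fun h' => hc h'.2.2.1))
    hX (hXx.trans hxx) hM (hMx.trans hxx)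
  have hB := hTB Q X M dvd_rfl hQ (le_mul_of_one_le_right (by linarith) hx) hX (hXx.trans hxx) hM
    (hMx.trans hxx)
  have hP := H₅ Q k r Z (Nr Q * x) y hx' hk hkx hZ hZx
  have hW := rw_prod_w hk hr h6 h1 h2
  have hW' : ∏ p ∈ (pf (k ^ 6 * r)).filter (fun p => ¬ p ∣ Q), rw_w (k ^ 6 * r) σ p ≤
      ∏ p ∈ pf (k ^ 6 * r), rw_w (k ^ 6 * r) σ p :=
    Finset.prod_le_prod_of_subset_of_one_le (Finset.filter_subset _ _)
      (fun p _ => by linarith [hw1 p]) fun p _ _ => hw1 p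
  rw [← hu] at hV hP
  set Wq := ∏ p ∈ (pf (k ^ 6 * r)).filter (fun p => ¬ p ∣ Q), rw_w (k ^ 6 * r) σ p with hWq
  have hWq0 : 0 ≤ Wq := Finset.prod_nonneg fun p _ => by linarith [hw1 p]
  set P₀ := ∏ i, ‖PS Q (Z i) y (fun p => chi p (k ^ 6 * r))‖ with hP₀
  have hP₀0 : 0 ≤ P₀ := Finset.prod_nonneg fun p _ => norm_nonneg _
  set P₁ := ∏ i, (‖PS Q (Z i) y (fun p => chi p (k ^ 6 * r))‖ + Z i ^ (1 / 2 : ℝ)) with hP₁
  set P₂ := ∏ i, (‖PS Q (Z i) y (fun p => chi p r)‖ + Real.sqrt (Z i)) with hP₂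
  have hP₂0 : 0 ≤ P₂ := Finset.prod_nonneg fun p _ => by positivity
  have hP₁0 : 0 ≤ P₁ := Finset.prod_nonneg fun i _ => add_nonneg (norm_nonneg _)
    (Real.rpow_nonneg (by linarith [hZ i]) _)
  clear_value Wq P₀ P₁ P₂ E G u
  have hXσ : 0 < X ^ σ := Real.rpow_pos_of_pos hX _
  have hMσ : 0 < M ^ (1 - σ) := Real.rpow_pos_of_pos hM _
  have hF : 0 ≤ E * X ^ σ * M ^ (1 - σ) * Wq := by positivity
  have h3 : ‖TB ψ (k ^ 6 * r) Q 1 X M * ∏ i, PS Q (Z i) y (fun p => chi p (k ^ 6 * r))‖ ≤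
      C₄ * u * E * X ^ σ * M ^ (1 - σ) * Wq * P₀ := by
    rw [norm_mul, norm_prod, ← hP₀]
    refine mul_le_mul_of_nonneg_right (hB.trans ?_) hP₀0
    calc _ ≤ C₄ * u * (E * X ^ σ * M ^ (1 - σ) * Wq) :=
          le_mul_of_one_le_left hF (one_le_mul_of_one_le_of_one_le hC₄ hu1)
      _ = _ := by ring
  have h4 : ‖VV Q ψ (k ^ 6 * r) y J Z Q 1 X M‖ ≤ C₄ * u * E * X ^ σ * M ^ (1 - σ) * Wq * P₁ := by
    have h5 := norm_sub_norm_le (VV Q ψ (k ^ 6 * r) y J Z Q 1 X M)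
      (TB ψ (k ^ 6 * r) Q 1 X M * ∏ i, PS Q (Z i) y (fun p => chi p (k ^ 6 * r)))
    rw [mul_sub] at hV
    linarith
  have h5 : G * Wq ≤ Nr Q * (Nr k ^ 2 * Nr r ^ (σ - 1 / 2)) := by
    have h7 : Nr Q ^ (σ - 1 / 2) ≤ Nr Q := by
      simpa using Real.rpow_le_rpow_of_exponent_le hN (show σ - 1 / 2 ≤ 1 by linarith)
    have h8 : 0 ≤ Nr (rad r) ^ (σ - 1 / 2) := Real.rpow_nonneg (Nr_nonneg _) _
    rw [hG, Nr_mul, Real.mul_rpow (Nr_nonneg _) (Nr_nonneg _), mul_assoc]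
    exact mul_le_mul h7 ((mul_le_mul_of_nonneg_left hW' h8).trans hW) (mul_nonneg h8 hWq0) (by linarith)
  have h7 : u ^ 7 = Nr Q ^ ε * x ^ ε := by
    rw [hu, ← Real.rpow_mul_natCast (by linarith), ← Real.mul_rpow (by linarith) (by linarith)]
    congr 1
    push_cast
    ring
  calc _ ≤ _ := h4
    _ = (C₄ * C₃ * C₁ * C₂ * u ^ 6 * X ^ σ * M ^ (1 - σ)) * (G * Wq) * P₁ := by rw [hE]; ring
    _ ≤ (C₄ * C₃ * C₁ * C₂ * u ^ 6 * X ^ σ * M ^ (1 - σ)) *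
        (Nr Q * (Nr k ^ 2 * Nr r ^ (σ - 1 / 2))) * (C₅ * u * P₂) := by
        have h8 : 0 ≤ Nr r ^ (σ - 1 / 2) := Real.rpow_nonneg (Nr_nonneg _) _
        exact mul_le_mul (mul_le_mul_of_nonneg_left h5 (by positivity)) hP hP₁0 (by positivity)
    _ = C₄ * C₃ * C₁ * C₂ * C₅ * Nr Q * u ^ 7 * Nr k ^ 2 *
        (X ^ σ * M ^ (1 - σ) * Nr r ^ (σ - 1 / 2) * P₂) := by ring
    _ = _ := by rw [h7]; ring

end Crest.Agent.R017

end
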