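import Crest.Agent.R017.FMMain
import Crest.Agent.R017.FMRow

/-! # Row 17: the contribution of the non-principal rows -/

set_option autoImplicit false

noncomputable section

open scoped BigOperators ComplexConjugate
open Complex MeasureTheory

namespace Crest.Agent.R017

theorem fn_log {e : ℝ} (he : 0 < e) {X : ℝ} (hX : 1 ≤ X) :
    1 + Real.log X ≤ (1 + 1 / e) * X ^ e := by
  have h1 := Real.log_le_rpow_div (by linarith : 0 ≤ X) he
  have h2 := Real.one_le_rpow hX he.le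
  calc 1 + Real.log X ≤ X ^ e + X ^ e / e := add_le_add h2 h1
    _ = _ := by ring

theorem fn_Z {X η₀ : ℝ} {J : ℕ} (hX : 1 ≤ X) (hη : 0 < η₀) (hJ : 1 ≤ J)
    (h : η₀ * J ^ 2 ≤ 1 / 100) : (∀ i, 1 ≤ Zs X η₀ J i) ∧ Sep (Zs X η₀ J) (X ^ η₀) ∧
      ∏ i, (Zs X η₀ J i * X ^ η₀) ≤ X ^ (1 / 5 : ℝ) := by
  have hX0 : 0 < X := by linarith
  have hJ' : (1 : ℝ) ≤ J := by exact_mod_cast hJ
  refine ⟨fun i => Real.one_le_rpow hX (by positivity), fun i i' hi => ?_, ?_⟩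
  · have h1 : ((i : ℕ) : ℝ) + 1 ≤ (i' : ℕ) := by exact_mod_cast hi
    rw [Zs, Zs, ← Real.rpow_add hX0, ← Real.rpow_sub hX0]
    exact Real.rpow_le_rpow_of_exponent_le hX (by nlinarith)
  · calc _ ≤ ∏ _i : Fin J, X ^ (1 / (5 * (J : ℝ))) := by
          refine Finset.prod_le_prod (fun i _ => by unfold Zs; positivity) fun i _ => ?_
          have h1 : ((i : ℕ) : ℝ) + 1 ≤ J := by exact_mod_cast i.2
          rw [Zs, ← Real.rpow_add hX0]
          refine Real.rpow_le_rpow_of_exponent_le hX ?_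
          have h2 : η₀ * J ≤ 1 / (100 * J) := by
            rw [le_div_iff₀ (by positivity)]
            linarith
          have h3 : 1 / (5 * (J : ℝ)) = 1 / (6 * J) + 2 * (1 / (100 * J)) + 1 / (75 * J) := by
            field_simp
            norm_num
          have h4 : 0 < 1 / (75 * (J : ℝ)) := by positivity
          nlinarith
      _ = _ := by
          rw [Finset.prod_const, Finset.card_univ, Fintype.card_fin, ← Real.rpow_mul_natCast hX0.le]
          congr 1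
          field_simp

theorem fn_PS (J : ℕ) : ∃ C : ℝ, 0 ≤ C ∧ ∀ (Q : O) (X y : ℝ) (η : O → ℂ) (Z : Fin J → ℝ), 1 ≤ X →
    1 ≤ y → (∀ i, 1 ≤ Z i) → ∏ i, (Z i * y) ≤ X ^ (1 / 5 : ℝ) → (∀ p, ‖η p‖ ≤ 1) →
    ∏ i, (‖PS Q (Z i) y η‖ + Real.sqrt (Z i)) ≤ C * X ^ (6 / 25 : ℝ) := by
  obtain ⟨C, hC, H⟩ := norm_PS_le
  set e : ℝ := 1 / (25 * (J + 1)) with he
  have he0 : 0 < e := by positivity
  refine ⟨((C + 1) * (1 + 1 / e)) ^ J, by positivity, fun Q X y η Z hX hy hZ hP hη => ?_⟩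
  have hX0 : 0 < X := by linarith
  have h1 : ∀ i, 1 ≤ Z i * y := fun i => one_le_mul_of_one_le_of_one_le (hZ i) hy
  calc _ ≤ ∏ i, ((C + 1) * (1 + 1 / e) * X ^ e * (Z i * y)) := by
        refine Finset.prod_le_prod (fun i _ => by positivity) fun i _ => ?_
        have hZ1 := hZ i
        have h2 : Z i ≤ Z i * y := le_mul_of_one_le_right (by linarith) hy
        have h3 : Z i * y ≤ X := by
          refine le_trans ?_ (hP.trans (Real.rpow_le_self_of_one_le hX (by norm_num)))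
          rw [← Finset.mul_prod_erase _ _ (Finset.mem_univ i)]
          exact le_mul_of_one_le_right (by linarith [h1 i]) (Finset.one_le_prod fun j _ => h1 j)
        have h4 : 1 + Real.log (Z i) ≤ (1 + 1 / e) * X ^ e :=
          le_trans (by gcongr; linarith) (fn_log he0 hX)
        have h5 : Real.sqrt (Z i) ≤ Z i * (1 + Real.log (Z i)) :=
          (Real.sqrt_le_iff.2 ⟨by linarith, by nlinarith⟩).trans
            (le_mul_of_one_le_right (by linarith) (by linarith [Real.log_nonneg hZ1]))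
        calc _ ≤ (C + 1) * (1 + Real.log (Z i)) * Z i := by linarith [H Q (Z i) y η hZ1 hη]
          _ ≤ (C + 1) * ((1 + 1 / e) * X ^ e) * (Z i * y) := by gcongr
          _ = _ := by ring
    _ = ((C + 1) * (1 + 1 / e)) ^ J * (X ^ (e * J) * ∏ i, (Z i * y)) := by
        rw [Finset.prod_mul_distrib, Finset.prod_const, Finset.card_univ, Fintype.card_fin, mul_pow,
          Real.rpow_mul_natCast hX0.le, mul_assoc]
    _ ≤ ((C + 1) * (1 + 1 / e)) ^ J * (X ^ (1 / 25 : ℝ) * X ^ (1 / 5 : ℝ)) := by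
        have : 0 ≤ ∏ i, (Z i * y) := Finset.prod_nonneg fun i _ => by linarith [h1 i]
        gcongr
        rw [he, div_mul_eq_mul_div, div_le_div_iff₀ (by positivity) (by positivity)]
        linarith
    _ = _ := by
        rw [← Real.rpow_add hX0]
        norm_num

theorem fn_unit {Q r : O} (hr : r ≠ 0) (h6 : ∀ p : O, Prime p → ¬ p ^ 6 ∣ r) (hc : IsCoprime r Q)
    (he : Exc Q 1 r) : Nr r = 1 := by
  refine isUnit_iff_Nr.1 (by_contra fun hu => ?_)
  obtain ⟨p, hp, hpr⟩ := WfDvdMonoid.exists_irreducible_factor hu hr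
  have h1 := he p hp.prime fun h => hp.not_isUnit (hc.isUnit_of_dvd' hpr h)
  rw [mul_one] at h1
  exact h6 p hp.prime (pow_dvd_of_le_multiplicity
    (Nat.le_of_dvd (Nat.pos_of_ne_zero (multiplicity_ne_zero.2 hpr)) h1))

theorem fn_princ {η : O → ℂ} {k r : O} (h : ¬ Princ fun n => η n * chi n (k ^ 6 * r)) :
    ¬ Princ fun n => η n * chi n r := by
  refine fun hp => h fun n hn h0 => ?_
  simp only [chi_mul_right, chi_pow_right _ _ (by norm_num : 6 ≠ 0)] at h0 ⊢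
  have h1 : chi n k ≠ 0 := fun h => h0 (by simp [h])
  rw [chi_six h1, one_mul] at h0 ⊢
  exact hp n hn h0

theorem fn_six {r : O} (hr : ¬ lam ∣ r) :
    ∃ k r' : O, (∀ p : O, Prime p → ¬ p ^ 6 ∣ r') ∧ r = k ^ 6 * r' := by
  obtain ⟨u, hu, hp⟩ := exists_prim hr
  obtain ⟨⟨k, r'⟩, ⟨-, -, h6, he⟩, -⟩ := exists_six hp
  obtain ⟨v, hv⟩ := hu.exists_left_inv
  refine ⟨k, v * r', fun p hp h => h6 p hp ?_, ?_⟩
  · have : r' = u * (v * r') := by rw [← mul_assoc, mul_comm u, hv, one_mul]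
    rw [this]
    exact h.mul_left u
  · simp only at he
    rw [mul_left_comm, ← he, ← mul_assoc, hv, one_mul]

open Classical in
/-- The rows `k⁶ r` with a fixed `k`. -/
theorem fn_k {Q : O} (hQ : Q ≠ 0) (h72 : (72 : O) ∣ Q) {θ s : ℝ}
    (hc : (θ = 22 / 25 ∧ s = 0) ∨ (θ = 1 ∧ s = 1 / 250)) (hZF : ZF θ) {e : ℝ} (he : 0 < e) :
    ∃ δ : ℝ, 0 < δ ∧ ∃ J₀ : ℕ, ∀ J : ℕ, J₀ ≤ J → ∃ η₁ : ℝ, 0 < η₁ ∧ ∀ η₀ : ℝ, 0 < η₀ → η₀ ≤ η₁ →
    η₀ * J ^ 2 ≤ 1 / 100 ∧ ∃ C : ℝ, 0 ≤ C ∧ ∀ (X R : ℝ) (ψ : O → ℂ) (k : O), Nr Q ≤ X → IsCh Q ψ →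
      k ≠ 0 → 0 < R → R ≤ X ^ (81 / 100 + δ) → Nr k ^ 6 * R ≤ X ^ (2 : ℝ) →
      ∑ r ∈ (box R).filter (fun r => (∀ p : O, Prime p → ¬ p ^ 6 ∣ r) ∧ IsCoprime r Q ∧
          ¬ Princ (fun n => psi0 Q n * chi n r)), ‖Row Q ψ X η₀ J (k ^ 6 * r)‖ ≤
        C * Nr k ^ 2 * X ^ (124 / 75 + s + 3 * e) * Real.sqrt (R / X ^ (81 / 100 : ℝ)) := by
  obtain ⟨δ, hδ, J₀, H⟩ := count hQ h72 hc hZF he
  refine ⟨δ, hδ, max J₀ 1, fun J hJ => ?_⟩
  have hJ1 : 1 ≤ J := (le_max_right _ _).trans hJ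
  have hJ' : (1 : ℝ) ≤ J := by exact_mod_cast hJ1
  obtain ⟨η₁, hη₁, H⟩ := H J ((le_max_left _ _).trans hJ)
  refine ⟨min η₁ (1 / (100 * J ^ 2)), by positivity, fun η₀ h0 h1 => ?_⟩
  have hη : η₀ * J ^ 2 ≤ 1 / 100 := by
    have := h1.trans (min_le_right _ _)
    rw [le_div_iff₀ (by positivity)] at this
    linarith
  obtain ⟨C₁, hC₁, H⟩ := H η₀ h0 (h1.trans (min_le_left _ _))
  obtain ⟨C₂, hC₂, Hr⟩ := row_le hQ h72 he J
  obtain ⟨C₃, hC₃, Hp⟩ := fn_PS J
  have hs : 0 ≤ s := by rcases hc with ⟨-, h⟩ | ⟨-, h⟩ <;> norm_num [h]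
  have h0' := isCh_psi0 hQ ((show (3 : O) ∣ 72 from ⟨24, by norm_num⟩).trans h72)
  refine ⟨hη, (C₂ + 1) * (C₁ + 25 * C₃), by positivity, fun X R ψ k hQX hψ hk hR hRX hkR => ?_⟩
  have hX : 1 ≤ X := (one_le_Nr hQ).trans hQX
  have hX0 : 0 < X := by linarith
  have hk1 := one_le_Nr hk
  obtain ⟨z1, z2, z3⟩ := fn_Z hX h0 hJ1 hη
  have hy : 1 ≤ X ^ η₀ := Real.one_le_rpow hX h0.le
  have hx : ∀ a : ℝ, a ≤ 2 → X ^ a ≤ X ^ (2 : ℝ) := fun a => Real.rpow_le_rpow_of_exponent_le hX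
  set A : ℝ := (C₂ + 1) * X ^ (2 * e) * Nr k ^ 2 with hA
  have hA0 : 0 < A := by positivity
  set P : O → Prop := fun r => (∀ p : O, Prime p → ¬ p ^ 6 ∣ r) ∧ IsCoprime r Q ∧
    ¬ Princ (fun n => psi0 Q n * chi n r) with hP
  have key : ∀ r ∈ box R, P r → ∀ σ : ℝ, 1 / 2 ≤ σ → σ ≤ 1 →
      (σ = 1 ∨ (¬ Princ (fun n => ψ n * chi n r) ∧
        ZFl (fun n => ψ n * chi n r) σ (10 * Real.log X + 10))) →
      ZFl (fun n => psi0 Q n * chi n r) σ (10 * Real.log X + 10) →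
      ‖Row Q ψ X η₀ J (k ^ 6 * r)‖ / A ≤
        X ^ σ * (X ^ (143 / 300 : ℝ)) ^ (1 - σ) * Nr r ^ (σ - 1 / 2) *
          ∏ i, (‖PS Q (Zs X η₀ J i) (X ^ η₀) (fun p => chi p r)‖ + Real.sqrt (Zs X η₀ J i)) := by
    intro r hr hPr σ h1 h2 h3 h4
    obtain ⟨hr0, hrR⟩ := mem_box.1 hr
    have := Hr (X ^ (2 : ℝ)) (X ^ η₀) σ (10 * Real.log X + 10) X (X ^ (143 / 300 : ℝ)) ψ k r _
      (Real.one_le_rpow hX (by norm_num)) hy hψ hk hr0 hPr.1
      (by rw [Nr_mul, Nr_pow]; exact le_trans (by gcongr) hkR) z1 z2 (z3.trans (hx _ (by norm_num)))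
      hX0 (by simpa using hx 1 (by norm_num)) (by positivity) (hx _ (by norm_num)) h1 h2
      (by
        rw [Real.log_mul (Nr_pos hQ).ne' (by positivity), Real.log_rpow hX0]
        linarith [Real.log_le_log (Nr_pos hQ) hQX, Real.log_nonneg hX]) h3 hPr.2.2 h4
    rw [div_le_iff₀' hA0]
    refine this.trans ?_
    rw [hA, ← Real.rpow_mul hX0.le]
    have := Nr_nonneg r
    gcongr
    linarith
  have ha := H X R _ ψ (fun r => if P r then ‖Row Q ψ X η₀ J (k ^ 6 * r)‖ / A else 0) hX hψ hR hRX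
    le_rfl fun r hr hE σ h1 h2 h3 h4 => by
      have := Nr_nonneg r
      split_ifs with h
      · refine key r hr h σ h1 h2 (Or.inr ⟨?_, h3⟩) h4
        simpa using not_princ_of_not_exc hψ h72 (by simpa using (mem_box.1 hr).1) hE
      · positivity
  have hb : ∑ r ∈ (box R).filter (fun r => Exc Q 1 r),
      (if P r then ‖Row Q ψ X η₀ J (k ^ 6 * r)‖ / A else 0) ≤
      25 * C₃ * X ^ (124 / 75 + s + e) * Real.sqrt (R / X ^ (81 / 100 : ℝ)) := by
    rw [← Finset.sum_filter]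
    rcases lt_or_ge R 1 with hR1 | hR1
    · rw [box_eq_empty hR1]
      simp only [Finset.filter_empty, Finset.sum_empty]
      positivity
    have h1 : ((box R).filter (fun r => Exc Q 1 r)).filter P ⊆ box 1 := fun r hr => by
      simp only [Finset.mem_filter] at hr
      have hr0 := (mem_box.1 hr.1.1).1
      exact mem_box.2 ⟨hr0, (fn_unit hr0 hr.2.1 hr.2.2.1 hr.1.2).le⟩
    have h2 : ((((box R).filter (fun r => Exc Q 1 r)).filter P).card : ℝ) ≤ 25 := by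
      have := card_box_le (Y := 1) zero_le_one
      have h3 : ((((box R).filter (fun r => Exc Q 1 r)).filter P).card : ℝ) ≤ (box 1).card := by
        exact_mod_cast Finset.card_le_card h1
      linarith
    have h3 : X ^ (31 / 25 : ℝ) ≤ X ^ (124 / 75 + s + e) * Real.sqrt (R / X ^ (81 / 100 : ℝ)) := by
      calc _ ≤ X ^ (124 / 75 + s + e) * X ^ (-(81 / 200) : ℝ) := by
            rw [← Real.rpow_add hX0]
            exact Real.rpow_le_rpow_of_exponent_le hX (by linarith)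
        _ ≤ _ := by
            gcongr
            refine Real.le_sqrt_of_sq_le ?_
            rw [← Real.rpow_mul_natCast hX0.le, le_div_iff₀ (by positivity), ← Real.rpow_add hX0]
            norm_num
            exact hR1
    refine (Finset.sum_le_card_nsmul _ _ (C₃ * X ^ (31 / 25 : ℝ)) fun r hr => ?_).trans ?_
    · have hr1 := mem_box.1 (h1 hr)
      simp only [Finset.mem_filter] at hr
      refine (key r hr.1.1 hr.2 1 (by norm_num) le_rfl (Or.inl rfl)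
        ((h0'.mul_chi h72 hr1.1).zfl_one _)).trans ?_
      rw [fn_unit hr1.1 hr.2.1 hr.2.2.1 hr.1.2, sub_self, Real.rpow_zero, Real.one_rpow, mul_one,
        mul_one]
      calc _ ≤ X ^ (1 : ℝ) * (C₃ * X ^ (6 / 25 : ℝ)) := by
            gcongr
            exact Hp Q X _ _ _ hX hy z1 z3 fun p => norm_chi_le p r
        _ = _ := by
            rw [mul_left_comm, ← Real.rpow_add hX0]
            norm_num
    · rw [nsmul_eq_mul, mul_assoc, mul_assoc]
      gcongr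
  have hab := add_le_add hb ha
  rw [Finset.sum_filter_add_sum_filter_not, ← Finset.sum_filter, ← Finset.sum_div,
    div_le_iff₀' hA0] at hab
  refine hab.trans (le_of_eq ?_)
  rw [hA, show 124 / 75 + s + 3 * e = 2 * e + (124 / 75 + s + e) by ring, Real.rpow_add hX0 (2 * e)]
  ring

open Classical in
theorem fm_nonprinc {Q : O} (hQ : Q ≠ 0) (h72 : (72 : O) ∣ Q) {θ s : ℝ}
    (hc : (θ = 22 / 25 ∧ s = 0) ∨ (θ = 1 ∧ s = 1 / 250)) (hZF : ZF θ) {ε : ℝ} (hε : 0 < ε) :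
    ∃ J₀ : ℕ, ∀ J : ℕ, J₀ ≤ J → ∃ η₁ : ℝ, 0 < η₁ ∧ ∀ η₀ : ℝ, 0 < η₀ → η₀ ≤ η₁ →
    ∃ C : ℝ, 0 ≤ C ∧ ∀ (X : ℝ) (ψ : O → ℂ), 1 ≤ X → IsCh Q ψ →
      ‖∑' r : O, if IsCoprime r Q ∧ ¬ Princ (fun n => psi0 Q n * chi n r) then
          (Phi (Nr r / X ^ (81 / 100 : ℝ)) : ℂ) * Row Q ψ X η₀ J r else 0‖ ≤
        C * X ^ (124 / 75 + s + ε) := by
  have he : 0 < ε / 5 := by positivity
  obtain ⟨δ₀, hδ₀, J₀, H⟩ := fn_k hQ h72 hc hZF he
  refine ⟨J₀, fun J hJ => ?_⟩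
  obtain ⟨η₁, hη₁, H⟩ := H J hJ
  refine ⟨η₁, hη₁, fun η₀ h0 h1 => ?_⟩
  obtain ⟨hη, C₁, hC₁, H⟩ := H η₀ h0 h1
  obtain ⟨C₂, hC₂, Hr⟩ := norm_Row_le Q J
  obtain ⟨C₃, H₃⟩ := tsum_Phi_le
  set δ := min δ₀ (min (ε / 5) 1) with hδ
  have hδ0 : 0 < δ := by positivity
  have hδ1 : δ ≤ δ₀ := min_le_left _ _
  have hδ2 : δ ≤ ε / 5 := (min_le_right _ _).trans (min_le_left _ _)
  have hδ3 : δ ≤ 1 := (min_le_right _ _).trans (min_le_right _ _)
  set A : ℝ := 2 + 5 / δ with hA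
  have hA1 : 1 < A := by have : 0 < 5 / δ := by positivity
                         linarith
  obtain ⟨C₄, H₄⟩ := Phi_le_rpow (A := A) (by linarith)
  obtain ⟨C₅, H₅⟩ := tsum_tail_rpow_le hA1
  obtain ⟨C₆, H₆⟩ := sum_box_inv_le
  have hs : 0 ≤ s := by rcases hc with ⟨-, h⟩ | ⟨-, h⟩ <;> norm_num [h]
  have h3 : (3 : O) ∣ Q := (show (3 : O) ∣ 72 from ⟨24, by norm_num⟩).trans h72
  have hNQ := Nr_pos hQ
  refine ⟨C₂ * Nr Q ^ 4 * (|C₃| * (1 + Nr Q)) + C₂ * |C₄| * |C₅| +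
    C₁ * (|C₆| * (2 * (1 + 1 / (ε / 5)))), by positivity, fun X ψ hX hψ => ?_⟩
  have hX0 : 0 < X := by linarith
  have hXe : 1 ≤ X ^ (124 / 75 + s + ε) := Real.one_le_rpow hX (by positivity)
  have hY : 0 < X ^ (81 / 100 : ℝ) := by positivity
  set F : O → ℂ := fun r => if IsCoprime r Q ∧ ¬ Princ (fun n => psi0 Q n * chi n r) then
    (Phi (Nr r / X ^ (81 / 100 : ℝ)) : ℂ) * Row Q ψ X η₀ J r else 0 with hF
  have hF1 : ∀ r, ‖F r‖ ≤ C₂ * X ^ 4 * Phi (Nr r / X ^ (81 / 100 : ℝ)) := fun r => by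
    have := Phi_pos (Nr r / X ^ (81 / 100 : ℝ))
    simp only [hF]
    split_ifs
    · rw [norm_mul, norm_real, Real.norm_of_nonneg this.le, mul_comm]
      gcongr
      exact Hr ψ X η₀ r hψ.norm_le hX h0 hη
    · rw [norm_zero]
      positivity
  rcases le_total X (Nr Q) with hQX | hQX
  · have hsum : Summable fun r : O => Phi (Nr r / X ^ (81 / 100 : ℝ)) := by
      simpa [norm_emb_sq] using summable_Phi hY 0 0
    refine (tsum_of_norm_bounded (hsum.hasSum.mul_left _) hF1).trans ?_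
    calc _ ≤ C₂ * Nr Q ^ 4 * (|C₃| * (1 + Nr Q)) := by
          have : 0 ≤ ∑' r : O, Phi (Nr r / X ^ (81 / 100 : ℝ)) :=
            tsum_nonneg fun r => (Phi_pos _).le
          gcongr
          refine (H₃ _ hY).trans ?_
          gcongr
          · exact le_abs_self _
          · exact (Real.rpow_le_self_of_one_le hX (by norm_num)).trans hQX
      _ ≤ _ := le_trans (by rw [add_assoc]; exact le_add_of_nonneg_right (by positivity))
          (le_mul_of_one_le_right (by positivity) hXe)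
  set R := X ^ (81 / 100 + δ) with hR
  have hR1 : 1 ≤ R := Real.one_le_rpow hX (by positivity)
  have hR2 : R ≤ X ^ (2 : ℝ) := Real.rpow_le_rpow_of_exponent_le hX (by linarith)
  have hs1 : HasSum (fun r => if r ∈ box R then ‖F r‖ else 0) (∑ r ∈ box R, ‖F r‖) := by
    rw [Finset.sum_congr rfl fun r hr => (if_pos hr : ite _ ‖F r‖ 0 = _).symm]
    exact hasSum_sum_of_ne_finset_zero fun r hr => if_neg hr
  have hs2 : Summable fun r : O => if R < Nr r then Nr r ^ (-A) else 0 :=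
    Summable.of_nonneg_of_le (fun r => by have := Nr_nonneg r; positivity)
      (fun r => by have := Nr_nonneg r; split_ifs <;> [rfl; positivity]) (summable_Nr_rpow hA1)
  refine (tsum_of_norm_bounded (hs1.add (hs2.hasSum.mul_left
    (C₂ * X ^ 4 * (|C₄| * X ^ (81 / 100 * A))))) fun r => ?_).trans ?_
  · by_cases hr : r ∈ box R
    · rw [if_pos hr]
      have := Nr_nonneg r
      exact le_add_of_nonneg_right (by positivity)
    rw [if_neg hr, zero_add]
    by_cases hr0 : r = 0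
    · have : F r = 0 := if_neg fun h => ch_not_cop_zero h3 (hr0 ▸ h.1)
      have h2 := Nr_nonneg r
      refine (norm_eq_zero.2 this).trans_le ?_
      positivity
    have hN := Nr_pos hr0
    rw [if_pos (not_le.1 fun h => hr (mem_box.2 ⟨hr0, h⟩)), mul_assoc]
    refine (hF1 r).trans (mul_le_mul_of_nonneg_left ((H₄ _ (by positivity)).trans ?_)
      (by positivity))
    rw [Real.div_rpow hN.le hY.le, ← Real.rpow_mul hX0.le, mul_neg, Real.rpow_neg hX0.le,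
      div_inv_eq_mul, mul_assoc, mul_comm (Nr r ^ _)]
    gcongr
    exact le_abs_self _
  have b1 : C₂ * X ^ 4 * (|C₄| * X ^ (81 / 100 * A)) * ∑' r : O,
      (if R < Nr r then Nr r ^ (-A) else 0) ≤ C₂ * |C₄| * |C₅| * X ^ (124 / 75 + s + ε) := by
    calc _ ≤ C₂ * X ^ 4 * (|C₄| * X ^ (81 / 100 * A)) * (|C₅| * R ^ (1 - A)) := by
          gcongr
          exact (H₅ R (by linarith)).trans (by gcongr; exact le_abs_self _)
      _ = C₂ * |C₄| * |C₅| * X ^ ((4 : ℕ) + 81 / 100 * A + (81 / 100 + δ) * (1 - A)) := by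
          rw [hR, ← Real.rpow_mul hX0.le, Real.rpow_add hX0, Real.rpow_add hX0, Real.rpow_natCast]
          ring
      _ ≤ _ := by
          refine mul_le_mul_of_nonneg_left (Real.rpow_le_rpow_of_exponent_le hX ?_) (by positivity)
          have : δ * A = 2 * δ + 5 := by rw [hA]; field_simp
          push_cast
          nlinarith
  set T : Finset (Σ _ : O, O) := (box R).sigma fun k => (box (R / Nr k ^ 6)).filter fun r =>
    (∀ p : O, Prime p → ¬ p ^ 6 ∣ r) ∧ IsCoprime r Q ∧ ¬ Princ (fun n => psi0 Q n * chi n r) with hT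
  have b2 : ∑ r ∈ box R, ‖F r‖ ≤ ∑ q ∈ T, ‖Row Q ψ X η₀ J (q.1 ^ 6 * q.2)‖ := by
    calc _ = ∑ r ∈ (box R).filter (fun r => IsCoprime r Q ∧ ¬ Princ (fun n => psi0 Q n * chi n r)),
          ‖F r‖ := (Finset.sum_filter_of_ne fun r _ h => by_contra fun h' =>
            h (by simp only [hF, if_neg h', norm_zero])).symm
      _ ≤ ∑ r ∈ (box R).filter (fun r => IsCoprime r Q ∧ ¬ Princ (fun n => psi0 Q n * chi n r)),
          ‖Row Q ψ X η₀ J r‖ := by
          refine Finset.sum_le_sum fun r hr => ?_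
          have := Nr_nonneg r
          simp only [hF, if_pos (Finset.mem_filter.1 hr).2]
          rw [norm_mul, norm_real, Real.norm_of_nonneg (Phi_pos _).le]
          exact mul_le_of_le_one_left (norm_nonneg _) (Phi_le_one (by positivity))
      _ ≤ ∑ r ∈ T.image (fun q => q.1 ^ 6 * q.2), ‖Row Q ψ X η₀ J r‖ := by
          refine Finset.sum_le_sum_of_subset_of_nonneg (fun r hr => ?_) fun _ _ _ => norm_nonneg _
          obtain ⟨hr, hcop, hnp⟩ := Finset.mem_filter.1 hr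
          obtain ⟨hr0, hrR⟩ := mem_box.1 hr
          obtain ⟨k, r', h6, rfl⟩ :=
            fn_six (coprime_three_iff.1 (hcop.of_isCoprime_of_dvd_right h3))
          have hk : k ≠ 0 := fun h => hr0 (by simp [h])
          have hr' : r' ≠ 0 := right_ne_zero_of_mul hr0
          have hk1 := Nr_pos hk
          refine Finset.mem_image.2 ⟨⟨k, r'⟩, Finset.mem_sigma.2 ⟨mem_box.2 ⟨hk,
            (Nr_le_of_dvd hr0 ((dvd_pow_self k (by norm_num)).mul_right _)).trans hrR⟩,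
            Finset.mem_filter.2 ⟨mem_box.2 ⟨hr', ?_⟩, h6, hcop.of_mul_left_right, fn_princ hnp⟩⟩, rfl⟩
          rwa [le_div_iff₀' (by positivity), ← Nr_pow, ← Nr_mul]
      _ ≤ _ := Finset.sum_image_le_of_nonneg fun _ _ => norm_nonneg _
  have b3 : ∑ q ∈ T, ‖Row Q ψ X η₀ J (q.1 ^ 6 * q.2)‖ ≤
      ∑ k ∈ box R, C₁ * X ^ (124 / 75 + s + 4 * (ε / 5)) * (Nr k)⁻¹ := by
    rw [hT, Finset.sum_sigma]
    refine Finset.sum_le_sum fun k hk => ?_
    have hk0 := (mem_box.1 hk).1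
    have hk1 := one_le_Nr hk0
    refine (H X _ ψ k hQX hψ hk0 (by positivity) ((div_le_self (by linarith)
      (one_le_pow₀ hk1)).trans (Real.rpow_le_rpow_of_exponent_le hX (by linarith)))
      (by rwa [mul_div_cancel₀ _ (by positivity)])).trans ?_
    have h4 : Real.sqrt (R / Nr k ^ 6 / X ^ (81 / 100 : ℝ)) ≤ X ^ (ε / 5) / Nr k ^ 3 := by
      refine Real.sqrt_le_iff.2 ⟨by positivity, ?_⟩
      rw [div_right_comm, hR, ← Real.rpow_sub hX0, div_pow, ← pow_mul,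
        ← Real.rpow_mul_natCast hX0.le]
      gcongr
      push_cast
      linarith
    calc _ ≤ C₁ * Nr k ^ 2 * X ^ (124 / 75 + s + 3 * (ε / 5)) * (X ^ (ε / 5) / Nr k ^ 3) := by
          gcongr
      _ = _ := by
          rw [show 124 / 75 + s + 4 * (ε / 5) = 124 / 75 + s + 3 * (ε / 5) + ε / 5 by ring,
            Real.rpow_add hX0 _ (ε / 5)]
          field_simp
  have b4 : ∑ k ∈ box R, (Nr k)⁻¹ ≤ |C₆| * (2 * (1 + 1 / (ε / 5))) * X ^ (ε / 5) := by
    have h4 : 1 + Real.log R ≤ 2 * (1 + Real.log X) := by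
      have := Real.log_le_log (by linarith) hR2
      rw [Real.log_rpow hX0 2] at this
      linarith
    have h5 := Real.log_nonneg hR1
    calc _ ≤ |C₆| * (1 + Real.log R) := (H₆ R hR1).trans (by gcongr; exact le_abs_self _)
      _ ≤ |C₆| * (2 * ((1 + 1 / (ε / 5)) * X ^ (ε / 5))) := by
          gcongr
          linarith [fn_log he hX]
      _ = _ := by ring
  rw [← Finset.mul_sum] at b3
  have b5 : C₁ * X ^ (124 / 75 + s + 4 * (ε / 5)) * ∑ k ∈ box R, (Nr k)⁻¹ ≤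
      C₁ * (|C₆| * (2 * (1 + 1 / (ε / 5)))) * X ^ (124 / 75 + s + ε) := by
    calc _ ≤ C₁ * X ^ (124 / 75 + s + 4 * (ε / 5)) *
          (|C₆| * (2 * (1 + 1 / (ε / 5))) * X ^ (ε / 5)) := by gcongr
      _ = _ := by
          rw [show 124 / 75 + s + ε = 124 / 75 + s + 4 * (ε / 5) + ε / 5 by ring,
            Real.rpow_add hX0 _ (ε / 5)]
          ring
  have b6 : 0 ≤ C₂ * Nr Q ^ 4 * (|C₃| * (1 + Nr Q)) * X ^ (124 / 75 + s + ε) := by positivity
  linarith

end Crest.Agent.R017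

end
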