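import Crest.Agent.R017.FMI

/-! # Row 17: pointwise bound for the basic sum of a row -/

set_option autoImplicit false

noncomputable section

open scoped BigOperators ComplexConjugate
open Complex MeasureTheory

namespace Crest.Agent.R017

theorem r1_KK_prod (S : Finset O) (hS : ∀ p ∈ S, Prime p ∧ Prim p) (a b : O → ℕ) (r : O) :
    KK (∏ p ∈ S, p ^ a p) (∏ p ∈ S, p ^ b p) r = ∏ p ∈ S, KK (p ^ a p) (p ^ b p) r := by
  induction S using Finset.induction_on with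
  | empty => simp [KK_one]
  | insert q S hq ih =>
    have hS' : ∀ p ∈ S, Prime p ∧ Prim p := fun p hp => hS p (Finset.mem_insert_of_mem hp)
    have hq' := hS q (Finset.mem_insert_self _ _)
    rw [Finset.prod_insert hq, Finset.prod_insert hq, Finset.prod_insert hq,
      KK_mul (hq'.2.pow _) (k2_prim_prod S hS' a) (hq'.2.pow _) (k2_prim_prod S hS' b), ih hS']
    rw [← pow_add, ← Finset.prod_mul_distrib]
    refine IsCoprime.prod_right fun p hp => ?_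
    rw [← pow_add]
    exact (k2_coprime hq' (hS' p hp) fun h => hq (h ▸ hp)).pow

theorem r1_rpow_prod (S : Finset O) (hS : ∀ p ∈ S, Prime p ∧ Prim p) (a : O → ℕ) (α : ℝ) :
    Nr (∏ p ∈ S, p ^ a p) ^ (-α) = ∏ p ∈ S, Nr p ^ (-(a p * α)) := by
  rw [Nr_prod, ← Real.finset_prod_rpow _ _ fun p _ => Nr_nonneg _]
  refine Finset.prod_congr rfl fun p _ => ?_
  rw [Nr_pow, ← Real.rpow_natCast, ← Real.rpow_mul (Nr_nonneg _), mul_neg]

open Classical in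
theorem r1_KK_le {N m r e : O} {α β : ℝ} {w : O → ℝ} (hN : Prim N) (hm : Prim m) (hr : r ≠ 0)
    (h1 : N ∣ r ^ 2) (h2 : m ∣ r) (hc : IsCoprime (N * m) e)
    (hw : ∀ p ∈ pf r, ∀ a c : ℕ, Prim p →
      ‖KK (p ^ a) (p ^ c) r‖ * Nr p ^ (-(a * α + c * β)) ≤ w p) (hw1 : ∀ p, 1 ≤ w p) :
    ‖KK N m r‖ * (Nr N ^ (-α) * Nr m ^ (-β)) ≤ ∏ p ∈ (pf r).filter (fun p => ¬ p ∣ e), w p := by
  have hP := hN.mul hm
  have h0 := hP.ne_zero
  have hS : ∀ p ∈ pf (N * m), Prime p ∧ Prim p := fun p hp => k2_mem hP hp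
  have hsub : pf (N * m) ⊆ (pf r).filter (fun p => ¬ p ∣ e) := by
    intro p hp
    have hd := (a1_of_mem_pf hp).2
    have hpr := (hS p hp).1
    refine Finset.mem_filter.2 ⟨(mem_pf hr).2 ⟨(a1_of_mem_pf hp).1, ?_⟩, fun he => ?_⟩
    · rcases hpr.dvd_or_dvd hd with h | h
      · exact hpr.dvd_of_dvd_pow (h.trans h1)
      · exact h.trans h2
    · exact hpr.not_unit (hc.isUnit_of_dvd' hd he)
  refine le_trans ?_ (Finset.prod_le_prod_of_subset_of_one_le hsub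
    (fun p _ => zero_le_one.trans (hw1 p)) fun p _ _ => hw1 p)
  have eN := k2_eq_prod hN h0 (dvd_mul_right _ _)
  have em := k2_eq_prod hm h0 (dvd_mul_left _ _)
  have e1 : KK N m r = ∏ p ∈ pf (N * m), KK (p ^ multiplicity p N) (p ^ multiplicity p m) r := by
    rw [← r1_KK_prod _ hS, ← eN, ← em]
  have e2 : Nr N ^ (-α) = ∏ p ∈ pf (N * m), Nr p ^ (-(multiplicity p N * α)) := by
    rw [← r1_rpow_prod _ hS, ← eN]
  have e3 : Nr m ^ (-β) = ∏ p ∈ pf (N * m), Nr p ^ (-(multiplicity p m * β)) := by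
    rw [← r1_rpow_prod _ hS, ← em]
  rw [e1, e2, e3, norm_prod, ← Finset.prod_mul_distrib, ← Finset.prod_mul_distrib]
  refine Finset.prod_le_prod (fun p _ => mul_nonneg (norm_nonneg _)
    (mul_nonneg (Real.rpow_nonneg (Nr_nonneg _) _) (Real.rpow_nonneg (Nr_nonneg _) _))) fun p hp => ?_
  rw [← Real.rpow_add (Nr_pos (hS p hp).1.ne_zero), ← neg_add]
  exact hw p (Finset.mem_filter.1 (hsub hp)).1 _ _ (hS p hp).2

theorem r1_div_rpow {X n : ℝ} (hX : 0 < X) (hn : 0 < n) (α : ℝ) :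
    (X / n) ^ α = X ^ α * n ^ (-α) := by
  rw [Real.div_rpow hX.le hn.le, Real.rpow_neg hn.le, div_eq_mul_inv]

open Classical in
theorem r1_T0_le {δ : ℝ} (hδ : 0 < δ) (Q : O) : ∃ C : ℝ, 0 ≤ C ∧
    ∀ (x α β K₁ K₂ X₀ M₀ : ℝ) (ψ : O → ℂ) (r e : O), 1 ≤ x → IsCh Q ψ → Q ∣ e → e ≠ 0 →
    Nr e ≤ x → X₀ ≤ x → 1 / 2 ≤ α → α ≤ 1 → 0 ≤ β → 1 ≤ α + β → 1 ≤ K₁ → 1 ≤ K₂ →
    (∀ Y, 0 < Y → Y ≤ X₀ → ‖sm 1 (fun n => mu n * (ψ n * chi n r)) Y 0‖ ≤ K₁ * Y ^ α) →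
    (∀ Y, 0 < Y → Y ≤ M₀ → ‖sm 1 (fun n => psi0 Q n * chi n r) Y 0‖ ≤ K₂ * Y ^ β) →
    ∀ X M : ℝ, 0 < X → X ≤ X₀ → 0 < M → M ≤ M₀ →
      ‖T0 ψ r e X M‖ ≤ C * x ^ (4 * δ) * K₁ * K₂ * X ^ α * M ^ β := by
  obtain ⟨C₁, hC₁, h₁⟩ := norm_sm_mu_coprime_le one_pos hδ
  obtain ⟨C₂, hC₂, h₂⟩ := norm_sm_coprime_le one_pos hδ
  obtain ⟨C₃, h₃⟩ := norm_sm_le one_pos (1 + δ)
  have hs := summable_Nr_rpow (σ := 1 + δ) (by linarith)
  have hZ : 0 ≤ ∑' d : O, Nr d ^ (-(1 + δ)) :=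
    tsum_nonneg fun d => Real.rpow_nonneg (Nr_nonneg _) _
  refine ⟨(C₁ + |C₃|) * C₂ * ∑' d : O, Nr d ^ (-(1 + δ)), by positivity,
    fun x α β K₁ K₂ X₀ M₀ ψ r e hx hψ hQe he hex hX₀ hα hα1 hβ hαβ hK₁ hK₂ H₁ H₂ X M hX hXX hM hMM => ?_⟩
  have hx0 : 0 < x := by linarith
  have hn1 : ∀ n, ‖ψ n * chi n r‖ ≤ 1 := fun n => by
    rw [norm_mul]; exact mul_le_one₀ (hψ.norm_le n) (norm_nonneg _) (norm_chi_le _ _)
  have h0 := isCh_psi0 hψ.ne hψ.three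
  have hn2 : ∀ n, ‖psi0 Q n * chi n r‖ ≤ 1 := fun n => by
    rw [norm_mul]; exact mul_le_one₀ (h0.norm_le n) (norm_nonneg _) (norm_chi_le _ _)
  have hA : 0 ≤ (C₁ + |C₃|) * C₂ * x ^ (4 * δ) * K₁ * K₂ * X ^ α * M ^ β := by positivity
  refine ((T0_I5 hψ hX hM).norm_le_of_bounded
    (hs.hasSum.mul_left ((C₁ + |C₃|) * C₂ * x ^ (4 * δ) * K₁ * K₂ * X ^ α * M ^ β))
    fun d => ?_).trans (le_of_eq (by ring))
  split_ifs with hd
  swap
  · rw [norm_zero]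
    exact mul_nonneg hA (Real.rpow_nonneg (Nr_nonneg _) _)
  have hd0 := hd.1.ne_zero
  have hd1 := one_le_Nr hd0
  have hdp := Nr_pos hd0
  have hxδ : 1 ≤ x ^ δ := Real.one_le_rpow hx hδ.le
  have hY : 0 < X / Nr d := by positivity
  have hY' : 0 < M / Nr d := by positivity
  have b2 : ‖sm 1 (fun m => if IsCoprime m e then chi m r else 0) (M / Nr d) 0‖ ≤
      C₂ * x ^ δ * K₂ * (M / Nr d) ^ β := by
    have e1 : (fun m => if IsCoprime m e then chi m r else 0) =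
        fun m => if IsCoprime m e then psi0 Q m * chi m r else 0 := by
      funext m
      split_ifs with h
      · rw [psi0, if_pos (h.of_isCoprime_of_dvd_right hQe), one_mul]
      · rfl
    rw [e1]
    refine (h₂ _ e K₂ M₀ β 0 hn2 (fun a b ha hb => by
      rw [h0.mul, chi_mul_left ha.ne_zero hb.ne_zero]; ring) he hβ H₂ _ hY'
      ((div_le_self hM.le hd1).trans hMM)).trans ?_
    gcongr
    exact Nr_nonneg _
  have b1 : ‖sm 1 (fun n => if IsCoprime n (e * d) then mu n * (ψ n * chi n r) else 0)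
      (X / Nr d) 0‖ ≤ (C₁ + |C₃|) * (x ^ δ * x ^ δ) * K₁ * (X / Nr d) ^ α * (x / Nr d) ^ δ := by
    have p1 : 0 < (X / Nr d) ^ α := by positivity
    have p2 : 0 < (x / Nr d) ^ δ := by positivity
    rcases le_total (Nr d) x with hdx | hdx
    · refine (h₁ _ (e * d) K₁ X₀ α 0 hn1 (fun a b ha hb => by
        rw [hψ.mul, chi_mul_left ha.ne_zero hb.ne_zero]; ring) (mul_ne_zero he hd0) hα H₁ _ hY
        ((div_le_self hX.le hd1).trans hXX)).trans ?_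
      rw [Nr_mul, Real.mul_rpow (Nr_nonneg _) (Nr_nonneg _)]
      have q1 : 1 ≤ (x / Nr d) ^ δ := Real.one_le_rpow ((one_le_div hdp).2 hdx) hδ.le
      refine le_trans ?_ (le_mul_of_one_le_right (by positivity) q1)
      have q0 := Nr_pos he
      gcongr
      exact le_add_of_nonneg_right (abs_nonneg _)
    · have hle : X / Nr d ≤ 1 := (div_le_one hdp).2 (hXX.trans (hX₀.trans hdx))
      refine (h₃ _ _ 0 hY (fun n _ => ?_) (Or.inr hle)).trans ?_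
      · split_ifs
        · rw [norm_mul]; exact mul_le_one₀ (norm_mu_le n) (norm_nonneg _) (hn1 n)
        · simp
      · rw [Real.rpow_add hY]
        have q1 : (X / Nr d) ^ (1 : ℝ) ≤ (X / Nr d) ^ α :=
          Real.rpow_le_rpow_of_exponent_ge hY hle hα1
        have q2 : (X / Nr d) ^ δ ≤ (x / Nr d) ^ δ := by
          gcongr
          exact hXX.trans hX₀
        calc C₃ * ((X / Nr d) ^ (1 : ℝ) * (X / Nr d) ^ δ)
            ≤ |C₃| * ((X / Nr d) ^ (1 : ℝ) * (X / Nr d) ^ δ) := by gcongr; exact le_abs_self _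
          _ ≤ |C₃| * ((X / Nr d) ^ α * (x / Nr d) ^ δ) := by gcongr
          _ = |C₃| * (1 * 1) * 1 * (X / Nr d) ^ α * (x / Nr d) ^ δ := by ring
          _ ≤ _ := by
            gcongr
            exact le_add_of_nonneg_left hC₁
  have b0 : ‖mu d * mu d * (ψ d * chi d r) * conj (chi d r)‖ ≤ 1 := by
    rw [norm_mul, norm_mul, norm_mul, Complex.norm_conj]
    exact mul_le_one₀ (mul_le_one₀ (mul_le_one₀ (norm_mu_le _) (norm_nonneg _) (norm_mu_le _))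
      (norm_nonneg _) (hn1 d)) (norm_nonneg _) (norm_chi_le _ _)
  have b3 : Nr d ^ (-α) * Nr d ^ (-β) * Nr d ^ (-δ) ≤ Nr d ^ (-(1 + δ)) := by
    rw [← Real.rpow_add hdp, ← Real.rpow_add hdp]
    exact Real.rpow_le_rpow_of_exponent_le hd1 (by linarith)
  have e4 : x ^ (4 * δ) = x ^ δ * x ^ δ * x ^ δ * x ^ δ := by
    rw [← Real.rpow_add hx0, ← Real.rpow_add hx0, ← Real.rpow_add hx0]; congr 1; ring
  rw [norm_mul, norm_mul, Complex.norm_conj]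
  calc _ ≤ 1 * ((C₁ + |C₃|) * (x ^ δ * x ^ δ) * K₁ * (X / Nr d) ^ α * (x / Nr d) ^ δ) *
        (C₂ * x ^ δ * K₂ * (M / Nr d) ^ β) := by gcongr
    _ = (C₁ + |C₃|) * C₂ * x ^ (4 * δ) * K₁ * K₂ * X ^ α * M ^ β *
        (Nr d ^ (-α) * Nr d ^ (-β) * Nr d ^ (-δ)) := by
        rw [r1_div_rpow hX hdp, r1_div_rpow hM hdp, r1_div_rpow hx0 hdp, e4]; ring
    _ ≤ _ := by gcongr

open Classical in
/-- Abstract pointwise bound: `K₁ Y^α` bounds the inverse sums, `K₂ Y^β` the plain sums, and `w`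
bounds the local weights at the primes dividing `r`. -/
theorem TB_le {ε : ℝ} (hε : 0 < ε) (Q : O) : ∃ C : ℝ, 0 ≤ C ∧
    ∀ (x α β K₁ K₂ X₀ M₀ : ℝ) (ψ : O → ℂ) (r e : O) (w : O → ℝ), 1 ≤ x → IsCh Q ψ → r ≠ 0 → Q ∣ e → e ≠ 0 →
    Nr r ≤ x → Nr e ≤ x → X₀ ≤ x → M₀ ≤ x → 1 / 2 ≤ α → α ≤ 1 → 0 ≤ β → β ≤ 1 → 1 ≤ α + β →
    1 ≤ K₁ → 1 ≤ K₂ →
    (∀ Y, 0 < Y → Y ≤ X₀ → ‖sm 1 (fun n => mu n * (ψ n * chi n r)) Y 0‖ ≤ K₁ * Y ^ α) →
    (∀ Y, 0 < Y → Y ≤ M₀ → ‖sm 1 (fun n => psi0 Q n * chi n r) Y 0‖ ≤ K₂ * Y ^ β) →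
    (∀ p ∈ pf r, ∀ a c : ℕ, Prim p → ‖KK (p ^ a) (p ^ c) r‖ * Nr p ^ (-(a * α + c * β)) ≤ w p) →
    (∀ p, 1 ≤ w p) → ∀ X M : ℝ, 0 < X → X ≤ X₀ → 0 < M → M ≤ M₀ →
      ‖TB ψ r e 1 X M‖ ≤ C * x ^ ε * K₁ * K₂ * X ^ α * M ^ β *
        ∏ p ∈ (pf r).filter (fun p => ¬ p ∣ e), w p := by
  have hδ : 0 < ε / 7 := by positivity
  obtain ⟨C₁, hC₁, h₁⟩ := r1_T0_le hδ Q
  obtain ⟨C₂, h₂⟩ := card_pdiv_le hδ
  refine ⟨|C₂| * |C₂| * C₁, by positivity, fun x α β K₁ K₂ X₀ M₀ ψ r e w hx hψ hr hQe he hrx hex hX₀ _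
    hα hα1 hβ _ hαβ hK₁ hK₂ H₁ H₂ hw hw1 X M hX hXX hM hMM => ?_⟩
  have hx0 : 0 < x := by linarith
  set P := ∏ p ∈ (pf r).filter (fun p => ¬ p ∣ e), w p with hP
  have hP0 : 0 ≤ P := Finset.prod_nonneg fun p _ => zero_le_one.trans (hw1 p)
  set B := C₁ * x ^ (4 * (ε / 7)) * K₁ * K₂ * X ^ α * M ^ β * P with hB
  have hB0 : 0 ≤ B := by positivity
  have c1 : ((pdiv (r ^ 2)).card : ℝ) ≤ |C₂| * (x ^ (ε / 7) * x ^ (ε / 7)) := by
    refine (h₂ _ (pow_ne_zero 2 hr)).trans ?_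
    rw [Nr_pow, sq, Real.mul_rpow (Nr_nonneg _) (Nr_nonneg _)]
    have := Nr_pos hr
    gcongr
    exact le_abs_self _
  have c2 : ((pdiv r).card : ℝ) ≤ |C₂| * x ^ (ε / 7) := by
    refine (h₂ _ hr).trans ?_
    have := Nr_pos hr
    gcongr
    exact le_abs_self _
  rw [TB_I4 hψ hr hX hM]
  refine (norm_sum_le_of_le _ (n := fun _ => ((pdiv r).card : ℝ) * B) fun N hN => ?_).trans ?_
  · refine (norm_sum_le_of_le _ (n := fun _ => B) fun m hm => ?_).trans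
      (by rw [Finset.sum_const, nsmul_eq_mul])
    split_ifs with hc
    swap
    · rwa [norm_zero]
    obtain ⟨hN1, hN2⟩ := (mem_pdiv (pow_ne_zero 2 hr)).1 hN
    obtain ⟨hm1, hm2⟩ := (mem_pdiv hr).1 hm
    have n1 := Nr_pos hN1.ne_zero
    have n2 := Nr_pos hm1.ne_zero
    have t := h₁ x α β K₁ K₂ X₀ M₀ ψ r e hx hψ hQe he hex hX₀ hα hα1 hβ hαβ hK₁ hK₂ H₁ H₂
      (X / Nr N) (M / Nr m) (by positivity) ((div_le_self hX.le (one_le_Nr hN1.ne_zero)).trans hXX)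
      (by positivity) ((div_le_self hM.le (one_le_Nr hm1.ne_zero)).trans hMM)
    have k := r1_KK_le hN1 hm1 hr hN2 hm2 hc hw hw1
    rw [norm_mul, norm_mul]
    calc _ ≤ 1 * ‖KK N m r‖ *
          (C₁ * x ^ (4 * (ε / 7)) * K₁ * K₂ * (X / Nr N) ^ α * (M / Nr m) ^ β) := by
          gcongr
          exact hψ.norm_le N
      _ = C₁ * x ^ (4 * (ε / 7)) * K₁ * K₂ * X ^ α * M ^ β *
          (‖KK N m r‖ * (Nr N ^ (-α) * Nr m ^ (-β))) := by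
          rw [r1_div_rpow hX n1, r1_div_rpow hM n2]; ring
      _ ≤ B := by rw [hB]; gcongr
  · have e7 : x ^ ε = x ^ (ε / 7) * x ^ (ε / 7) * x ^ (ε / 7) * x ^ (4 * (ε / 7)) := by
      rw [← Real.rpow_add hx0, ← Real.rpow_add hx0, ← Real.rpow_add hx0]; congr 1; ring
    rw [Finset.sum_const, nsmul_eq_mul]
    calc _ ≤ |C₂| * (x ^ (ε / 7) * x ^ (ε / 7)) * (|C₂| * x ^ (ε / 7) * B) := by gcongr
      _ = _ := by rw [hB, e7]; ring

end Crest.Agent.R017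

end
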