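import Crest.Agent.R017.FMRow2

/-! # Row 17: helper lemmas for the pointwise bound of the non-principal rows -/

set_option autoImplicit false

noncomputable section

open scoped BigOperators ComplexConjugate
open Complex MeasureTheory

namespace Crest.Agent.R017

open Classical in
theorem rw_chi {n : O} (hn : n ≠ 0) (k r : O) :
    chi n (k ^ 6 * r) = if IsCoprime n k then chi n r else 0 := by
  rw [chi_mul_right, chi_pow_right n k (by norm_num), chi_pow_six hn]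
  by_cases hk : IsCoprime n k
  · rw [if_pos hk]
    by_cases h6 : IsCoprime n 6
    · rw [if_pos (h6.mul_right hk), one_mul]
    · have : chi n r = 0 := (chi_eq_zero hn).2 fun h => h6 h.of_mul_right_left
      rw [this, mul_zero]
  · rw [if_neg hk, if_neg fun h => hk h.of_mul_right_right, zero_mul]

theorem rw_sm_congr {a X τ : ℝ} {c c' : O → ℂ} (h : ∀ n, Prim n → c n = c' n) :
    sm a c X τ = sm a c' X τ := by
  unfold sm
  refine tsum_congr fun n => ?_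
  split_ifs with hn
  · rw [h n hn]
  · rfl

theorem rw_log {δ : ℝ} (hδ : 0 < δ) (n : ℕ) : ∃ C : ℝ, 1 ≤ C ∧ ∀ x : ℝ, 1 ≤ x →
    (1 + Real.log x) ^ n ≤ C * x ^ δ := by
  have hη : 0 < δ / (n + 1) := by positivity
  refine ⟨(1 + (δ / (n + 1))⁻¹) ^ n, one_le_pow₀ (by linarith [inv_pos.2 hη]), fun x hx => ?_⟩
  have hx0 : 0 ≤ x := by linarith
  have h1 : Real.log x ≤ x ^ (δ / (n + 1)) / (δ / (n + 1)) := Real.log_le_rpow_div hx0 hη
  have h2 : 1 ≤ x ^ (δ / (n + 1)) := Real.one_le_rpow hx hη.le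
  have h3 : 1 + Real.log x ≤ (1 + (δ / (n + 1))⁻¹) * x ^ (δ / (n + 1)) := by
    rw [div_eq_mul_inv (x ^ (δ / (n + 1)))] at h1
    nlinarith
  have h4 : 0 ≤ 1 + Real.log x := by linarith [Real.log_nonneg hx]
  calc (1 + Real.log x) ^ n ≤ ((1 + (δ / (n + 1))⁻¹) * x ^ (δ / (n + 1))) ^ n :=
        pow_le_pow_left₀ h4 h3 n
    _ = (1 + (δ / (n + 1))⁻¹) ^ n * x ^ (δ / (n + 1) * n) := by
        rw [mul_pow, Real.rpow_mul_natCast hx0]
    _ ≤ _ := by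
        refine mul_le_mul_of_nonneg_left (Real.rpow_le_rpow_of_exponent_le hx ?_) (by positivity)
        rw [div_mul_eq_mul_div, div_le_iff₀ (by positivity)]
        nlinarith

theorem rw_le_of_six {k r : O} (hk : k ≠ 0) (hr : r ≠ 0) :
    Nr k ≤ Nr (k ^ 6 * r) ∧ Nr r ≤ Nr (k ^ 6 * r) :=
  ⟨Nr_le_of_dvd (mul_ne_zero (pow_ne_zero _ hk) hr) (Dvd.dvd.mul_right (dvd_pow_self k (by norm_num)) r),
    Nr_le_of_dvd (mul_ne_zero (pow_ne_zero _ hk) hr) (dvd_mul_left r _)⟩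

/-- inverse sums -/
theorem rw_HS {Q : O} (h72 : (72 : O) ∣ Q) {δ : ℝ} (hδ : 0 < δ) : ∃ C : ℝ, 1 ≤ C ∧
    ∀ (x σ T : ℝ) (ψ : O → ℂ) (k r : O), 1 ≤ x → IsCh Q ψ → k ≠ 0 → r ≠ 0 → Nr k ≤ x →
    Nr (Q * rad r) ≤ x → 1 / 2 ≤ σ → σ ≤ 1 → Real.log x + 4 ≤ T →
    (σ = 1 ∨ (¬ Princ (fun n => ψ n * chi n r) ∧ ZFl (fun n => ψ n * chi n r) σ T)) →
    ∀ Y, 0 < Y → Y ≤ x →
      ‖sm 1 (fun n => mu n * (ψ n * chi n (k ^ 6 * r))) Y 0‖ ≤ C * (x ^ δ) ^ 2 * Y ^ σ := by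
  classical
  obtain ⟨C₁, hC₁, H₁⟩ := pw_S (a := 1) one_pos hδ
  obtain ⟨C₂, hC₂, H₂⟩ := norm_sm_mu_coprime_le (a := 1) one_pos hδ
  obtain ⟨C₃, H₃⟩ := norm_sm_le (a := 1) one_pos 1
  refine ⟨1 + C₂ * C₁ + |C₃|, by nlinarith [mul_nonneg hC₂ hC₁, abs_nonneg C₃], ?_⟩
  intro x σ T ψ k r hx hψ hk hr hkx hqx h1 h2 hT hc Y hY hYx
  have hu : 1 ≤ x ^ δ := Real.one_le_rpow hx hδ.le
  have hu2 : 1 ≤ (x ^ δ) ^ 2 := one_le_pow₀ hu
  have hYσ : 0 < Y ^ σ := Real.rpow_pos_of_pos hY σ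
  have h21 := mul_nonneg hC₂ hC₁
  rcases hc with rfl | ⟨hp, hZ⟩
  · have := H₃ (fun n => mu n * (ψ n * chi n (k ^ 6 * r))) Y 0 hY (fun n _ => by
      rw [norm_mul, norm_mul]
      exact mul_le_one₀ (norm_mu_le n) (by positivity)
        (mul_le_one₀ (hψ.norm_le n) (norm_nonneg _) (norm_chi_le _ _))) (Or.inl le_rfl)
    refine this.trans (mul_le_mul_of_nonneg_right ?_ hYσ.le)
    have := le_abs_self C₃
    have := abs_nonneg C₃
    nlinarith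
  · have hη := hψ.mul_chi h72 hr
    have e : sm 1 (fun n => mu n * (ψ n * chi n (k ^ 6 * r))) Y 0 =
        sm 1 (fun n => if IsCoprime n k then mu n * (ψ n * chi n r) else 0) Y 0 := by
      refine rw_sm_congr fun n hn => ?_
      rw [rw_chi hn.ne_zero]
      split_ifs <;> simp
    rw [e]
    have h3 := H₂ (fun n => ψ n * chi n r) k (C₁ * x ^ δ) x σ 0 hη.norm_le
      (fun a b _ _ => hη.mul a b) hk h1
      (fun Y' hY' hYx' => H₁ x _ _ σ T Y' 0 hx hη hp hqx h1 h2 hZ hY' hYx'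
        (by rw [abs_zero]; linarith) (by rw [abs_zero]; linarith)) Y hY hYx
    refine h3.trans (mul_le_mul_of_nonneg_right ?_ hYσ.le)
    have h4 : Nr k ^ δ ≤ x ^ δ := Real.rpow_le_rpow (Nr_nonneg k) hkx hδ.le
    have h5 : C₂ * Nr k ^ δ * (C₁ * x ^ δ) ≤ C₂ * x ^ δ * (C₁ * x ^ δ) := by gcongr
    have := abs_nonneg C₃
    nlinarith

/-- plain sums -/
theorem rw_HA {Q : O} (hQ : Q ≠ 0) (h72 : (72 : O) ∣ Q) {δ : ℝ} (hδ : 0 < δ) : ∃ C : ℝ, 1 ≤ C ∧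
    ∀ (x σ T : ℝ) (k r : O), 1 ≤ x → k ≠ 0 → r ≠ 0 → Nr k ≤ x →
    Nr (Q * rad r) ≤ x → 1 / 2 ≤ σ → σ ≤ 1 → Real.log x + 4 ≤ T →
    ¬ Princ (fun n => psi0 Q n * chi n r) → ZFl (fun n => psi0 Q n * chi n r) σ T →
    ∀ Y, 0 < Y → Y ≤ x →
      ‖sm 1 (fun n => psi0 Q n * chi n (k ^ 6 * r)) Y 0‖ ≤
        C * (x ^ δ) ^ 2 * Nr (Q * rad r) ^ (σ - 1 / 2) * Y ^ (1 - σ) := by
  classical
  obtain ⟨C₁, hC₁, H₁⟩ := pw_E (a := 1) one_pos hδ
  obtain ⟨C₂, hC₂, H₂⟩ := norm_sm_coprime_le (a := 1) one_pos hδ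
  refine ⟨1 + C₂ * C₁, by nlinarith [mul_nonneg hC₂ hC₁], ?_⟩
  intro x σ T k r hx hk hr hkx hqx h1 h2 hT hp hZ Y hY hYx
  have hu : 1 ≤ x ^ δ := Real.one_le_rpow hx hδ.le
  have hu2 : 1 ≤ (x ^ δ) ^ 2 := one_le_pow₀ hu
  have hYσ : 0 < Y ^ (1 - σ) := Real.rpow_pos_of_pos hY _
  have h21 := mul_nonneg hC₂ hC₁
  have h3Q : (3 : O) ∣ Q := Dvd.dvd.trans ⟨24, by norm_num⟩ h72
  have hη := (isCh_psi0 hQ h3Q).mul_chi h72 hr
  have e : sm 1 (fun n => psi0 Q n * chi n (k ^ 6 * r)) Y 0 =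
      sm 1 (fun n => if IsCoprime n k then psi0 Q n * chi n r else 0) Y 0 := by
    refine rw_sm_congr fun n hn => ?_
    rw [rw_chi hn.ne_zero]
    split_ifs <;> simp
  rw [e]
  have hG : 0 ≤ Nr (Q * rad r) ^ (σ - 1 / 2) := Real.rpow_nonneg (Nr_nonneg _) _
  have h3 := H₂ (fun n => psi0 Q n * chi n r) k (C₁ * x ^ δ * Nr (Q * rad r) ^ (σ - 1 / 2)) x (1 - σ) 0
    hη.norm_le (fun a b _ _ => hη.mul a b) hk (by linarith)
    (fun Y' hY' hYx' => (H₁ x _ _ σ T Y' hx hη hp hqx h1 h2 hZ hY' hYx' hT).trans_eq (by ring)) Y hY hYx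
  refine h3.trans (mul_le_mul_of_nonneg_right ?_ hYσ.le)
  have h4 : Nr k ^ δ ≤ x ^ δ := Real.rpow_le_rpow (Nr_nonneg k) hkx hδ.le
  calc C₂ * Nr k ^ δ * (C₁ * x ^ δ * Nr (Q * rad r) ^ (σ - 1 / 2))
      ≤ C₂ * x ^ δ * (C₁ * x ^ δ * Nr (Q * rad r) ^ (σ - 1 / 2)) := by gcongr
    _ = (C₂ * C₁ * (x ^ δ) ^ 2) * Nr (Q * rad r) ^ (σ - 1 / 2) := by ring
    _ ≤ _ := mul_le_mul_of_nonneg_right (by nlinarith) hG

theorem rw_prod_le {t : O} (ht : t ≠ 0) (S : Finset O) (hS : ∀ p ∈ S, PP p) (f : O → ℕ)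
    (hf : ∀ p ∈ S, f p ≤ multiplicity p t) : ∏ p ∈ S, Nr p ^ f p ≤ Nr t := by
  have h1 : ∏ p ∈ S, p ^ f p ∣ t := by
    refine Finset.prod_dvd_of_coprime (fun p hp q hq hpq => ?_) (fun p hp => ?_)
    · exact (a1_coprime (hS p hp) (hS q hq) hpq).pow
    · exact (a3_pow_dvd (hS p hp).1 ht _).2 (hf p hp)
  have h2 := Nr_le_of_dvd ht h1
  rw [Nr_prod] at h2
  simpa only [Nr_pow] using h2

/-- the local weights -/
def rw_w (R : O) (σ : ℝ) (p : O) : ℝ :=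
  if p ∈ pf R then Nr p ^ (multiplicity p R / 6) * Nr p ^ (if 2 ≤ multiplicity p R then σ - 1 / 2 else 0)
  else 1

theorem rw_one_le_w (R : O) {σ : ℝ} (h1 : 1 / 2 ≤ σ) (p : O) : 1 ≤ rw_w R σ p := by
  unfold rw_w
  split_ifs with h h2
  · have hp := one_le_Nr (a1_of_mem_pf h).1.1.ne_zero
    exact one_le_mul_of_one_le_of_one_le (one_le_pow₀ hp) (Real.one_le_rpow hp (by linarith))
  · have hp := one_le_Nr (a1_of_mem_pf h).1.1.ne_zero
    exact one_le_mul_of_one_le_of_one_le (one_le_pow₀ hp) (Real.one_le_rpow hp le_rfl)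
  · exact le_rfl

theorem rw_prod_w {k r : O} (hk : k ≠ 0) (hr : r ≠ 0) (h6 : ∀ p : O, Prime p → ¬ p ^ 6 ∣ r) {σ : ℝ}
    (h1 : 1 / 2 ≤ σ) (h2 : σ ≤ 1) :
    Nr (rad r) ^ (σ - 1 / 2) * ∏ p ∈ pf (k ^ 6 * r), rw_w (k ^ 6 * r) σ p ≤
      Nr k ^ 2 * Nr r ^ (σ - 1 / 2) := by
  classical
  have hR : k ^ 6 * r ≠ 0 := mul_ne_zero (pow_ne_zero _ hk) hr
  have hs : 0 ≤ σ - 1 / 2 := by linarith
  have hv : ∀ p ∈ pf (k ^ 6 * r), multiplicity p (k ^ 6 * r) = 6 * multiplicity p k + multiplicity p r ∧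
      multiplicity p r < 6 := fun p hp => by
    have hpp := (a1_of_mem_pf hp).1.1
    refine ⟨by rw [a3_mul hpp (pow_ne_zero _ hk) hr, a3_pow hpp hk], ?_⟩
    by_contra h
    exact h6 p hpp ((a3_pow_dvd hpp hr 6).2 (not_lt.1 h))
  have e1 : ∏ p ∈ pf (k ^ 6 * r), rw_w (k ^ 6 * r) σ p =
      (∏ p ∈ pf (k ^ 6 * r), Nr p ^ multiplicity p k) *
        (∏ p ∈ pf (k ^ 6 * r), Nr p ^ (if 2 ≤ multiplicity p (k ^ 6 * r) then 1 else 0)) ^ (σ - 1 / 2) := by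
    rw [← Real.finsetProd_rpow _ _ (fun p _ => pow_nonneg (Nr_nonneg p) _), ← Finset.prod_mul_distrib]
    refine Finset.prod_congr rfl fun p hp => ?_
    unfold rw_w
    rw [if_pos hp]
    have e : multiplicity p (k ^ 6 * r) / 6 = multiplicity p k := by
      obtain ⟨h3, h4⟩ := hv p hp
      omega
    rw [e]
    split_ifs <;> simp
  have e2 : Nr (rad r) = ∏ p ∈ pf (k ^ 6 * r), Nr p ^ (if p ∣ r then 1 else 0) := by
    have : pf r = (pf (k ^ 6 * r)).filter (fun p => p ∣ r) := by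
      ext p
      rw [Finset.mem_filter, mem_pf hr, mem_pf hR]
      exact ⟨fun h => ⟨⟨h.1, h.2.mul_left _⟩, h.2⟩, fun h => ⟨h.1.1, h.2⟩⟩
    rw [rad, Nr_prod, this, Finset.prod_filter]
    refine Finset.prod_congr rfl fun p _ => ?_
    split_ifs <;> simp
  have h3 : ∏ p ∈ pf (k ^ 6 * r), Nr p ^ multiplicity p k ≤ Nr k :=
    rw_prod_le hk _ (fun p hp => (a1_of_mem_pf hp).1) _ fun p _ => le_rfl
  have h4 : Nr (rad r) * ∏ p ∈ pf (k ^ 6 * r), Nr p ^ (if 2 ≤ multiplicity p (k ^ 6 * r) then 1 else 0) ≤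
      Nr r * Nr k := by
    rw [e2, ← Finset.prod_mul_distrib, ← Nr_mul]
    simp only [← pow_add]
    refine rw_prod_le (mul_ne_zero hr hk) _ (fun p hp => (a1_of_mem_pf hp).1) _ fun p hp => ?_
    have hpp := (a1_of_mem_pf hp).1.1
    obtain ⟨h5, -⟩ := hv p hp
    rw [a3_mul hpp hr hk, h5]
    have h7 : p ∣ r → 1 ≤ multiplicity p r := fun h => (a3_pow_dvd hpp hr 1).1 (by rwa [pow_one])
    split_ifs with ha hb hb
    · have := h7 ha; omega
    · have := h7 ha; omega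
    · omega
    · omega
  have hP : 0 ≤ ∏ p ∈ pf (k ^ 6 * r), Nr p ^ (if 2 ≤ multiplicity p (k ^ 6 * r) then 1 else 0) :=
    Finset.prod_nonneg fun p _ => pow_nonneg (Nr_nonneg p) _
  have h5 := Real.rpow_le_rpow (mul_nonneg (Nr_nonneg _) hP) h4 hs
  rw [Real.mul_rpow (Nr_nonneg _) hP, Real.mul_rpow (Nr_nonneg _) (Nr_nonneg _)] at h5
  have h7 : Nr k ^ (σ - 1 / 2) ≤ Nr k := by
    simpa using Real.rpow_le_rpow_of_exponent_le (one_le_Nr hk) (show σ - 1 / 2 ≤ 1 by linarith)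
  have h8 : 0 ≤ Nr r ^ (σ - 1 / 2) := Real.rpow_nonneg (Nr_nonneg _) _
  have h9 := Nr_nonneg k
  rw [e1]
  calc _ = (∏ p ∈ pf (k ^ 6 * r), Nr p ^ multiplicity p k) * (Nr (rad r) ^ (σ - 1 / 2) *
        (∏ p ∈ pf (k ^ 6 * r), Nr p ^ (if 2 ≤ multiplicity p (k ^ 6 * r) then 1 else 0)) ^ (σ - 1 / 2)) := by
        ring
    _ ≤ Nr k * (Nr r ^ (σ - 1 / 2) * Nr k) :=
        mul_le_mul h3 (h5.trans (mul_le_mul_of_nonneg_left h7 h8))
          (mul_nonneg (Real.rpow_nonneg (Nr_nonneg _) _) (Real.rpow_nonneg hP _)) h9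
    _ = _ := by ring

/-- only the primes dividing `k` are dropped -/
theorem rw_PS : ∃ C : ℝ, 0 ≤ C ∧ ∀ (Q k r : O) (Z y : ℝ), k ≠ 0 → 1 ≤ Z →
    ‖PS Q Z y (fun p => chi p (k ^ 6 * r))‖ ≤
      ‖PS Q Z y (fun p => chi p r)‖ + Real.log (Nr k) * (C * (1 + Real.log Z)) := by
  classical
  obtain ⟨C, hC, H⟩ := norm_slot_le
  refine ⟨C, hC, fun Q k r Z y hk hZ => ?_⟩
  have hB : 0 ≤ C * (1 + Real.log Z) := mul_nonneg hC (by linarith [Real.log_nonneg hZ])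
  have h1 : ‖PS Q Z y (fun p => chi p (k ^ 6 * r)) - PS Q Z y (fun p => chi p r)‖ ≤
      Real.log (Nr k) * (C * (1 + Real.log Z)) := by
    unfold PS
    rw [← Finset.sum_sub_distrib]
    calc _ ≤ ∑ p ∈ box (Z * y), ‖slot Q Z y p * chi p (k ^ 6 * r) - slot Q Z y p * chi p r‖ :=
          norm_sum_le _ _
      _ ≤ ∑ p ∈ box (Z * y), if p ∈ pf k then C * (1 + Real.log Z) else 0 := by
          refine Finset.sum_le_sum fun p hp => ?_
          have hp0 : p ≠ 0 := (mem_box.1 hp).1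
          rw [rw_chi hp0]
          by_cases hc : IsCoprime p k
          · rw [if_pos hc, sub_self, norm_zero]
            split_ifs
            · exact hB
            · exact le_rfl
          · rw [if_neg hc, mul_zero, zero_sub, norm_neg, norm_mul]
            split_ifs with hm
            · exact (mul_le_of_le_one_right (norm_nonneg _) (norm_chi_le _ _)).trans (H Q Z y p hZ)
            · have : slot Q Z y p = 0 := by
                unfold slot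
                rw [if_neg]
                rintro ⟨h1, h2, -⟩
                exact hm ((mem_pf hk).2 ⟨⟨h1, Or.inl h2⟩, by
                  by_contra h; exact hc ((Prime.coprime_iff_not_dvd h1).2 h)⟩)
              rw [this, norm_zero, zero_mul]
      _ = ((box (Z * y)).filter (fun p => p ∈ pf k)).card * (C * (1 + Real.log Z)) := by
          rw [← Finset.sum_filter, Finset.sum_const, nsmul_eq_mul]
      _ ≤ _ := by
          refine mul_le_mul_of_nonneg_right (le_trans ?_ (card_pf_le hk)) hB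
          exact_mod_cast Finset.card_le_card fun p hp => (Finset.mem_filter.1 hp).2
  have h2 := norm_sub_norm_le (PS Q Z y (fun p => chi p (k ^ 6 * r))) (PS Q Z y (fun p => chi p r))
  linarith

theorem rw_PS_prod {δ : ℝ} (hδ : 0 < δ) (J : ℕ) : ∃ C : ℝ, 0 ≤ C ∧
    ∀ (Q k r : O) (Z : Fin J → ℝ) (x y : ℝ), 1 ≤ x → k ≠ 0 → Nr k ≤ x → (∀ i, 1 ≤ Z i) → (∀ i, Z i ≤ x) →
    ∏ i, (‖PS Q (Z i) y (fun p => chi p (k ^ 6 * r))‖ + Z i ^ (1 / 2 : ℝ)) ≤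
      C * x ^ δ * ∏ i, (‖PS Q (Z i) y (fun p => chi p r)‖ + Real.sqrt (Z i)) := by
  obtain ⟨C, hC, H⟩ := rw_PS
  obtain ⟨C', hC', H'⟩ := rw_log hδ (2 * J)
  refine ⟨(1 + C) ^ J * C', by positivity, fun Q k r Z x y hx hk hkx hZ hZx => ?_⟩
  have hL : 1 ≤ 1 + Real.log x := by linarith [Real.log_nonneg hx]
  have h1 : ∀ i, ‖PS Q (Z i) y (fun p => chi p (k ^ 6 * r))‖ + Z i ^ (1 / 2 : ℝ) ≤
      ((1 + C) * (1 + Real.log x) ^ 2) * (‖PS Q (Z i) y (fun p => chi p r)‖ + Real.sqrt (Z i)) := by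
    intro i
    rw [← Real.sqrt_eq_rpow]
    have h2 := H Q k r (Z i) y hk (hZ i)
    have h3 : Real.log (Nr k) ≤ 1 + Real.log x := by
      linarith [Real.log_le_log (Nr_pos hk) hkx]
    have h4 : 1 + Real.log (Z i) ≤ 1 + Real.log x := by
      linarith [Real.log_le_log (by linarith [hZ i]) (hZx i)]
    have h5 : Real.log (Nr k) * (C * (1 + Real.log (Z i))) ≤ (1 + Real.log x) * (C * (1 + Real.log x)) :=
      mul_le_mul h3 (mul_le_mul_of_nonneg_left h4 hC)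
        (mul_nonneg hC (by linarith [Real.log_nonneg (hZ i)])) (by linarith)
    have h6 : 1 ≤ Real.sqrt (Z i) := Real.one_le_sqrt.2 (hZ i)
    have h7 : 1 ≤ (1 + Real.log x) ^ 2 := one_le_pow₀ hL
    have h8 := norm_nonneg (PS Q (Z i) y (fun p => chi p r))
    set A := ‖PS Q (Z i) y (fun p => chi p r)‖ + Real.sqrt (Z i) with hA
    have hA1 : 1 ≤ A := by linarith
    have h9 : A ≤ (1 + Real.log x) ^ 2 * A := le_mul_of_one_le_left (by linarith) h7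
    have h10 : C * (1 + Real.log x) ^ 2 ≤ C * (1 + Real.log x) ^ 2 * A :=
      le_mul_of_one_le_right (by positivity) hA1
    nlinarith
  calc _ ≤ ∏ i, (((1 + C) * (1 + Real.log x) ^ 2) *
        (‖PS Q (Z i) y (fun p => chi p r)‖ + Real.sqrt (Z i))) :=
        Finset.prod_le_prod (fun i _ => add_nonneg (norm_nonneg _)
          (Real.rpow_nonneg (by linarith [hZ i]) _)) fun i _ => h1 i
    _ = (1 + C) ^ J * (1 + Real.log x) ^ (2 * J) *
        ∏ i, (‖PS Q (Z i) y (fun p => chi p r)‖ + Real.sqrt (Z i)) := by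
        rw [Finset.prod_mul_distrib, Finset.prod_const, Finset.card_univ, Fintype.card_fin, mul_pow,
          ← pow_mul]
    _ ≤ _ := by
        refine mul_le_mul_of_nonneg_right ?_ (Finset.prod_nonneg fun i _ => by positivity)
        rw [mul_assoc]
        exact mul_le_mul_of_nonneg_left (H' x hx) (by positivity)

end Crest.Agent.R017

end
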