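import Crest.Agent.R017.Gauss2

/-! # Row 17: Gauss sums (no reciprocity used) -/

set_option autoImplicit false

noncomputable section

open scoped BigOperators ComplexConjugate
open Complex

namespace Crest.Agent.R017

theorem g3_field {p : O} (hp : Prime p) :
    ∃ (F : Type) (_ : Field F) (_ : Fintype F) (π : O →+* F), Function.Surjective π ∧
      (∀ x, π x = 0 ↔ p ∣ x) ∧ Fintype.card F = nm p := by
  haveI : (Ideal.span {p}).IsMaximal := PrincipalIdealRing.isMaximal_of_irreducible hp.irreducible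
  have hc := card_quot hp.ne_zero
  haveI : Finite (O ⧸ Ideal.span {p}) :=
    Nat.finite_of_card_ne_zero (by rw [hc]; exact fun h => hp.ne_zero (nm_eq_zero.1 h))
  letI : Field (O ⧸ Ideal.span {p}) := Ideal.Quotient.field _
  letI : Fintype (O ⧸ Ideal.span {p}) := Fintype.ofFinite _
  refine ⟨O ⧸ Ideal.span {p}, inferInstance, inferInstance, Ideal.Quotient.mk _,
    Ideal.Quotient.mk_surjective, fun x => ?_, ?_⟩
  · exact Ideal.Quotient.eq_zero_iff_dvd p x
  · rw [← hc, Nat.card_eq_fintype_card]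

section
variable {F : Type} [Field F] [Fintype F] {π : O →+* F} {p : O}

omit [Fintype F] in
theorem g3_eq_iff (hk : ∀ x, π x = 0 ↔ p ∣ x) (x y : O) : π x = π y ↔ p ∣ x - y := by
  rw [← hk, map_sub, sub_eq_zero]

theorem g3_sum (hp : p ≠ 0) (hs : Function.Surjective π) (hk : ∀ x, π x = 0 ↔ p ∣ x)
    (G : F → ℂ) : ∑ x ∈ reps p, G (π x) = ∑ y, G y := by
  refine Finset.sum_bij (fun x _ => π x) (fun _ _ => Finset.mem_univ _) ?_ ?_ (fun _ _ => rfl)
  · intro x hx y hy hxy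
    exact (reps_existsUnique hp y).unique ⟨hx, (g3_eq_iff hk x y).1 hxy⟩ ⟨hy, by simp⟩
  · intro y _
    obtain ⟨z, rfl⟩ := hs y
    obtain ⟨x, hx, -⟩ := reps_existsUnique hp z
    exact ⟨x, hx.1, (g3_eq_iff hk x z).2 hx.2⟩

omit [Fintype F] in
theorem g3_desc {R : Type} (hs : Function.Surjective π) (hk : ∀ x, π x = 0 ↔ p ∣ x) (f : O → R)
    (hper : ∀ x y, p ∣ x - y → f x = f y) : ∃ g : F → R, ∀ x, g (π x) = f x :=
  ⟨fun y => f (Function.surjInv hs y), fun x =>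
    hper _ _ ((g3_eq_iff hk _ _).1 (Function.surjInv_eq hs _))⟩

omit [Fintype F] in
theorem g3_mulChar {R : Type} [CommRing R] (hs : Function.Surjective π)
    (hk : ∀ x, π x = 0 ↔ p ∣ x) (f : O → R) (hper : ∀ x y, p ∣ x - y → f x = f y)
    (h1 : f 1 = 1) (hmul : ∀ x y, f (x * y) = f x * f y) (h0 : f 0 = 0) :
    ∃ χ : MulChar F R, ∀ x, χ (π x) = f x := by
  obtain ⟨g, hg⟩ := g3_desc hs hk f hper
  refine ⟨⟨⟨⟨g, ?_⟩, ?_⟩, ?_⟩, hg⟩
  · rw [← map_one π, hg, h1]
  · intro a b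
    obtain ⟨x, rfl⟩ := hs a
    obtain ⟨y, rfl⟩ := hs b
    show g (π x * π y) = g (π x) * g (π y)
    rw [← map_mul, hg, hg, hg, hmul]
  · intro a ha
    have : a = 0 := by simpa using ha
    show g a = 0
    rw [this, ← map_zero π, hg, h0]

omit [Fintype F] in
theorem g3_addChar (hs : Function.Surjective π) (hk : ∀ x, π x = 0 ↔ p ∣ x) :
    ∃ ψ : AddChar F ℂ, ∀ x, ψ (π x) = eO x p := by
  obtain ⟨g, hg⟩ := g3_desc hs hk (fun x => eO x p) fun x y h => eO_congr h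
  refine ⟨⟨g, ?_, ?_⟩, hg⟩
  · rw [← map_zero π, hg]
    exact eO_of_dvd (dvd_zero p)
  · intro a b
    obtain ⟨x, rfl⟩ := hs a
    obtain ⟨y, rfl⟩ := hs b
    rw [← map_add, hg, hg, hg, eO_add]

theorem g3_gauss (hp : p ≠ 0) (hs : Function.Surjective π) (hk : ∀ x, π x = 0 ↔ p ∣ x)
    {ψ : AddChar F ℂ} (hψ : ∀ x, ψ (π x) = eO x p) {χ : MulChar F ℂ} {f : O → ℂ}
    (hχ : ∀ x, χ (π x) = f x) : gs f p 1 = gaussSum χ ψ := by
  rw [gs, gaussSum, ← g3_sum hp hs hk]
  exact Finset.sum_congr rfl fun x _ => by rw [hχ, hψ, one_mul]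

theorem g3_conj (hs : Function.Surjective π)
    {ψ : AddChar F ℂ} (hψ : ∀ x, ψ (π x) = eO x p) {K : MulChar F ℂ}
    (hK : ∀ x, K (π x) = kap p x) : gaussSum (K * K) ψ = conj (gaussSum K ψ) := by
  rw [gaussSum, gaussSum, map_sum, ← Equiv.sum_comp (Equiv.neg F)]
  refine Finset.sum_congr rfl fun a _ => ?_
  obtain ⟨x, rfl⟩ := hs a
  rw [Equiv.neg_apply, ← map_neg, MulChar.mul_apply, hK, hK, hψ, hψ, kap_neg_right, eO_neg,
    map_mul, conj_kap, sq]

omit [Fintype F] in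
theorem g3_ne_one {K : MulChar F ℂ} {a : F} {z : ℂ} (h : K a = z) (h0 : z ≠ 0) (h1 : z ≠ 1) :
    K ≠ 1 := by
  rintro rfl
  by_cases ha : a = 0
  · rw [ha, MulChar.map_zero] at h
    exact h0 h.symm
  · rw [MulChar.one_apply (IsUnit.mk0 a ha)] at h
    exact h1 h.symm

end

theorem g3_omC_ne : omC ≠ 0 ∧ omC ≠ 1 ∧ omC * omC ≠ 1 := by
  have h := omC_sq
  refine ⟨fun h0 => ?_, fun h0 => ?_, fun h0 => ?_⟩
  · rw [h0] at h; norm_num at h
  · rw [h0] at h; norm_num at h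
  · have h1 : omC = -2 := by linear_combination h - h0
    rw [h1] at h0; norm_num at h0

theorem g3_kap_zero {p : O} (hp : Prime p) : kap p 0 = 0 :=
  (kap_eq_zero hp.ne_zero).2 (Or.inr fun h => hp.not_isUnit (isCoprime_zero_right.1 h))

theorem g3_lift {p : O} (hp : Prime p) (h : Prim p) (y : O) :
    ∃ k : O, emb k = kap p y ∧ p ∣ y ^ ((nm p - 1) / 3) - k := by
  by_cases hy : p ∣ y
  · refine ⟨0, ?_, ?_⟩
    · rw [map_zero, kap_congr' hp.ne_zero (y := 0) (by simpa using hy), g3_kap_zero hp]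
    · have h3 := h.nm_mod_three
      have h1 : nm p ≠ 1 := fun h1 => hp.not_isUnit (isUnit_iff_Nr.2 (by simp [Nr, h1]))
      rw [sub_zero]
      exact dvd_pow hy (by omega)
  · obtain ⟨j, -, h1, h2⟩ := kap_prime_spec hp h.not_lam_dvd hy
    exact ⟨om ^ j, by rw [map_pow, emb_om, h2], h1⟩

theorem g3_sum_pow {F : Type} [Field F] [Fintype F] {e : ℕ} (he : 2 * e < Fintype.card F - 1) :
    ∑ x : F, x ^ e * (1 - x) ^ e = 0 := by
  have h1 : ∀ x : F, x ^ e * (1 - x) ^ e =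
      ∑ m ∈ Finset.range (e + 1), ((-1) ^ m * (e.choose m : F)) * x ^ (e + m) := by
    intro x
    rw [sub_eq_neg_add, add_pow, Finset.mul_sum]
    refine Finset.sum_congr rfl fun m _ => ?_
    rw [neg_pow]
    ring
  simp only [h1]
  rw [Finset.sum_comm]
  refine Finset.sum_eq_zero fun m hm => ?_
  have := Finset.mem_range.1 hm
  rw [← Finset.mul_sum, FiniteField.sum_pow_lt_card_sub_one F (e + m) (by omega), mul_zero]

theorem g3_norm {p : O} (hp : Prime p) (h3 : ¬ lam ∣ p) :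
    ‖gs (kap p) p 1‖ = Real.sqrt (Nr p) := by
  have := norm_gs_kap_pow h3 hp.irreducible.squarefree (k := 1) (by norm_num)
  simpa using this

/-- `g(κ_p)³ = N p · J(κ, κ) = - N p · p`. -/
theorem g3_cube {p : O} (hp : Prime p) (h : Prim p) : g3 p ^ 3 = -ang p := by
  obtain ⟨F, _, _, π, hs, hk, hcard⟩ := g3_field hp
  have hp0 := hp.ne_zero
  have h3 := h.not_lam_dvd
  choose k hk1 hk2 using g3_lift hp h
  obtain ⟨K₀, hK₀⟩ := g3_mulChar hs hk k
    (fun x y hxy => emb_injective (by rw [hk1, hk1, kap_congr' hp0 hxy]))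
    (emb_injective (by rw [hk1, kap_one_right h3, map_one]))
    (fun x y => emb_injective (by rw [map_mul, hk1, hk1, hk1, kap_mul_right]))
    (emb_injective (by rw [hk1, g3_kap_zero hp, map_zero]))
  obtain ⟨ψ, hψ⟩ := g3_addChar hs hk
  set K : MulChar F ℂ := K₀.ringHomComp emb with hKdef
  have hK : ∀ x, K (π x) = kap p x := fun x => by
    rw [hKdef, MulChar.ringHomComp_apply, hK₀, hk1]
  obtain ⟨x₀, hx₀⟩ := kap_nontrivial hp h3
  have hKK : K * K ≠ 1 :=
    g3_ne_one (a := π x₀) (z := omC * omC) (by rw [MulChar.mul_apply, hK, hx₀])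
      (mul_ne_zero g3_omC_ne.1 g3_omC_ne.1) g3_omC_ne.2.2
  set J : O := jacobiSum K₀ K₀ with hJ
  have hG := g3_gauss hp0 hs hk hψ hK
  have hn := g3_norm hp h3
  have hJG := jacobiSum_mul_nontrivial hKK ψ
  rw [g3_conj hs hψ hK, hKdef, jacobiSum_ringHomComp, ← hKdef, ← hG, ← hJ] at hJG
  set G := gs (kap p) p 1 with hGdef
  have hN := Nr_pos hp0
  have hsq : 0 < Real.sqrt (Nr p) := Real.sqrt_pos.2 hN
  have hNJ : Nr J = Nr p := by
    have h1 := congrArg (fun z : ℂ => ‖z‖) hJG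
    simp only [norm_mul, RCLike.norm_conj, hn] at h1
    have h2 := mul_left_cancel₀ hsq.ne' h1
    rw [← norm_emb_sq, h2, Real.sq_sqrt hN.le]
  have hm3 := h.nm_mod_three
  have hm1 : nm p ≠ 1 := fun h1 => hp.not_isUnit (isUnit_iff_Nr.2 (by simp [Nr, h1]))
  have hdvd : p ∣ J := by
    rw [← hk, hJ, jacobiSum, map_sum,
      ← g3_sum_pow (F := F) (e := (nm p - 1) / 3) (by rw [hcard]; omega)]
    have h1 : ∀ a : F, π (K₀ a) = a ^ ((nm p - 1) / 3) := by
      intro a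
      obtain ⟨x, rfl⟩ := hs a
      rw [hK₀, ← map_pow]
      exact ((g3_eq_iff hk _ _).2 (hk2 x)).symm
    exact Finset.sum_congr rfl fun a _ => by rw [map_mul, h1, h1]
  have hcube : K₀ ^ 3 = 1 := by
    refine MulChar.ext fun a => ?_
    rw [MulChar.pow_apply_coe, MulChar.one_apply_coe]
    obtain ⟨x, hx⟩ := hs a
    rw [← hx, hK₀]
    apply emb_injective
    rw [map_pow, hk1, map_one]
    refine kap_cube fun h0 => ?_
    rw [← hK, hx] at h0
    exact (a.isUnit.map K).ne_zero h0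
  have hom : IsPrimitiveRoot om 3 := by
    haveI : Fact (Nat.Prime 3) := ⟨Nat.prime_three⟩
    have h1 : om ≠ 1 := fun h1 => g3_omC_ne.2.1 (by rw [← emb_om, h1, map_one])
    rw [← orderOf_eq_prime om_cube h1]
    exact IsPrimitiveRoot.orderOf om
  obtain ⟨z, -, hz⟩ := exists_jacobiSum_eq_neg_one_add (n := 3) (by norm_num) hcube hcube
    (by rw [hcard]; omega) hom
  have hprim : Prim (-J) := by
    refine ⟨om * z, ?_⟩
    rw [hJ, hz]
    linear_combination (-z) * om_sq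
  obtain ⟨u, hu⟩ := hdvd
  have hu1 : IsUnit u := by
    rw [isUnit_iff_Nr]
    rw [hu, Nr_mul] at hNJ
    exact mul_left_cancel₀ hN.ne' (by rw [hNJ, mul_one])
  have hpJ : p = -J := by
    refine h.eq_of_associated hprim ⟨-hu1.unit, ?_⟩
    simp [hu]
  have hGG : G * conj G = (Nr p : ℂ) := by
    rw [Complex.mul_conj, Complex.normSq_eq_norm_sq, hn, Real.sq_sqrt hN.le]
  have hE : emb J = -emb p := by rw [hpJ, map_neg, neg_neg]
  have hss : ((Real.sqrt (Nr p) : ℝ) : ℂ) * (Real.sqrt (Nr p) : ℝ) = (Nr p : ℂ) := by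
    rw [← Complex.ofReal_mul, Real.mul_self_sqrt hN.le]
  have hs0 : ((Real.sqrt (Nr p) : ℝ) : ℂ) ≠ 0 := Complex.ofReal_ne_zero.2 hsq.ne'
  have hG3 : G ^ 3 = -((Nr p : ℂ) * emb p) := by
    rw [hE] at hJG
    linear_combination (-G) * hJG - emb p * hGG
  rw [g3, ang, norm_emb, ← hGdef, div_pow, hG3, ← hss]
  field_simp

theorem g3_dup {F : Type} [Field F] [Fintype F] [DecidableEq F] {X R : MulChar F ℂ} (hX : X ≠ 1)
    (h2 : (2 : F) ≠ 0) (hR : ∀ t : F, ∑ x : F, (if x ^ 2 = t then (1 : ℂ) else 0) = 1 + R t) :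
    X 4 * jacobiSum X X = jacobiSum R X := by
  have h1 : X 4 * jacobiSum X X = ∑ y : F, X (1 - y ^ 2) := by
    rw [jacobiSum, Finset.mul_sum]
    refine Fintype.sum_equiv ((Equiv.mulLeft₀ 2 h2).trans (Equiv.subRight 1)) _ _ fun x => ?_
    rw [← map_mul, ← map_mul]
    congr 1
    simp only [Equiv.trans_apply, Equiv.mulLeft₀_apply, Equiv.subRight_apply]
    ring
  have h3 : ∑ y : F, X (1 - y ^ 2) = ∑ t : F, (1 + R t) * X (1 - t) := by
    simp only [← hR, Finset.sum_mul]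
    rw [Finset.sum_comm]
    refine Finset.sum_congr rfl fun y _ => ?_
    simp
  have h4 : ∑ t : F, X (1 - t) = 0 := by
    rw [← MulChar.sum_eq_zero_of_ne_one hX]
    exact (Equiv.subLeft (1 : F)).sum_comp fun t => X t
  rw [h1, h3, jacobiSum]
  simp only [add_mul, one_mul, Finset.sum_add_distrib, h4, zero_add]

/-- Hasse–Davenport duplication. -/
theorem g6_prime {p : O} (hp : Prime p) (h6 : IsCoprime p 6) :
    g6 p * conj (g3 p) = conj (kap p 2) * g2 p * g3 p := by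
  classical
  obtain ⟨F, _, _, π, hs, hk, -⟩ := g3_field hp
  have hp0 := hp.ne_zero
  obtain ⟨h3, h2⟩ := coprime_six_iff.1 h6
  have hnc : ¬ IsCoprime p 0 := fun h => hp.not_isUnit (isCoprime_zero_right.1 h)
  obtain ⟨K, hK⟩ := g3_mulChar hs hk (kap p) (fun x y => kap_congr' hp0) (kap_one_right h3)
    (kap_mul_right p) (g3_kap_zero hp)
  obtain ⟨R, hR⟩ := g3_mulChar hs hk (rho p) (fun x y => rho_congr' hp0) (rho_one_right h2)
    (rho_mul_right p) ((rho_eq_zero hp0).2 (Or.inr hnc))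
  obtain ⟨X, hX⟩ := g3_mulChar hs hk (chi p) (fun x y => chi_congr' hp0) (chi_one_right h6)
    (chi_mul_right p) ((chi_eq_zero hp0).2 (by rwa [mul_zero]))
  obtain ⟨ψ, hψ⟩ := g3_addChar hs hk
  obtain ⟨x₀, hx₀⟩ := kap_nontrivial hp h3
  have hXX : X * X = K := by
    refine DFunLike.ext _ _ fun a => ?_
    obtain ⟨x, rfl⟩ := hs a
    rw [MulChar.mul_apply, hX, hK, ← sq, chi_sq h6]
  have hRX : R * X = K * K := by
    refine DFunLike.ext _ _ fun a => ?_
    obtain ⟨x, rfl⟩ := hs a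
    rw [MulChar.mul_apply, MulChar.mul_apply, hX, hK, hR, ← chi_sq h6, ← chi_cube h6]
    ring
  have hK1 : K ≠ 1 := g3_ne_one (a := π x₀) (by rw [hK, hx₀]) g3_omC_ne.1 g3_omC_ne.2.1
  have hKK : K * K ≠ 1 :=
    g3_ne_one (a := π x₀) (z := omC * omC) (by rw [MulChar.mul_apply, hK, hx₀])
      (mul_ne_zero g3_omC_ne.1 g3_omC_ne.1) g3_omC_ne.2.2
  have hX1 : X ≠ 1 := fun h => hK1 (by rw [← hXX, h, mul_one])
  have hp2 : ¬ p ∣ 2 := fun h => hp.not_isUnit (h6.isUnit_of_dvd' dvd_rfl (h.trans ⟨3, by norm_num⟩))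
  have hF2 : (2 : F) ≠ 0 := fun h => hp2 ((hk 2).1 (by rw [map_ofNat]; exact h))
  have hdup := g3_dup (R := R) hX1 hF2 fun t => by
    obtain ⟨y, rfl⟩ := hs t
    rw [hR, ← card_sqrt_prime hp h2 y, ← g3_sum hp0 hs hk, Finset.card_filter]
    push_cast
    refine Finset.sum_congr rfl fun x _ => ?_
    rw [← map_pow]
    exact if_congr (g3_eq_iff hk _ _) rfl rfl
  have hX4 : X 4 = kap p 2 := by
    have : (4 : F) = π 2 * π 2 := by rw [map_ofNat]; norm_num
    rw [this, map_mul, ← MulChar.mul_apply, hXX, hK]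
  have e1 := jacobiSum_mul_nontrivial (χ := X) (φ := X) (by rwa [hXX]) ψ
  have e2 := jacobiSum_mul_nontrivial (χ := R) (φ := X) (by rwa [hRX]) ψ
  rw [hXX] at e1
  rw [hRX, g3_conj hs hψ hK, ← hdup, hX4] at e2
  rw [← g3_gauss hp0 hs hk hψ hK, ← g3_gauss hp0 hs hk hψ hX] at e1 e2
  rw [← g3_gauss hp0 hs hk hψ hR] at e2
  have hN := Nr_pos hp0
  have hsq : 0 < Real.sqrt (Nr p) := Real.sqrt_pos.2 hN
  have hG6 : gs (chi p) p 1 ≠ 0 := by
    have := norm_gs_chi_pow h6 hp.irreducible.squarefree (k := 1) (by norm_num)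
    simp only [pow_one] at this
    intro h0
    rw [show (fun x => chi p x) = chi p from rfl, h0, norm_zero] at this
    exact hsq.ne this
  have hk2 : kap p 2 ≠ 0 := by
    rw [← hK, map_ofNat]
    exact ((IsUnit.mk0 _ hF2).map K).ne_zero
  have hkk : kap p 2 * conj (kap p 2) = 1 := by
    rw [Complex.mul_conj, Complex.normSq_eq_norm_sq, norm_kap hk2]; norm_num
  have key : gs (chi p) p 1 * conj (gs (kap p) p 1)
      = conj (kap p 2) * gs (rho p) p 1 * gs (kap p) p 1 := by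
    apply mul_left_cancel₀ hG6
    linear_combination (-(conj (kap p 2) * kap p 2 * conj (gs (kap p) p 1))) * e1
      + (conj (kap p 2) * gs (kap p) p 1) * e2
      - (gs (chi p) p 1 * gs (chi p) p 1 * conj (gs (kap p) p 1)) * hkk
  rw [g6, g3, g2, map_div₀, Complex.conj_ofReal, div_mul_div_comm, key]
  ring

end Crest.Agent.R017

end
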