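import Crest.Agent.R017.Symbols

/-! # Row 17: Gauss sums (no reciprocity used) -/

set_option autoImplicit false

noncomputable section

open scoped BigOperators ComplexConjugate
open Complex

namespace Crest.Agent.R017

/-- `f` is periodic modulo `n` and homogeneous of type `ξ` under units modulo `n`. -/
structure Homog (n : O) (ξ f : O → ℂ) : Prop where
  per : ∀ x y, n ∣ x - y → f x = f y
  hom : ∀ u x, IsCoprime u n → f (u * x) = ξ u * f x
  abs : ∀ u, IsCoprime u n → ‖ξ u‖ = 1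

theorem gs_congr {f : O → ℂ} {n h h' : O} (hh : n ∣ h - h') : gs f n h = gs f n h' := by
  unfold gs
  refine Finset.sum_congr rfl fun x _ => ?_
  rw [eO_congr (x := h * x) (y := h' * x)]
  rw [← sub_mul]
  exact hh.mul_right x

theorem g1_per {n m : O} {f : O → ℂ} (hf : ∀ x y, n ∣ x - y → f x = f y) (hnm : n ∣ m) (h : O) :
    ∀ x y, m ∣ x - y → f x * eO (h * x) m = f y * eO (h * y) m := by
  intro x y hxy
  rw [hf x y (hnm.trans hxy), eO_congr (x := h * x) (y := h * y)]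
  rw [← mul_sub]
  exact hxy.mul_left h

theorem g1_conj_mul {z : ℂ} (hz : ‖z‖ = 1) : conj z * z = 1 := by
  rw [mul_comm, Complex.mul_conj, Complex.normSq_eq_norm_sq, hz]
  simp

theorem Homog.gs_mul {n : O} {ξ f : O → ℂ} (hn : n ≠ 0) (H : Homog n ξ f) {u : O}
    (hu : IsCoprime u n) (h : O) : gs f n (u * h) = conj (ξ u) * gs f n h := by
  have key := sum_reps_affine hn (fun x => f x * eO (h * x) n) (g1_per H.per dvd_rfl h) hu 0
  have h1 : ξ u * gs f n (u * h) = gs f n h := by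
    unfold gs
    rw [← key, Finset.mul_sum]
    refine Finset.sum_congr rfl fun x _ => ?_
    simp only [add_zero]
    rw [H.hom u x hu, show h * (u * x) = u * h * x by ring]
    ring
  rw [← h1, ← mul_assoc, g1_conj_mul (H.abs u hu), one_mul]

theorem Homog.gs_unit {n : O} {ξ f : O → ℂ} (hn : n ≠ 0) (H : Homog n ξ f) {u : O}
    (hu : IsUnit u) (h : O) : gs f (u * n) h = ξ u * gs f n h := by
  have hass : Associated n (u * n) := (associated_unit_mul_right n u hu)
  have hcop : IsCoprime u n := by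
    obtain ⟨v, rfl⟩ := hu
    exact ⟨↑v⁻¹, 0, by simp⟩
  have hu0 : u ≠ 0 := hu.ne_zero
  have hper : ∀ x y, n ∣ x - y → f x * eO (h * x) (u * n) = f y * eO (h * y) (u * n) :=
    fun x y hxy => g1_per H.per (Dvd.intro_left u rfl) h x y (hass.symm.dvd.trans hxy)
  unfold gs
  rw [← sum_reps_associated hn hass _ hper,
    ← sum_reps_affine hn (fun x => f x * eO (h * x) (u * n)) hper hcop 0, Finset.mul_sum]
  refine Finset.sum_congr rfl fun x _ => ?_
  simp only [add_zero]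
  rw [H.hom u x hcop, show h * (u * x) = u * (h * x) by ring, eO_mul_cancel hu0]
  ring

/-- Twisted multiplicativity. -/
theorem gs_mul_coprime {n₁ n₂ : O} {ξ₁ f₁ ξ₂ f₂ : O → ℂ} (h₁ : n₁ ≠ 0) (h₂ : n₂ ≠ 0)
    (hc : IsCoprime n₁ n₂) (H₁ : Homog n₁ ξ₁ f₁) (H₂ : Homog n₂ ξ₂ f₂) (h : O) :
    gs (fun x => f₁ x * f₂ x) (n₁ * n₂) h = ξ₁ n₂ * ξ₂ n₁ * gs f₁ n₁ h * gs f₂ n₂ h := by
  have hper : ∀ x y, n₁ * n₂ ∣ x - y → f₁ x * f₂ x = f₁ y * f₂ y := fun x y hxy => by
    rw [H₁.per x y ((Dvd.intro _ rfl).trans hxy), H₂.per x y ((Dvd.intro_left _ rfl).trans hxy)]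
  unfold gs
  rw [sum_reps_crt h₁ h₂ hc _ (g1_per (f := fun x => f₁ x * f₂ x) hper dvd_rfl h), mul_assoc,
    Finset.sum_mul_sum, Finset.mul_sum]
  refine Finset.sum_congr rfl fun x _ => ?_
  rw [Finset.mul_sum]
  refine Finset.sum_congr rfl fun y _ => ?_
  have e1 : f₁ (x * n₂ + y * n₁) = ξ₁ n₂ * f₁ x := by
    rw [← H₁.hom n₂ x hc.symm]
    exact H₁.per _ _ ⟨y, by ring⟩
  have e2 : f₂ (x * n₂ + y * n₁) = ξ₂ n₁ * f₂ y := by
    rw [← H₂.hom n₁ y hc]
    exact H₂.per _ _ ⟨x, by ring⟩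
  have e3 : eO (h * (x * n₂ + y * n₁)) (n₁ * n₂) = eO (h * x) n₁ * eO (h * y) n₂ := by
    rw [show h * (x * n₂ + y * n₁) = n₂ * (h * x) + n₁ * (h * y) by ring, eO_add,
      eO_mul_cancel h₁, mul_comm n₁ n₂, eO_mul_cancel h₂]
  rw [e1, e2, e3]
  ring

open Classical in
/-- A function of smaller period. -/
theorem gs_tower {n k : O} {f : O → ℂ} (hn : n ≠ 0) (hk : k ≠ 0)
    (hf : ∀ x y, n ∣ x - y → f x = f y) (h : O) :
    gs f (n * k) h = if k ∣ h then (Nr k : ℂ) * gs f n (h / k) else 0 := by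
  have e0 : gs f (n * k) h = (∑ x ∈ reps n, f x * eO (h * x) (n * k)) *
      ∑ y ∈ reps k, eO (h * y) k := by
    unfold gs
    rw [sum_reps_tower hn hk _ (g1_per hf (Dvd.intro _ rfl) h), Finset.sum_mul_sum]
    refine Finset.sum_congr rfl fun x _ => Finset.sum_congr rfl fun y _ => ?_
    rw [hf (x + n * y) x ⟨y, by ring⟩,
      show h * (x + n * y) = h * x + n * (h * y) by ring, eO_add, eO_mul_cancel hn]
    ring
  rw [e0, sum_reps_eO hk]
  split_ifs with hkh
  · obtain ⟨h', rfl⟩ := hkh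
    rw [mul_div_cancel_left₀ h' hk, mul_comm]
    congr 1
    unfold gs
    refine Finset.sum_congr rfl fun x _ => ?_
    rw [mul_assoc, mul_comm n k, eO_mul_cancel hk]
  · simp

theorem conj_gs (f : O → ℂ) (n h : O) : conj (gs f n h) = gs (fun x => conj (f x)) n (-h) := by
  unfold gs
  rw [map_sum]
  refine Finset.sum_congr rfl fun x _ => ?_
  rw [map_mul, neg_mul, eO_neg]

theorem norm_gs_le {n : O} (hn : n ≠ 0) {f : O → ℂ} (hf : ∀ x, ‖f x‖ ≤ 1) (h : O) :
    ‖gs f n h‖ ≤ Nr n := by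
  unfold gs
  refine (norm_sum_le _ _).trans ?_
  calc ∑ x ∈ reps n, ‖f x * eO (h * x) n‖ ≤ ∑ _x ∈ reps n, (1 : ℝ) := by
        refine Finset.sum_le_sum fun x _ => ?_
        rw [norm_mul, norm_eO, mul_one]
        exact hf x
    _ = Nr n := by simp [card_reps hn, Nr]

/-- Plancherel modulo `n`. -/
theorem gs_plancherel {n : O} (hn : n ≠ 0) (f : O → ℂ) :
    ∑ h ∈ reps n, ‖gs f n h‖ ^ 2 = Nr n * ∑ x ∈ reps n, ‖f x‖ ^ 2 := by
  classical
  have hC : ∀ z : ℂ, ((‖z‖ ^ 2 : ℝ) : ℂ) = z * conj z := fun z => by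
    rw [Complex.mul_conj, Complex.normSq_eq_norm_sq]
  apply Complex.ofReal_injective
  rw [Complex.ofReal_sum, Complex.ofReal_mul, Complex.ofReal_sum]
  simp only [hC]
  have e1 : ∀ h : O, gs f n h * conj (gs f n h) =
      ∑ x ∈ reps n, ∑ y ∈ reps n, f x * conj (f y) * eO ((x - y) * h) n := by
    intro h
    rw [conj_gs]
    unfold gs
    rw [Finset.sum_mul_sum]
    refine Finset.sum_congr rfl fun x _ => Finset.sum_congr rfl fun y _ => ?_
    rw [show (x - y) * h = h * x + -h * y by ring, eO_add]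
    ring
  simp only [e1]
  rw [Finset.sum_comm, Finset.mul_sum]
  refine Finset.sum_congr rfl fun x hx => ?_
  rw [Finset.sum_comm]
  simp only [← Finset.mul_sum, sum_reps_eO hn]
  rw [Finset.sum_eq_single x]
  · simp only [sub_self, dvd_zero, if_true]
    ring
  · intro y hy hyx
    rw [if_neg, mul_zero]
    intro hd
    obtain ⟨z, -, hz⟩ := reps_existsUnique hn y
    exact hyx ((hz y ⟨hy, by simp⟩).trans (hz x ⟨hx, hd⟩).symm)
  · intro h
    exact absurd hx h


theorem homog_chi_pow {n : O} (hn : IsCoprime n 6) (k : ℕ) :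
    Homog n (fun x => chi n x ^ k) (fun x => chi n x ^ k) := by
  have hn0 : n ≠ 0 := by
    rintro rfl
    exact (coprime_six_iff.1 hn).1 (dvd_zero _)
  refine ⟨fun x y hxy => by rw [chi_congr' hn0 hxy], fun u x _ => by rw [chi_mul_right, mul_pow],
    fun u hu => ?_⟩
  rw [norm_pow, norm_chi, one_pow]
  rw [Ne, chi_eq_zero hn0, not_not]
  exact hn.mul_right hu.symm

theorem homog_kap_pow {n : O} (hn : ¬ lam ∣ n) (k : ℕ) :
    Homog n (fun x => kap n x ^ k) (fun x => kap n x ^ k) := by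
  have hn0 : n ≠ 0 := by
    rintro rfl
    exact hn (dvd_zero _)
  refine ⟨fun x y hxy => by rw [kap_congr' hn0 hxy], fun u x _ => by rw [kap_mul_right, mul_pow],
    fun u hu => ?_⟩
  rw [norm_pow, norm_kap, one_pow]
  rw [Ne, kap_eq_zero hn0, not_or, not_not]
  exact ⟨hn, hu.symm⟩

theorem homog_rho {n : O} (hn : ¬ (2 : O) ∣ n) : Homog n (rho n) (rho n) := by
  have hn0 : n ≠ 0 := by
    rintro rfl
    exact hn (dvd_zero _)
  refine ⟨fun x y hxy => rho_congr' hn0 hxy, fun u x _ => rho_mul_right n u x, fun u hu => ?_⟩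
  have h0 : rho n u ≠ 0 := by
    rw [Ne, rho_eq_zero hn0, not_or, not_not]
    exact ⟨hn, hu.symm⟩
  rcases rho_cases n u with h | h | h
  · exact absurd h h0
  · rw [h, norm_one]
  · rw [h, norm_neg, norm_one]


end Crest.Agent.R017

end
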