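import Crest.Agent.R017.Gauss1

/-! # Row 17: Gauss sums (no reciprocity used) -/

set_option autoImplicit false

noncomputable section

open scoped BigOperators ComplexConjugate
open Complex

namespace Crest.Agent.R017

/-- A family of residue symbols, primitive modulo the good primes. -/
structure g2_Fam (G : O → Prop) (F : O → O → ℂ) : Prop where
  dvd : ∀ a b, G (a * b) → G a ∧ G b
  hom : ∀ n, G n → Homog n (F n) (F n)
  mul : ∀ m n, m ≠ 0 → n ≠ 0 → ∀ x, F (m * n) x = F m x * F n x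
  unit : ∀ u, IsUnit u → ∀ x, F u x = 1
  zero : ∀ p, Prime p → ∀ x, p ∣ x → F p x = 0
  nontriv : ∀ p, Prime p → G p → ∃ x, F p x ≠ 0 ∧ F p x ≠ 1

theorem g2_sep_prime {G : O → Prop} {F : O → O → ℂ} (H : g2_Fam G F) {p : O} (hp : Prime p)
    (hG : G p) (h : O) : gs (F p) p h = conj (F p h) * gs (F p) p 1 := by
  have hH := H.hom p hG
  by_cases hd : p ∣ h
  · obtain ⟨u, hu0, hu1⟩ := H.nontriv p hp hG
    have hu : IsCoprime u p := by
      refine ((hp.irreducible.coprime_iff_not_dvd).2 fun hpu => hu0 (H.zero p hp u hpu)).symm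
    have e := hH.gs_mul hp.ne_zero hu 0
    rw [mul_zero] at e
    have e0 : gs (F p) p 0 = 0 := by
      by_contra hne
      have h1 : conj (F p u) = 1 := by
        have : (conj (F p u) - 1) * gs (F p) p 0 = 0 := by linear_combination -e
        rcases mul_eq_zero.1 this with h | h
        · exact sub_eq_zero.1 h
        · exact absurd h hne
      apply hu1
      have := congrArg conj h1
      simpa using this
    rw [gs_congr (h' := 0) (by simpa using hd), e0, H.zero p hp h hd]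
    simp
  · have hu : IsCoprime h p := ((hp.irreducible.coprime_iff_not_dvd).2 hd).symm
    have e := hH.gs_mul hp.ne_zero hu 1
    rwa [mul_one] at e

theorem g2_sep {G : O → Prop} {F : O → O → ℂ} (H : g2_Fam G F) (n : O) :
    Squarefree n → G n → ∀ h, gs (F n) n h = conj (F n h) * gs (F n) n 1 := by
  refine UniqueFactorizationMonoid.induction_on_prime n ?_ ?_ ?_
  · intro hs
    exact absurd hs not_squarefree_zero
  · intro u hu _ _ h
    rw [H.unit u hu, gs_congr (h' := 1) (hu.dvd)]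
    simp
  · intro a p ha hp ih hs hG h
    obtain ⟨hGp, hGa⟩ := H.dvd p a hG
    have hsa : Squarefree a := hs.of_mul_right
    have hc : IsCoprime p a := by
      refine (hp.irreducible.coprime_iff_not_dvd).2 fun hpa => hp.not_unit (hs p ?_)
      exact mul_dvd_mul_left p hpa
    have e : F (p * a) = fun x => F p x * F a x := funext (H.mul p a hp.ne_zero ha)
    have key := fun h => gs_mul_coprime hp.ne_zero ha hc (H.hom p hGp) (H.hom a hGa) h
    rw [e, key h, key 1, g2_sep_prime H hp hGp h, ih hsa hGa h]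
    simp only [map_mul]
    ring

theorem g2_norm {G : O → Prop} {F : O → O → ℂ} (H : g2_Fam G F) {n : O} (hs : Squarefree n)
    (hG : G n) : ‖gs (F n) n 1‖ = Real.sqrt (Nr n) := by
  have hn : n ≠ 0 := hs.ne_zero
  have hH := H.hom n hG
  have e := gs_plancherel hn (F n)
  have e1 : ∑ h ∈ reps n, ‖gs (F n) n h‖ ^ 2 =
      ‖gs (F n) n 1‖ ^ 2 * ∑ x ∈ reps n, ‖F n x‖ ^ 2 := by
    rw [Finset.mul_sum]
    refine Finset.sum_congr rfl fun h _ => ?_
    rw [g2_sep H n hs hG h, norm_mul, Complex.norm_conj]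
    ring
  have hpos : 0 < ∑ x ∈ reps n, ‖F n x‖ ^ 2 := by
    obtain ⟨x, ⟨hx, hd⟩, -⟩ := reps_existsUnique hn 1
    refine Finset.sum_pos' (fun _ _ => by positivity) ⟨x, hx, ?_⟩
    rw [hH.per x 1 hd, hH.abs 1 isCoprime_one_left]
    norm_num
  rw [e1] at e
  have e2 := mul_right_cancel₀ hpos.ne' e
  rw [← e2, Real.sqrt_sq (norm_nonneg _)]

theorem g2_fam_chi {k : ℕ} (hk : ¬ 6 ∣ k) :
    g2_Fam (fun n => IsCoprime n 6) (fun n x => chi n x ^ k) where
  dvd a b h := ⟨h.of_mul_left_left, h.of_mul_left_right⟩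
  hom n hn := homog_chi_pow hn k
  mul m n hm hn x := by rw [chi_mul_left hm hn, mul_pow]
  unit u hu x := by rw [chi_unit_left hu, one_pow]
  zero p hp x hx := by
    have hk0 : k ≠ 0 := by rintro rfl; exact hk (dvd_zero _)
    have : chi p x = 0 := (chi_eq_zero hp.ne_zero).2 fun hc =>
      hp.not_unit (hc.isUnit_of_dvd' dvd_rfl (hx.mul_left _))
    rw [this, zero_pow hk0]
  nontriv p hp hG := chi_order hp hG hk

theorem g2_omC_pow {k : ℕ} (hk : ¬ 3 ∣ k) : omC ^ k ≠ 0 ∧ omC ^ k ≠ 1 := by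
  have h3 : omC ^ 3 = 1 := by linear_combination (omC - 1) * omC_sq
  have hs : Real.sqrt 3 ≠ 0 := by positivity
  have h1 : omC ≠ 1 := by
    intro h
    have := congrArg Complex.im h
    simp [omC] at this
  refine ⟨pow_ne_zero _ ?_, ?_⟩
  · intro h
    rw [h] at h3
    simp at h3
  · rw [← Nat.mod_add_div k 3, pow_add, pow_mul, h3, one_pow, mul_one]
    have : k % 3 = 1 ∨ k % 3 = 2 := by omega
    rcases this with h | h <;> rw [h]
    · simpa using h1
    · intro h2
      apply h1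
      rw [pow_succ, h2, one_mul] at h3
      exact h3

theorem g2_fam_kap {k : ℕ} (hk : ¬ 3 ∣ k) :
    g2_Fam (fun n => ¬ lam ∣ n) (fun n x => kap n x ^ k) where
  dvd a b h := ⟨fun h' => h (h'.mul_right _), fun h' => h (h'.mul_left _)⟩
  hom n hn := homog_kap_pow hn k
  mul m n hm hn x := by rw [kap_mul_left hm hn, mul_pow]
  unit u hu x := by rw [kap_unit_left hu, one_pow]
  zero p hp x hx := by
    have hk0 : k ≠ 0 := by rintro rfl; exact hk (dvd_zero _)
    have : kap p x = 0 := (kap_eq_zero hp.ne_zero).2 (Or.inr fun hc =>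
      hp.not_unit (hc.isUnit_of_dvd' dvd_rfl hx))
    rw [this, zero_pow hk0]
  nontriv p hp hG := by
    obtain ⟨x, hx⟩ := kap_nontrivial hp hG
    exact ⟨x, by simpa only [hx] using g2_omC_pow hk⟩

theorem g2_lam_not_dvd_two : ¬ lam ∣ (2 : O) := by
  intro h
  have : lam ∣ (3 : O) - 2 := dvd_sub lam_dvd_three h
  norm_num at this
  exact prime_lam.not_unit (isUnit_of_dvd_one this)

theorem g2_fam_rho : g2_Fam (fun n => ¬ (2 : O) ∣ n) rho where
  dvd a b h := ⟨fun h' => h (h'.mul_right _), fun h' => h (h'.mul_left _)⟩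
  hom n hn := homog_rho hn
  mul m n hm hn x := rho_mul_left hm hn x
  unit u hu x := rho_unit_left hu x
  zero p hp x hx := (rho_eq_zero hp.ne_zero).2 (Or.inr fun hc =>
      hp.not_unit (hc.isUnit_of_dvd' dvd_rfl hx))
  nontriv p hp hG := by
    by_cases hl : lam ∣ p
    · have ha : Associated lam p := prime_lam.associated_of_dvd hp hl
      refine ⟨-1, ?_⟩
      have h1 : ¬ lam ∣ 2 * (-1 : O) := by simpa using g2_lam_not_dvd_two
      have h2 : ¬ lam ∣ (-1 : O) ^ ((nm lam - 1) / 2) - 1 := by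
        have : nm lam = 3 := by decide
        rw [this]
        norm_num
        exact g2_lam_not_dvd_two
      rw [← rho_associated ha, rho_prime prime_lam, rhoP, if_neg h1, if_neg h2]
      norm_num
    · have h6 : IsCoprime p 6 := coprime_six_iff.2 ⟨hl, hG⟩
      obtain ⟨x, hx⟩ := chi_order hp h6 (k := 3) (by norm_num)
      exact ⟨x, by simpa only [chi_cube h6] using hx⟩

theorem g2_norm_div {z : ℂ} {n : O} (hn : n ≠ 0) (h : ‖z‖ = Real.sqrt (Nr n)) :
    ‖z / (Real.sqrt (Nr n) : ℂ)‖ = 1 := by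
  have : 0 < Real.sqrt (Nr n) := Real.sqrt_pos.2 (Nr_pos hn)
  rw [norm_div, h, Complex.norm_real, Real.norm_eq_abs, abs_of_pos this, div_self this.ne']

theorem g2_gs_one {f : O → ℂ} (hf : ∀ x, f x = 1) : gs f 1 1 / (Real.sqrt (Nr 1) : ℂ) = 1 := by
  have := sum_reps_eO (n := 1) one_ne_zero 1
  rw [if_pos dvd_rfl] at this
  simp only [gs, hf, one_mul] at this ⊢
  rw [this, Nr_one]
  simp

theorem g2_gs_mul {m n : O} {F : O → O → ℂ} (hm : m ≠ 0) (hn : n ≠ 0) (h : IsCoprime m n)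
    (Hm : Homog m (F m) (F m)) (Hn : Homog n (F n) (F n))
    (hF : ∀ x, F (m * n) x = F m x * F n x) :
    gs (F (m * n)) (m * n) 1 / (Real.sqrt (Nr (m * n)) : ℂ) =
      gs (F m) m 1 / (Real.sqrt (Nr m) : ℂ) * (gs (F n) n 1 / (Real.sqrt (Nr n) : ℂ)) *
        (F m n * F n m) := by
  have e : F (m * n) = fun x => F m x * F n x := funext hF
  rw [e, gs_mul_coprime hm hn h Hm Hn 1, Nr_mul, Real.sqrt_mul (Nr_nonneg m)]
  push_cast
  ring

/-- Primitive characters to squarefree modulus: the Gauss sum is separable for every `h`. -/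
theorem gs_chi_pow {n : O} (hn : IsCoprime n 6) (hs : Squarefree n) {k : ℕ} (hk : ¬ 6 ∣ k) (h : O) :
    gs (fun x => chi n x ^ k) n h = conj (chi n h ^ k) * gs (fun x => chi n x ^ k) n 1 := by
  exact g2_sep (g2_fam_chi hk) n hs hn h
theorem norm_gs_chi_pow {n : O} (hn : IsCoprime n 6) (hs : Squarefree n) {k : ℕ} (hk : ¬ 6 ∣ k) :
    ‖gs (fun x => chi n x ^ k) n 1‖ = Real.sqrt (Nr n) := by
  exact g2_norm (g2_fam_chi hk) hs hn
theorem gs_kap_pow {n : O} (hn : ¬ lam ∣ n) (hs : Squarefree n) {k : ℕ} (hk : ¬ 3 ∣ k) (h : O) :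
    gs (fun x => kap n x ^ k) n h = conj (kap n h ^ k) * gs (fun x => kap n x ^ k) n 1 := by
  exact g2_sep (g2_fam_kap hk) n hs hn h
theorem norm_gs_kap_pow {n : O} (hn : ¬ lam ∣ n) (hs : Squarefree n) {k : ℕ} (hk : ¬ 3 ∣ k) :
    ‖gs (fun x => kap n x ^ k) n 1‖ = Real.sqrt (Nr n) := by
  exact g2_norm (g2_fam_kap hk) hs hn
theorem gs_rho {n : O} (hn : ¬ (2 : O) ∣ n) (hs : Squarefree n) (h : O) :
    gs (rho n) n h = rho n h * gs (rho n) n 1 := by
  rw [g2_sep g2_fam_rho n hs hn h, conj_rho]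
open Classical in
/-- Ramanujan sum modulo a prime. -/
theorem gs_coprime_prime {p : O} (hp : Prime p) (h : O) :
    gs (fun x => if p ∣ x then 0 else 1) p h = if p ∣ h then (Nr p : ℂ) - 1 else -1 := by
  obtain ⟨x₀, ⟨hx, hd⟩, huniq⟩ := reps_existsUnique hp.ne_zero 0
  rw [sub_zero] at hd
  rw [← show (if p ∣ h then (Nr p : ℂ) else 0) - 1 = if p ∣ h then (Nr p : ℂ) - 1 else -1 by
    split_ifs <;> simp, ← sum_reps_eO hp.ne_zero h]
  have e : (1 : ℂ) = ∑ x ∈ reps p, if x = x₀ then eO (h * x) p else 0 := by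
    rw [Finset.sum_ite_eq' (reps p) x₀, if_pos hx, eO_of_dvd (hd.mul_left h)]
  rw [gs]
  conv_rhs => rw [e, ← Finset.sum_sub_distrib]
  refine Finset.sum_congr rfl fun x hxr => ?_
  by_cases hpx : p ∣ x
  · have : x = x₀ := huniq x ⟨hxr, by simpa using hpx⟩
    rw [if_pos hpx, if_pos this]
    simp
  · have : x ≠ x₀ := by rintro rfl; exact hpx hd
    rw [if_neg hpx, if_neg this]
    simp

theorem norm_g6 {n : O} (hn : IsCoprime n 6) (hs : Squarefree n) : ‖g6 n‖ = 1 := by
  have := norm_gs_chi_pow hn hs (k := 1) (by norm_num)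
  simp only [pow_one] at this
  exact g2_norm_div hs.ne_zero this
theorem norm_g3 {n : O} (hn : ¬ lam ∣ n) (hs : Squarefree n) : ‖g3 n‖ = 1 := by
  have := norm_gs_kap_pow hn hs (k := 1) (by norm_num)
  simp only [pow_one] at this
  exact g2_norm_div hs.ne_zero this
theorem norm_g2 {n : O} (hn : ¬ (2 : O) ∣ n) (hs : Squarefree n) : ‖g2 n‖ = 1 := by
  exact g2_norm_div hs.ne_zero (g2_norm g2_fam_rho hs hn)
theorem g6_one : g6 1 = 1 := by
  exact g2_gs_one (chi_unit_left isUnit_one)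
theorem g3_one : g3 1 = 1 := by
  exact g2_gs_one (kap_unit_left isUnit_one)
theorem g2_one : g2 1 = 1 := by
  exact g2_gs_one (rho_unit_left isUnit_one)
theorem g6_mul {m n : O} (hm : IsCoprime m 6) (hn : IsCoprime n 6) (h : IsCoprime m n) :
    g6 (m * n) = g6 m * g6 n * (chi m n * chi n m) := by
  have hm0 : m ≠ 0 := by rintro rfl; exact (coprime_six_iff.1 hm).1 (dvd_zero _)
  have hn0 : n ≠ 0 := by rintro rfl; exact (coprime_six_iff.1 hn).1 (dvd_zero _)
  have Hm := homog_chi_pow hm 1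
  have Hn := homog_chi_pow hn 1
  simp only [pow_one] at Hm Hn
  exact g2_gs_mul hm0 hn0 h Hm Hn (chi_mul_left hm0 hn0)
theorem g3_mul {m n : O} (hm : ¬ lam ∣ m) (hn : ¬ lam ∣ n) (h : IsCoprime m n) :
    g3 (m * n) = g3 m * g3 n * (kap m n * kap n m) := by
  have hm0 : m ≠ 0 := by rintro rfl; exact hm (dvd_zero _)
  have hn0 : n ≠ 0 := by rintro rfl; exact hn (dvd_zero _)
  have Hm := homog_kap_pow hm 1
  have Hn := homog_kap_pow hn 1
  simp only [pow_one] at Hm Hn
  exact g2_gs_mul hm0 hn0 h Hm Hn (kap_mul_left hm0 hn0)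
theorem g2_mul {m n : O} (hm : ¬ (2 : O) ∣ m) (hn : ¬ (2 : O) ∣ n) (h : IsCoprime m n) :
    g2 (m * n) = g2 m * g2 n * (rho m n * rho n m) := by
  have hm0 : m ≠ 0 := by rintro rfl; exact hm (dvd_zero _)
  have hn0 : n ≠ 0 := by rintro rfl; exact hn (dvd_zero _)
  exact g2_gs_mul hm0 hn0 h (homog_rho hm) (homog_rho hn) (rho_mul_left hm0 hn0)

end Crest.Agent.R017

end
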