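import Crest.Agent.R017.LS
import Crest.Agent.R017.Sieve

/-! # Row 17: auxiliary lemmas for `gnorm` -/

set_option autoImplicit false

noncomputable section

open scoped BigOperators ComplexConjugate
open Complex MeasureTheory

namespace Crest.Agent.R017

theorem gn_sm_const (a : ℝ) (c : O → ℂ) (z : ℂ) (X τ : ℝ) :
    sm a (fun n => z * c n) X τ = z * sm a c X τ := by
  unfold sm
  rw [← tsum_mul_left]
  refine tsum_congr fun n => ?_
  split_ifs <;> ring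

theorem gn_sm_congr {a : ℝ} {c c' : O → ℂ} (h : ∀ n, Prim n → c n = c' n) (X τ : ℝ) :
    sm a c X τ = sm a c' X τ := by
  unfold sm
  refine tsum_congr fun n => ?_
  split_ifs with hn
  · rw [h n hn]
  · rfl

theorem gn_sm_sum {a X : ℝ} (ha : 0 < a) (hX : 0 < X) {ι : Type*} (S : Finset ι) (c : ι → O → ℂ)
    (hc : ∀ i ∈ S, ∀ n, ‖c i n‖ ≤ 1) (τ : ℝ) :
    sm a (fun n => ∑ i ∈ S, c i n) X τ = ∑ i ∈ S, sm a (c i) X τ := by
  unfold sm
  rw [← Summable.tsum_finsetSum fun i hi =>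
    summable_sm (K := 1) (A := 0) ha hX (fun n _ => by simpa using hc i hi n) τ]
  refine tsum_congr fun n => ?_
  split_ifs
  · rw [Finset.sum_mul, Finset.sum_mul]
  · simp

open Classical in
/-- Removing a congruence condition modulo `4`. -/
theorem gn_cls {Q : O} (hQ : Q ≠ 0) (h12 : (12 : O) ∣ Q) {a Y : ℝ} (ha : 0 < a) (hY : 0 < Y)
    {d c : O} (hd : IsCoprime d Q) (hc : IsCoprime c Q) (f : O → ℂ) (hf1 : ∀ n, ‖f n‖ ≤ 1)
    (hf : ∀ n, f n ≠ 0 → IsCoprime n Q) (τ B : ℝ)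
    (hB : ∀ ξ, IsCh Q ξ → ‖sm a (fun n => ξ n * f n) Y τ‖ ≤ B) :
    ‖sm a (fun n => if (4 : O) ∣ d * n - c then f n else 0) Y τ‖ ≤ B := by
  obtain ⟨S, hS, hξ, -, horth⟩ := class_four hQ h12
  have e : (fun n => if (4 : O) ∣ d * n - c then f n else 0) =
      fun n => (1 / 12 : ℂ) * ∑ ξ ∈ S, (ξ d * conj (ξ c)) * (ξ n * f n) := by
    funext n
    by_cases h0 : f n = 0
    · simp [h0]
    have h1 := horth (d * n) c (hd.mul_left (hf n h0)) hc
    have h2 : ∑ ξ ∈ S, (ξ d * conj (ξ c)) * (ξ n * f n) =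
        (∑ ξ ∈ S, ξ (d * n) * conj (ξ c)) * f n := by
      rw [Finset.sum_mul]
      refine Finset.sum_congr rfl fun ξ h => ?_
      rw [(hξ ξ h).mul]; ring
    rw [h2, h1]
    split_ifs <;> ring
  have hn : ∀ ξ ∈ S, ‖ξ d * conj (ξ c)‖ ≤ 1 := fun ξ h => by
    rw [norm_mul, RCLike.norm_conj]
    exact mul_le_one₀ ((hξ ξ h).norm_le _) (norm_nonneg _) ((hξ ξ h).norm_le _)
  rw [e, gn_sm_const, gn_sm_sum ha hY S _ fun ξ h n => ?_]
  · rw [norm_mul]
    have h3 : ‖∑ ξ ∈ S, sm a (fun n => (ξ d * conj (ξ c)) * (ξ n * f n)) Y τ‖ ≤ ∑ _ξ ∈ S, B := by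
      refine norm_sum_le_of_le _ fun ξ h => ?_
      rw [gn_sm_const, norm_mul]
      exact (mul_le_of_le_one_left (norm_nonneg _) (hn ξ h)).trans (hB ξ (hξ ξ h))
    rw [Finset.sum_const, hS, nsmul_eq_mul] at h3
    have h4 : ‖(1 / 12 : ℂ)‖ = 1 / 12 := by simp
    rw [h4]
    push_cast at h3
    linarith
  · rw [norm_mul, norm_mul (ξ n)]
    exact mul_le_one₀ (hn ξ h) (by positivity)
      (mul_le_one₀ ((hξ ξ h).norm_le _) (norm_nonneg _) (hf1 n))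

open Classical in
/-- The coefficients. -/
def gn_g (A M τ : ℝ) (ψ : O → ℂ) (t c : O) (m : O) : ℂ :=
  if Prim m then (if Squarefree m ∧ (4 : O) ∣ m - c then ψ m * g6 m * conj (chi m t) else 0) *
    (Nr m : ℂ) ^ (-(τ * I)) * (W A (Nr m / M) : ℂ) else 0

open Classical in
theorem gn_col (A M τ : ℝ) (ψ : O → ℂ) (t c h : O) :
    sm A (fun m => if Squarefree m ∧ (4 : O) ∣ m - c then
      ψ m * g6 m * conj (chi m (h * t)) else 0) M τ = colF (gn_g A M τ ψ t c) h := by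
  unfold sm colF gn_g
  refine tsum_congr fun n => ?_
  beta_reduce
  rw [chi_mul_right, map_mul]
  split_ifs <;> ring

theorem gn_supp {Q : O} {ψ : O → ℂ} (hψ : IsCh Q ψ) (A M τ : ℝ) (t c : O) :
    Supp Q (gn_g A M τ ψ t c) := by
  intro n hn
  unfold gn_g at hn
  split_ifs at hn with h1 h2
  · refine ⟨h1, h2.1, ch_cop hψ fun h => hn ?_⟩
    simp [h]
  · simp at hn
  · simp at hn

theorem gn_clsF (A M τ : ℝ) (ψ : O → ℂ) (t c : O) : Cls (gn_g A M τ ψ t c) := by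
  refine ⟨c, fun n hn => ?_⟩
  unfold gn_g at hn
  split_ifs at hn with h1 h2
  · exact h2.2
  · simp at hn
  · simp at hn

open Classical in
theorem gn_norm {Q : O} (h6 : (6 : O) ∣ Q) {ψ : O → ℂ} (hψ : IsCh Q ψ) (A M τ : ℝ) (t c n : O) :
    ‖gn_g A M τ ψ t c n‖ ≤ if n = 0 then 0 else W A (Nr n / M) := by
  by_cases h0 : gn_g A M τ ψ t c n = 0
  · rw [h0, norm_zero]
    split_ifs
    · exact le_rfl
    · exact (W_pos _ _).le
  obtain ⟨hp, hs, hc⟩ := gn_supp hψ A M τ t c n h0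
  rw [if_neg hp.ne_zero]
  unfold gn_g
  rw [if_pos hp, w2_norm_term (c := fun m => if Squarefree m ∧ (4 : O) ∣ m - c then
    ψ m * g6 m * conj (chi m t) else 0) hp]
  refine mul_le_of_le_one_left (W_pos _ _).le ?_
  split_ifs
  · rw [norm_mul, norm_mul, RCLike.norm_conj, norm_g6 (hc.of_isCoprime_of_dvd_right h6) hs, mul_one]
    exact mul_le_one₀ (hψ.norm_le _) (norm_nonneg _) (norm_chi_le _ _)
  · simp

theorem gn_norm_mul {Q : O} (h6 : (6 : O) ∣ Q) {ψ : O → ℂ} (hψ : IsCh Q ψ) (A M τ : ℝ) (t c : O)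
    {d : O} (hd : d ≠ 0) (B : ℝ) (n : O) :
    ‖gn_g A M τ ψ t c (d * n)‖ * Nr n ^ B ≤
      if n = 0 then 0 else Nr n ^ B * W A (Nr n / (M / Nr d)) := by
  have h := gn_norm h6 hψ A M τ t c (d * n)
  by_cases hn : n = 0
  · subst hn
    simp only [mul_zero, if_true] at h ⊢
    have : ‖gn_g A M τ ψ t c 0‖ = 0 := le_antisymm h (norm_nonneg _)
    rw [this, zero_mul]
  rw [if_neg (mul_ne_zero hd hn)] at h
  rw [if_neg hn, mul_comm]
  refine mul_le_mul_of_nonneg_left (h.trans (le_of_eq ?_)) (Real.rpow_nonneg (Nr_nonneg _) _)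
  congr 1
  rw [Nr_mul]
  have := (Nr_pos hd).ne'
  field_simp

theorem gn_rap {Q : O} (h6 : (6 : O) ∣ Q) {ψ : O → ℂ} (hψ : IsCh Q ψ) {A M : ℝ} (hA : 0 < A)
    (hM : 0 < M) (τ : ℝ) (t c : O) : Rap (gn_g A M τ ψ t c) := by
  intro B
  refine Summable.of_nonneg_of_le
    (fun n => mul_nonneg (norm_nonneg _) (Real.rpow_nonneg (Nr_nonneg _) _)) (fun n => ?_)
    (summable_W hA hM B)
  simpa [Nr_one] using gn_norm_mul h6 hψ A M τ t c one_ne_zero B n

theorem gn_tsum {A : ℝ} (hA : 0 < A) {B : ℝ} (hB : -1 < B) : ∃ C : ℝ, 0 ≤ C ∧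
    ∀ (Q : O) (ψ : O → ℂ) (M τ : ℝ) (t c d : O), (6 : O) ∣ Q → IsCh Q ψ → 0 < M → d ≠ 0 →
      ∑' n : O, ‖gn_g A M τ ψ t c (d * n)‖ * Nr n ^ B ≤ C * (M / Nr d) ^ (1 + B) := by
  obtain ⟨C, hC⟩ := tsum_W_le hA B hB
  refine ⟨|C|, abs_nonneg _, fun Q ψ M τ t c d h6 hψ hM hd => ?_⟩
  have hX : 0 < M / Nr d := div_pos hM (Nr_pos hd)
  refine le_trans ?_ ((hC _ hX).trans
    (mul_le_mul_of_nonneg_right (le_abs_self C) (Real.rpow_nonneg hX.le _)))
  have hs := summable_W hA hX B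
  exact Summable.tsum_le_tsum (gn_norm_mul h6 hψ A M τ t c hd B)
    (Summable.of_nonneg_of_le
      (fun n => mul_nonneg (norm_nonneg _) (Real.rpow_nonneg (Nr_nonneg _) _))
      (gn_norm_mul h6 hψ A M τ t c hd B) hs) hs

theorem gn_diag {A : ℝ} (hA : 0 < A) : ∃ C : ℝ, 0 ≤ C ∧
    ∀ (Q : O) (ψ : O → ℂ) (M τ : ℝ) (t c : O), (6 : O) ∣ Q → IsCh Q ψ → 0 < M →
      ∑' n : O, ‖gn_g A M τ ψ t c n‖ ^ 2 ≤ C * M := by
  obtain ⟨C, hC0, hC⟩ := gn_tsum hA (B := 0) (by norm_num)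
  refine ⟨C, hC0, fun Q ψ M τ t c h6 hψ hM => ?_⟩
  have h := hC Q ψ M τ t c 1 h6 hψ hM one_ne_zero
  simp only [one_mul, Real.rpow_zero, mul_one, Nr_one, div_one, add_zero, Real.rpow_one] at h
  have hr := gn_rap h6 hψ hA hM τ t c
  refine le_trans (Summable.tsum_le_tsum (fun n => ?_) (l3_summable_sq hr)
    (by simpa using hr 0)) h
  have h1 : ‖gn_g A M τ ψ t c n‖ ≤ 1 := (gn_norm h6 hψ A M τ t c n).trans (by
    split_ifs
    · exact zero_le_one
    · exact W_le_one hA _)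
  rw [sq]
  exact mul_le_of_le_one_left (norm_nonneg _) h1

open Classical in
/-- The dual rows as smooth sums. -/
theorem gn_row {Q : O} (h6 : (6 : O) ∣ Q) {ψ : O → ℂ} (hψ : IsCh Q ψ) (A M τ : ℝ) (t c : O)
    {d : O} (hd : Adm Q d) (s : ℂ) (r : O) :
    rowF (fun n => gn_g A M τ ψ t c (d * n) * conj (g6 n) * (Nr n : ℂ) ^ s) r =
      (ψ d * g6 d * conj (chi d t) * (Nr d : ℂ) ^ (-(τ * I))) *
        sm A (fun n => (if (4 : O) ∣ d * n - c then (if Squarefree n then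
          ψ n * sig n d * chi n (r * (t ^ 5 * d ^ 2)) else 0) else 0) * (Nr n : ℂ) ^ s)
          (M / Nr d) τ := by
  obtain ⟨hdp, hds, hdc⟩ := hd
  have hd6 : IsCoprime d 6 := hdc.of_isCoprime_of_dvd_right h6
  unfold rowF sm
  rw [← tsum_mul_left]
  refine tsum_congr fun n => ?_
  by_cases hn : Prim n
  swap
  · have : ¬ Prim (d * n) := fun h => hn (hdp.of_mul h)
    simp [gn_g, this, hn]
  rw [if_pos hn]
  beta_reduce
  unfold gn_g
  rw [if_pos (hdp.mul hn)]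
  by_cases h4 : (4 : O) ∣ d * n - c
  swap
  · simp [h4]
  rw [if_pos h4]
  by_cases hψn : ψ n = 0
  · simp [hψ.mul, hψn]
  have hn6 : IsCoprime n 6 := (ch_cop hψ hψn).of_isCoprime_of_dvd_right h6
  by_cases hdn : IsCoprime d n
  swap
  · have h1 : ¬ Squarefree (d * n) := fun h => hdn
      (isRelPrime_iff_isCoprime.1 (squarefree_mul_iff.1 h).1)
    have h2 : chi n d = 0 := (chi_eq_zero hn.ne_zero).2 fun h => hdn h.of_mul_right_right.symm
    simp [h1, chi_mul_right, chi_pow_right n d two_ne_zero, h2]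
  by_cases hs : Squarefree n
  swap
  · have h1 : ¬ Squarefree (d * n) := fun h => hs h.of_mul_right
    simp [h1, hs]
  have h1 : Squarefree (d * n) := squarefree_mul_iff.2 ⟨hdn.isRelPrime, hds, hs⟩
  rw [if_pos ⟨h1, h4⟩, if_pos hs, hψ.mul, g6_mul hd6 hn6 hdn, chi_mul_left hdp.ne_zero hn.ne_zero,
    chi_recip hdp hn (coprime_six_iff.1 hd6).2 (coprime_six_iff.1 hn6).2, chi_mul_right,
    chi_mul_right, chi_pow_right n t (by norm_num), chi_pow_right n d two_ne_zero, map_mul,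
    conj_chi n t, sig_comm d n, Nr_mul]
  have h2 : g6 n * conj (g6 n) = 1 := by
    rw [Complex.mul_conj, Complex.normSq_eq_norm_sq, norm_g6 hn6 hs]; simp
  have h3 : Nr d * Nr n / M = Nr n / (M / Nr d) := by
    have := (Nr_pos hdp.ne_zero).ne'
    field_simp
  rw [h3, Complex.ofReal_mul, Complex.mul_cpow_ofReal_nonneg (Nr_nonneg _) (Nr_nonneg _)]
  linear_combination (ψ d * ψ n * g6 d * sig n d * chi n d ^ 2 * conj (chi d t) * chi n t ^ 5 *
    (Nr d : ℂ) ^ (-(τ * I)) * (Nr n : ℂ) ^ (-(τ * I)) * (W A (Nr n / (M / Nr d)) : ℂ) *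
    (Nr n : ℂ) ^ s * chi n r) * h2

end Crest.Agent.R017

end
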