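import Crest.Agent.R017.Chars

/-! # Row 17: the kernel of the dual forms -/

set_option autoImplicit false

noncomputable section

open scoped BigOperators ComplexConjugate
open Complex MeasureTheory

namespace Crest.Agent.R017

/-- The sign in the kernel. -/
def ks (N M : O) : ℂ := sig N M * sig N (-1)

/-- Normalised Fourier transform of `conj χ_N · χ_M` modulo `N M`. -/
def KG (N M r : O) : ℂ :=
  ks N M * gs (fun h => conj (chi N h) * chi M h) (N * M) r / (Real.sqrt (Nr (N * M)) : ℂ)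

/-- The kernel with theta coefficients. -/
def KT (N M r : O) : ℂ := vth N * conj (vth M) * KG N M r

open Classical in
/-- `m*_e(r) = ∏_{p ∣ e} (N p 1_{p² ∣ r} - 1_{p ∣ r})`. -/
def mstar (e r : O) : ℝ :=
  ∏ p ∈ pf e, ((if p ^ 2 ∣ r then Nr p else 0) - (if p ∣ r then 1 else 0))

theorem k1_odd_neg_one : ¬ (2 : O) ∣ -1 := r2_odd_unit isUnit_one.neg

theorem k1_odd_one : ¬ (2 : O) ∣ 1 := r2_odd_unit isUnit_one

theorem k1_sig_sq {x y : O} (hx : ¬ (2 : O) ∣ x) (hy : ¬ (2 : O) ∣ y) : sig x y * sig x y = 1 := by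
  rcases sig_cases hx hy with h | h <;> rw [h] <;> norm_num

theorem k1_conj_sig {x y : O} (hx : ¬ (2 : O) ∣ x) (hy : ¬ (2 : O) ∣ y) :
    conj (sig x y) = sig x y := by
  rcases sig_cases hx hy with h | h <;> rw [h] <;> simp

theorem k1_sig_mul_right {x y y' : O} (hx : ¬ (2 : O) ∣ x) (hy : ¬ (2 : O) ∣ y)
    (hy' : ¬ (2 : O) ∣ y') : sig x (y * y') = sig x y * sig x y' := by
  rw [sig_comm, sig_mul_left hy hy' hx, sig_comm y, sig_comm y']

theorem k1_s_self : ∀ a b : ZMod 4, r2_odd a b → r2_s a b a b + r2_s a b (-1) 0 = 0 := by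
  decide +kernel

theorem k1_six {N : O} (hN : Prim N) (h2 : ¬ (2 : O) ∣ N) : IsCoprime N 6 :=
  coprime_six_iff.2 ⟨hN.not_lam_dvd, h2⟩

theorem k1_ne {N : O} (hN : IsCoprime N 6) : N ≠ 0 := r2_odd_ne (coprime_six_iff.1 hN).2

theorem k1_norm_chi {N x : O} (hN : IsCoprime N 6) (h : IsCoprime N x) : ‖chi N x‖ = 1 :=
  norm_chi fun h0 => (chi_eq_zero (k1_ne hN)).1 h0 (hN.mul_right h)

theorem k1_homog {N M : O} (hN : IsCoprime N 6) (hM : IsCoprime M 6) :
    Homog (N * M) (fun h => conj (chi N h) * chi M h) (fun h => conj (chi N h) * chi M h) where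
  per x y h := by
    rw [chi_congr' (k1_ne hN) ((dvd_mul_right N M).trans h),
      chi_congr' (k1_ne hM) ((dvd_mul_left M N).trans h)]
  hom u x _ := by
    rw [chi_mul_right, chi_mul_right, map_mul]; ring
  abs u hu := by
    rw [norm_mul, Complex.norm_conj, k1_norm_chi hN hu.of_mul_right_left.symm,
      k1_norm_chi hM hu.of_mul_right_right.symm, one_mul]

theorem k1_sqrt_ne {n : O} (hn : n ≠ 0) : (Real.sqrt (Nr n) : ℂ) ≠ 0 := by
  exact_mod_cast (Real.sqrt_pos.2 (Nr_pos hn)).ne'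

theorem k1_KT_even {N M : O} (hN : Prim N) (hM : Prim M) (h : (2 : O) ∣ N ∨ (2 : O) ∣ M) (r : O) :
    KT N M r = 0 := by
  rcases h with h | h
  · rw [KT, vth_eq_zero hN (Or.inl h), zero_mul, zero_mul]
  · rw [KT, vth_eq_zero hM (Or.inl h), map_zero, mul_zero, zero_mul]

theorem norm_ks {N M : O} (hN : ¬ (2 : O) ∣ N) (hM : ¬ (2 : O) ∣ M) : ‖ks N M‖ = 1 := by
  rw [ks]
  rcases sig_cases hN hM with h | h <;> rcases sig_cases hN k1_odd_neg_one with h' | h' <;>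
    rw [h, h'] <;> simp
theorem ks_eq_one {N M : O} (hN : ¬ (2 : O) ∣ N) (h : (4 : O) ∣ N - M) : ks N M = 1 := by
  rw [ks, sig_per (x := N) (x' := N) (y := M) (y' := N) (by simp) (dvd_sub_comm.1 h),
    r2_sig hN hN, r2_sig hN k1_odd_neg_one, ← r2_ch_add]
  have e1 : (((-1 : O).re : ℤ) : ZMod 4) = -1 := by decide
  have e2 : (((-1 : O).im : ℤ) : ZMod 4) = 0 := by decide
  rw [e1, e2, k1_s_self _ _ (r2_odd_of hN), r2_ch_zero]

/-- Poisson summation from the dual side. -/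
theorem poisson_KG {N M : O} (hN : IsCoprime N 6) (hM : IsCoprime M 6) {H : ℝ} (hH : 0 < H) :
    ks N M * ∑' h : O, (Phi (Nr h / H) : ℂ) * (conj (chi N h) * chi M h) =
      ((H / Real.sqrt (Nr (N * M)) : ℝ) : ℂ) * ∑' r : O, KG N M r * (Phi (H * Nr r / Nr (N * M)) : ℂ) := by
  have h0 : N * M ≠ 0 := mul_ne_zero (k1_ne hN) (k1_ne hM)
  rw [poisson_per hH h0 _ (k1_homog hN hM).per, ← tsum_mul_left, ← tsum_mul_left, ← tsum_mul_left]
  refine tsum_congr fun r => ?_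
  have hs := k1_sqrt_ne h0
  have hsq : ((Nr (N * M) : ℝ) : ℂ) = (Real.sqrt (Nr (N * M)) : ℂ) ^ 2 := by
    rw [← Complex.ofReal_pow, Real.sq_sqrt (Nr_nonneg _)]
  rw [KG, Complex.ofReal_div, Complex.ofReal_div, hsq]
  field_simp

theorem KT_mul {N₁ N₂ M₁ M₂ : O} (h₁ : Prim N₁) (h₂ : Prim N₂) (h₃ : Prim M₁) (h₄ : Prim M₂)
    (hc : IsCoprime (N₁ * M₁) (N₂ * M₂)) (r : O) :
    KT (N₁ * N₂) (M₁ * M₂) r = KT N₁ M₁ r * KT N₂ M₂ r := by
  by_cases a₁ : (2 : O) ∣ N₁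
  · rw [k1_KT_even (h₁.mul h₂) (h₃.mul h₄) (Or.inl (a₁.mul_right _)),
      k1_KT_even h₁ h₃ (Or.inl a₁), zero_mul]
  by_cases a₂ : (2 : O) ∣ N₂
  · rw [k1_KT_even (h₁.mul h₂) (h₃.mul h₄) (Or.inl (a₂.mul_left _)),
      k1_KT_even h₂ h₄ (Or.inl a₂), mul_zero]
  by_cases a₃ : (2 : O) ∣ M₁
  · rw [k1_KT_even (h₁.mul h₂) (h₃.mul h₄) (Or.inr (a₃.mul_right _)),
      k1_KT_even h₁ h₃ (Or.inr a₃), zero_mul]
  by_cases a₄ : (2 : O) ∣ M₂
  · rw [k1_KT_even (h₁.mul h₂) (h₃.mul h₄) (Or.inr (a₄.mul_left _)),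
      k1_KT_even h₂ h₄ (Or.inr a₄), mul_zero]
  have s₁ := k1_six h₁ a₁
  have s₂ := k1_six h₂ a₂
  have s₃ := k1_six h₃ a₃
  have s₄ := k1_six h₄ a₄
  have c12 : IsCoprime N₁ N₂ := hc.of_mul_left_left.of_mul_right_left
  have c14 : IsCoprime N₁ M₂ := hc.of_mul_left_left.of_mul_right_right
  have c32 : IsCoprime M₁ N₂ := hc.of_mul_left_right.of_mul_right_left
  have c34 : IsCoprime M₁ M₂ := hc.of_mul_left_right.of_mul_right_right
  have n₁ : N₁ * M₁ ≠ 0 := mul_ne_zero h₁.ne_zero h₃.ne_zero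
  have n₂ : N₂ * M₂ ≠ 0 := mul_ne_zero h₂.ne_zero h₄.ne_zero
  have hf : (fun h => conj (chi (N₁ * N₂) h) * chi (M₁ * M₂) h) =
      fun h => (conj (chi N₁ h) * chi M₁ h) * (conj (chi N₂ h) * chi M₂ h) := by
    funext h
    rw [chi_mul_left h₁.ne_zero h₂.ne_zero, chi_mul_left h₃.ne_zero h₄.ne_zero, map_mul]; ring
  have hprod : N₁ * N₂ * (M₁ * M₂) = N₁ * M₁ * (N₂ * M₂) := by ring
  have hsq : (Real.sqrt (Nr (N₁ * M₁ * (N₂ * M₂))) : ℂ) =
      (Real.sqrt (Nr (N₁ * M₁)) : ℂ) * (Real.sqrt (Nr (N₂ * M₂)) : ℂ) := by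
    rw [Nr_mul (N₁ * M₁), Real.sqrt_mul (Nr_nonneg _), Complex.ofReal_mul]
  have hks : ks (N₁ * N₂) (M₁ * M₂) = ks N₁ M₁ * ks N₂ M₂ * (sig N₁ M₂ * sig M₁ N₂) := by
    rw [ks, ks, ks, sig_mul_left a₁ a₂ (r2_odd_mul a₃ a₄), sig_mul_left a₁ a₂ k1_odd_neg_one,
      k1_sig_mul_right a₁ a₃ a₄, k1_sig_mul_right a₂ a₃ a₄, sig_comm M₁ N₂]
    ring
  have u12 := g1_conj_mul (k1_norm_chi s₁ c12)
  have u21 := g1_conj_mul (k1_norm_chi s₂ c12.symm)
  have u34 := g1_conj_mul (k1_norm_chi s₃ c34)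
  have u43 := g1_conj_mul (k1_norm_chi s₄ c34.symm)
  have u41 := g1_conj_mul (k1_norm_chi s₄ c14.symm)
  have u23 := g1_conj_mul (k1_norm_chi s₂ c32.symm)
  have r14 := chi_recip h₁ h₄ a₁ a₄
  have r32 := chi_recip h₃ h₂ a₃ a₂
  have q14 := k1_sig_sq a₁ a₄
  have q32 := k1_sig_sq a₃ a₂
  have key : (chi N₁ N₂ * chi N₂ N₁) * conj (chi M₁ M₂ * chi M₂ M₁) * (sig N₁ M₂ * sig M₁ N₂) *
      ((conj (chi N₁ (N₂ * M₂)) * chi M₁ (N₂ * M₂)) * (conj (chi N₂ (N₁ * M₁)) * chi M₂ (N₁ * M₁)))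
      = 1 := by
    simp only [chi_mul_right, map_mul]
    rw [r14, r32, map_mul, k1_conj_sig a₁ a₄]
    calc _ = (conj (chi N₁ N₂) * chi N₁ N₂) * (conj (chi N₂ N₁) * chi N₂ N₁) *
          (conj (chi M₁ M₂) * chi M₁ M₂) * (conj (chi M₂ M₁) * chi M₂ M₁) *
          (conj (chi M₂ N₁) * chi M₂ N₁) * (conj (chi N₂ M₁) * chi N₂ M₁) *
          (sig N₁ M₂ * sig N₁ M₂) * (sig M₁ N₂ * sig M₁ N₂) := by ring
      _ = 1 := by rw [u12, u21, u34, u43, u41, u23, q14, q32]; norm_num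
  rw [KT, KT, KT, KG, KG, KG, hf, hprod, gs_mul_coprime n₁ n₂ hc (k1_homog s₁ s₃) (k1_homog s₂ s₄),
    hsq, hks, vth_mul h₁ h₂ c12, vth_mul h₃ h₄ c34, map_mul, map_mul (starRingEnd ℂ) (vth M₁)]
  have t₁ := k1_sqrt_ne n₁
  have t₂ := k1_sqrt_ne n₂
  linear_combination (vth N₁ * conj (vth M₁) * (ks N₁ M₁ *
    gs (fun h => conj (chi N₁ h) * chi M₁ h) (N₁ * M₁) r / (Real.sqrt (Nr (N₁ * M₁)) : ℂ))) *
    (vth N₂ * conj (vth M₂) * (ks N₂ M₂ *
    gs (fun h => conj (chi N₂ h) * chi M₂ h) (N₂ * M₂) r / (Real.sqrt (Nr (N₂ * M₂)) : ℂ))) * key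

theorem k1_vth_one : vth 1 = 1 := by
  rw [key_identity prim_one isCoprime_one_left squarefree_one, mu_one, g6_one, one_mul]

theorem k1_gs_chi {n : O} (h6 : IsCoprime n 6) (hs : Squarefree n) (h : O) :
    gs (chi n) n h = conj (chi n h) * gs (chi n) n 1 := by
  simpa using gs_chi_pow h6 hs (k := 1) (by norm_num) h

theorem k1_chi_neg_one {n : O} (h6 : IsCoprime n 6) : chi n (-1) = sig n (-1) := by
  obtain ⟨h3, h2⟩ := coprime_six_iff.1 h6
  rw [chi, kap_neg_right, kap_one_right h3, quad_recip h2 k1_odd_neg_one,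
    rho_unit_left isUnit_one.neg]
  ring

theorem k1_KT_left {n : O} (hn : Prim n) (h6 : IsCoprime n 6) (hs : Squarefree n) (r : O) :
    KT n 1 r = mu n * chi n r := by
  have h2 := (coprime_six_iff.1 h6).2
  have hf : (fun h => conj (chi n h) * chi 1 h) = fun h => conj (chi n h) := by
    funext h; rw [chi_unit_left isUnit_one, mul_one]
  have hg : gs (fun h => conj (chi n h)) n r = sig n (-1) * chi n r * conj (gs (chi n) n 1) := by
    have := conj_gs (chi n) n (-r)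
    rw [neg_neg] at this
    rw [← this, k1_gs_chi h6 hs, map_mul, conj_conj, neg_eq_neg_one_mul, chi_mul_right,
      k1_chi_neg_one h6]
  have hu := g1_conj_mul (norm_g6 h6 hs)
  have hq := k1_sig_sq h2 k1_odd_neg_one
  rw [KT, KG, hf, mul_one, hg, k1_vth_one, map_one, key_identity hn h6 hs, ks, sig_comm n 1,
    sig_one h2]
  have hc : conj (gs (chi n) n 1) / (Real.sqrt (Nr n) : ℂ) = conj (g6 n) := by
    rw [g6, map_div₀, conj_ofReal]
  calc _ = mu n * chi n r * (sig n (-1) * sig n (-1)) *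
        (conj (gs (chi n) n 1) / (Real.sqrt (Nr n) : ℂ) * g6 n) := by ring
    _ = _ := by rw [hc, hu, hq]; ring

theorem k1_KT_right {m : O} (hm : Prim m) (h6 : IsCoprime m 6) (hs : Squarefree m) (r : O) :
    KT 1 m r = mu m * conj (chi m r) := by
  have h2 := (coprime_six_iff.1 h6).2
  have hf : (fun h => conj (chi 1 h) * chi m h) = chi m := by
    funext h; rw [chi_unit_left isUnit_one, map_one, one_mul]
  have hu := g1_conj_mul (norm_g6 h6 hs)
  rw [KT, KG, hf, one_mul m, k1_gs_chi h6 hs, k1_vth_one, key_identity hm h6 hs, ks,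
    sig_one h2, sig_one k1_odd_neg_one, map_mul, conj_mu]
  calc _ = mu m * conj (chi m r) * (conj (g6 m) * (gs (chi m) m 1 / (Real.sqrt (Nr m) : ℂ))) := by
        ring
    _ = _ := by rw [← g6, hu, mul_one]

theorem k1_pf_one : pf 1 = ∅ := by
  refine Finset.eq_empty_of_forall_notMem fun p hp => ?_
  obtain ⟨h1, h2⟩ := (mem_pf one_ne_zero).1 hp
  exact h1.1.not_isUnit (isUnit_of_dvd_one h2)

theorem k1_mstar_one (r : O) : mstar 1 r = 1 := by rw [mstar, k1_pf_one, Finset.prod_empty]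

theorem k1_pf_mul {p n : O} (hp : Prime p) (hpp : Prim p) (hn : n ≠ 0) :
    pf (p * n) = insert p (pf n) := by
  ext q
  rw [Finset.mem_insert, mem_pf (mul_ne_zero hp.ne_zero hn), mem_pf hn]
  constructor
  · rintro ⟨hq, hd⟩
    rcases hq.1.dvd_or_dvd hd with h | h
    · exact Or.inl (hq.eq_of_associated ⟨hp, Or.inl hpp⟩ (hq.1.associated_of_dvd hp h))
    · exact Or.inr ⟨hq, h⟩
  · rintro (rfl | ⟨hq, hd⟩)
    · exact ⟨⟨hp, Or.inl hpp⟩, dvd_mul_right _ _⟩
    · exact ⟨hq, hd.mul_left _⟩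

open Classical in
theorem k1_KT_prime {p : O} (hp : Prime p) (hpp : Prim p) (h6 : IsCoprime p 6) (r : O) :
    KT p p r = (((if p ^ 2 ∣ r then Nr p else 0) - (if p ∣ r then 1 else 0) : ℝ) : ℂ) := by
  have h2 := (coprime_six_iff.1 h6).2
  have h0 := hp.ne_zero
  have hf : (fun h => conj (chi p h) * chi p h) = fun x => if p ∣ x then (0 : ℂ) else 1 := by
    funext x
    split_ifs with hx
    · rw [(chi_eq_zero h0).2 fun hc => hp.not_isUnit (hc.isUnit_of_dvd' dvd_rfl (hx.mul_left _)),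
        mul_zero]
    · exact g1_conj_mul (k1_norm_chi h6 (hp.coprime_iff_not_dvd.2 hx))
  have hv : vth p * conj (vth p) = 1 := by
    rw [mul_comm]
    apply g1_conj_mul
    rw [key_identity hpp h6 hp.squarefree, mu_prime hp, norm_mul, norm_g6 h6 hp.squarefree]
    simp
  have hper : ∀ x y : O, p ∣ x - y →
      (if p ∣ x then (0 : ℂ) else 1) = if p ∣ y then (0 : ℂ) else 1 := fun x y h => by
    rw [if_congr (dvd_iff_dvd_of_dvd_sub h) rfl rfl]
  have hN : (Nr p : ℂ) ≠ 0 := by exact_mod_cast (Nr_pos h0).ne'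
  rw [KT, hv, one_mul, KG, ks_eq_one h2 (by simp), one_mul, hf, gs_tower h0 h0 hper,
    gs_coprime_prime hp, Nr_mul, Real.sqrt_mul_self (Nr_nonneg p)]
  by_cases h1 : p ∣ r
  · obtain ⟨c, rfl⟩ := h1
    rw [if_pos (dvd_mul_right p c), if_pos (dvd_mul_right p c), mul_div_cancel_left₀ _ h0,
      mul_div_cancel_left₀ _ hN, sq]
    by_cases h3 : p ∣ c
    · rw [if_pos h3, if_pos (mul_dvd_mul_left p h3)]; push_cast; ring
    · rw [if_neg h3, if_neg fun h => h3 ((mul_dvd_mul_iff_left h0).1 h)]; push_cast; ring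
  · rw [if_neg h1, if_neg h1, if_neg fun h => h1 ((dvd_pow_self p two_ne_zero).trans h)]
    simp

theorem k1_KT_diag {e : O} (he : Prim e) (hs : Squarefree e) (r : O) :
    IsCoprime e 6 → KT e e r = (mstar e r : ℂ) := by
  refine Prim.sqf_induction (P := fun e => IsCoprime e 6 → KT e e r = (mstar e r : ℂ))
    (fun h => ?_) (fun p n hp hpp hn _ hpn ih h6 => ?_) he hs
  · rw [k1_KT_left prim_one h squarefree_one, mu_one, chi_unit_left isUnit_one, k1_mstar_one]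
    simp
  · have hc : IsCoprime p n := hp.coprime_iff_not_dvd.2 hpn
    rw [KT_mul hpp hn hpp hn ((hc.mul_left hc).mul_right (hc.mul_left hc)),
      ih h6.of_mul_left_right, k1_KT_prime hp hpp h6.of_mul_left_left, mstar, mstar,
      k1_pf_mul hp hpp hn.ne_zero,
      Finset.prod_insert fun h => hpn ((mem_pf hn.ne_zero).1 h).2, Complex.ofReal_mul]

theorem k1_KT_sqf {e n m : O} (he : Prim e) (hn : Prim n) (hm : Prim m)
    (h6 : IsCoprime (e * n * m) 6) (hs : Squarefree (e * n * m)) (r : O) :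
    KT (e * n) (e * m) r = mu n * mu m * chi n r * conj (chi m r) * (mstar e r : ℂ) := by
  obtain ⟨c1, s1, sm⟩ := squarefree_mul_iff.1 hs
  obtain ⟨c2, se, sn⟩ := squarefree_mul_iff.1 s1
  have cen : IsCoprime e n := c2.isCoprime
  have cem : IsCoprime e m := c1.isCoprime.of_mul_left_left
  have cnm : IsCoprime n m := c1.isCoprime.of_mul_left_right
  have h1 := KT_mul hn prim_one prim_one hm (by simpa using cnm) r
  rw [mul_one, one_mul] at h1
  rw [KT_mul he hn he hm ((cen.mul_right cem).mul_left (cen.mul_right cem)), h1,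
    k1_KT_diag he se r h6.of_mul_left_left.of_mul_left_left,
    k1_KT_left hn h6.of_mul_left_left.of_mul_left_right sn,
    k1_KT_right hm h6.of_mul_left_right sm]
  ring

theorem k1_norm_KG {N M : O} (hN : ¬ (2 : O) ∣ N) (hM : ¬ (2 : O) ∣ M) (r : O) :
    ‖KG N M r‖ ≤ Nr (N * M) ^ (1 / 2 : ℝ) := by
  have h0 : N * M ≠ 0 := r2_odd_ne (r2_odd_mul hN hM)
  have hs := Real.sqrt_pos.2 (Nr_pos h0)
  rw [KG, norm_div, norm_mul, norm_ks hN hM, one_mul, Complex.norm_real, Real.norm_eq_abs,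
    abs_of_pos hs, div_le_iff₀ hs, ← Real.sqrt_eq_rpow, Real.mul_self_sqrt (Nr_nonneg _)]
  refine norm_gs_le h0 (fun x => ?_) r
  rw [norm_mul, Complex.norm_conj]
  exact mul_le_one₀ (norm_chi_le _ _) (norm_nonneg _) (norm_chi_le _ _)

open Classical in
theorem KT_coprime {N M r : O} (hN : Prim N) (hM : Prim M) (hc : IsCoprime (N * M) r) :
    KT N M r = if IsCoprime N M then mu N * mu M * chi N r * conj (chi M r) else 0 := by
  have h26 : (2 : O) ∣ 6 * r := Dvd.dvd.mul_right ⟨3, by norm_num⟩ r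
  by_cases a₁ : (2 : O) ∣ N
  · rw [k1_KT_even hN hM (Or.inl a₁), (chi_eq_zero hN.ne_zero).2
      fun h => prime_two.not_isUnit (h.isUnit_of_dvd' a₁ h26)]
    simp
  by_cases a₂ : (2 : O) ∣ M
  · rw [k1_KT_even hN hM (Or.inr a₂), (chi_eq_zero hM.ne_zero).2
      fun h => prime_two.not_isUnit (h.isUnit_of_dvd' a₂ h26)]
    simp
  have h0 : N * M ≠ 0 := mul_ne_zero hN.ne_zero hM.ne_zero
  by_cases hs : Squarefree (N * M)
  · have h1 := k1_KT_sqf prim_one hN hM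
      (by rw [one_mul]; exact (k1_six hN a₁).mul_left (k1_six hM a₂)) (by rwa [one_mul]) r
    rw [one_mul, one_mul, k1_mstar_one] at h1
    rw [h1, if_pos (squarefree_mul_iff.1 hs).1.isCoprime]
    simp
  · have hR : (if IsCoprime N M then mu N * mu M * chi N r * conj (chi M r) else 0) = 0 := by
      split_ifs with h
      · rw [← mu_mul h, mu_eq_zero.2 hs]; simp
      · rfl
    rw [hR]
    rw [squarefree_iff_no_irreducibles h0] at hs
    push Not at hs
    obtain ⟨p, hp, c, hc'⟩ := hs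
    have hp' := hp.prime
    have hpc : p * c ≠ 0 := fun h => h0 (by rw [hc', mul_assoc, h, mul_zero])
    have hrad : ∀ w : O, w ≠ 0 → w ∣ N * M → rad w ∣ p * c := fun w hw hd => by
      refine a4_rad_dvd hpc hw fun q hq hqw => ?_
      have h1 : q ∣ p * (p * c) := by rw [← mul_assoc, ← hc']; exact hqw.trans hd
      exact (hq.dvd_or_dvd h1).elim (fun h => h.mul_right _) id
    have hper : ∀ x y : O, p * c ∣ x - y →
        conj (chi N x) * chi M x = conj (chi N y) * chi M y := fun x y h => by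
      rw [chi_congr hN.ne_zero ((hrad N hN.ne_zero (dvd_mul_right _ _)).trans h),
        chi_congr hM.ne_zero ((hrad M hM.ne_zero (dvd_mul_left _ _)).trans h)]
    have hpr : ¬ p ∣ r := fun h =>
      hp.not_isUnit (hc.isUnit_of_dvd' ⟨p * c, by rw [hc']; ring⟩ h)
    have hg : gs (fun h => conj (chi N h) * chi M h) (N * M) r = 0 := by
      rw [show N * M = p * c * p by rw [hc']; ring, gs_tower hpc hp'.ne_zero hper, if_neg hpr]
    rw [KT, KG, hg]
    simp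
/-- Squarefree arguments. -/
theorem KT_sqf {e n m : O} (he : Prim e) (hn : Prim n) (hm : Prim m) (h6 : IsCoprime (e * n * m) 6)
    (hs : Squarefree (e * n * m)) (r : O) :
    KT (e * n) (e * m) r = mu n * mu m * chi n r * conj (chi m r) * (mstar e r : ℂ) :=
  k1_KT_sqf he hn hm h6 hs r
theorem norm_KT_le {N M : O} (hN : Prim N) (hM : Prim M) (r : O) :
    ‖KT N M r‖ ≤ Nr (N * M) ^ (2 / 3 : ℝ) := by
  by_cases h : (2 : O) ∣ N ∨ (2 : O) ∣ M
  · rw [k1_KT_even hN hM h, norm_zero]; exact Real.rpow_nonneg (Nr_nonneg _) _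
  push Not at h
  have h0 : N * M ≠ 0 := mul_ne_zero hN.ne_zero hM.ne_zero
  rw [KT, norm_mul, norm_mul, Complex.norm_conj]
  calc ‖vth N‖ * ‖vth M‖ * ‖KG N M r‖
      ≤ Nr N ^ (1 / 6 : ℝ) * Nr M ^ (1 / 6 : ℝ) * Nr (N * M) ^ (1 / 2 : ℝ) := by
        have := Real.rpow_nonneg (Nr_nonneg N) (1 / 6 : ℝ)
        have := Real.rpow_nonneg (Nr_nonneg M) (1 / 6 : ℝ)
        gcongr
        · exact norm_vth_le hN
        · exact norm_vth_le hM
        · exact k1_norm_KG h.1 h.2 r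
    _ = _ := by
        rw [← Real.mul_rpow (Nr_nonneg _) (Nr_nonneg _), ← Nr_mul, ← Real.rpow_add (Nr_pos h0)]
        norm_num
theorem norm_KT_le' {N M : O} (hN : Prim N) (hM : Prim M) (hs : Squarefree M) (r : O) :
    ‖KT N M r‖ ≤ Nr N ^ (2 / 3 : ℝ) * Nr M ^ (1 / 2 : ℝ) := by
  by_cases h : (2 : O) ∣ N ∨ (2 : O) ∣ M
  · rw [k1_KT_even hN hM h, norm_zero]
    exact mul_nonneg (Real.rpow_nonneg (Nr_nonneg _) _) (Real.rpow_nonneg (Nr_nonneg _) _)
  push Not at h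
  have hv : ‖vth M‖ = 1 := by
    have := norm_vth hM hs prim_one (by rw [mul_one]; exact h.2)
    rwa [one_pow, mul_one, Nr_one, Real.sqrt_one] at this
  rw [KT, norm_mul, norm_mul, Complex.norm_conj, hv, mul_one]
  calc ‖vth N‖ * ‖KG N M r‖ ≤ Nr N ^ (1 / 6 : ℝ) * Nr (N * M) ^ (1 / 2 : ℝ) := by
        have := Real.rpow_nonneg (Nr_nonneg N) (1 / 6 : ℝ)
        gcongr
        · exact norm_vth_le hN
        · exact k1_norm_KG h.1 h.2 r
    _ = _ := by
        rw [Nr_mul, Real.mul_rpow (Nr_nonneg _) (Nr_nonneg _), ← mul_assoc,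
          ← Real.rpow_add (Nr_pos hN.ne_zero)]
        norm_num
end Crest.Agent.R017

end
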