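import Crest.Agent.R017.Smooth

/-! # Row 17: Hecke L-functions: continuation -/

set_option autoImplicit false

noncomputable section

open scoped BigOperators ComplexConjugate
open Complex MeasureTheory

namespace Crest.Agent.R017

theorem summable_Dser {c : O → ℂ} {K A : ℝ} (hc : ∀ n, Prim n → ‖c n‖ ≤ K * Nr n ^ A) {s : ℂ}
    (hs : 1 + A < s.re) : Summable (fun n : O => if Prim n then c n * (Nr n : ℂ) ^ (-s) else 0) := by
  have hσ : 1 < s.re - A := by linarith
  refine Summable.of_norm_bounded ((summable_Nr_rpow hσ).mul_left |K|) fun n => ?_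
  split_ifs with hn
  · have h0 := Nr_pos hn.ne_zero
    rw [norm_mul, Complex.norm_cpow_eq_rpow_re_of_pos h0, neg_re]
    calc ‖c n‖ * Nr n ^ (-s.re) ≤ (|K| * Nr n ^ A) * Nr n ^ (-s.re) := by
          refine mul_le_mul_of_nonneg_right ((hc n hn).trans ?_) (by positivity)
          exact mul_le_mul_of_nonneg_right (le_abs_self K) (by positivity)
      _ = |K| * Nr n ^ (-(s.re - A)) := by
          rw [mul_assoc, ← Real.rpow_add h0]
          congr 2
          ring
  · rw [norm_zero]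
    exact mul_nonneg (abs_nonneg K) (Real.rpow_nonneg (Nr_nonneg n) _)
section

open Filter Topology Asymptotics Set

/-- A theta series. -/
def l1_th (a : O → ℂ) (b x : ℝ) : ℂ := ∑' n : O, a n * (Phi (x * b * Nr n) : ℂ)

theorem l1_summable_Phi {ε : ℝ} (hε : 0 < ε) : Summable fun x : O => Phi (ε * Nr x) := by
  simpa using p3_summable_Phi hε 0

theorem l1_Phi_anti {x y : ℝ} (h : x ≤ y) : Phi y ≤ Phi x :=
  Real.exp_le_exp.2 (neg_le_neg (mul_le_mul_of_nonneg_left h c0_pos.le))

theorem l1_norm_term {a : O → ℂ} {K : ℝ} (ha : ∀ n, ‖a n‖ ≤ K) (n : O) {x y : ℝ} (h : x ≤ y) :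
    ‖a n * (Phi y : ℂ)‖ ≤ K * Phi x := by
  rw [norm_mul, norm_real, Real.norm_of_nonneg (Phi_pos _).le]
  exact mul_le_mul (ha n) (l1_Phi_anti h) (Phi_pos _).le ((norm_nonneg _).trans (ha n))

theorem l1_summable_th {a : O → ℂ} {K : ℝ} (ha : ∀ n, ‖a n‖ ≤ K) {b x : ℝ} (hb : 0 < b)
    (hx : 0 < x) : Summable fun n : O => a n * (Phi (x * b * Nr n) : ℂ) :=
  Summable.of_norm_bounded ((l1_summable_Phi (mul_pos hx hb)).mul_left K) fun n =>
    l1_norm_term ha n le_rfl

theorem l1_continuousOn_th {a : O → ℂ} {K : ℝ} (ha : ∀ n, ‖a n‖ ≤ K) {b : ℝ} (hb : 0 < b) :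
    ContinuousOn (l1_th a b) (Ioi 0) := by
  intro x hx
  have hx' : 0 < x / 2 := half_pos hx
  have h1 : ContinuousOn (l1_th a b) (Ici (x / 2)) := by
    refine continuousOn_tsum (fun n => ?_) ((l1_summable_Phi (mul_pos hx' hb)).mul_left K)
      fun n y hy => l1_norm_term ha n ?_
    · unfold Phi
      fun_prop
    · have : x / 2 ≤ y := hy
      have := Nr_nonneg n
      gcongr
  exact (h1.continuousAt (Ici_mem_nhds (half_lt_self hx))).continuousWithinAt

theorem l1_th_top {a : O → ℂ} {K : ℝ} (ha : ∀ n, ‖a n‖ ≤ K) {b : ℝ} (hb : 0 < b) (r : ℝ) :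
    (fun x => l1_th a b x - a 0) =O[atTop] (· ^ r) := by
  have hK : 0 ≤ K := (norm_nonneg _).trans (ha 0)
  have h1 : (fun x => l1_th a b x - a 0) =O[atTop] fun x : ℝ => Real.exp (-(c0 * b) * x) := by
    refine IsBigO.of_bound (K * Real.exp (c0 * b) * ∑' n : O, Phi (b * Nr n)) ?_
    filter_upwards [eventually_ge_atTop (1 : ℝ)] with x hx
    have hx0 : 0 < x := by linarith
    have hs := l1_summable_th ha hb hx0
    have e : l1_th a b x - a 0 =
        ∑' n : O, if n = 0 then 0 else a n * (Phi (x * b * Nr n) : ℂ) := by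
      rw [l1_th, hs.tsum_eq_add_tsum_ite 0]
      simp [Nr_zero, Phi]
    rw [e, Real.norm_of_nonneg (Real.exp_pos _).le, mul_right_comm, ← tsum_mul_left]
    refine tsum_of_norm_bounded ((l1_summable_Phi hb).mul_left _).hasSum fun n => ?_
    split_ifs with hn
    · rw [norm_zero]
      have := Phi_pos (b * Nr n)
      positivity
    · have h1 := one_le_Nr hn
      refine (l1_norm_term ha n (x := (x - 1) * b + b * Nr n) ?_).trans (le_of_eq ?_)
      · nlinarith [mul_nonneg hb.le (mul_nonneg (sub_nonneg.2 hx) (sub_nonneg.2 h1))]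
      · unfold Phi
        rw [mul_assoc, mul_assoc, ← Real.exp_add, ← Real.exp_add]
        congr 2
        ring
  exact h1.trans (isLittleO_exp_neg_mul_rpow_atTop (mul_pos c0_pos hb) r).isBigO

/-- The functional-equation pair of a periodic function. -/
def l1_pair {q : O} (hq : q ≠ 0) (f : O → ℂ) (hf : ∀ x y, q ∣ x - y → f x = f y)
    (hf1 : ∀ x, ‖f x‖ ≤ 1) : WeakFEPair ℂ where
  f := l1_th f 1
  g := l1_th (gs f q) (Nr q)⁻¹
  k := 1
  ε := (Nr q : ℂ)⁻¹
  f₀ := f 0
  g₀ := gs f q 0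
  hf_int := (l1_continuousOn_th hf1 one_pos).locallyIntegrableOn measurableSet_Ioi
  hg_int := (l1_continuousOn_th (norm_gs_le hq hf1) (inv_pos.2 (Nr_pos hq))).locallyIntegrableOn
    measurableSet_Ioi
  hk := one_pos
  hε := inv_ne_zero (by exact_mod_cast (Nr_pos hq).ne')
  h_feq x hx := by
    have h := poisson_per (R := x) hx hq f hf
    unfold l1_th
    rw [smul_eq_mul, Real.rpow_one]
    convert h using 1
    · refine tsum_congr fun n => ?_
      rw [mul_comm]
      congr 3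
      ring
    · congr 1
      · push_cast
        ring
      · refine tsum_congr fun n => ?_
        congr 3
        ring
  hf_top := l1_th_top hf1 one_pos
  hg_top := l1_th_top (norm_gs_le hq hf1) (inv_pos.2 (Nr_pos hq))

theorem l1_pair_Λ {q : O} (hq : q ≠ 0) (f : O → ℂ) (hf : ∀ x y, q ∣ x - y → f x = f y)
    (hf1 : ∀ x, ‖f x‖ ≤ 1) (h0 : f 0 = 0) {s : ℂ} (hs : 1 < s.re) :
    (l1_pair hq f hf hf1).Λ s =
      Gamma s * (c0 : ℂ) ^ (-s) * ∑' n : O, f n * (Nr n : ℂ) ^ (-s) := by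
  have h1 := ((l1_pair hq f hf hf1).hasMellin (s := s) hs).2
  have e : (fun x => (l1_pair hq f hf hf1).f x - (l1_pair hq f hf hf1).f₀) = l1_th f 1 := by
    funext x
    change l1_th f 1 x - f 0 = _
    rw [h0, sub_zero]
  rw [e] at h1
  have hc := c0_pos
  have h2 := hasSum_mellin (a := f) (p := fun n => c0 * Nr n) (F := l1_th f 1) (s := s)
    (fun n => ?_) (by linarith) (fun t ht => ?_) ?_
  · rw [← h1, ← h2.tsum_eq, ← tsum_mul_left]
    refine tsum_congr fun n => ?_
    rw [ofReal_mul, mul_cpow_ofReal_nonneg hc.le (Nr_nonneg n), cpow_neg, cpow_neg]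
    ring
  · by_cases hn : n = 0
    · exact Or.inl (hn ▸ h0)
    · exact Or.inr (mul_pos hc (Nr_pos hn))
  · have h3 : HasSum (fun n : O => f n * (Phi (t * 1 * Nr n) : ℂ)) (l1_th f 1 t) :=
      (l1_summable_th hf1 one_pos ht).hasSum
    convert h3 using 2 with n
    unfold Phi
    congr 3
    ring
  · refine Summable.of_nonneg_of_le
      (fun n => div_nonneg (norm_nonneg _) (Real.rpow_nonneg (mul_nonneg hc.le (Nr_nonneg n)) _))
      (fun n => ?_) ((summable_Nr_rpow hs).mul_left (c0 ^ (-s.re)))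
    rw [← Real.mul_rpow hc.le (Nr_nonneg n), Real.rpow_neg (mul_nonneg hc.le (Nr_nonneg n)),
      div_eq_mul_inv]
    exact mul_le_of_le_one_left
      (inv_nonneg.2 (Real.rpow_nonneg (mul_nonneg hc.le (Nr_nonneg n)) _)) (hf1 n)

/-- Continuation of the Dirichlet series of a periodic function. -/
theorem l1_exists {q : O} (hq : q ≠ 0) (f : O → ℂ) (hf : ∀ x y, q ∣ x - y → f x = f y)
    (hf1 : ∀ x, ‖f x‖ ≤ 1) (h0 : f 0 = 0) :
    ∃ G : ℂ → ℂ, Differentiable ℂ G ∧
      (∀ s : ℂ, 1 < s.re → G s = (s - 1) * ∑' n : O, f n * (Nr n : ℂ) ^ (-s)) ∧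
      G 1 = c0 / Nr q * ∑ x ∈ reps q, f x := by
  have hc : (c0 : ℂ) ≠ 0 := by exact_mod_cast c0_pos.ne'
  set P := l1_pair hq f hf hf1 with hP
  refine ⟨fun s => (c0 : ℂ) ^ s * (Gamma s)⁻¹ * ((s - 1) * P.Λ₀ s + (Nr q : ℂ)⁻¹ * gs f q 0),
    ?_, fun s hs => ?_, ?_⟩
  · refine (((differentiable_id.const_cpow (Or.inl hc)).mul differentiable_one_div_Gamma).mul ?_)
    exact ((differentiable_id.sub_const 1).mul P.differentiable_Λ₀).add_const _
  · have h1 : s - 1 ≠ 0 := by
      intro h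
      rw [sub_eq_zero] at h
      simp [h] at hs
    have h1' : 1 - s ≠ 0 := fun h => h1 (by linear_combination -h)
    have hG : Gamma s ≠ 0 := Gamma_ne_zero_of_re_pos (by linarith)
    have e := P.Λ₀_eq s
    have e0 : P.f₀ = 0 := h0
    have e1 : P.g₀ = gs f q 0 := rfl
    have e2 : P.ε = (Nr q : ℂ)⁻¹ := rfl
    have e3 : (P.k : ℂ) = 1 := ofReal_one
    rw [e0, e1, e2, e3, hP, l1_pair_Λ hq f hf hf1 h0 hs, cpow_neg, ← hP] at e
    have hcs : (c0 : ℂ) ^ s ≠ 0 := by
      rw [Ne, cpow_eq_zero_iff, not_and_or]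
      exact Or.inl hc
    simp only [e, smul_eq_mul]
    field_simp
    ring
  · simp [gs, eO_of_dvd, div_eq_mul_inv, mul_assoc]

theorem l1_unique {G G' : ℂ → ℂ} (hG : Differentiable ℂ G) (hG' : Differentiable ℂ G')
    (h : ∀ s : ℂ, 1 < s.re → G s = G' s) : G = G' := by
  refine AnalyticOnNhd.eq_of_eventuallyEq (analyticOnNhd_univ_iff_differentiable.2 hG)
    (analyticOnNhd_univ_iff_differentiable.2 hG') (z₀ := 2) ?_
  have : {s : ℂ | 1 < s.re} ∈ 𝓝 (2 : ℂ) :=
    (isOpen_lt continuous_const continuous_re).mem_nhds (by norm_num)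
  filter_upwards [this] with s hs using h s hs

end

theorem l1_per {q : O} {η : O → ℂ} (h : IsCh q η) (x y : O) (hxy : q ∣ x - y) :
    (if Prim x then η x else 0) = if Prim y then η y else 0 := by
  have h3 : (3 : O) ∣ x - y := h.three.trans hxy
  have : Prim x ↔ Prim y := by
    unfold Prim
    constructor
    · intro hx
      have := dvd_sub hx h3
      rwa [show x - 1 - (x - y) = y - 1 by ring] at this
    · intro hy
      have := dvd_add hy h3
      rwa [show y - 1 + (x - y) = x - 1 by ring] at this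
  rw [h.per x y hxy]
  simp only [this]

theorem l1_sum_eq_zero {q : O} {η : O → ℂ} (h : IsCh q η) :
    ∑ x ∈ reps q, (if Prim x then η x else 0) = 0 ↔ ¬ Princ η := by
  constructor
  · intro hs hp
    obtain ⟨x, ⟨hx, hd⟩, -⟩ := reps_existsUnique h.ne 1
    have hnn : ∀ y ∈ reps q, 0 ≤ (if Prim y then η y else 0).re := by
      intro y _
      split_ifs with hy
      · by_cases h0 : η y = 0
        · simp [h0]
        · simp [hp y hy h0]
      · simp
    have h1 := Finset.single_le_sum hnn hx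
    rw [← re_sum, hs, l1_per h x 1 hd, if_pos prim_one, h.one] at h1
    norm_num at h1
  · intro hp
    unfold Princ at hp
    push Not at hp
    obtain ⟨n, hn, h0, h1⟩ := hp
    have hc : IsCoprime n q := by
      by_contra hc
      exact h0 ((h.zero n).2 hc)
    have e := sum_reps_affine h.ne (fun x => if Prim x then η x else 0) (l1_per h) hc 0
    have e2 : ∑ x ∈ reps q, (if Prim (n * x + 0) then η (n * x + 0) else 0) =
        η n * ∑ x ∈ reps q, (if Prim x then η x else 0) := by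
      rw [Finset.mul_sum]
      refine Finset.sum_congr rfl fun x _ => ?_
      rw [add_zero, h.mul]
      by_cases hx : Prim x
      · rw [if_pos hx, if_pos (hn.mul hx)]
      · rw [if_neg hx, if_neg fun h' => hx (hn.of_mul h'), mul_zero]
    rw [e2] at e
    have : (η n - 1) * ∑ x ∈ reps q, (if Prim x then η x else 0) = 0 := by linear_combination e
    exact (mul_eq_zero.1 this).resolve_left (sub_ne_zero.2 h1)

theorem l1_exists_ch {q : O} {η : O → ℂ} (h : IsCh q η) :
    ∃ G : ℂ → ℂ, Differentiable ℂ G ∧ (∀ s : ℂ, 1 < s.re → G s = (s - 1) * Dser η s) ∧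
      G 1 = c0 / Nr q * ∑ x ∈ reps q, (if Prim x then η x else 0) := by
  obtain ⟨G, h1, h2, h3⟩ := l1_exists h.ne (fun x => if Prim x then η x else 0) (l1_per h)
    (fun x => by
      split_ifs
      · exact h.norm_le x
      · simp)
    (by simp [h.map_zero])
  refine ⟨G, h1, fun s hs => ?_, h3⟩
  rw [h2 s hs, Dser]
  simp only [ite_mul, zero_mul]

theorem IsCh.Lo_spec {q : O} {η : O → ℂ} (h : IsCh q η) :
    Differentiable ℂ (Lo η) ∧ ∀ s : ℂ, 1 < s.re → Lo η s = (s - 1) * Dser η s := by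
  obtain ⟨G, h1, h2, -⟩ := l1_exists_ch h
  have hex : ∃ G : ℂ → ℂ, Differentiable ℂ G ∧ ∀ s : ℂ, 1 < s.re → G s = (s - 1) * Dser η s :=
    ⟨G, h1, h2⟩
  rw [Lo, dif_pos hex]
  exact hex.choose_spec
theorem IsCh.Lo_one {q : O} {η : O → ℂ} (h : IsCh q η) : Lo η 1 = 0 ↔ ¬ Princ η := by
  obtain ⟨G, h1, h2, h3⟩ := l1_exists_ch h
  have e : Lo η = G := l1_unique h.Lo_spec.1 h1 fun s hs => by rw [h.Lo_spec.2 s hs, h2 s hs]
  have hc : (c0 : ℂ) / Nr q ≠ 0 := by
    have := c0_pos
    have := Nr_pos h.ne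
    exact_mod_cast (by positivity : c0 / Nr q ≠ 0)
  rw [e, h3, mul_eq_zero, or_iff_right hc, l1_sum_eq_zero h]
theorem IsCh.Lo_eq {q : O} {η : O → ℂ} (h : IsCh q η) {s : ℂ} (hs : s ≠ 1 ∨ ¬ Princ η) :
    Lo η s = (s - 1) * Lf η s := by
  unfold Lf
  split_ifs with h0
  · have := sub_smul_dslope (Lo η) 1 s
    rw [smul_eq_mul, h0, sub_zero] at this
    exact this.symm
  · have h1 : s ≠ 1 := hs.resolve_right fun hp => h0 (h.Lo_one.2 hp)
    rw [mul_div_cancel₀ _ (sub_ne_zero.2 h1)]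
theorem IsCh.Lf_eq {q : O} {η : O → ℂ} (h : IsCh q η) {s : ℂ} (hs : 1 < s.re) : Lf η s = Dser η s := by
  have h1 : s ≠ 1 := by
    rintro rfl
    simp at hs
  have e := h.Lo_eq (s := s) (Or.inl h1)
  rw [h.Lo_spec.2 s hs] at e
  exact (mul_left_cancel₀ (sub_ne_zero.2 h1) e).symm
theorem IsCh.Lf_differentiableAt {q : O} {η : O → ℂ} (h : IsCh q η) {s : ℂ} (hs : s ≠ 1 ∨ ¬ Princ η) :
    DifferentiableAt ℂ (Lf η) s := by
  by_cases h0 : Lo η 1 = 0
  · have e : Lf η = dslope (Lo η) 1 := funext fun s => if_pos h0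
    rw [e]
    have := (Complex.differentiableOn_dslope (f := Lo η) (s := Set.univ) (c := 1)
      Filter.univ_mem).2 h.Lo_spec.1.differentiableOn
    exact differentiableOn_univ.1 this s
  · have e : Lf η = fun s => Lo η s / (s - 1) := funext fun s => if_neg h0
    have h1 : s ≠ 1 := hs.resolve_right fun hp => h0 (h.Lo_one.2 hp)
    rw [e]
    exact (h.Lo_spec.1 s).div (differentiableAt_id.sub_const 1) (sub_ne_zero.2 h1)
theorem IsCh.Lo_conj {q : O} {η : O → ℂ} (h : IsCh q η) (s : ℂ) :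
    Lo (fun n => conj (η n)) s = conj (Lo η (conj s)) := by
  have hd : Differentiable ℂ (conj ∘ Lo η ∘ conj) := fun z => by
    have := (h.Lo_spec.1 (conj z)).conj_conj
    rwa [Complex.conj_conj] at this
  have e : Lo (fun n => conj (η n)) = conj ∘ Lo η ∘ conj := by
    refine l1_unique h.conj.Lo_spec.1 hd fun s hs => ?_
    rw [h.conj.Lo_spec.2 s hs]
    simp only [Function.comp_apply]
    rw [h.Lo_spec.2 _ (by simpa using hs), map_mul, map_sub, Complex.conj_conj, map_one, Dser, Dser,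
      Complex.conj_tsum]
    congr 1
    refine tsum_congr fun n => ?_
    split_ifs with hn
    · rw [map_mul, ← map_neg, Complex.cpow_conj _ _ ?_, Complex.conj_conj, Complex.conj_ofReal]
      rw [Complex.arg_ofReal_of_nonneg (Nr_nonneg n)]
      exact Real.pi_pos.ne
    · simp
  rw [e]
  rfl
end Crest.Agent.R017

end
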