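import Crest.Agent.R017.LS2

/-! # Row 17: Poisson steps for general coefficients -/

set_option autoImplicit false

noncomputable section

open scoped BigOperators ComplexConjugate
open Complex MeasureTheory

namespace Crest.Agent.R017

theorem l4_summable {γ : O → ℂ} (hr : Summable fun n => ‖γ n‖) (h : O) :
    Summable fun n => γ n * conj (chi n h) := by
  refine Summable.of_norm_bounded hr fun n => ?_
  rw [norm_mul, RCLike.norm_conj]
  exact mul_le_of_le_one_right (norm_nonneg _) (norm_chi_le n h)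

open Classical in
theorem l4_split {Q : O} (h6 : (6 : O) ∣ Q) {γ : O → ℂ} (hs : Supp Q γ) (hr : Rap γ) {j : O}
    (hj : Prime j) (h : O) :
    colF γ h = colF γ (h * j ^ 6) + colF (fun n => if j ∣ n then γ n else 0) h := by
  have h1 : Summable fun n => ‖γ n‖ := by simpa using hr 0
  have h2 : Summable fun n => ‖(if j ∣ n then γ n else 0)‖ := by
    refine Summable.of_nonneg_of_le (fun _ => norm_nonneg _) (fun n => ?_) h1
    split_ifs <;> simp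
  unfold colF
  rw [← (l4_summable h1 _).tsum_add (l4_summable h2 _)]
  refine tsum_congr fun n => ?_
  by_cases h0 : γ n = 0
  · simp [h0]
  obtain ⟨hp, -, hc⟩ := hs n h0
  have hc6 : IsCoprime n 6 := hc.of_isCoprime_of_dvd_right h6
  rw [chi_mul_right, chi_pow_right _ _ (by norm_num), chi_pow_six hp.ne_zero,
    IsCoprime.mul_right_iff]
  by_cases hd : j ∣ n
  · have : ¬ IsCoprime n j := fun hc' => hj.not_isUnit (hc'.isUnit_of_dvd' hd dvd_rfl)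
    simp [hd, this]
  · have : IsCoprime n j := ((hj.irreducible.coprime_iff_not_dvd).2 hd).symm
    simp [hd, this, hc6]

theorem l4_mono {R R' : ℝ} (h : R ≤ R') (f : O → ℂ) : NS R f ≤ NS R' f :=
  Finset.sum_le_sum_of_subset_of_nonneg (box_mono h) fun _ _ _ => by positivity

theorem l4_nonneg (R : ℝ) (f : O → ℂ) : 0 ≤ NS R f := Finset.sum_nonneg fun _ _ => by positivity

/-- The map `(h, j) ↦ h j⁶` has small multiplicity. -/
theorem l4_mult {H K M : ℝ} (J : Finset O) (hJ : ∀ j ∈ J, Prim j ∧ Nr j ^ 6 ≤ K)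
    (hM : ∀ r ∈ box (K * H), ((pdiv r).card : ℝ) ≤ M) (f : O → ℂ) :
    ∑ j ∈ J, NS H (fun h => f (h * j ^ 6)) ≤ M * NS (K * H) f := by
  classical
  have h1 : ∀ j ∈ J, NS H (fun h => f (h * j ^ 6)) ≤
      ∑ r ∈ box (K * H), if j ∈ pdiv r then ‖f r‖ ^ 2 else 0 := by
    intro j hj
    obtain ⟨hp, hK⟩ := hJ j hj
    have hj0 : j ^ 6 ≠ 0 := pow_ne_zero _ hp.ne_zero
    rw [← Finset.sum_filter, NS, ← Finset.sum_image (s := box H) (g := fun h => h * j ^ 6)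
      (f := fun r => ‖f r‖ ^ 2) fun x _ y _ hxy => mul_right_cancel₀ hj0 hxy]
    refine Finset.sum_le_sum_of_subset_of_nonneg (fun r hr => ?_) fun _ _ _ => by positivity
    obtain ⟨h, hh, rfl⟩ := Finset.mem_image.1 hr
    obtain ⟨hh0, hhH⟩ := mem_box.1 hh
    have hr0 : h * j ^ 6 ≠ 0 := mul_ne_zero hh0 hj0
    refine Finset.mem_filter.2 ⟨mem_box.2 ⟨hr0, ?_⟩, (mem_pdiv hr0).2 ⟨hp, ?_⟩⟩
    · rw [Nr_mul, Nr_pow, mul_comm]
      exact mul_le_mul hK hhH (Nr_nonneg _) ((pow_nonneg (Nr_nonneg _) _).trans hK)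
    · exact (dvd_pow_self j (by norm_num)).mul_left h
  refine (Finset.sum_le_sum h1).trans ?_
  rw [Finset.sum_comm, NS, Finset.mul_sum]
  refine Finset.sum_le_sum fun r hr => ?_
  rw [Finset.sum_ite_mem, Finset.sum_const, nsmul_eq_mul]
  refine mul_le_mul_of_nonneg_right (le_trans ?_ (hM r hr)) (by positivity)
  exact_mod_cast Finset.card_le_card Finset.inter_subset_right

theorem l4_sq (a b : ℂ) : ‖a + b‖ ^ 2 ≤ 2 * ‖a‖ ^ 2 + 2 * ‖b‖ ^ 2 := by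
  have h5 := pow_le_pow_left₀ (norm_nonneg _) (norm_add_le a b) 2
  nlinarith [sq_nonneg (‖a‖ - ‖b‖)]

theorem l4_small {C Y Y₀ Z : ℝ} (hC : 1 ≤ C) (hY0 : 0 < Y) (hlt : Y < Y₀) (hZ : 1 ≤ Z) :
    1 ≤ (2 * C + |Y₀|) * Z * Y⁻¹ := by
  rw [← div_eq_mul_inv, one_le_div hY0]
  have := le_abs_self Y₀
  nlinarith

theorem l4_fin {C Y Y₀ Z n N A S T : ℝ} (hC : 1 ≤ C) (hY0 : 0 < Y) (hZ : 1 ≤ Z) (hN : 0 ≤ N)
    (hA : 0 ≤ A) (hS : 0 ≤ S) (h1 : T ≤ C * Z * A) (h3 : n * N ≤ 2 * T + 2 * S)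
    (h4 : Y ≤ Z * n) : N ≤ (2 * C + |Y₀|) * (Z * Z) * Y⁻¹ * (A + S) := by
  have h5 : n * N ≤ 2 * C * Z * (A + S) := by
    have h6 : 1 ≤ C * Z := one_le_mul_of_one_le_of_one_le hC hZ
    nlinarith
  have h7 : Y * N ≤ 2 * C * (Z * Z) * (A + S) := by
    calc Y * N ≤ Z * n * N := mul_le_mul_of_nonneg_right h4 hN
      _ = Z * (n * N) := by ring
      _ ≤ Z * (2 * C * Z * (A + S)) := mul_le_mul_of_nonneg_left h5 (by linarith)
      _ = _ := by ring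
  rw [mul_right_comm, ← div_eq_mul_inv, le_div_iff₀ hY0, mul_comm N]
  refine h7.trans ?_
  gcongr
  exact le_add_of_nonneg_right (abs_nonneg _)

open Classical in
theorem l4_one {Q : O} (h6 : (6 : O) ∣ Q) {γ : O → ℂ} (hs : Supp Q γ) (hr : Rap γ) {j : O}
    (hj : Prime j) {H R : ℝ} (hR : H ≤ R) :
    NS H (colF γ) ≤ 2 * NS H (fun h => colF γ (h * j ^ 6)) +
      2 * NS R (colF (fun n => if j ∣ n then γ n else 0)) := by
  have h3 := l4_mono hR (colF (fun n => if j ∣ n then γ n else 0))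
  have h4 : NS H (colF γ) ≤ 2 * NS H (fun h => colF γ (h * j ^ 6)) +
      2 * NS H (colF (fun n => if j ∣ n then γ n else 0)) := by
    unfold NS
    rw [Finset.mul_sum, Finset.mul_sum, ← Finset.sum_add_distrib]
    refine Finset.sum_le_sum fun h _ => ?_
    rw [l4_split h6 hs hr hj h]
    exact l4_sq _ _
  linarith

open Classical in
/-- Multiplicity gain: the rows `h j⁶`. Keep the rows in the second term. -/
theorem gain_col {Q : O} (hQ : Q ≠ 0) (h6 : (6 : O) ∣ Q) {ε : ℝ} (hε : 0 < ε) : ∃ C : ℝ, 0 ≤ C ∧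
    ∀ (H K : ℝ) (γ : O → ℂ), 0 < H → 1 ≤ K → Supp Q γ → Rap γ →
    ∃ J : Finset O, (∀ j ∈ J, Prime j ∧ Adm Q j ∧ Nr j ^ 6 ≤ K) ∧
      NS H (colF γ) ≤ C * (K * (1 + H)) ^ ε * K ^ (-(1 / 6 : ℝ)) *
        (NS (K * H) (colF γ) + ∑ j ∈ J, NS (K * H) (colF (fun n => if j ∣ n then γ n else 0))) := by
  obtain ⟨Y₀, hY₀⟩ := card_primes_ge hQ (ε := 3 * ε) (by positivity)
  obtain ⟨C₁, hC₁⟩ := card_pdiv_le (half_pos hε)
  refine ⟨2 * max C₁ 1 + |Y₀|, by positivity, fun H K γ hH hK hs hr => ?_⟩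
  have hK0 : 0 < K := by linarith
  have hZ : 1 ≤ K * (1 + H) := by nlinarith
  have hKH : H ≤ K * H := by nlinarith
  have hKH' : K * H ≤ K * (1 + H) := by nlinarith
  have hKH'' : K ≤ K * (1 + H) := by nlinarith
  obtain ⟨Y, hY⟩ : ∃ Y, Y = K ^ (1 / 6 : ℝ) := ⟨_, rfl⟩
  have hY0 : 0 < Y := hY ▸ Real.rpow_pos_of_pos hK0 _
  have hY6 : Y ^ 6 = K := by
    rw [hY, ← Real.rpow_natCast, ← Real.rpow_mul hK0.le]; norm_num
  have hC0 : (1 : ℝ) ≤ max C₁ 1 := le_max_right _ _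
  rw [Real.rpow_neg hK0.le, ← hY]
  rcases lt_or_ge Y Y₀ with hlt | hge
  · refine ⟨∅, by simp, ?_⟩
    rw [Finset.sum_empty, add_zero]
    have h1 : 1 ≤ (K * (1 + H)) ^ ε := Real.one_le_rpow hZ hε.le
    calc NS H (colF γ) ≤ 1 * NS (K * H) (colF γ) := by rw [one_mul]; exact l4_mono hKH _
      _ ≤ _ := mul_le_mul_of_nonneg_right (l4_small hC0 hY0 hlt h1) (l4_nonneg _ _)
  have hcard := hY₀ Y hge
  obtain ⟨J, hJ⟩ : ∃ J, J = (box Y).filter
    (fun p => Prime p ∧ Prim p ∧ IsCoprime p Q ∧ Y / 2 < Nr p) := ⟨_, rfl⟩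
  rw [← hJ] at hcard
  have hmem : ∀ j ∈ J, Prime j ∧ Adm Q j ∧ Nr j ^ 6 ≤ K := by
    intro j hj
    rw [hJ] at hj
    obtain ⟨h1, h2, h3, h4, -⟩ := Finset.mem_filter.1 hj
    refine ⟨h2, ⟨h3, h2.squarefree, h4⟩, ?_⟩
    rw [← hY6]
    exact pow_le_pow_left₀ (Nr_nonneg _) (mem_box.1 h1).2 6
  clear hJ
  refine ⟨J, hmem, ?_⟩
  obtain ⟨Z, hZdef⟩ : ∃ Z, Z = (K * (1 + H)) ^ (ε / 2) := ⟨_, rfl⟩
  have hZ1 : 1 ≤ Z := hZdef ▸ Real.one_le_rpow hZ (half_pos hε).le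
  have hZZ : (K * (1 + H)) ^ ε = Z * Z := by
    rw [hZdef, ← Real.rpow_add (by linarith), add_halves]
  have hM : ∀ r ∈ box (K * H), ((pdiv r).card : ℝ) ≤ max C₁ 1 * Z := by
    intro r hr
    obtain ⟨h0, h1⟩ := mem_box.1 hr
    refine (hC₁ r h0).trans (mul_le_mul (le_max_left _ _) ?_
      (Real.rpow_nonneg (Nr_nonneg _) _) (by linarith))
    rw [hZdef]
    exact Real.rpow_le_rpow (Nr_nonneg _) (h1.trans hKH') (half_pos hε).le
  have h1 := l4_mult J (fun j hj => ⟨(hmem j hj).2.1.1, (hmem j hj).2.2⟩) hM (colF γ)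
  have h3 := Finset.sum_le_sum fun j (hj : j ∈ J) => l4_one h6 hs hr (hmem j hj).1 hKH
  rw [Finset.sum_const, nsmul_eq_mul, Finset.sum_add_distrib, ← Finset.mul_sum, ← Finset.mul_sum] at h3
  have h4 : Y ≤ Z * J.card := by
    have h5 : Y ^ (3 * ε) ≤ Z := by
      rw [hY, hZdef, ← Real.rpow_mul hK0.le, show 1 / 6 * (3 * ε) = ε / 2 by ring]
      exact Real.rpow_le_rpow hK0.le hKH'' (half_pos hε).le
    calc Y = Y ^ (3 * ε) * Y ^ (1 - 3 * ε) := by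
          rw [← Real.rpow_add hY0, add_sub_cancel, Real.rpow_one]
      _ ≤ Z * J.card := mul_le_mul h5 hcard (Real.rpow_nonneg hY0.le _) (by linarith)
  rw [hZZ]
  exact l4_fin hC0 hY0 hZ1 (l4_nonneg _ _) (l4_nonneg _ _)
    (Finset.sum_nonneg fun _ _ => l4_nonneg _ _) h1 h3 h4

end Crest.Agent.R017

end
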