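import Crest.Agent.R017.LS1

/-! # Row 17: the positivity inequality -/

set_option autoImplicit false

noncomputable section

open scoped BigOperators ComplexConjugate
open Complex MeasureTheory Filter Topology

namespace Crest.Agent.R017

/-- block-diagonal positive kernels -/
theorem l3_psd {ι : Type} [DecidableEq ι] (c : O → ι) (w : ι → ℝ) (hw : ∀ x, 0 ≤ w x) (a : O → ℂ)
    {S : ℂ} (h : HasSum (fun p : O × O =>
      if c p.1 = c p.2 then (w (c p.1) : ℂ) * (a p.1 * conj (a p.2)) else 0) S) : 0 ≤ S.re := by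
  have ht : Tendsto (fun s : Finset O => s ×ˢ s) atTop atTop := by
    refine tendsto_atTop_atTop.2 fun t => ⟨t.image Prod.fst ∪ t.image Prod.snd, fun s hs p hp => ?_⟩
    exact Finset.mem_product.2
      ⟨hs (Finset.mem_union_left _ (Finset.mem_image_of_mem _ hp)),
        hs (Finset.mem_union_right _ (Finset.mem_image_of_mem _ hp))⟩
  have h1 := (continuous_re.tendsto S).comp (Tendsto.comp h ht)
  refine ge_of_tendsto' h1 fun s => ?_
  simp only [Function.comp_apply]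
  rw [Finset.sum_product, ← Finset.sum_fiberwise_of_maps_to (t := s.image c) (g := c)
    (fun x hx => Finset.mem_image_of_mem _ hx), re_sum]
  refine Finset.sum_nonneg fun i _ => ?_
  have e : ∑ x ∈ s with c x = i, ∑ y ∈ s,
      (if c x = c y then (w (c x) : ℂ) * (a x * conj (a y)) else 0) =
      (w i : ℂ) * ((∑ x ∈ s with c x = i, a x) * conj (∑ x ∈ s with c x = i, a x)) := by
    rw [Finset.sum_mul, Finset.mul_sum]
    refine Finset.sum_congr rfl fun x hx => ?_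
    rw [(Finset.mem_filter.1 hx).2, map_sum, Finset.mul_sum, Finset.mul_sum, Finset.sum_filter]
    refine Finset.sum_congr rfl fun y _ => ?_
    simp only [eq_comm]
  rw [e, Complex.mul_conj, ← ofReal_mul, ofReal_re]
  exact mul_nonneg (hw i) (normSq_nonneg _)

theorem l3_adm {Q d n : O} (h6 : (6 : O) ∣ Q) (h : Adm Q (d * n)) (hd : Prim d) :
    Prim n ∧ Squarefree n ∧ IsCoprime n 6 :=
  ⟨hd.of_mul h.1, h.2.1.of_mul_right, h.2.2.of_mul_left_right.of_isCoprime_of_dvd_right h6⟩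

theorem l3_norm_KG {N M : O} (hN : IsCoprime N 6) (hM : IsCoprime M 6) (r : O) :
    ‖KG N M r‖ ≤ Nr N ^ (1 / 2 : ℝ) * Nr M ^ (1 / 2 : ℝ) := by
  have hN0 : N ≠ 0 := by rintro rfl; exact (coprime_six_iff.1 hN).1 (dvd_zero _)
  have hM0 : M ≠ 0 := by rintro rfl; exact (coprime_six_iff.1 hM).1 (dvd_zero _)
  have h0 := Nr_pos (mul_ne_zero hN0 hM0)
  have h1 := norm_gs_le (mul_ne_zero hN0 hM0) (f := fun h => conj (chi N h) * chi M h)
    (fun x => by
      rw [norm_mul, Complex.norm_conj]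
      exact mul_le_one₀ (norm_chi_le _ _) (norm_nonneg _) (norm_chi_le _ _)) r
  rw [KG, norm_div, norm_mul, norm_ks (coprime_six_iff.1 hN).2 (coprime_six_iff.1 hM).2, one_mul,
    norm_real, Real.norm_of_nonneg (Real.sqrt_nonneg _), ← Real.mul_rpow (Nr_nonneg _) (Nr_nonneg _),
    ← Nr_mul, ← Real.sqrt_eq_rpow, div_le_iff₀ (Real.sqrt_pos.2 h0), Real.mul_self_sqrt h0.le]
  exact h1

theorem l3_decay {Q : O} {γ : O → ℂ} (hs : Supp Q γ) (hr : Rap γ) (B : ℝ) :
    ∃ K : ℝ, 0 ≤ K ∧ ∀ d n : O, ‖γ (d * n)‖ * Nr n ^ B ≤ K * (Nr d ^ (-2 : ℝ) * Nr n ^ (-2 : ℝ)) := by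
  set A := max B 0 + 2 with hA
  have hsum := hr A
  have hnn : ∀ n : O, 0 ≤ ‖γ n‖ * Nr n ^ A := fun n =>
    mul_nonneg (norm_nonneg _) (Real.rpow_nonneg (Nr_nonneg _) _)
  refine ⟨∑' n, ‖γ n‖ * Nr n ^ A, tsum_nonneg hnn, fun d n => ?_⟩
  by_cases h0 : γ (d * n) = 0
  · rw [h0, norm_zero, zero_mul]
    exact mul_nonneg (tsum_nonneg hnn)
      (mul_nonneg (Real.rpow_nonneg (Nr_nonneg _) _) (Real.rpow_nonneg (Nr_nonneg _) _))
  have hne := (hs _ h0).1.ne_zero
  have hd := one_le_Nr (left_ne_zero_of_mul hne)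
  have hn := one_le_Nr (right_ne_zero_of_mul hne)
  have h1 := hsum.le_tsum (d * n) fun m _ => hnn m
  refine le_trans ?_ (mul_le_mul_of_nonneg_right h1 (by positivity))
  rw [mul_assoc]
  refine mul_le_mul_of_nonneg_left ?_ (norm_nonneg _)
  rw [Nr_mul, Real.mul_rpow (by positivity) (by positivity), mul_mul_mul_comm,
    ← Real.rpow_add (by positivity), ← Real.rpow_add (by positivity)]
  calc Nr n ^ B ≤ Nr n ^ (A + -2) :=
        Real.rpow_le_rpow_of_exponent_le hn (by rw [hA]; linarith [le_max_left B 0])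
    _ ≤ _ := le_mul_of_one_le_left (by positivity)
        (Real.one_le_rpow hd (by rw [hA]; linarith [le_max_right B 0]))

theorem l3_summable_two : Summable fun n : O => Nr n ^ (-2 : ℝ) :=
  summable_Nr_rpow (σ := 2) one_lt_two

theorem l3_summable_dn {Q : O} {γ : O → ℂ} (hs : Supp Q γ) (hr : Rap γ) (B : ℝ) (d : O) :
    Summable fun n : O => ‖γ (d * n)‖ * Nr n ^ B := by
  obtain ⟨K, -, hK⟩ := l3_decay hs hr B
  exact Summable.of_nonneg_of_le
    (fun n => mul_nonneg (norm_nonneg _) (Real.rpow_nonneg (Nr_nonneg _) _)) (hK d)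
    ((l3_summable_two.mul_left _).mul_left K)

open Classical in
/-- the summand of the positive form -/
def l3_G (Q : O) (γ : O → ℂ) (r : O) (x : O × O × O) : ℂ :=
  if Adm Q x.1 then γ (x.1 * x.2.1) * conj (γ (x.1 * x.2.2)) *
    (g6 x.2.1 * conj (g6 x.2.2) * KG x.2.1 x.2.2 r) else 0

theorem l3_G_bound {Q : O} (h6 : (6 : O) ∣ Q) {γ : O → ℂ} (hs : Supp Q γ) (hr : Rap γ) :
    ∃ M : O × O × O → ℝ, Summable M ∧ ∀ r x, ‖l3_G Q γ r x‖ ≤ M x := by
  obtain ⟨K, hK0, hK⟩ := l3_decay hs hr (1 / 2)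
  have hnn : ∀ n : O, 0 ≤ Nr n ^ (-2 : ℝ) := fun n => Real.rpow_nonneg (Nr_nonneg _) _
  refine ⟨fun x => K ^ 2 * (Nr x.1 ^ (-2 : ℝ) * (Nr x.2.1 ^ (-2 : ℝ) * Nr x.2.2 ^ (-2 : ℝ))),
    (l3_summable_two.mul_of_nonneg (l3_summable_two.mul_of_nonneg l3_summable_two hnn hnn) hnn
      fun p => mul_nonneg (hnn _) (hnn _)).mul_left _, fun r ⟨d, n, m⟩ => ?_⟩
  have hM : 0 ≤ K ^ 2 * (Nr d ^ (-2 : ℝ) * (Nr n ^ (-2 : ℝ) * Nr m ^ (-2 : ℝ))) :=
    mul_nonneg (sq_nonneg _) (mul_nonneg (hnn _) (mul_nonneg (hnn _) (hnn _)))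
  simp only [l3_G]
  split_ifs with hd
  swap
  · rwa [norm_zero]
  by_cases h1 : γ (d * n) = 0
  · simpa [h1] using hM
  by_cases h2 : γ (d * m) = 0
  · simpa [h2] using hM
  obtain ⟨-, sn, cn⟩ := l3_adm h6 (hs _ h1) hd.1
  obtain ⟨-, sm, cm⟩ := l3_adm h6 (hs _ h2) hd.1
  have hd1 : Nr d ^ (-2 : ℝ) ≤ 1 :=
    Real.rpow_le_one_of_one_le_of_nonpos (one_le_Nr hd.1.ne_zero) (by norm_num)
  rw [norm_mul, norm_mul, norm_mul, norm_mul, Complex.norm_conj, Complex.norm_conj, norm_g6 cn sn,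
    norm_g6 cm sm, one_mul, one_mul]
  calc ‖γ (d * n)‖ * ‖γ (d * m)‖ * ‖KG n m r‖
      ≤ ‖γ (d * n)‖ * ‖γ (d * m)‖ * (Nr n ^ (1 / 2 : ℝ) * Nr m ^ (1 / 2 : ℝ)) :=
        mul_le_mul_of_nonneg_left (l3_norm_KG cn cm r) (by positivity)
    _ = (‖γ (d * n)‖ * Nr n ^ (1 / 2 : ℝ)) * (‖γ (d * m)‖ * Nr m ^ (1 / 2 : ℝ)) := by ring
    _ ≤ (K * (Nr d ^ (-2 : ℝ) * Nr n ^ (-2 : ℝ))) * (K * (Nr d ^ (-2 : ℝ) * Nr m ^ (-2 : ℝ))) :=
        mul_le_mul (hK d n) (hK d m)
          (mul_nonneg (norm_nonneg _) (Real.rpow_nonneg (Nr_nonneg _) _))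
          (mul_nonneg hK0 (mul_nonneg (hnn _) (hnn _)))
    _ = K ^ 2 * (Nr d ^ (-2 : ℝ) * (Nr n ^ (-2 : ℝ) * Nr m ^ (-2 : ℝ))) * Nr d ^ (-2 : ℝ) := by ring
    _ ≤ _ := mul_le_of_le_one_right hM hd1

theorem l3_T_eq {e n m : O} (he : Prim e) (hn : Prim n) (hm : Prim m)
    (h6 : IsCoprime (e * n * m) 6) (hs : Squarefree (e * n * m)) (r : O) :
    g6 (e * n) * conj (g6 (e * m)) * KG (e * n) (e * m) r =
      chi n r * conj (chi m r) * (mstar e r : ℂ) := by
  have hs1 : Squarefree (e * n) := hs.of_mul_left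
  have hs2 : Squarefree (e * m) := hs.squarefree_of_dvd ⟨n, by ring⟩
  have h := KT_sqf he hn hm h6 hs r
  rw [KT, key_identity (he.mul hn) h6.of_mul_left_left hs1,
    key_identity (he.mul hm) (h6.of_isCoprime_of_dvd_left ⟨n, by ring⟩) hs2, map_mul, conj_mu,
    mu_mul (IsRelPrime.of_squarefree_mul hs1).isCoprime,
    mu_mul (IsRelPrime.of_squarefree_mul hs2).isCoprime] at h
  have e1 := mu_sq hs1.of_mul_left
  have e2 := mu_sq hs1.of_mul_right
  have e3 := mu_sq hs2.of_mul_right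
  set T := g6 (e * n) * conj (g6 (e * m)) * KG (e * n) (e * m) r with hT
  have h' : (mu e * mu e) * (mu n * mu m) * T =
      mu n * mu m * (chi n r * conj (chi m r) * (mstar e r : ℂ)) := by
    rw [hT]; linear_combination h
  rw [e1, one_mul] at h'
  have hne : mu n * mu m ≠ 0 :=
    mul_ne_zero (left_ne_zero_of_mul_eq_one e2) (left_ne_zero_of_mul_eq_one e3)
  exact mul_left_cancel₀ hne h'

theorem l3_sum_pdiv {E : O} (hE : Prim E) (hs : Squarefree E) (m : O → ℝ) :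
    ∑ e ∈ pdiv E, ∏ p ∈ pf e, m p = ∏ p ∈ pf E, (1 + m p) := by
  rw [Finset.prod_one_add]
  refine Finset.sum_nbij' pf (fun t => ∏ p ∈ t, p) ?_ ?_ ?_ ?_ fun _ _ => rfl
  · intro e he
    obtain ⟨-, h2⟩ := (mem_pdiv hE.ne_zero).1 he
    refine Finset.mem_powerset.2 fun p hp => (mem_pf hE.ne_zero).2 ?_
    exact ⟨(a1_of_mem_pf hp).1, (a1_of_mem_pf hp).2.trans h2⟩
  · intro t ht
    have ht' := Finset.mem_powerset.1 ht
    refine (mem_pdiv hE.ne_zero).2 ⟨?_, ?_⟩
    · exact Finset.prod_induction (fun p : O => p) Prim (fun _ _ => Prim.mul) prim_one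
        fun p hp => a1_prim_of_mem_pf hE (ht' hp)
    · exact (Finset.prod_dvd_prod_of_subset _ _ _ ht').trans (rad_dvd hE.ne_zero)
  · intro e he
    obtain ⟨h1, h2⟩ := (mem_pdiv hE.ne_zero).1 he
    exact rad_eq_self h1 (hs.squarefree_of_dvd h2)
  · intro t ht
    have ht' := Finset.mem_powerset.1 ht
    have h0 : ∏ p ∈ t, p ≠ 0 :=
      Finset.prod_ne_zero_iff.2 fun p hp => (a1_of_mem_pf (ht' hp)).1.1.ne_zero
    ext p
    rw [mem_pf h0]
    constructor
    · rintro ⟨hp, hd⟩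
      obtain ⟨q, hq, hpq⟩ := (hp.1.dvd_finsetProd_iff _).1 hd
      have hq' := (a1_of_mem_pf (ht' hq)).1
      rwa [hp.eq_of_associated hq' (hp.1.associated_of_dvd hq'.1 hpq)]
    · intro hp
      exact ⟨(a1_of_mem_pf (ht' hp)).1, Finset.dvd_prod_of_mem _ hp⟩

theorem l3_decomp {N M : O} (hN : Prim N) (hM : Prim M) (sN : Squarefree N) (sM : Squarefree M) :
    ∃ E a b : O, Prim E ∧ Prim a ∧ Prim b ∧ N = E * a ∧ M = E * b ∧ IsCoprime a b ∧
      Squarefree (E * a * b) := by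
  obtain ⟨a, b, c, hab, rfl, rfl⟩ := UniqueFactorizationMonoid.exists_reduced_factors N hN.ne_zero M
  obtain ⟨u, ⟨u, rfl⟩, hu⟩ := exists_prim (x := c) fun h => hN.not_lam_dvd (h.mul_right _)
  have e1 : c * a = ↑u * c * (↑u⁻¹ * a) := by
    linear_combination (-(c * a)) * u.mul_inv
  have e2 : c * b = ↑u * c * (↑u⁻¹ * b) := by
    linear_combination (-(c * b)) * u.mul_inv
  have hc : IsCoprime (↑u⁻¹ * a) (↑u⁻¹ * b) :=
    (isCoprime_mul_units_left u⁻¹.isUnit u⁻¹.isUnit _ _).2 hab.isCoprime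
  rw [e1] at hN sN
  rw [e2] at hM sM
  refine ⟨u * c, ↑u⁻¹ * a, ↑u⁻¹ * b, hu, hu.of_mul hN, hu.of_mul hM, e1, e2, hc, ?_⟩
  exact squarefree_mul_iff.2 ⟨((IsRelPrime.of_squarefree_mul sM).isCoprime.mul_left hc).isRelPrime,
    sN, sM.of_mul_right⟩

open Classical in
/-- local weight -/
def l3_m (r p : O) : ℝ := (if p ^ 2 ∣ r then Nr p else 0) - (if p ∣ r then 1 else 0)

theorem l3_m_nonneg (r p : O) : 0 ≤ 1 + l3_m r p := by
  have := Nr_nonneg p
  unfold l3_m
  split_ifs <;> linarith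

theorem l3_m_eq_zero {r p : O} (h : ¬ p ∣ r) : l3_m r p = 0 := by
  unfold l3_m
  rw [if_neg h, if_neg fun h2 => h ((dvd_pow_self p two_ne_zero).trans h2), sub_zero]

/-- the fibre sums -/
theorem l3_fiber {Q : O} (h6 : (6 : O) ∣ Q) (γ : O → ℂ) (r : O) {E a b : O} (hE : Prim E)
    (ha : Prim a) (hb : Prim b) (hab : IsCoprime a b) (hs : Squarefree (E * a * b))
    (h1 : Adm Q (E * a)) (h2 : Adm Q (E * b)) :
    ∑' x : (fun x : O × O × O => (x.1 * x.2.1, x.1 * x.2.2)) ⁻¹' {(E * a, E * b)}, l3_G Q γ r x =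
      γ (E * a) * conj (γ (E * b)) *
        (chi a r * conj (chi b r) * ((∏ p ∈ pf E, (1 + l3_m r p) : ℝ) : ℂ)) := by
  classical
  rw [tsum_subtype _ (l3_G Q γ r),
    tsum_eq_sum (s := (pdiv E).image fun e => (E / e, e * a, e * b)), Finset.sum_image,
    ← l3_sum_pdiv hE hs.of_mul_left.of_mul_left, ofReal_sum, Finset.mul_sum, Finset.mul_sum]
  · refine Finset.sum_congr rfl fun e he => ?_
    obtain ⟨he1, d, rfl⟩ := (mem_pdiv hE.ne_zero).1 he
    rw [mul_div_cancel_left₀ _ he1.ne_zero, Set.indicator_of_mem (by simp; constructor <;> ring)]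
    have hd : Adm Q d := ⟨he1.of_mul hE, hs.squarefree_of_dvd ⟨e * a * b, by ring⟩,
      h1.2.2.of_isCoprime_of_dvd_left ⟨e * a, by ring⟩⟩
    have c6 : IsCoprime (e * a * b) 6 :=
      ((h1.2.2.of_isCoprime_of_dvd_left (x := e * a) ⟨d, by ring⟩).mul_left
        h2.2.2.of_mul_left_right).of_isCoprime_of_dvd_right h6
    simp only [l3_G]
    rw [if_pos hd, l3_T_eq he1 ha hb c6 (hs.squarefree_of_dvd ⟨d, by ring⟩),
      show d * (e * a) = e * d * a by ring, show d * (e * b) = e * d * b by ring]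
    rfl
  · intro e _ e' _ h
    exact mul_right_cancel₀ ha.ne_zero (congrArg (fun x : O × O × O => x.2.1) h)
  · rintro ⟨d, n, m⟩ hx
    by_contra hne
    apply hx
    obtain ⟨hmem, hG⟩ := Set.indicator_apply_ne_zero.1 hne
    have hd : Adm Q d := by
      by_contra hd
      exact hG (if_neg hd)
    simp only [Set.mem_preimage, Set.mem_singleton_iff, Prod.mk.injEq] at hmem
    obtain ⟨u, v, huv⟩ := hab
    have hE' : E = d * (u * n + v * m) := by
      linear_combination (-E) * huv - u * hmem.1 - v * hmem.2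
    set e := u * n + v * m with he
    have he1 : Prim e := hd.1.of_mul (hE' ▸ hE)
    refine Finset.mem_image.2 ⟨e, (mem_pdiv hE.ne_zero).2 ⟨he1, hE' ▸ dvd_mul_left _ _⟩, ?_⟩
    have hn : n = e * a := mul_left_cancel₀ hd.1.ne_zero (by rw [hmem.1, hE']; ring)
    have hm : m = e * b := mul_left_cancel₀ hd.1.ne_zero (by rw [hmem.2, hE']; ring)
    rw [← hn, ← hm, hE', mul_div_cancel_right₀ _ he1.ne_zero]

open Classical in
/-- the primes of `N` dividing `r` -/
def l3_c (r N : O) : Finset O := (pf N).filter (· ∣ r)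

open Classical in
/-- the symbol without the primes dividing `r` -/
def l3_phi (r N : O) : ℂ := ∏ p ∈ (pf N).filter (fun p => ¬ p ∣ r), chi p r

theorem l3_chi_prod (s : Finset O) (hs : ∀ p ∈ s, p ≠ 0) (r : O) :
    chi (∏ p ∈ s, p) r = ∏ p ∈ s, chi p r := by
  induction s using Finset.induction with
  | empty => simpa using chi_unit_left isUnit_one r
  | insert a s has ih =>
    rw [Finset.prod_insert has, Finset.prod_insert has,
      chi_mul_left (hs a (Finset.mem_insert_self _ _))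
        (Finset.prod_ne_zero_iff.2 fun x hx => hs x (Finset.mem_insert_of_mem hx)),
      ih fun x hx => hs x (Finset.mem_insert_of_mem hx)]

theorem l3_chi_eq {N : O} (hN : Prim N) (hs : Squarefree N) (r : O) :
    chi N r = if l3_c r N = ∅ then l3_phi r N else 0 := by
  classical
  have h : chi N r = ∏ p ∈ pf N, chi p r := by
    conv_lhs => rw [← rad_eq_self hN hs]
    exact l3_chi_prod _ (fun p hp => (a1_of_mem_pf hp).1.1.ne_zero) r
  rw [h]
  split_ifs with hc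
  · rw [l3_phi, Finset.filter_true_of_mem]
    exact Finset.filter_eq_empty_iff.1 hc
  · obtain ⟨p, hp⟩ := Finset.nonempty_iff_ne_empty.2 hc
    obtain ⟨hp1, hp2⟩ := Finset.mem_filter.1 hp
    have hpp := (a1_of_mem_pf hp1).1.1
    refine Finset.prod_eq_zero hp1 ((chi_eq_zero hpp.ne_zero).2 fun hcp => ?_)
    exact hpp.not_isUnit (hcp.isUnit_of_dvd' dvd_rfl (hp2.mul_left _))

theorem l3_pf_mul {x y : O} (hx : x ≠ 0) (hy : y ≠ 0) : pf (x * y) = pf x ∪ pf y := by
  ext p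
  rw [Finset.mem_union, mem_pf (mul_ne_zero hx hy), mem_pf hx, mem_pf hy, ← and_or_left]
  exact and_congr_right fun hp => hp.1.dvd_mul

theorem l3_pf_disj {x y : O} (h : IsCoprime x y) : Disjoint (pf x) (pf y) :=
  Finset.disjoint_left.2 fun _ h1 h2 => (a1_of_mem_pf h1).1.1.not_isUnit
    (h.isUnit_of_dvd' (a1_of_mem_pf h1).2 (a1_of_mem_pf h2).2)

theorem l3_c_mul {x y : O} (hx : x ≠ 0) (hy : y ≠ 0) (r : O) :
    l3_c r (x * y) = l3_c r x ∪ l3_c r y := by
  simp only [l3_c, l3_pf_mul hx hy, Finset.filter_union]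

theorem l3_phi_mul {x y : O} (hx : x ≠ 0) (hy : y ≠ 0) (h : IsCoprime x y) (r : O) :
    l3_phi r (x * y) = l3_phi r x * l3_phi r y := by
  classical
  simp only [l3_phi, l3_pf_mul hx hy, Finset.filter_union]
  exact Finset.prod_union (Finset.disjoint_filter_filter (l3_pf_disj h))

theorem l3_phi_conj {E : O} (h6 : IsCoprime E 6) (r : O) : l3_phi r E * conj (l3_phi r E) = 1 := by
  classical
  rw [Complex.mul_conj, Complex.normSq_eq_norm_sq, l3_phi, norm_prod, Finset.prod_eq_one]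
  · simp
  intro p hp
  obtain ⟨hp1, hp2⟩ := Finset.mem_filter.1 hp
  have hpp := a1_of_mem_pf hp1
  refine norm_chi fun h0 => (chi_eq_zero hpp.1.1.ne_zero).1 h0 ?_
  exact (h6.of_isCoprime_of_dvd_left hpp.2).mul_right (hpp.1.1.coprime_iff_not_dvd.2 hp2)

theorem l3_kernel {E a b : O} (hE : Prim E) (ha : Prim a) (hb : Prim b) (hab : IsCoprime a b)
    (hs : Squarefree (E * a * b)) (h6 : IsCoprime E 6) (r : O) :
    chi a r * conj (chi b r) * ((∏ p ∈ pf E, (1 + l3_m r p) : ℝ) : ℂ) =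
      if l3_c r (E * a) = l3_c r (E * b) then
        ((∏ p ∈ l3_c r (E * a), (1 + l3_m r p) : ℝ) : ℂ) *
          (l3_phi r (E * a) * conj (l3_phi r (E * b))) else 0 := by
  classical
  have cEa : IsCoprime E a := (IsRelPrime.of_squarefree_mul hs.of_mul_left).isCoprime
  have cEb : IsCoprime E b := (IsRelPrime.of_squarefree_mul hs).isCoprime.of_mul_left_left
  have sa : Squarefree a := hs.of_mul_left.of_mul_right
  have sb : Squarefree b := hs.of_mul_right
  have key : ∀ {a b : O}, IsCoprime E a → IsCoprime a b →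
      l3_c r E ∪ l3_c r a = l3_c r E ∪ l3_c r b → l3_c r a = ∅ := by
    intro a b h1 h2 h
    refine Finset.eq_empty_of_forall_notMem fun p hp => ?_
    have hp' : p ∈ l3_c r E ∪ l3_c r b := h ▸ Finset.mem_union_right _ hp
    rcases Finset.mem_union.1 hp' with h3 | h3
    · exact Finset.disjoint_left.1 (l3_pf_disj h1) (Finset.mem_filter.1 h3).1
        (Finset.mem_filter.1 hp).1
    · exact Finset.disjoint_left.1 (l3_pf_disj h2) (Finset.mem_filter.1 hp).1
        (Finset.mem_filter.1 h3).1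
  rw [l3_c_mul hE.ne_zero ha.ne_zero, l3_c_mul hE.ne_zero hb.ne_zero, l3_chi_eq ha sa,
    l3_chi_eq hb sb]
  by_cases h1 : l3_c r a = ∅
  swap
  · rw [if_neg h1, if_neg fun h => h1 (key cEa hab h)]
    simp
  by_cases h2 : l3_c r b = ∅
  swap
  · have h3 : ¬ l3_c r E ∪ l3_c r a = l3_c r E ∪ l3_c r b :=
      fun h => h2 (key cEb hab.symm h.symm)
    rw [if_neg h2, if_neg h3]
    simp
  rw [if_pos h1, if_pos h2, h1, h2, if_pos rfl, Finset.union_empty,
    l3_phi_mul hE.ne_zero ha.ne_zero cEa, l3_phi_mul hE.ne_zero hb.ne_zero cEb, map_mul]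
  have e : ∏ p ∈ l3_c r E, (1 + l3_m r p) = ∏ p ∈ pf E, (1 + l3_m r p) :=
    Finset.prod_filter_of_ne fun p _ hp => by
      by_contra h
      exact hp (by rw [l3_m_eq_zero h, add_zero])
  rw [e]
  linear_combination (-(l3_phi r a * conj (l3_phi r b) *
    ((∏ p ∈ pf E, (1 + l3_m r p) : ℝ) : ℂ))) * l3_phi_conj h6 r

theorem l3_psd_row {Q : O} (h6 : (6 : O) ∣ Q) {γ : O → ℂ} (hs : Supp Q γ) (hr : Rap γ) (r : O) :
    ‖rowF γ r‖ ^ 2 ≤ (∑' x, l3_G Q γ r x).re := by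
  classical
  obtain ⟨M, hM, hG⟩ := l3_G_bound h6 hs hr
  have h1 := (Summable.of_norm_bounded hM (hG r)).hasSum.tsum_fiberwise
    fun x : O × O × O => (x.1 * x.2.1, x.1 * x.2.2)
  have s0 : Summable fun n => ‖γ n * chi n r‖ := by
    refine Summable.of_nonneg_of_le (fun _ => norm_nonneg _) (fun n => ?_) (hr 0)
    rw [norm_mul, Real.rpow_zero]
    exact mul_le_mul_of_nonneg_left (norm_chi_le _ _) (norm_nonneg _)
  have s1 : Summable fun n => ‖conj (γ n * chi n r)‖ := by simpa only [Complex.norm_conj] using s0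
  have h2 : HasSum (fun p : O × O => γ p.1 * chi p.1 r * conj (γ p.2 * chi p.2 r))
      ((‖rowF γ r‖ ^ 2 : ℝ) : ℂ) := by
    have := (summable_mul_of_summable_norm s0 s1).hasSum
    rwa [← tsum_mul_tsum_of_summable_norm s0 s1, ← Complex.conj_tsum, Complex.mul_conj,
      Complex.normSq_eq_norm_sq] at this
  have h3 := l3_psd (l3_c r) (fun S => if S = ∅ then 0 else ∏ p ∈ S, (1 + l3_m r p))
    (fun S => by
      split_ifs
      · exact le_rfl
      · exact Finset.prod_nonneg fun p _ => l3_m_nonneg r p)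
    (fun n => γ n * l3_phi r n) (S := ∑' x, l3_G Q γ r x - ((‖rowF γ r‖ ^ 2 : ℝ) : ℂ)) ?_
  · rw [sub_re, ofReal_re] at h3
    linarith
  refine (congrArg (HasSum · _) (funext fun ⟨N, N'⟩ => ?_)).mp (h1.sub h2)
  symm
  by_cases hz : γ N = 0 ∨ γ N' = 0
  · have e : ∑' x : (fun x : O × O × O => (x.1 * x.2.1, x.1 * x.2.2)) ⁻¹' {(N, N')},
        l3_G Q γ r x = 0 := by
      refine (tsum_congr fun ⟨x, hx⟩ => ?_).trans tsum_zero
      simp only [Set.mem_preimage, Set.mem_singleton_iff, Prod.mk.injEq] at hx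
      simp only [l3_G, hx.1, hx.2]
      rcases hz with h | h <;> simp [h]
    rw [e]
    rcases hz with h | h <;> simp [h]
  push Not at hz
  have a1 := hs _ hz.1
  have a2 := hs _ hz.2
  obtain ⟨E, a, b, hE, ha, hb, rfl, rfl, hab, hsq⟩ := l3_decomp a1.1 a2.1 a1.2.1 a2.2.1
  rw [l3_fiber h6 γ r hE ha hb hab hsq a1 a2,
    l3_kernel hE ha hb hab hsq (a1.2.2.of_mul_left_left.of_isCoprime_of_dvd_right h6),
    l3_chi_eq a1.1 a1.2.1, l3_chi_eq a2.1 a2.2.1]
  dsimp only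
  by_cases hc : l3_c r (E * a) = l3_c r (E * b)
  · rw [if_pos hc, if_pos hc, ← hc]
    by_cases h0 : l3_c r (E * a) = ∅
    · simp only [h0, if_true, Finset.prod_empty, map_mul]
      push_cast
      ring
    · simp only [h0, if_false, map_mul]
      ring
  · rw [if_neg hc, if_neg hc]
    by_cases h0 : l3_c r (E * a) = ∅
    · have h3 : ¬ l3_c r (E * b) = ∅ := fun h => hc (h0.trans h.symm)
      rw [if_neg h3]
      simp
    · rw [if_neg h0]
      simp

end Crest.Agent.R017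

end
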