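import Crest.Agent.R017.FMNon
import Crest.Agent.R017.FMDual

/-! # Row 17: the zero-free half-plane -/

set_option autoImplicit false

noncomputable section

open scoped BigOperators ComplexConjugate
open Complex MeasureTheory

namespace Crest.Agent.R017

/-- the abstract sup-inversion. -/
theorem mn_sup {f : ℝ → ℝ} {θ X₀ C : ℝ}
    (ha : ∀ Y₀ : ℝ, ∃ F : ℝ, ∀ Y, 0 < Y → Y ≤ Y₀ → f Y ≤ F * Y ^ θ)
    (hb : ∀ X F : ℝ, X₀ ≤ X → 0 < X → 1 ≤ F → (∀ Y, 0 < Y → Y ≤ X → f Y ≤ F * Y ^ θ) →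
      f X ≤ C * X ^ θ + F * X ^ θ / 2) : ∃ K : ℝ, ∀ X, 0 < X → f X ≤ K * X ^ θ := by
  obtain ⟨F₀, hF₀⟩ := ha X₀
  refine ⟨max 1 (max F₀ (2 * C)), fun X hX => ?_⟩
  obtain ⟨F₁, hF₁⟩ := ha X
  set S : Set ℝ := (fun Y => f Y / Y ^ θ) '' Set.Ioc 0 X with hS
  have hbdd : BddAbove S := by
    refine ⟨F₁, ?_⟩
    rintro _ ⟨Y, hY, rfl⟩
    exact (div_le_iff₀ (Real.rpow_pos_of_pos hY.1 θ)).2 (hF₁ Y hY.1 hY.2)
  have hne : S.Nonempty := ⟨_, X, ⟨hX, le_rfl⟩, rfl⟩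
  set F := max 1 (sSup S) with hF
  have hFb : ∀ Y, 0 < Y → Y ≤ X → f Y ≤ F * Y ^ θ := fun Y h0 h1 =>
    (div_le_iff₀ (Real.rpow_pos_of_pos h0 θ)).1
      ((le_csSup hbdd ⟨Y, ⟨h0, h1⟩, rfl⟩).trans (le_max_right _ _))
  have hsup : sSup S ≤ max F₀ (C + F / 2) := by
    refine csSup_le hne ?_
    rintro _ ⟨Y, hY, rfl⟩
    have hp := Real.rpow_pos_of_pos hY.1 θ
    rcases le_total Y X₀ with h | h
    · exact le_max_of_le_left ((div_le_iff₀ hp).2 (hF₀ Y hY.1 h))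
    · refine le_max_of_le_right ((div_le_iff₀ hp).2 ?_)
      have := hb Y F h hY.1 (le_max_left _ _) fun Y' h0 h1 => hFb Y' h0 (h1.trans hY.2)
      linarith
  have hFK : F ≤ max 1 (max F₀ (2 * C)) := by
    rcases le_total (sSup S) 1 with h | h
    · rw [hF, max_eq_left h]; exact le_max_left _ _
    · have e : F = sSup S := max_eq_right h
      rcases le_max_iff.1 hsup with h' | h'
      · exact le_max_of_le_right (le_max_of_le_left (e ▸ h'))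
      · exact le_max_of_le_right (le_max_of_le_right (by linarith))
  exact (hFb X hX le_rfl).trans (mul_le_mul_of_nonneg_right hFK (Real.rpow_pos_of_pos hX θ).le)

theorem mn_sum (J : ℕ) : ∑ i : Fin J, (2 * ((i : ℕ) : ℝ) + 1) = (J : ℝ) ^ 2 := by
  rw [Fin.sum_univ_eq_sum_range (fun i => 2 * (i : ℝ) + 1) J]
  induction J with
  | zero => simp
  | succ n ih => rw [Finset.sum_range_succ, ih]; push_cast; ring

theorem mn_prod {X η₀ : ℝ} (hX : 0 < X) {J : ℕ} (hJ : 0 < J) :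
    ∏ i, (Zs X η₀ J i * X ^ η₀) = X ^ (1 / 6 : ℝ) * X ^ (η₀ * J ^ 2) := by
  have hJ' : (J : ℝ) ≠ 0 := by exact_mod_cast hJ.ne'
  have e : ∀ i : Fin J, Zs X η₀ J i * X ^ η₀ =
      X ^ (1 / (6 * (J : ℝ)) + η₀ * (2 * ((i : ℕ) : ℝ) + 1)) := by
    intro i
    rw [Zs, ← Real.rpow_add hX]
    congr 1
    ring
  simp only [e]
  rw [← Real.rpow_sum_of_pos hX, ← Real.rpow_add hX, Finset.sum_add_distrib, ← Finset.mul_sum, mn_sum]
  congr 1
  simp only [Finset.sum_const, Finset.card_univ, Fintype.card_fin, nsmul_eq_mul]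
  field_simp

theorem mn_sep {X η₀ : ℝ} (hX : 1 ≤ X) (hη : 0 < η₀) (J : ℕ) : Sep (Zs X η₀ J) (X ^ η₀) := by
  intro i i' h
  have hX0 : 0 < X := by linarith
  rw [Zs, Zs, ← Real.rpow_add hX0, ← Real.rpow_sub hX0]
  refine Real.rpow_le_rpow_of_exponent_le hX ?_
  have : ((i : ℕ) : ℝ) + 1 ≤ ((i' : ℕ) : ℝ) := by exact_mod_cast h
  nlinarith

open Classical in
theorem mn_split {Q : O} {ψ : O → ℂ} (hψ : IsCh Q ψ) {X η₀ : ℝ} (hX : 1 ≤ X) (hη : 0 < η₀) {J : ℕ}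
    (hJ : η₀ * J ^ 2 ≤ 1 / 100) :
    (∑' r : O, if IsCoprime r Q then (Phi (Nr r / X ^ (81 / 100 : ℝ)) : ℂ) *
        VV Q ψ r (X ^ η₀) J (Zs X η₀ J) Q 1 X (X ^ (143 / 300 : ℝ)) else 0) =
      (∑' r : O, if IsCoprime r Q ∧ Princ (fun n => psi0 Q n * chi n r) then
        (Phi (Nr r / X ^ (81 / 100 : ℝ)) : ℂ) * Row Q ψ X η₀ J r else 0) +
      ∑' r : O, if IsCoprime r Q ∧ ¬ Princ (fun n => psi0 Q n * chi n r) then
        (Phi (Nr r / X ^ (81 / 100 : ℝ)) : ℂ) * Row Q ψ X η₀ J r else 0 := by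
  obtain ⟨C, hC0, hC⟩ := norm_Row_le Q J
  have hR : 0 < X ^ (81 / 100 : ℝ) := Real.rpow_pos_of_pos (by linarith) _
  have h1 : Summable fun r : O => Phi (Nr r / X ^ (81 / 100 : ℝ)) * (C * X ^ (4 : ℕ)) := by
    refine Summable.mul_right _ ?_
    simpa only [Real.rpow_zero, one_mul, add_zero, norm_emb_sq] using summable_Phi hR 0 0
  have h2 : ∀ (P : O → Prop) [DecidablePred P], Summable fun r : O => if P r then
      (Phi (Nr r / X ^ (81 / 100 : ℝ)) : ℂ) * Row Q ψ X η₀ J r else 0 := by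
    intro P _
    refine Summable.of_norm_bounded h1 fun r => ?_
    have hp := (Phi_pos (Nr r / X ^ (81 / 100 : ℝ))).le
    split_ifs
    · rw [norm_mul, Complex.norm_real, Real.norm_of_nonneg hp]
      exact mul_le_mul_of_nonneg_left (hC ψ X η₀ r hψ.norm_le hX hη hJ) hp
    · rw [norm_zero]; positivity
  rw [← (h2 fun r => IsCoprime r Q ∧ Princ (fun n => psi0 Q n * chi n r)).tsum_add
    (h2 fun r => IsCoprime r Q ∧ ¬ Princ (fun n => psi0 Q n * chi n r))]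
  refine tsum_congr fun r => ?_
  by_cases h3 : IsCoprime r Q <;> by_cases h4 : Princ (fun n => psi0 Q n * chi n r) <;>
    simp [h3, h4, Row]

theorem fm_step {θ s : ℝ} (hc : (θ = 22 / 25 ∧ s = 0) ∨ (θ = 1 ∧ s = 1 / 250)) (hZF : ZF θ)
    {θ' : ℝ} (h1 : 7 / 8 + s < θ') (h2 : θ' ≤ 1) : ZF θ' := by
  classical
  intro q η hη s₀ hs₀ hs1
  have hs0 : 0 ≤ s := by rcases hc with h | h <;> rw [h.2] <;> norm_num
  obtain ⟨P₀, hP₀⟩ := fm_princ
  set k : O := 72 * ∏ p ∈ box P₀, p with hk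
  have h72ne : (72 : O) ≠ 0 := by
    intro h
    have h' := Nr_natCast 72
    rw [Nat.cast_ofNat, h, Nr_zero] at h'
    norm_num at h'
  have hk0 : k ≠ 0 := mul_ne_zero h72ne (Finset.prod_ne_zero_iff.2 fun p hp => (mem_box.1 hp).1)
  set ψ : O → ℂ := fun n => if IsCoprime n k then η n else 0 with hψdef
  have hψ0 : IsCh (q * rad k) ψ := hη.coprime hk0
  set Q : O := q * rad k * k with hQdef
  have hQ : Q ≠ 0 := mul_ne_zero hψ0.ne hk0
  have hψ : IsCh Q ψ := ch_enlarge hψ0 hQ (dvd_mul_right _ _) fun x hx =>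
    hx.mul_right ((coprime_rad_iff hk0).1 hx.of_mul_right_right)
  have h72 : (72 : O) ∣ Q := (dvd_mul_right _ _).mul_left _
  have hPQ : ∀ p : O, Prime p → Nr p ≤ P₀ → p ∣ Q := fun p hp hp' =>
    ((Finset.dvd_prod_of_mem _ (mem_box.2 ⟨hp.ne_zero, hp'⟩)).mul_left _).mul_left _
  set ε : ℝ := (θ' - 7 / 8 - s) / 4 with hεdef
  have hε : 0 < ε := by rw [hεdef]; linarith
  obtain ⟨J₀, hJ₀⟩ := fm_nonprinc hQ h72 hc hZF hε
  set J : ℕ := max J₀ 1 with hJdef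
  have hJ : 0 < J := lt_of_lt_of_le one_pos (le_max_right _ _)
  have hJr : (0 : ℝ) < (J : ℝ) ^ 2 := by positivity
  obtain ⟨η₁, hη₁, hnon⟩ := hJ₀ J (le_max_left _ _)
  set η₀ : ℝ := min η₁ (min (1 / 100) (ε / 3) / (J : ℝ) ^ 2) with hη₀def
  have hη₀ : 0 < η₀ := lt_min hη₁ (div_pos (lt_min (by norm_num) (by linarith)) hJr)
  have hη₀J : η₀ * (J : ℝ) ^ 2 ≤ min (1 / 100) (ε / 3) := (le_div_iff₀ hJr).1 (min_le_right _ _)
  have hA : η₀ * (J : ℝ) ^ 2 ≤ 1 / 100 := hη₀J.trans (min_le_left _ _)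
  have hB : η₀ * (J : ℝ) ^ 2 ≤ ε / 3 := hη₀J.trans (min_le_right _ _)
  obtain ⟨C₂, hC₂, hnon⟩ := hnon η₀ hη₀ (min_le_left _ _)
  obtain ⟨C₁, hC₁, hdual⟩ := fm_dual hQ h72 hε J
  obtain ⟨X₀, hX₀⟩ := hP₀ Q hQ h72 hPQ J η₀ ε hJ hη₀ hA hε
  have hcoef : ∀ n, Prim n → ‖mu n * ψ n‖ ≤ 1 := fun n _ => by
    rw [norm_mul]
    exact mul_le_one₀ (norm_mu_le n) (norm_nonneg _) (hψ.norm_le n)
  obtain ⟨K, hK⟩ := mn_sup (f := fun Y => ‖sm 1 (fun n => mu n * ψ n) Y 0‖) (θ := θ')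
    (X₀ := max X₀ 1) (C := C₁ + C₂) (fun Y₀ => by
      obtain ⟨A, hA⟩ := norm_sm_le one_pos θ'
      obtain ⟨B, hB⟩ := norm_sm_le one_pos 1
      refine ⟨max A (|B| * Y₀), fun Y h0 hY => ?_⟩
      have hp := Real.rpow_pos_of_pos h0 θ'
      rcases le_total Y 1 with h | h
      · exact (hA _ Y 0 h0 hcoef (Or.inr h)).trans (mul_le_mul_of_nonneg_right (le_max_left _ _) hp.le)
      · refine (hB _ Y 0 h0 hcoef (Or.inl le_rfl)).trans ?_
        rw [Real.rpow_one]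
        have h3 : 1 ≤ Y ^ θ' := Real.one_le_rpow h (by linarith)
        have h4 : B * Y ≤ |B| * Y₀ := mul_le_mul (le_abs_self B) hY h0.le (abs_nonneg B)
        have h5 : 0 ≤ |B| * Y₀ := mul_nonneg (abs_nonneg B) (by linarith)
        calc B * Y ≤ |B| * Y₀ * 1 := by linarith
          _ ≤ max A (|B| * Y₀) * Y ^ θ' :=
            mul_le_mul (le_max_right _ _) h3 zero_le_one (h5.trans (le_max_right _ _)))
    (fun X F hX hX0 hF hY => by
      have hX1 : 1 ≤ X := (le_max_right _ _).trans hX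
      obtain ⟨Λ, hΛ, hpr⟩ := hX₀ θ' F X ψ ((le_max_left _ _).trans hX) hψ (by linarith) h2 hF hY
      have hΛ0 : 0 < Λ := (Real.rpow_pos_of_pos hX0 _).trans_le hΛ
      have hd := hdual X (X ^ η₀) (X ^ (η₀ * (J : ℝ) ^ 2)) ψ (Zs X η₀ J) hX1 hψ
        (Real.one_le_rpow hX1 hη₀.le) (fun i => Real.one_le_rpow hX1 (by positivity))
        (mn_sep hX1 hη₀ J) (Real.one_le_rpow hX1 (by positivity))
        (Real.rpow_le_rpow_of_exponent_le hX1 (by linarith)) (mn_prod hX0 hJ).le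
      rw [mn_split hψ hX1 hη₀ hA] at hd
      have hn := hnon X ψ hX1 hψ
      have e1 : C₁ * X ^ (124 / 75 + ε) * (X ^ (η₀ * (J : ℝ) ^ 2)) ^ 3 ≤ C₁ * (X ^ θ' * Λ) := by
        rw [mul_assoc]
        refine mul_le_mul_of_nonneg_left ?_ hC₁
        refine le_trans ?_ (mul_le_mul_of_nonneg_left hΛ (Real.rpow_pos_of_pos hX0 _).le)
        rw [← Real.rpow_natCast, ← Real.rpow_mul hX0.le, ← Real.rpow_add hX0, ← Real.rpow_add hX0]
        refine Real.rpow_le_rpow_of_exponent_le hX1 ?_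
        push_cast
        linarith
      have e2 : C₂ * X ^ (124 / 75 + s + ε) ≤ C₂ * (X ^ θ' * Λ) := by
        refine mul_le_mul_of_nonneg_left ?_ hC₂
        refine le_trans ?_ (mul_le_mul_of_nonneg_left hΛ (Real.rpow_pos_of_pos hX0 _).le)
        rw [← Real.rpow_add hX0]
        refine Real.rpow_le_rpow_of_exponent_le hX1 ?_
        linarith
      have key : ∀ a b c : ℂ, ‖c‖ ≤ ‖a + b‖ + ‖b‖ + ‖a - c‖ := fun a b c => by
        calc ‖c‖ = ‖(a + b) - b - (a - c)‖ := by congr 1; ring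
          _ ≤ ‖(a + b) - b‖ + ‖a - c‖ := norm_sub_le _ _
          _ ≤ _ := by gcongr; exact norm_sub_le _ _
      have h3 := (key _ _ _).trans (add_le_add (add_le_add (hd.trans e1) (hn.trans e2)) hpr)
      rw [norm_mul, Complex.norm_real, Real.norm_of_nonneg hΛ0.le] at h3
      refine le_of_mul_le_mul_right (h3.trans (le_of_eq ?_)) hΛ0
      ring)
  have hθ0 : 0 < s₀.re := by linarith
  rw [Ne, ← hη.Lf_coprime_eq_zero hk0 hθ0 hs1]
  exact Lf_ne_zero_of_sm one_pos hψ (fun X hX => hK X (by linarith)) hs₀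
    (hs1.imp_right fun h h' => h ((hη.princ_coprime hk0).1 h'))

theorem zf78 : ZF (7 / 8) := by
  have hA : ZF (22 / 25) := fm_step (Or.inr ⟨rfl, rfl⟩) zf_one (by norm_num) (by norm_num)
  intro q η hη s hs hs1
  exact fm_step (Or.inl ⟨rfl, rfl⟩) hA (θ' := min 1 ((7 / 8 + s.re) / 2))
    (lt_min (by norm_num) (by linarith)) (min_le_left _ _) q η hη s
    ((min_le_right _ _).trans_lt (by linarith)) hs1

end Crest.Agent.R017

end
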