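import Mathlib

/-! # Row 17: complex-analytic lemmas for `Lf_bounds` (logarithm on a disc, Borel–Carathéodory,
two-constants estimate on an annulus) -/

set_option autoImplicit false

noncomputable section

open Complex Metric Set

namespace Crest.Agent.R017

/-- A holomorphic logarithm on a disc with prescribed value at the centre. -/
theorem pb_exists_log {L : ℂ → ℂ} {c : ℂ} {R : ℝ} (hR : 0 < R) (hL : DifferentiableOn ℂ L (ball c R))
    (h0 : ∀ z ∈ ball c R, L z ≠ 0) {w : ℂ} (hw : Complex.exp w = L c) :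
    ∃ G : ℂ → ℂ, G c = w ∧ (∀ z ∈ ball c R, HasDerivAt G (deriv L z / L z) z) ∧
      ∀ z ∈ ball c R, Complex.exp (G z) = L z := by
  have hd : DifferentiableOn ℂ (fun z => deriv L z / L z) (ball c R) :=
    (hL.deriv isOpen_ball).div hL h0
  obtain ⟨G, hGc, hG⟩ := hd.isExactOn_ball.with_val_at c w
  refine ⟨G, hGc, hG, ?_⟩
  have hH : ∀ z ∈ ball c R, HasDerivAt (fun z => L z * Complex.exp (-G z)) 0 z := by
    intro z hz
    have h1 : HasDerivAt L (deriv L z) z := (hL.differentiableAt (isOpen_ball.mem_nhds hz)).hasDerivAt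
    have h2 : HasDerivAt (fun z => L z * Complex.exp (-G z))
        (deriv L z * Complex.exp (-G z) + L z * (Complex.exp (-G z) * -(deriv L z / L z))) z :=
      h1.mul (hG z hz).neg.cexp
    have h3 : deriv L z * Complex.exp (-G z) + L z * (Complex.exp (-G z) * -(deriv L z / L z)) = 0 := by
      have := h0 z hz
      field_simp
      ring
    rwa [h3] at h2
  intro z hz
  have hc := isOpen_ball.is_const_of_deriv_eq_zero (𝕜 := ℂ) (convex_ball c R).isPreconnected
    (f := fun z => L z * Complex.exp (-G z))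
    (fun z hz => (hH z hz).differentiableAt.differentiableWithinAt)
    (fun z hz => (hH z hz).deriv) hz (mem_ball_self hR)
  simp only [hGc, ← hw, ← Complex.exp_add, add_neg_cancel, Complex.exp_zero] at hc
  have h3 : L z = L z * Complex.exp (-G z) * Complex.exp (G z) := by
    rw [mul_assoc, ← Complex.exp_add]; simp
  rw [h3, hc, one_mul]

/-- Borel–Carathéodory on a disc with arbitrary centre. -/
theorem pb_BC {G : ℂ → ℂ} {c : ℂ} {R M C0 d : ℝ} (hM : 0 < M) (hd : 0 < d) (hR : 0 < R)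
    (hG : DifferentiableOn ℂ G (ball c R)) (hre : ∀ z ∈ ball c R, (G z).re ≤ M) (hc : ‖G c‖ ≤ C0)
    {z : ℂ} (hz : ‖z - c‖ ≤ R - d) : ‖G z‖ ≤ 2 * R * (M + C0) / d := by
  have hC0 : 0 ≤ C0 := (norm_nonneg _).trans hc
  have hmaps : MapsTo (fun w => w + c) (ball (0 : ℂ) R) (ball c R) := by
    intro w hw
    simpa [mem_ball, dist_eq_norm] using hw
  have h1 : DifferentiableOn ℂ (fun w => G (w + c)) (ball 0 R) :=
    hG.comp (differentiable_id.add_const c).differentiableOn hmaps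
  have hz' : z - c ∈ ball (0 : ℂ) R := by
    rw [mem_ball, dist_zero_right]; linarith
  have h2 := Complex.borelCaratheodory hM h1 (fun w hw => hre _ (hmaps hw)) hR hz'
  simp only [sub_add_cancel, zero_add] at h2
  have hn := norm_nonneg (z - c)
  have h3 : d ≤ R - ‖z - c‖ := by linarith
  have h4 : 2 * M * ‖z - c‖ / (R - ‖z - c‖) ≤ 2 * M * R / d := by
    gcongr; linarith
  have h5 : ‖G c‖ * (R + ‖z - c‖) / (R - ‖z - c‖) ≤ C0 * (R + R) / d := by
    gcongr; linarith
  calc ‖G z‖ ≤ 2 * M * R / d + C0 * (R + R) / d := h2.trans (add_le_add h4 h5)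
    _ = 2 * R * (M + C0) / d := by ring

/-- Two-constants estimate on an annulus. -/
theorem pb_annulus {G : ℂ → ℂ} {c : ℂ} {R r M1 M3 : ℝ} (hrR : r < R)
    (hG : DifferentiableOn ℂ G (ball c R)) (h1 : ∀ z, ‖z - c‖ = 1 → ‖G z‖ ≤ M1)
    (h3 : ∀ z, ‖z - c‖ = r → ‖G z‖ ≤ M3) (hM1 : 0 ≤ M1) (hM3 : 0 ≤ M3) (N : ℕ)
    {z : ℂ} (hz1 : 1 < ‖z - c‖) (hz3 : ‖z - c‖ < r) :
    ‖G z‖ ≤ M1 * ‖z - c‖ ^ N + M3 * (‖z - c‖ / r) ^ N := by
  have hr : 0 < r := by linarith
  set U : Set ℂ := {w | 1 < ‖w - c‖ ∧ ‖w - c‖ < r} with hU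
  have hcont : Continuous (fun w : ℂ => ‖w - c‖) := by fun_prop
  have hUo : IsOpen U := (isOpen_lt continuous_const hcont).inter (isOpen_lt hcont continuous_const)
  have hcl : closure U ⊆ {w | 1 ≤ ‖w - c‖ ∧ ‖w - c‖ ≤ r} := by
    apply closure_minimal
    · intro w hw; exact ⟨hw.1.le, hw.2.le⟩
    · exact (isClosed_le continuous_const hcont).inter (isClosed_le hcont continuous_const)
  have hb : Bornology.IsBounded U := by
    refine (isBounded_ball (x := c) (r := r)).subset ?_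
    intro w hw
    rw [mem_ball, dist_eq_norm]; exact hw.2
  have hdiff : DifferentiableOn ℂ (fun w => G w / (w - c) ^ N) (closure U) := by
    apply DifferentiableOn.div
    · refine hG.mono (fun w hw => ?_)
      rw [mem_ball, dist_eq_norm]; exact lt_of_le_of_lt (hcl hw).2 hrR
    · fun_prop
    · intro w hw
      apply pow_ne_zero
      intro h0
      have := (hcl hw).1
      rw [h0, norm_zero] at this
      linarith
  have hmax := Complex.norm_le_of_forall_mem_frontier_norm_le hb hdiff.diffContOnCl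
    (C := M1 + M3 / r ^ N) (z := z) ?_ (subset_closure ⟨hz1, hz3⟩)
  · have hpos : 0 < ‖z - c‖ ^ N := pow_pos (by linarith) N
    rw [norm_div, norm_pow, div_le_iff₀ hpos] at hmax
    calc ‖G z‖ ≤ (M1 + M3 / r ^ N) * ‖z - c‖ ^ N := hmax
      _ = M1 * ‖z - c‖ ^ N + M3 * (‖z - c‖ / r) ^ N := by rw [div_pow]; ring
  · intro w hw
    rw [hUo.frontier_eq] at hw
    have hw1 := hcl hw.1
    have hw2 : ¬ (1 < ‖w - c‖ ∧ ‖w - c‖ < r) := hw.2
    have hq : 0 ≤ M3 / r ^ N := by positivity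
    rw [norm_div, norm_pow]
    rcases eq_or_lt_of_le hw1.1 with h | h
    · rw [← h, one_pow, div_one]
      have := h1 w h.symm
      linarith
    · have h' : ‖w - c‖ = r := le_antisymm hw1.2 (not_lt.1 fun h'' => hw2 ⟨h, h''⟩)
      rw [h']
      have : ‖G w‖ / r ^ N ≤ M3 / r ^ N := by gcongr; exact h3 w h'
      linarith

/-- The abstract bound: `log L = O(1) + ε y` on a slightly smaller disc. -/
theorem pb_abstract {ε A B C0 : ℝ} (hε : 0 < ε) (hε1 : ε ≤ 1) (hA : 0 < A) (hB : 0 ≤ B) (hC0 : 0 ≤ C0) :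
    ∃ C : ℝ, 0 ≤ C ∧ ∀ (L g : ℂ → ℂ) (c : ℂ) (R y : ℝ), 2 ≤ R → R ≤ 3 → 0 ≤ y →
      DifferentiableOn ℂ L (ball c R) → (∀ z ∈ ball c R, L z ≠ 0) →
      (∀ z ∈ ball c R, ‖L z‖ ≤ Real.exp (A + B * y)) →
      DifferentiableOn ℂ g (ball c 2) → (∀ z ∈ ball c 2, Complex.exp (g z) = L z) →
      (∀ z, ‖z - c‖ ≤ 1 → ‖g z‖ ≤ C0) →
      ∀ s, ‖s - c‖ ≤ R - ε → ‖L s‖ ≤ Real.exp (C + ε * y) ∧ ‖(L s)⁻¹‖ ≤ Real.exp (C + ε * y) ∧
        ‖deriv L s / L s‖ ≤ (C + ε * y) / (ε / 2) := by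
  have hρ0 : 0 ≤ 1 - ε / 12 := by linarith
  have hρ1 : 1 - ε / 12 < 1 := by linarith
  obtain ⟨N, hN⟩ : ∃ N : ℕ, (1 - ε / 12) ^ N < ε ^ 2 / (24 * (B + 1)) :=
    exists_pow_lt_of_lt_one (by positivity) hρ1
  refine ⟨C0 * 3 ^ N + 24 * (A + C0) / ε, by positivity, ?_⟩
  intro L g c R y hR2 hR3 hy hL h0 hgr hg hgL hgb
  have hR : 0 < R := by linarith
  obtain ⟨G, hGc, hGd, hGe⟩ := pb_exists_log hR hL h0 (hgL c (mem_ball_self (by norm_num)))
  have hGdiff : DifferentiableOn ℂ G (ball c R) :=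
    fun z hz => (hGd z hz).differentiableAt.differentiableWithinAt
  have hsub : ball c 2 ⊆ ball c R := ball_subset_ball hR2
  have hGg : EqOn G g (ball c 2) := by
    refine isOpen_ball.eqOn_of_deriv_eq (𝕜 := ℂ) (convex_ball c 2).isPreconnected (hGdiff.mono hsub) hg
      ?_ (mem_ball_self (by norm_num)) hGc
    intro z hz
    rw [(hGd z (hsub hz)).deriv]
    have h1 : HasDerivAt g (deriv g z) z := (hg.differentiableAt (isOpen_ball.mem_nhds hz)).hasDerivAt
    have h2 := h1.cexp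
    have h3 : (fun w => Complex.exp (g w)) =ᶠ[nhds z] L :=
      Filter.eventuallyEq_of_mem (isOpen_ball.mem_nhds hz) (fun w hw => hgL w hw)
    have h4 : deriv L z = Complex.exp (g z) * deriv g z := by
      rw [← h3.deriv_eq]; exact h2.deriv
    rw [h4, hgL z hz]
    have := h0 z (hsub hz)
    field_simp
  have hG1 : ∀ z, ‖z - c‖ ≤ 1 → ‖G z‖ ≤ C0 := by
    intro z hz
    rw [hGg (by rw [mem_ball, dist_eq_norm]; linarith)]
    exact hgb z hz
  have hre : ∀ z ∈ ball c R, (G z).re ≤ A + B * y := by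
    intro z hz
    have h1 := hgr z hz
    rw [← hGe z hz, Complex.norm_exp] at h1
    exact Real.exp_le_exp.1 h1
  have hM : 0 < A + B * y := by positivity
  have hG3 : ∀ z, ‖z - c‖ = R - ε / 4 → ‖G z‖ ≤ 24 * (A + B * y + C0) / ε := by
    intro z hz
    have h1 := pb_BC (d := ε / 4) hM (by positivity) hR hGdiff hre (hG1 c (by simp)) hz.le
    refine h1.trans ?_
    calc 2 * R * (A + B * y + C0) / (ε / 4) ≤ 2 * 3 * (A + B * y + C0) / (ε / 4) := by gcongr
      _ = 24 * (A + B * y + C0) / ε := by field_simp; ring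
  have hmain : ∀ z, ‖z - c‖ ≤ R - ε / 2 → ‖G z‖ ≤ C0 * 3 ^ N + 24 * (A + C0) / ε + ε * y := by
    intro z hz
    have hp : 0 ≤ 24 * (A + C0) / ε + ε * y := by positivity
    have h3N : (1 : ℝ) ≤ 3 ^ N := one_le_pow₀ (by norm_num)
    by_cases h1 : ‖z - c‖ ≤ 1
    · have := hG1 z h1
      nlinarith
    · push Not at h1
      have h2 := pb_annulus (r := R - ε / 4) (by linarith) hGdiff (fun z hz => hG1 z hz.le) hG3 hC0
        (by positivity) N h1 (by linarith)
      have h3 : ‖z - c‖ ^ N ≤ 3 ^ N := by gcongr; linarith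
      have h4 : ‖z - c‖ / (R - ε / 4) ≤ 1 - ε / 12 := by
        rw [div_le_iff₀ (by linarith)]
        nlinarith
      have h5 : (‖z - c‖ / (R - ε / 4)) ^ N ≤ (1 - ε / 12) ^ N := by
        gcongr
        exact div_nonneg (norm_nonneg _) (by linarith)
      have h6 : (1 - ε / 12) ^ N ≤ 1 := pow_le_one₀ hρ0 hρ1.le
      have h7 : 24 * (B * y) / ε * (1 - ε / 12) ^ N ≤ ε * y := by
        calc 24 * (B * y) / ε * (1 - ε / 12) ^ N ≤ 24 * ((B + 1) * y) / ε * (ε ^ 2 / (24 * (B + 1))) := by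
              gcongr; linarith
          _ = ε * y := by field_simp
      have h8 : 24 * (A + C0) / ε * (1 - ε / 12) ^ N ≤ 24 * (A + C0) / ε :=
        mul_le_of_le_one_right (by positivity) h6
      calc ‖G z‖ ≤ C0 * ‖z - c‖ ^ N + 24 * (A + B * y + C0) / ε * (‖z - c‖ / (R - ε / 4)) ^ N := h2
        _ ≤ C0 * 3 ^ N + 24 * (A + B * y + C0) / ε * (1 - ε / 12) ^ N := by gcongr
        _ = C0 * 3 ^ N + (24 * (A + C0) / ε * (1 - ε / 12) ^ N +
              24 * (B * y) / ε * (1 - ε / 12) ^ N) := by ring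
        _ ≤ _ := by linarith
  intro s hs
  have hsR : s ∈ ball c R := by rw [mem_ball, dist_eq_norm]; linarith
  have hGs := hmain s (by linarith)
  refine ⟨?_, ?_, ?_⟩
  · rw [← hGe s hsR, Complex.norm_exp]
    exact Real.exp_le_exp.2 ((Complex.re_le_norm _).trans hGs)
  · rw [← hGe s hsR, ← Complex.exp_neg, Complex.norm_exp]
    refine Real.exp_le_exp.2 ((Complex.re_le_norm _).trans ?_)
    rwa [norm_neg]
  · rw [← (hGd s hsR).deriv]
    have hsub2 : closedBall s (ε / 2) ⊆ ball c R := by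
      intro z hz
      rw [mem_closedBall, dist_eq_norm] at hz
      rw [mem_ball, dist_eq_norm]
      have : ‖z - c‖ ≤ ‖z - s‖ + ‖s - c‖ := norm_sub_le_norm_sub_add_norm_sub z s c
      linarith
    refine Complex.norm_deriv_le_of_forall_mem_sphere_norm_le (by positivity)
      (DifferentiableOn.diffContOnCl_ball hGdiff hsub2) ?_
    intro z hz
    rw [mem_sphere, dist_eq_norm] at hz
    have : ‖z - c‖ ≤ ‖z - s‖ + ‖s - c‖ := norm_sub_le_norm_sub_add_norm_sub z s c
    exact hmain z (by linarith)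

end Crest.Agent.R017

end
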