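import Crest.Agent.R017.FE
import Crest.Agent.R017.Pointwise1Aux

/-! # Row 17: pointwise bounds from zero-free regions -/

set_option autoImplicit false

noncomputable section

open scoped BigOperators ComplexConjugate
open Complex MeasureTheory

namespace Crest.Agent.R017

/-- `L(s, η) ≠ 0` for `Re s > σ`, `|Im s| ≤ T`. -/
def ZFl (η : O → ℂ) (σ T : ℝ) : Prop := ∀ s : ℂ, σ < s.re → |s.im| ≤ T → Lf η s ≠ 0

open Classical in
/-- The coefficient of a prime sum. -/
def pr (n : O) : ℂ := if Prime n then (Real.log (Nr n) : ℂ) else 0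

/-- Polynomial growth of non-principal `L`-functions in `Re s ≥ 0`. -/
theorem pb_growth : ∃ A B : ℝ, 0 < A ∧ 0 ≤ B ∧ ∀ (x : ℝ) (q : O) (η : O → ℂ),
    1 ≤ x → IsCh q η → ¬ Princ η → Nr q ≤ x → ∀ z : ℂ, 0 ≤ z.re → |z.im| ≤ x + 3 →
      ‖Lf η z‖ ≤ Real.exp (A + B * Real.log x) := by
  obtain ⟨C, hC, hgr⟩ := Lo_growth
  obtain ⟨C0, hlog⟩ := exists_log_Lf (δ := 1) one_pos
  refine ⟨|C0| + C + C * Real.log 5 + 1, 2 * C, by positivity, by positivity, ?_⟩
  intro x q η hx h hP hq
  have hx0 : 0 < x := by linarith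
  have hlx : 0 ≤ Real.log x := Real.log_nonneg hx
  have hl5 : 0 ≤ Real.log 5 := Real.log_nonneg (by norm_num)
  have key : ∀ z : ℂ, 0 ≤ z.re → z.re ≤ 3 → |z.im| ≤ x + 3 → 1 ≤ ‖z - 1‖ →
      ‖Lf η z‖ ≤ Real.exp (|C0| + C + C * Real.log 5 + 1 + 2 * C * Real.log x) := by
    intro z h0 h3 him h1
    have h2 := hgr q η h z (by linarith) h3
    rw [h.Lo_eq (Or.inr hP), norm_mul] at h2
    have h4 : ‖Lf η z‖ ≤ ‖z - 1‖ * ‖Lf η z‖ := le_mul_of_one_le_left (norm_nonneg _) h1
    have h5 : Nr q * (1 + |z.im|) ≤ 5 * (x * x) := by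
      have : Nr q * (1 + |z.im|) ≤ x * (5 * x) :=
        mul_le_mul hq (by linarith) (by positivity) hx0.le
      linarith
    have h6 : (Nr q * (1 + |z.im|)) ^ C ≤ (5 * (x * x)) ^ C :=
      Real.rpow_le_rpow (mul_nonneg (Nr_nonneg q) (by positivity)) h5 hC
    have h7 : (5 * (x * x)) ^ C = Real.exp (C * Real.log 5 + 2 * C * Real.log x) := by
      rw [Real.rpow_def_of_pos (by positivity), Real.log_mul (by norm_num) (by positivity),
        Real.log_mul hx0.ne' hx0.ne']
      congr 1; ring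
    have h8 : C ≤ Real.exp (|C0| + C + 1) := by
      have := Real.add_one_le_exp (|C0| + C + 1)
      have := abs_nonneg C0
      linarith
    calc ‖Lf η z‖ ≤ C * (Nr q * (1 + |z.im|)) ^ C := h4.trans h2
      _ ≤ Real.exp (|C0| + C + 1) * Real.exp (C * Real.log 5 + 2 * C * Real.log x) := by
          rw [← h7]
          exact mul_le_mul h8 h6 (Real.rpow_nonneg (mul_nonneg (Nr_nonneg q) (by positivity)) _)
            (Real.exp_pos _).le
      _ = _ := by rw [← Real.exp_add]; congr 1; ring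
  intro z h0 him
  by_cases h2 : 2 ≤ z.re
  · obtain ⟨g, -, hg1, hg2⟩ := hlog q η h
    rw [← hg1 z (by linarith), Complex.norm_exp]
    apply Real.exp_le_exp.2
    have h3 := (Complex.re_le_norm _).trans (hg2 z (by linarith))
    have h4 := le_abs_self C0
    have : 0 ≤ C * Real.log 5 := by positivity
    have : 0 ≤ 2 * C * Real.log x := by positivity
    linarith
  · by_cases h1 : 1 ≤ ‖z - 1‖
    · exact key z h0 (by linarith) him h1
    · have hd : Differentiable ℂ (Lf η) := fun s => h.Lf_differentiableAt (Or.inr hP)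
      refine Complex.norm_le_of_forall_mem_frontier_norm_le (U := Metric.ball (1 : ℂ) 1)
        Metric.isBounded_ball hd.diffContOnCl ?_ (subset_closure ?_)
      · intro w hw
        rw [frontier_ball _ one_ne_zero, Metric.mem_sphere, dist_eq_norm] at hw
        have h3 := Complex.abs_re_le_norm (w - 1)
        have h4 := Complex.abs_im_le_norm (w - 1)
        rw [hw] at h3 h4
        simp only [Complex.sub_re, Complex.one_re, Complex.sub_im, Complex.one_im, sub_zero] at h3 h4
        have h5 := abs_le.1 h3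
        exact key w (by linarith) (by linarith) (by linarith) hw.ge
      · rw [Metric.mem_ball, dist_eq_norm]; linarith

/-- Borel–Carathéodory and three circles. -/
theorem Lf_bounds {ε : ℝ} (hε : 0 < ε) : ∃ C : ℝ, 0 ≤ C ∧ ∀ (x : ℝ) (q : O) (η : O → ℂ) (σ T : ℝ),
    1 ≤ x → IsCh q η → ¬ Princ η → Nr q ≤ x → 1 / 2 ≤ σ → σ ≤ 1 → ZFl η σ T →
    ∀ s : ℂ, σ + ε ≤ s.re → s.re ≤ 3 → |s.im| + 3 ≤ T → |s.im| ≤ x →
      ‖Lf η s‖ ≤ C * x ^ ε ∧ ‖(Lf η s)⁻¹‖ ≤ C * x ^ ε ∧ ‖deriv (Lf η) s / Lf η s‖ ≤ C * x ^ ε := by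
  obtain ⟨e, he⟩ : ∃ e : ℝ, e = min ε (1 / 2) := ⟨_, rfl⟩
  have he0 : 0 < e := by rw [he]; exact lt_min hε (by norm_num)
  have he1 : e ≤ 1 / 2 := by rw [he]; exact min_le_right _ _
  have he2 : e ≤ ε := by rw [he]; exact min_le_left _ _
  obtain ⟨A, B, hA, hB, hgr⟩ := pb_growth
  obtain ⟨C0, hlog⟩ := exists_log_Lf (δ := 1) one_pos
  obtain ⟨C, hC, hab⟩ := pb_abstract (C0 := |C0|) he0 (by linarith) hA hB (abs_nonneg _)
  refine ⟨Real.exp C + (C + 1) / (e / 2), by positivity, ?_⟩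
  intro x q η σ T hx h hP hq hσ1 hσ2 hZ s hs1 hs2 hs3 hs4
  have hx0 : 0 < x := by linarith
  have hlx : 0 ≤ Real.log x := Real.log_nonneg hx
  obtain ⟨g, hg0, hg1, hg2⟩ := hlog q η h
  have hd : Differentiable ℂ (Lf η) := fun s => h.Lf_differentiableAt (Or.inr hP)
  have hball : ∀ (r : ℝ) (z : ℂ), ‖z - (3 + s.im * I)‖ ≤ r → 3 - r ≤ z.re ∧ |z.im| ≤ |s.im| + r := by
    intro r z hz
    have h3 := (Complex.abs_re_le_norm _).trans hz
    have h4 := (Complex.abs_im_le_norm _).trans hz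
    simp only [Complex.sub_re, Complex.add_re, Complex.re_ofNat, Complex.mul_re, Complex.ofReal_re,
      Complex.I_re, mul_zero, Complex.ofReal_im, Complex.I_im, mul_one, sub_self, add_zero,
      Complex.sub_im, Complex.add_im, Complex.im_ofNat, Complex.mul_im, zero_add] at h3 h4
    refine ⟨by linarith [(abs_le.1 h3).1], ?_⟩
    have := abs_sub_abs_le_abs_sub z.im s.im
    linarith
  have hball' : ∀ (r : ℝ) (z : ℂ), z ∈ Metric.ball (3 + s.im * I : ℂ) r →
      3 - r < z.re ∧ |z.im| ≤ |s.im| + r := by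
    intro r z hz
    rw [Metric.mem_ball, dist_eq_norm] at hz
    have := hball _ z le_rfl
    constructor <;> linarith [this.1, this.2]
  have hsc : ‖s - (3 + s.im * I)‖ ≤ 3 - σ - e := by
    have : s - (3 + s.im * I) = ((s.re - 3 : ℝ) : ℂ) := by
      apply Complex.ext <;> simp
    rw [this, Complex.norm_real, Real.norm_eq_abs, abs_le]
    constructor <;> linarith
  obtain ⟨b1, b2, b3⟩ := hab (Lf η) g (3 + s.im * I) (3 - σ) (Real.log x) (by linarith) (by linarith) hlx
    hd.differentiableOn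
    (fun z hz => hZ z (by linarith [(hball' _ z hz).1]) (by linarith [(hball' _ z hz).2]))
    (fun z hz => hgr x q η hx h hP hq z (by linarith [(hball' _ z hz).1])
      (by linarith [(hball' _ z hz).2]))
    (hg0.mono fun z hz => by
      have := (hball' _ z hz).1
      show 1 < z.re
      linarith)
    (fun z hz => hg1 z (by linarith [(hball' _ z hz).1]))
    (fun z hz => (hg2 z (by linarith [(hball _ z hz).1])).trans (le_abs_self _)) s hsc
  have hxe : Real.exp (e * Real.log x) ≤ x ^ ε := by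
    rw [Real.rpow_def_of_pos hx0]
    apply Real.exp_le_exp.2
    nlinarith
  have hxε : 1 ≤ x ^ ε := Real.one_le_rpow hx hε.le
  have hE : Real.exp (C + e * Real.log x) ≤ (Real.exp C + (C + 1) / (e / 2)) * x ^ ε := by
    rw [Real.exp_add]
    have h1 : Real.exp C ≤ Real.exp C + (C + 1) / (e / 2) := le_add_of_nonneg_right (by positivity)
    gcongr
  refine ⟨b1.trans hE, b2.trans hE, b3.trans ?_⟩
  have h1 : e * Real.log x ≤ x ^ ε := by
    have := Real.add_one_le_exp (e * Real.log x)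
    linarith
  calc (C + e * Real.log x) / (e / 2) ≤ ((C + 1) * x ^ ε) / (e / 2) := by
        gcongr
        nlinarith
    _ = (C + 1) / (e / 2) * x ^ ε := by ring
    _ ≤ _ := by
        have h1 : (C + 1) / (e / 2) ≤ Real.exp C + (C + 1) / (e / 2) :=
          le_add_of_nonneg_left (Real.exp_pos _).le
        gcongr

end Crest.Agent.R017

end
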