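import Crest.Agent.R017.Poisson2

/-! # Row 17: two-dimensional Poisson summation for complex Gaussians -/

set_option autoImplicit false

noncomputable section

open scoped BigOperators ComplexConjugate Real
open Complex Filter Topology

namespace Crest.Agent.R017

/-- the two-variable complex Gaussian -/
def p3_g (A B C : ℂ) (p : ℤ × ℤ) : ℂ :=
  cexp (-π * (A * (p.1 : ℂ) ^ 2 + 2 * B * p.1 * p.2 + C * (p.2 : ℂ) ^ 2))

theorem p3_summable {A B C : ℂ} (hA : 0 < A.re) (hD : 0 < A.re * C.re - B.re ^ 2) :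
    Summable (p3_g A B C) := by
  have hC : 0 < C.re := by
    by_contra h
    push Not at h
    nlinarith [sq_nonneg B.re, mul_nonneg hA.le (neg_nonneg.2 h)]
  set δ := (A.re * C.re - B.re ^ 2) / (A.re + C.re) with hδ
  have hδ0 : 0 < δ := by positivity
  have h1 : Summable fun n : ℤ => Real.exp (-π * (δ * (n : ℝ) ^ 2)) := by
    simpa using summable_pow_mul_jacobiTheta₂_term_bound 0 hδ0 0
  have h2 := h1.mul_of_nonneg h1 (fun _ => (Real.exp_pos _).le) fun _ => (Real.exp_pos _).le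
  refine Summable.of_norm_bounded h2 fun p => ?_
  rw [p3_g, norm_exp, ← Real.exp_add, Real.exp_le_exp]
  have h3 : (-π * (A * (p.1 : ℂ) ^ 2 + 2 * B * p.1 * p.2 + C * (p.2 : ℂ) ^ 2)).re =
      -π * (A.re * (p.1 : ℝ) ^ 2 + 2 * B.re * p.1 * p.2 + C.re * (p.2 : ℝ) ^ 2) := by
    have e1 : ((p.1 : ℂ) ^ 2) = (((p.1 : ℝ) ^ 2 : ℝ) : ℂ) := by push_cast; rfl
    have e2 : ((p.2 : ℂ) ^ 2) = (((p.2 : ℝ) ^ 2 : ℝ) : ℂ) := by push_cast; rfl
    rw [e1, e2]
    simp only [neg_mul, neg_re, mul_re, ofReal_re, ofReal_im, add_re, add_im, mul_im, intCast_re,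
      intCast_im, re_ofNat, im_ofNat]
    ring
  rw [h3, ← mul_add]
  have h4 : δ * (p.1 : ℝ) ^ 2 + δ * (p.2 : ℝ) ^ 2 ≤
      A.re * (p.1 : ℝ) ^ 2 + 2 * B.re * p.1 * p.2 + C.re * (p.2 : ℝ) ^ 2 := by
    rw [← mul_add, hδ, div_mul_eq_mul_div, div_le_iff₀ (by positivity)]
    nlinarith [sq_nonneg (A.re * p.1 + B.re * p.2), sq_nonneg (B.re * p.1 + C.re * p.2)]
  nlinarith [Real.pi_pos]

theorem p3_sqrt {A : ℂ} (hA : 0 < A.re) {D : ℝ} (hD : 0 < D) :
    A ^ (1 / 2 : ℂ) * ((D : ℂ) / A) ^ (1 / 2 : ℂ) = (Real.sqrt D : ℂ) := by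
  have hA0 : A ≠ 0 := fun h => by simp [h] at hA
  have hD0 : (D : ℂ) ≠ 0 := by exact_mod_cast hD.ne'
  have harg : A.arg ≠ π := fun h => by
    have := (arg_eq_pi_iff.1 h).1
    linarith
  rw [cpow_def_of_ne_zero hA0, cpow_def_of_ne_zero (div_ne_zero hD0 hA0), ← Complex.exp_add,
    div_eq_mul_inv (D : ℂ), log_ofReal_mul hD (inv_ne_zero hA0), Complex.log_inv _ harg,
    Real.sqrt_eq_rpow, Real.rpow_def_of_pos hD]
  push_cast
  congr 1
  ring

/-- one Poisson summation in the first variable, followed by a swap -/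
theorem p3_step {A B C A' B' C' : ℂ} (hA : 0 < A.re) (h1 : Summable (p3_g A B C))
    (eA : A' = C - B ^ 2 / A) (eB : B' = -I * B / A) (eC : C' = 1 / A)
    (h2 : Summable (p3_g A' B' C')) :
    ∑' p, p3_g A B C p = 1 / A ^ (1 / 2 : ℂ) * ∑' p, p3_g A' B' C' p := by
  have hA0 : A ≠ 0 := fun h => by simp [h] at hA
  have h1' : Summable fun c => p3_g A B C (Equiv.prodComm ℤ ℤ c) :=
    (Equiv.prodComm ℤ ℤ).summable_iff.2 h1
  rw [← (Equiv.prodComm ℤ ℤ).tsum_eq, h1'.tsum_prod, h2.tsum_prod, ← tsum_mul_left]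
  refine tsum_congr fun b => ?_
  have h2 := Complex.tsum_exp_neg_quadratic hA (-B * b)
  have h3 : ∀ a : ℤ, p3_g A B C (Equiv.prodComm ℤ ℤ (b, a)) =
      cexp (-π * C * (b : ℂ) ^ 2) * cexp (-π * A * (a : ℂ) ^ 2 + 2 * π * (-B * b) * a) := by
    intro a
    simp only [Equiv.prodComm_apply, Prod.swap_prod_mk, p3_g, ← Complex.exp_add]
    congr 1
    ring
  rw [tsum_congr h3, tsum_mul_left, h2, mul_left_comm, ← tsum_mul_left]
  congr 1
  refine tsum_congr fun m => ?_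
  simp only [p3_g, ← Complex.exp_add, eA, eB, eC]
  congr 1
  field_simp
  linear_combination (-(B ^ 2 * (b : ℂ) ^ 2)) * I_mul_I

/-- two-dimensional Poisson summation -/
theorem p3_poisson {A B C : ℂ} {D : ℝ} (hA : 0 < A.re) (hD : 0 < D) (hdet : A * C - B ^ 2 = D)
    (h1 : Summable (p3_g A B C)) (h2 : Summable (p3_g (D / A) (-I * B / A) (1 / A)))
    (h3 : Summable (p3_g (C / D) (-B / D) (A / D))) :
    ∑' p, p3_g A B C p = (Real.sqrt D : ℂ)⁻¹ * ∑' p, p3_g (C / D) (-B / D) (A / D) p := by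
  have hA0 : A ≠ 0 := fun h => by simp [h] at hA
  have hD0 : (D : ℂ) ≠ 0 := by exact_mod_cast hD.ne'
  have hDA : 0 < ((D : ℂ) / A).re := by
    rw [div_eq_mul_inv, re_ofReal_mul, inv_re]
    have := normSq_pos.2 hA0
    positivity
  rw [p3_step hA h1 (by rw [← hdet]; field_simp) rfl rfl h2,
    p3_step hDA h2 ?_ ?_ ?_ h3, ← mul_assoc, ← p3_sqrt hA hD]
  · congr 1
    simp only [mul_inv, one_div]
  · field_simp
    linear_combination hdet + B ^ 2 * I_mul_I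
  · field_simp
    linear_combination (-B) * I_mul_I
  · field_simp

theorem p3_ec (u v : ℝ) : ec (u + v * omC) = cexp (2 * π * I * v) := by
  have h3 : Real.sqrt 3 ≠ 0 := by positivity
  unfold ec
  congr 2
  simp only [omC, add_im, ofReal_im, mul_im, ofReal_re, zero_mul, add_zero, zero_add]
  congr 1
  field_simp

theorem p3_Nr (x : O) : Nr x = (x.re : ℝ) ^ 2 - x.re * x.im + (x.im : ℝ) ^ 2 := by
  have h := nm_cast x
  have h2 : Nr x = ((nm x : ℤ) : ℝ) := by simp [Nr]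
  rw [h2, h, nz]
  push_cast
  ring

/-- the theta series on hyperbolic three-space -/
def p3_th (ε : ℝ) (w : ℂ) : ℂ := ∑' x : O, (Phi (ε * Nr x) : ℂ) * ec (w * emb x ^ 2)

theorem p3_term (ε α β : ℝ) (x : O) :
    (Phi (ε * Nr x) : ℂ) * ec ((α + β * omC) * emb x ^ 2) =
      p3_g ((2 * ε / Real.sqrt 3 : ℝ) - 2 * I * β) (-(2 * ε / Real.sqrt 3 : ℝ) / 2 - 2 * I * (α - β))
        ((2 * ε / Real.sqrt 3 : ℝ) + 2 * I * α) (x.re, x.im) := by
  have h1 : (α + β * omC) * emb x ^ 2 =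
      ((((x.re : ℝ) ^ 2 - (x.im : ℝ) ^ 2) * α - (2 * x.re * x.im - (x.im : ℝ) ^ 2) * β : ℝ) : ℂ) +
        ((β * (x.re : ℝ) ^ 2 + 2 * (α - β) * x.re * x.im - α * (x.im : ℝ) ^ 2 : ℝ) : ℂ) * omC := by
    change (α + β * omC) * ((x.re : ℂ) + (x.im : ℂ) * omC) ^ 2 = _
    push_cast
    linear_combination ((α : ℂ) * (x.im : ℂ) ^ 2 + 2 * β * x.re * x.im + β * (x.im : ℂ) ^ 2 * omC -
      β * (x.im : ℂ) ^ 2) * omC_sq
  rw [h1, p3_ec, Phi, p3_Nr, c0, p3_g, ofReal_exp, ← Complex.exp_add]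
  congr 1
  push_cast
  ring

/-- the two coordinate systems on `O` -/
def p3_e1 : ℤ × ℤ ≃ O where
  toFun p := ⟨p.1, p.2⟩
  invFun x := (x.re, x.im)
  left_inv _ := rfl
  right_inv _ := rfl

def p3_e2 : ℤ × ℤ ≃ O where
  toFun p := ⟨p.2 + p.1, p.1⟩
  invFun x := (x.im, x.re - x.im)
  left_inv p := by simp
  right_inv x := by ext <;> simp

theorem p3_th_transform' {ε : ℝ} (hε : 0 < ε) (α β : ℝ) {D : ℝ}
    (hD : D = ε ^ 2 + 4 * (α ^ 2 - α * β + β ^ 2)) :
    p3_th ε (α + β * omC) = (Real.sqrt D : ℂ)⁻¹ *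
      p3_th (ε / D) ((((β - α) / D : ℝ) : ℂ) + ((β / D : ℝ) : ℂ) * omC) := by
  have hD0 : 0 < D := by nlinarith [sq_nonneg (2 * α - β), sq_nonneg β, sq_pos_of_pos hε]
  have hDC : (D : ℂ) ≠ 0 := by exact_mod_cast hD0.ne'
  have h3 : 0 < Real.sqrt 3 := by positivity
  have h33 : Real.sqrt 3 ^ 2 = 3 := Real.sq_sqrt (by norm_num)
  set t : ℝ := 2 * ε / Real.sqrt 3 with ht
  have ht0 : 0 < t := by positivity
  have ht2 : 3 * t ^ 2 = 4 * ε ^ 2 := by rw [ht, div_pow, h33]; ring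
  set A : ℂ := t - 2 * I * β with hA
  set B : ℂ := -t / 2 - 2 * I * (α - β) with hB
  set C : ℂ := t + 2 * I * α with hC
  have hAre : A.re = t := by simp [hA]
  have hBre : B.re = -t / 2 := by simp [hB]
  have hCre : C.re = t := by simp [hC]
  have hAim : A.im = -2 * β := by simp [hA]
  have hBim : B.im = -2 * (α - β) := by simp [hB]
  have hN : normSq A = t ^ 2 + 4 * β ^ 2 := by rw [normSq_apply, hAre, hAim]; ring
  have hN0 : 0 < t ^ 2 + 4 * β ^ 2 := by positivity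
  have hdet : A * C - B ^ 2 = D := by
    have ht2' : 3 * (t : ℂ) ^ 2 = 4 * (ε : ℂ) ^ 2 := by exact_mod_cast ht2
    rw [hD, hA, hB, hC]
    push_cast
    linear_combination (1 / 4 : ℂ) * ht2' + (-4 * (α : ℂ) * β - 4 * ((α : ℂ) - β) ^ 2) * I_mul_I
  have s1 : Summable (p3_g A B C) := p3_summable (by rw [hAre]; exact ht0)
    (by rw [hAre, hBre, hCre]; nlinarith [sq_pos_of_pos ht0])
  have s2 : Summable (p3_g (D / A) (-I * B / A) (1 / A)) := by
    have e1 : ((D : ℂ) / A).re = D * t / (t ^ 2 + 4 * β ^ 2) := by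
      rw [div_re, hN, hAre]; simp
    have e2 : (-I * B / A).re = t * (β - 2 * α) / (t ^ 2 + 4 * β ^ 2) := by
      rw [div_re, hN, hAre, hAim]
      simp only [neg_mul, neg_re, mul_re, I_re, I_im, neg_im, mul_im, hBre, hBim]
      field_simp
      ring
    have e3 : (1 / A).re = t / (t ^ 2 + 4 * β ^ 2) := by
      rw [div_re, hN, hAre]; simp
    refine p3_summable (by rw [e1]; positivity) ?_
    rw [e1, e2, e3]
    have : D * t / (t ^ 2 + 4 * β ^ 2) * (t / (t ^ 2 + 4 * β ^ 2)) -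
        (t * (β - 2 * α) / (t ^ 2 + 4 * β ^ 2)) ^ 2 =
        t ^ 2 * (ε ^ 2 + 3 * β ^ 2) / (t ^ 2 + 4 * β ^ 2) ^ 2 := by
      rw [hD]; field_simp; ring
    rw [this]
    positivity
  have s3 : Summable (p3_g (C / D) (-B / D) (A / D)) := by
    refine p3_summable (by rw [div_ofReal_re, hCre]; positivity) ?_
    rw [div_ofReal_re, div_ofReal_re, div_ofReal_re, neg_re, hAre, hBre, hCre]
    have : t / D * (t / D) - (-(-t / 2) / D) ^ 2 = 3 / 4 * (t / D) ^ 2 := by ring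
    rw [this]
    positivity
  have h1 := p3_poisson (by rw [hAre]; exact ht0) hD0 hdet s1 s2 s3
  unfold p3_th
  rw [← p3_e1.tsum_eq, ← p3_e2.tsum_eq]
  simp only [p3_term]
  refine Eq.trans ?_ (h1.trans ?_)
  · rfl
  · congr 1
    refine tsum_congr fun p => ?_
    have e : ((2 * (ε / D) / Real.sqrt 3 : ℝ) : ℂ) = t / D := by
      rw [ht]; push_cast; ring
    simp only [p3_g, p3_e2, Equiv.coe_fn_mk, e, hA, hB, hC]
    congr 1
    push_cast
    field_simp
    ring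

/-- the transformation law -/
theorem p3_th_transform {ε : ℝ} (hε : 0 < ε) (w : ℂ) :
    p3_th ε w = (Real.sqrt (ε ^ 2 + 4 * normSq w) : ℂ)⁻¹ *
      p3_th (ε / (ε ^ 2 + 4 * normSq w)) (-conj w / ((ε ^ 2 + 4 * normSq w : ℝ) : ℂ)) := by
  have h3 : Real.sqrt 3 ≠ 0 := by positivity
  have h33 : Real.sqrt 3 ^ 2 = 3 := Real.sq_sqrt (by norm_num)
  set β : ℝ := 2 / Real.sqrt 3 * w.im with hβ
  set α : ℝ := w.re + β / 2 with hα
  have him : w.im = β * (Real.sqrt 3 / 2) := by rw [hβ]; field_simp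
  have hre : w.re = α - β / 2 := by rw [hα]; ring
  have hw : w = α + β * omC := by
    apply Complex.ext
    · simp [omC, hre]; ring
    · simp [omC, him]
  have hw' : -conj w = ((β - α : ℝ) : ℂ) + β * omC := by
    apply Complex.ext
    · simp [omC, hre]; ring
    · simp [omC, him]
  have hN : normSq w = α ^ 2 - α * β + β ^ 2 := by
    rw [normSq_apply, hre, him]
    linear_combination (β ^ 2 / 4) * h33
  have h := p3_th_transform' hε α β (D := ε ^ 2 + 4 * normSq w) (by rw [hN])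
  rw [← hw] at h
  rw [h, hw']
  congr 2
  push_cast
  ring

end Crest.Agent.R017

end
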