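import Crest.Agent.R017.Poisson2
import Crest.Agent.R017.PoissonAux3

/-! # Row 17: Gaussian Poisson summation on `O` -/

set_option autoImplicit false

noncomputable section

open scoped BigOperators ComplexConjugate
open Complex

namespace Crest.Agent.R017

section
open Filter Topology

theorem p3_summable_Phi {ε : ℝ} (hε : 0 < ε) (A : ℝ) :
    Summable fun x : O => Nr x ^ A * Phi (ε * Nr x) := by
  refine (summable_Phi (inv_pos.2 hε) A 0).congr fun x => ?_
  rw [add_zero, norm_emb_sq, div_inv_eq_mul, mul_comm (Nr x) ε]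

/-- averaging a periodic function against a flat Gaussian -/
theorem p3_lim_per {n : O} (hn : n ≠ 0) (f : O → ℂ) (hf : ∀ x y, n ∣ x - y → f x = f y)
    (hf1 : ∀ x, ‖f x‖ ≤ 1) :
    Tendsto (fun ε : ℝ => (ε : ℂ) * ∑' x : O, (Phi (ε * Nr x) : ℂ) * f x) (𝓝[>] 0)
      (𝓝 ((Nr n : ℂ)⁻¹ * ∑ x ∈ reps n, f x)) := by
  have hN := Nr_pos hn
  have h1 : Tendsto (fun ε : ℝ => ∑' h : O, gs f n h * (Phi (ε⁻¹ * Nr h / Nr n) : ℂ)) (𝓝[>] 0)
      (𝓝 (∑' h : O, if h = 0 then ∑ x ∈ reps n, f x else 0)) := by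
    refine tendsto_tsum_of_dominated_convergence
      (bound := fun h => Nr n * (Nr h ^ (0 : ℝ) * Phi ((Nr n)⁻¹ * Nr h)))
      ((p3_summable_Phi (inv_pos.2 hN) 0).mul_left _) (fun h => ?_) ?_
    · split_ifs with h0
      · subst h0
        simp [Nr_zero, Phi, gs, eO_of_dvd]
      · have h2 : Tendsto (fun ε : ℝ => -(c0 * (ε⁻¹ * Nr h / Nr n))) (𝓝[>] 0) atBot := by
          refine tendsto_neg_atTop_atBot.comp (Tendsto.const_mul_atTop c0_pos ?_)
          exact (tendsto_inv_nhdsGT_zero.atTop_mul_const (Nr_pos h0)).atTop_div_const hN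
        have h3 := ((continuous_ofReal.tendsto 0).comp (Real.tendsto_exp_atBot.comp h2)).const_mul
          (gs f n h)
        simpa [Phi, Function.comp_def] using h3
    · filter_upwards [Ioc_mem_nhdsGT (zero_lt_one' ℝ)] with ε hε h
      rw [norm_mul, Real.rpow_zero, one_mul, norm_real, Real.norm_of_nonneg (Phi_pos _).le]
      refine mul_le_mul (norm_gs_le hn hf1 h) ?_ (Phi_pos _).le hN.le
      unfold Phi
      rw [Real.exp_le_exp, neg_le_neg_iff]
      refine mul_le_mul_of_nonneg_left ?_ c0_pos.le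
      rw [inv_mul_eq_div]
      gcongr
      have : 1 ≤ ε⁻¹ := (one_le_inv₀ hε.1).2 hε.2
      nlinarith [Nr_nonneg h]
  rw [tsum_ite_eq] at h1
  refine (h1.const_mul (Nr n : ℂ)⁻¹).congr' ?_
  filter_upwards [self_mem_nhdsWithin] with ε hε
  have hε' : (0 : ℝ) < ε := hε
  have h2 := poisson_per (inv_pos.2 hε') hn f hf
  simp only [div_inv_eq_mul, mul_comm (Nr _) ε] at h2
  rw [h2, ← mul_assoc]
  congr 1
  have : (ε : ℂ) ≠ 0 := by exact_mod_cast hε'.ne'
  push_cast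
  field_simp

theorem p3_ec_sub (z z' : ℂ) : ‖ec z - ec z'‖ ≤ 2 * c0 * ‖z - z'‖ := by
  have h1 : ec z - ec z' = ec z' * (ec (z - z') - 1) := by
    rw [mul_sub, ← ec_add]; simp
  rw [h1, norm_mul, norm_ec, one_mul]
  have h2 : ec (z - z') = cexp (I * ((2 * c0 * (z - z').im : ℝ) : ℂ)) := by
    unfold ec c0
    congr 1
    push_cast
    ring
  rw [h2]
  refine Real.norm_exp_I_mul_ofReal_sub_one_le.trans ?_
  rw [Real.norm_eq_abs, abs_mul, abs_of_pos (by have := c0_pos; positivity)]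
  exact mul_le_mul_of_nonneg_left (abs_im_le_norm _) (by have := c0_pos; positivity)

theorem p3_th_sub : ∃ K : ℝ, ∀ ε : ℝ, 0 < ε → ∀ w w' : ℂ,
    ε * ‖p3_th ε w - p3_th ε w'‖ ≤ K * (1 + 2 / ε) * ‖w - w'‖ := by
  obtain ⟨C, hC⟩ := tsum_Phi_le
  refine ⟨4 * C, fun ε hε w w' => ?_⟩
  have hc := c0_pos
  have hs : ∀ w : ℂ, Summable fun x : O => (Phi (ε * Nr x) : ℂ) * ec (w * emb x ^ 2) := fun w =>
    Summable.of_norm_bounded (p3_summable_Phi hε 0) fun x => by
      rw [norm_mul, norm_ec, norm_real, Real.norm_of_nonneg (Phi_pos _).le]; simp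
  have hs2 : Summable fun x : O => Phi (Nr x / (2 / ε)) := by
    refine (p3_summable_Phi (half_pos hε) 0).congr fun x => ?_
    rw [Real.rpow_zero, one_mul]
    congr 1
    field_simp
  have h1 : ‖p3_th ε w - p3_th ε w'‖ ≤ ∑' x : O, 4 / ε * ‖w - w'‖ * Phi (Nr x / (2 / ε)) := by
    unfold p3_th
    rw [← (hs w).tsum_sub (hs w')]
    refine tsum_of_norm_bounded (hs2.mul_left _).hasSum fun x => ?_
    rw [← mul_sub, norm_mul, norm_real, Real.norm_of_nonneg (Phi_pos _).le]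
    have h2 := p3_ec_sub (w * emb x ^ 2) (w' * emb x ^ 2)
    rw [← sub_mul, norm_mul, norm_pow, norm_emb_sq] at h2
    have h3 : Phi (ε * Nr x) = Phi (Nr x / (2 / ε)) * Real.exp (-(c0 * ε * Nr x / 2)) := by
      unfold Phi
      rw [← Real.exp_add]
      congr 1
      field_simp
      ring
    have h4 : (c0 * ε * Nr x / 2) * Real.exp (-(c0 * ε * Nr x / 2)) ≤ 1 := by
      rw [Real.exp_neg, mul_inv_le_iff₀ (Real.exp_pos _)]
      linarith [Real.add_one_le_exp (c0 * ε * Nr x / 2)]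
    calc Phi (ε * Nr x) * ‖ec (w * emb x ^ 2) - ec (w' * emb x ^ 2)‖
        ≤ Phi (ε * Nr x) * (2 * c0 * (‖w - w'‖ * Nr x)) :=
          mul_le_mul_of_nonneg_left h2 (Phi_pos _).le
      _ = 4 / ε * ‖w - w'‖ * Phi (Nr x / (2 / ε)) *
          ((c0 * ε * Nr x / 2) * Real.exp (-(c0 * ε * Nr x / 2))) := by
          rw [h3]; field_simp; ring
      _ ≤ 4 / ε * ‖w - w'‖ * Phi (Nr x / (2 / ε)) * 1 :=
          mul_le_mul_of_nonneg_left h4 (by have := Phi_pos (Nr x / (2 / ε)); positivity)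
      _ = _ := mul_one _
  rw [tsum_mul_left] at h1
  calc ε * ‖p3_th ε w - p3_th ε w'‖ ≤ ε * (4 / ε * ‖w - w'‖ * (C * (1 + 2 / ε))) := by
        refine mul_le_mul_of_nonneg_left (h1.trans ?_) hε.le
        exact mul_le_mul_of_nonneg_left (hC _ (by positivity)) (by positivity)
    _ = _ := by field_simp

theorem p3_two_dvd (z : O) : (2 : O) ∣ z ↔ 2 ∣ z.re ∧ 2 ∣ z.im := by
  have h2 : (2 : O) = ⟨2, 0⟩ := rfl
  constructor
  · rintro ⟨c, rfl⟩
    rw [h2]
    simp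
  · rintro ⟨⟨a, ha⟩, ⟨b, hb⟩⟩
    refine ⟨⟨a, b⟩, ?_⟩
    rw [h2]
    ext <;> simp [ha, hb]

theorem p3_sum_two (n : O) : ∑ y ∈ reps 2, eO (-(n * y ^ 2)) 4 = 2 * gam2 n := by
  have ho : om ^ 2 = ⟨-1, -1⟩ := by ext <;> simp [om, sq]
  rw [sum_reps_eq (n := 2) prime_two.ne_zero _ ?_ {0, 1, om, om ^ 2} ?_]
  · rw [Finset.sum_insert (by rw [ho]; decide), Finset.sum_insert (by rw [ho]; decide),
      Finset.sum_insert (by rw [ho]; decide), Finset.sum_singleton]
    have h4 : (om ^ 2) ^ 2 = om := by linear_combination om * om_cube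
    rw [h4, gam2, eO_of_dvd (by simp)]
    simp only [one_pow, mul_one]
    ring
  · rintro x y ⟨c, hc⟩
    refine eO_congr ⟨-(n * (y * c + c ^ 2)), ?_⟩
    have : x = y + 2 * c := by linear_combination hc
    rw [this]
    ring
  · intro y
    have h1 : (1 : O) = ⟨1, 0⟩ := rfl
    have h0 : (0 : O) = ⟨0, 0⟩ := rfl
    have hm : om = ⟨0, 1⟩ := rfl
    simp only [ExistsUnique, Finset.mem_insert, Finset.mem_singleton, p3_two_dvd,
      QuadraticAlgebra.re_sub, QuadraticAlgebra.im_sub, ho]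
    rw [h1, h0, hm]
    rcases Int.emod_two_eq_zero_or_one y.re with ha | ha <;>
      rcases Int.emod_two_eq_zero_or_one y.im with hb | hb
    · refine ⟨⟨0, 0⟩, ⟨by simp, by simp; omega⟩, ?_⟩
      rintro x ⟨rfl | rfl | rfl | rfl, h⟩ <;> simp at h ⊢ <;> omega
    · refine ⟨⟨0, 1⟩, ⟨by simp, by simp; omega⟩, ?_⟩
      rintro x ⟨rfl | rfl | rfl | rfl, h⟩ <;> simp at h ⊢ <;> omega
    · refine ⟨⟨1, 0⟩, ⟨by simp, by simp; omega⟩, ?_⟩
      rintro x ⟨rfl | rfl | rfl | rfl, h⟩ <;> simp at h ⊢ <;> omega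
    · refine ⟨⟨-1, -1⟩, ⟨by simp, by simp; omega⟩, ?_⟩
      rintro x ⟨rfl | rfl | rfl | rfl, h⟩ <;> simp at h ⊢ <;> omega

end

open Filter Topology in
/-- Landsberg–Schaar reciprocity in `O`. -/
theorem quad_gauss {n : O} (hn : ¬ (2 : O) ∣ n) :
    ∑ x ∈ reps n, eO (x ^ 2) n = (Real.sqrt (Nr n) : ℂ) * gam2 n := by
  have hn0 : n ≠ 0 := fun h => hn (h ▸ dvd_zero _)
  have hN := Nr_pos hn0
  have hNC : (Nr n : ℂ) ≠ 0 := by exact_mod_cast hN.ne'
  have he0 : emb n ≠ 0 := fun h => hn0 (emb_injective (by rw [h, map_zero]))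
  set w : ℂ := (emb n)⁻¹ with hw
  set w₀ : ℂ := -emb n / 4 with hw₀
  have hnn : emb n * conj (emb n) = Nr n := by
    rw [mul_conj, normSq_eq_norm_sq, norm_emb_sq]
  have hwN : normSq w = (Nr n)⁻¹ := by rw [hw, normSq_inv, normSq_eq_norm_sq, norm_emb_sq]
  have hcw : conj w = emb n / Nr n := by
    rw [hw, map_inv₀, ← hnn]
    field_simp
  set D : ℝ → ℝ := fun ε => ε ^ 2 + 4 * (Nr n)⁻¹ with hD
  have hD0 : ∀ ε, 0 < D ε := fun ε => by simp only [hD]; positivity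
  have hDc : Continuous D := by simp only [hD]; fun_prop
  -- the left-hand side
  have h1 : Tendsto (fun ε : ℝ => (ε : ℂ) * p3_th ε w) (𝓝[>] 0)
      (𝓝 ((Nr n : ℂ)⁻¹ * ∑ x ∈ reps n, eO (x ^ 2) n)) := by
    refine (p3_lim_per hn0 (fun x => eO (x ^ 2) n) (fun x y h => eO_congr ?_)
      fun x => (norm_eO _ _).le).congr fun ε => ?_
    · rw [sq_sub_sq]; exact h.mul_left _
    · simp only [p3_th, eO, map_pow, hw, div_eq_inv_mul]
  have hε' : Tendsto (fun ε : ℝ => ε / D ε) (𝓝[>] 0) (𝓝[>] 0) := by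
    refine tendsto_nhdsWithin_iff.2 ⟨?_, ?_⟩
    · have hc : Continuous fun ε : ℝ => ε / D ε := continuous_id.div hDc fun ε => (hD0 ε).ne'
      simpa using (hc.tendsto 0).mono_left (nhdsWithin_le_nhds (s := Set.Ioi 0))
    · filter_upwards [self_mem_nhdsWithin] with ε hε using div_pos hε (hD0 ε)
  have h2 : Tendsto (fun ε : ℝ => (ε : ℂ) * p3_th ε w₀) (𝓝[>] 0) (𝓝 (gam2 n / 2)) := by
    have h := p3_lim_per prime_two.ne_zero (fun y => eO (-(n * y ^ 2)) 4) (by
      rintro x y ⟨c, hc⟩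
      refine eO_congr ⟨-(n * (y * c + c ^ 2)), ?_⟩
      have : x = y + 2 * c := by linear_combination hc
      rw [this]
      ring) fun x => (norm_eO _ _).le
    have h4 : Nr 2 = 4 := by have := Nr_natCast 2; norm_num at this; exact this
    rw [p3_sum_two, h4] at h
    convert h using 2
    · rename_i ε
      simp only [p3_th, eO, map_neg, map_mul, map_pow, hw₀, map_ofNat]
      congr 1
      refine tsum_congr fun x => ?_
      congr 2
      ring
    · push_cast; ring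
  obtain ⟨K, hK⟩ := p3_th_sub
  have h3 : Tendsto (fun ε : ℝ => ((ε / D ε : ℝ) : ℂ) *
      (p3_th (ε / D ε) (-conj w / D ε) - p3_th (ε / D ε) w₀)) (𝓝[>] 0) (𝓝 0) := by
    have hc : Continuous fun ε : ℝ => K * ((ε ^ 2 + 2 * D ε * ε) / (4 * D ε)) * ‖emb n‖ := by
      refine (continuous_const.mul (Continuous.div (by fun_prop) (by fun_prop) fun ε => ?_)).mul
        continuous_const
      have := hD0 ε
      positivity
    have h := (hc.tendsto 0).mono_left (nhdsWithin_le_nhds (s := Set.Ioi 0))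
    simp only [ne_eq, OfNat.ofNat_ne_zero, not_false_eq_true, zero_pow, mul_zero, add_zero, zero_div,
      zero_mul] at h
    refine squeeze_zero_norm' ?_ h
    filter_upwards [self_mem_nhdsWithin] with ε hε
    have hε0 : (0 : ℝ) < ε := hε
    have hDε := hD0 ε
    rw [norm_mul, norm_real, Real.norm_of_nonneg (div_pos hε0 hDε).le]
    refine (hK _ (div_pos hε0 hDε) _ _).trans (le_of_eq ?_)
    have h5 : -conj w / D ε - w₀ = emb n * ((ε ^ 2 / (4 * D ε) : ℝ) : ℂ) := by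
      have hDC : (D ε : ℂ) ≠ 0 := by exact_mod_cast hDε.ne'
      have hDe : (D ε : ℂ) = (ε : ℂ) ^ 2 + 4 * (Nr n : ℂ)⁻¹ := by simp only [hD]; push_cast; rfl
      have : (ε : ℂ) ^ 2 = D ε - 4 * (Nr n : ℂ)⁻¹ := by rw [hDe]; ring
      rw [hcw, hw₀]
      push_cast
      rw [this]
      field_simp
      ring
    rw [h5, norm_mul, norm_real, Real.norm_of_nonneg (by positivity)]
    field_simp
  have h4 : Tendsto (fun ε : ℝ => (Real.sqrt (D ε) : ℂ)) (𝓝[>] 0) (𝓝 (Real.sqrt (D 0) : ℂ)) :=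
    ((continuous_ofReal.comp hDc.sqrt).tendsto 0).mono_left nhdsWithin_le_nhds
  have h5 := h4.mul ((h2.comp hε').add h3)
  have h6 : (Nr n : ℂ)⁻¹ * ∑ x ∈ reps n, eO (x ^ 2) n = (Real.sqrt (D 0) : ℂ) * (gam2 n / 2 + 0) := by
    refine tendsto_nhds_unique h1 (h5.congr' ?_)
    filter_upwards [self_mem_nhdsWithin] with ε hε
    have hDε := hD0 ε
    have hs : (Real.sqrt (D ε) : ℂ) ≠ 0 := by exact_mod_cast (Real.sqrt_pos.2 hDε).ne'
    have hss : (D ε : ℂ) = (Real.sqrt (D ε) : ℂ) * (Real.sqrt (D ε) : ℂ) := by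
      exact_mod_cast (Real.mul_self_sqrt hDε.le).symm
    rw [p3_th_transform hε w, hwN]
    change _ = (ε : ℂ) * ((Real.sqrt (D ε) : ℂ)⁻¹ * p3_th (ε / D ε) (-conj w / D ε))
    simp only [Function.comp]
    generalize p3_th (ε / D ε) (-conj w / D ε) = P
    generalize p3_th (ε / D ε) w₀ = Q
    push_cast
    generalize (Real.sqrt (D ε) : ℂ) = r at hs hss
    rw [hss]
    field_simp
    ring
  have h7 : Real.sqrt (D 0) = 2 / Real.sqrt (Nr n) := by
    have hs := Real.sqrt_pos.2 hN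
    rw [Real.sqrt_eq_iff_mul_self_eq (hD0 0).le (by positivity), div_mul_div_comm,
      Real.mul_self_sqrt hN.le]
    simp only [hD]
    ring
  have hs : (Real.sqrt (Nr n) : ℂ) ≠ 0 := by exact_mod_cast (Real.sqrt_pos.2 hN).ne'
  have hss : (Nr n : ℂ) = (Real.sqrt (Nr n) : ℂ) * (Real.sqrt (Nr n) : ℂ) := by
    exact_mod_cast (Real.mul_self_sqrt hN.le).symm
  rw [h7, inv_mul_eq_iff_eq_mul₀ hNC] at h6
  rw [h6]
  push_cast
  generalize (Real.sqrt (Nr n) : ℂ) = r at hs hss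
  rw [hss]
  field_simp
  ring

end Crest.Agent.R017

end
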