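import Crest.Agent.R017.Gauss

/-! # Row 17: Gaussian Poisson summation on `O` -/

set_option autoImplicit false

noncomputable section

open scoped BigOperators ComplexConjugate
open Complex

namespace Crest.Agent.R017

/-- The self-dual Gaussian constant `2π/√3`. -/
def c0 : ℝ := 2 * Real.pi / Real.sqrt 3

/-- The Gaussian as a function of the norm. -/
def Phi (y : ℝ) : ℝ := Real.exp (-(c0 * y))

theorem c0_pos : 0 < c0 := by unfold c0; have := Real.pi_pos; positivity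
theorem Phi_pos (y : ℝ) : 0 < Phi y := Real.exp_pos _
theorem Phi_le_one {y : ℝ} (hy : 0 ≤ y) : Phi y ≤ 1 :=
  Real.exp_le_one_iff.2 (neg_nonpos.2 (mul_nonneg c0_pos.le hy))
theorem Phi_le_rpow {A : ℝ} (hA : 0 ≤ A) : ∃ C : ℝ, ∀ y : ℝ, 0 < y → Phi y ≤ C * y ^ (-A) := by
  have hc := c0_pos
  set n := ⌈A⌉₊ with hn
  have hC : 0 ≤ (n.factorial : ℝ) / c0 ^ n := by positivity
  refine ⟨1 + n.factorial / c0 ^ n, fun y hy => ?_⟩
  have hyA : 0 < y ^ A := Real.rpow_pos_of_pos hy A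
  rw [Real.rpow_neg hy.le, ← div_eq_mul_inv, le_div_iff₀ hyA]
  rcases le_total y 1 with h | h
  · have h1 : y ^ A ≤ 1 := Real.rpow_le_one hy.le h hA
    have h2 : Phi y * y ^ A ≤ 1 := mul_le_one₀ (Phi_le_one hy.le) hyA.le h1
    linarith
  · have h1 : y ^ A ≤ y ^ n := by
      rw [← Real.rpow_natCast]
      exact Real.rpow_le_rpow_of_exponent_le h (Nat.le_ceil A)
    have h2 := Real.pow_div_factorial_le_exp (c0 * y) (by positivity) n
    have h3 : Phi y * y ^ n ≤ n.factorial / c0 ^ n := by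
      rw [div_le_iff₀ (by positivity), mul_pow] at h2
      rw [Phi, Real.exp_neg, le_div_iff₀ (by positivity), mul_assoc, inv_mul_le_iff₀ (by positivity)]
      linarith
    have h4 : Phi y * y ^ A ≤ Phi y * y ^ n := mul_le_mul_of_nonneg_left h1 (Phi_pos y).le
    linarith

/-- `exp (-π r + 2 π i θ)` -/
def p1_g (r θ : ℝ) : ℂ := cexp (-(Real.pi * r) + 2 * Real.pi * I * θ)

theorem p1_g_mul (r θ r' θ' : ℝ) : p1_g r θ * p1_g r' θ' = p1_g (r + r') (θ + θ') := by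
  unfold p1_g; rw [← Complex.exp_add]; congr 1; push_cast; ring

theorem p1_g_norm (r θ : ℝ) : ‖p1_g r θ‖ = Real.exp (-(Real.pi * r)) := by
  unfold p1_g; rw [Complex.norm_exp]; congr 1; simp

theorem p1_sum1 {c : ℝ} (hc : 0 < c) (s : ℝ) :
    Summable fun n : ℤ => Real.exp (-(Real.pi * (c * (n + s) ^ 2))) := by
  have hp := Real.pi_pos
  have h0 : Summable fun n : ℕ => Real.exp (n * (-(Real.pi * c))) :=
    Real.summable_exp_nat_mul_iff.2 (by nlinarith)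
  have h1 : Summable fun n : ℤ => Real.exp (|(n : ℝ)| * (-(Real.pi * c))) :=
    Summable.of_nat_of_neg (by simpa using h0) (by simpa using h0)
  refine Summable.of_nonneg_of_le (fun _ => (Real.exp_pos _).le) (fun n => ?_)
    (h1.mul_left (Real.exp (Real.pi * c * (|s| + 1))))
  rw [← Real.exp_add]
  refine Real.exp_le_exp.2 ?_
  have h2 : |(n : ℝ)| ≤ |n + s| + |s| := by
    simpa using abs_sub (n + s : ℝ) s
  have h3 : |(n : ℝ) + s| ≤ (n + s) ^ 2 + 1 := by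
    rw [← sq_abs]; nlinarith [sq_nonneg (|(n : ℝ) + s| - 1)]
  have h4 : Real.pi * c * |(n : ℝ)| ≤ Real.pi * c * ((n + s) ^ 2 + (|s| + 1)) := by
    gcongr; linarith
  linarith

theorem p1_sum2 {c : ℝ} (hc : 0 < c) (s₁ s₂ : ℝ) {r θ : ℤ × ℤ → ℝ}
    (h : ∀ p : ℤ × ℤ, c * (p.1 + s₁) ^ 2 + c * (p.2 + s₂) ^ 2 ≤ r p) :
    Summable fun p => p1_g (r p) (θ p) := by
  have := (p1_sum1 hc s₁).mul_of_nonneg (p1_sum1 hc s₂) (fun _ => (Real.exp_pos _).le)
    fun _ => (Real.exp_pos _).le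
  refine Summable.of_norm_bounded this fun p => ?_
  rw [p1_g_norm, ← Real.exp_add]
  refine Real.exp_le_exp.2 ?_
  have := mul_le_mul_of_nonneg_left (h p) Real.pi_pos.le
  linarith

theorem p1_one {t : ℝ} (ht : 0 < t) (s α : ℝ) :
    ∑' a : ℤ, p1_g (t * (a + s) ^ 2) (α * a) =
      ((Real.sqrt t)⁻¹ : ℝ) * ∑' m : ℤ, p1_g ((m - α) ^ 2 / t) (s * (m - α)) := by
  have h := Complex.tsum_exp_neg_quadratic (a := t) (by simpa using ht) (-(t * s) + I * α)
  have ht' : (t : ℂ) ≠ 0 := by exact_mod_cast ht.ne'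
  have e1 : ∀ a : ℤ, p1_g (t * (a + s) ^ 2) (α * a) = cexp (-(Real.pi * t * s ^ 2)) *
      cexp (-Real.pi * t * a ^ 2 + 2 * Real.pi * (-(t * s) + I * α) * a) := fun a => by
    unfold p1_g; rw [← Complex.exp_add]; congr 1; push_cast; ring
  have e2 : ∀ m : ℤ, p1_g ((m - α) ^ 2 / t) (s * (m - α)) = cexp (-(Real.pi * t * s ^ 2)) *
      cexp (-Real.pi / t * (m + I * (-(t * s) + I * α)) ^ 2) := fun m => by
    unfold p1_g; rw [← Complex.exp_add]; congr 1; push_cast; field_simp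
    linear_combination (2 * (m : ℂ) * α + t ^ 2 * s ^ 2 - 2 * I * t * s * α +
      (I ^ 2 - 1) * α ^ 2) * Complex.I_sq
  have e3 : (1 : ℂ) / (t : ℂ) ^ (1 / 2 : ℂ) = ((Real.sqrt t)⁻¹ : ℝ) := by
    rw [Real.sqrt_eq_rpow, Complex.ofReal_inv, Complex.ofReal_cpow ht.le, one_div]
    push_cast; rfl
  simp only [e1, e2]
  rw [tsum_mul_left, tsum_mul_left, h, e3]
  ring

theorem p1_two {t : ℝ} (ht : 0 < t) (z₁ z₂ α β : ℝ) :
    ∑' p : ℤ × ℤ, p1_g (t * ((p.2 + z₁) ^ 2 - (p.2 + z₁) * (p.1 + z₂) + (p.1 + z₂) ^ 2))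
        (α * p.2 + β * p.1) =
      ((2 / (Real.sqrt 3 * t) : ℝ) : ℂ) * ∑' q : ℤ × ℤ,
        p1_g (4 / (3 * t) * ((q.1 - α) ^ 2 + (q.1 - α) * (q.2 - β) + (q.2 - β) ^ 2))
          (z₁ * (q.1 - α) + z₂ * (q.2 - β)) := by
  have ht3 : 0 < 3 * t / 4 := by positivity
  have s1 : Summable fun p : ℤ × ℤ =>
      p1_g (t * ((p.2 + z₁) ^ 2 - (p.2 + z₁) * (p.1 + z₂) + (p.1 + z₂) ^ 2)) (α * p.2 + β * p.1) :=
    p1_sum2 (half_pos ht) z₂ z₁ fun p => by
      nlinarith [mul_nonneg ht.le (sq_nonneg ((p.2 + z₁) - (p.1 + z₂)))]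
  have s3 : Summable fun q : ℤ × ℤ =>
      p1_g (4 / (3 * t) * ((q.1 - α) ^ 2 + (q.1 - α) * (q.2 - β) + (q.2 - β) ^ 2))
        (z₁ * (q.1 - α) + z₂ * (q.2 - β)) := by
    have hc : 0 < 4 / (3 * t) := by positivity
    refine p1_sum2 (half_pos hc) (-α) (-β) fun p => ?_
    nlinarith [mul_nonneg hc.le (sq_nonneg ((p.1 - α) + (p.2 - β)))]
  have s2 : Summable fun p : ℤ × ℤ =>
      p1_g (3 * t / 4 * (p.1 + z₂) ^ 2 + (p.2 - α) ^ 2 / t)
        (β * p.1 + (z₁ - (p.1 + z₂) / 2) * (p.2 - α)) := by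
    refine p1_sum2 (lt_min ht3 (inv_pos.2 ht)) z₂ (-α) fun p => ?_
    rw [div_eq_inv_mul _ t, ← sub_eq_add_neg]
    gcongr
    · exact min_le_left _ _
    · exact min_le_right _ _
  have e1 : ∀ b : ℤ, ∑' a : ℤ, p1_g (t * ((a + z₁) ^ 2 - (a + z₁) * (b + z₂) + (b + z₂) ^ 2))
      (α * a + β * b) = ((Real.sqrt t)⁻¹ : ℝ) * ∑' m : ℤ,
        p1_g (3 * t / 4 * (b + z₂) ^ 2 + (m - α) ^ 2 / t)
          (β * b + (z₁ - (b + z₂) / 2) * (m - α)) := fun b => by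
    have : ∀ a : ℤ, p1_g (t * ((a + z₁) ^ 2 - (a + z₁) * (b + z₂) + (b + z₂) ^ 2))
        (α * a + β * b) = p1_g (3 * t / 4 * (b + z₂) ^ 2) (β * b) *
          p1_g (t * (a + (z₁ - (b + z₂) / 2)) ^ 2) (α * a) := fun a => by
      rw [p1_g_mul]; congr 1 <;> ring
    simp only [this, ← p1_g_mul]
    rw [tsum_mul_left, tsum_mul_left, p1_one ht]
    ring
  have e2 : ∀ m : ℤ, ∑' b : ℤ, p1_g (3 * t / 4 * (b + z₂) ^ 2 + (m - α) ^ 2 / t)
      (β * b + (z₁ - (b + z₂) / 2) * (m - α)) = ((Real.sqrt (3 * t / 4))⁻¹ : ℝ) * ∑' k : ℤ,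
        p1_g (4 / (3 * t) * ((m - α) ^ 2 + (m - α) * (k - β) + (k - β) ^ 2))
          (z₁ * (m - α) + z₂ * (k - β)) := fun m => by
    have a1 : ∀ b : ℤ, p1_g (3 * t / 4 * (b + z₂) ^ 2 + (m - α) ^ 2 / t)
        (β * b + (z₁ - (b + z₂) / 2) * (m - α)) =
          p1_g ((m - α) ^ 2 / t) ((z₁ - z₂ / 2) * (m - α)) *
            p1_g (3 * t / 4 * (b + z₂) ^ 2) ((β - (m - α) / 2) * b) := fun b => by
      rw [p1_g_mul]; congr 1 <;> ring
    have a2 : ∀ k : ℤ, p1_g (4 / (3 * t) * ((m - α) ^ 2 + (m - α) * (k - β) + (k - β) ^ 2))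
        (z₁ * (m - α) + z₂ * (k - β)) = p1_g ((m - α) ^ 2 / t) ((z₁ - z₂ / 2) * (m - α)) *
          p1_g ((k - (β - (m - α) / 2)) ^ 2 / (3 * t / 4)) (z₂ * (k - (β - (m - α) / 2))) :=
      fun k => by
        rw [p1_g_mul]; congr 1
        · field_simp; ring
        · ring
    simp only [a1, a2]
    rw [tsum_mul_left, tsum_mul_left, p1_one ht3]
    ring
  have e3 : (Real.sqrt t)⁻¹ * (Real.sqrt (3 * t / 4))⁻¹ = 2 / (Real.sqrt 3 * t) := by
    have h4 : Real.sqrt 4 = 2 := by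
      rw [show (4 : ℝ) = 2 ^ 2 by norm_num, Real.sqrt_sq (by norm_num)]
    have hs := Real.sqrt_pos.2 ht
    rw [Real.sqrt_div (by positivity), Real.sqrt_mul (by norm_num), h4]
    field_simp
    exact (Real.sq_sqrt ht.le).symm
  rw [s1.tsum_prod, s3.tsum_prod]
  simp only [e1]
  rw [tsum_mul_left, ← s2.tsum_comm]
  simp only [e2]
  rw [tsum_mul_left, ← mul_assoc, ← Complex.ofReal_mul, e3]

theorem p1_coord (z : ℂ) : ∃ u v : ℝ, z = u + v * omC := by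
  have h : Real.sqrt 3 ≠ 0 := by positivity
  refine ⟨z.re + z.im / Real.sqrt 3, 2 * z.im / Real.sqrt 3, Complex.ext ?_ ?_⟩
  · simp only [omC, add_re, ofReal_re, mul_re, ofReal_im]; ring
  · simp only [omC, add_im, ofReal_re, mul_im, ofReal_im]; field_simp; ring

theorem p1_norm (u v : ℝ) : ‖(u : ℂ) + v * omC‖ ^ 2 = u ^ 2 - u * v + v ^ 2 := by
  have h : Real.sqrt 3 * Real.sqrt 3 = 3 := Real.mul_self_sqrt (by norm_num)
  rw [Complex.sq_norm, Complex.normSq_apply]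
  simp only [omC, add_re, add_im, ofReal_re, mul_re, mul_im, ofReal_im]
  linear_combination (v ^ 2 / 4) * h

theorem p1_term (y u v : ℝ) :
    (Phi y : ℂ) * ec (u + v * omC) = p1_g (2 / Real.sqrt 3 * y) v := by
  have h : Real.sqrt 3 ≠ 0 := by positivity
  have e : 2 / Real.sqrt 3 * ((u : ℂ) + v * omC).im = v := by
    simp only [omC, add_im, ofReal_re, mul_im, ofReal_im]; field_simp; ring
  rw [ec, e, Phi, Complex.ofReal_exp, ← Complex.exp_add, p1_g, c0]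
  congr 1; push_cast; ring

theorem p1_mul (u v u' v' : ℝ) : ((u : ℂ) + v * omC) * (u' + v' * omC) =
    ((u * u' - v * v' : ℝ) : ℂ) + ((u * v' + v * u' - v * v' : ℝ) : ℂ) * omC := by
  push_cast
  linear_combination ((v : ℂ) * v') * omC_sq

theorem p1_emb (x : O) : emb x = ((x.re : ℝ) : ℂ) + ((x.im : ℝ) : ℂ) * omC := by
  simp [emb]

/-- `(b, a) ↦ a + b ω` -/
def p1_e1 : ℤ × ℤ ≃ O where
  toFun p := ⟨p.2, p.1⟩
  invFun x := (x.im, x.re)
  left_inv _ := rfl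
  right_inv _ := rfl

/-- `(m, k) ↦ (k + m) + m ω` -/
def p1_e2 : ℤ × ℤ ≃ O where
  toFun q := ⟨q.2 + q.1, q.1⟩
  invFun x := (x.im, x.re - x.im)
  left_inv q := by simp
  right_inv x := by ext <;> simp

theorem p1_summable {R : ℝ} (hR : 0 < R) (z : ℂ) :
    Summable fun x : O => Phi (‖emb x + z‖ ^ 2 / R) := by
  obtain ⟨z₁, z₂, rfl⟩ := p1_coord z
  have h3 : 0 < Real.sqrt 3 := by positivity
  have ht : 0 < 2 / Real.sqrt 3 / R := by positivity
  rw [← p1_e1.summable_iff]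
  have := p1_sum2 (half_pos ht) z₂ z₁ (θ := fun _ => 0) (r := fun p => 2 / Real.sqrt 3 / R *
    ((p.2 + z₁) ^ 2 - (p.2 + z₁) * (p.1 + z₂) + (p.1 + z₂) ^ 2)) fun p => by
      nlinarith [mul_nonneg ht.le (sq_nonneg ((p.2 + z₁) - (p.1 + z₂)))]
  refine this.norm.congr fun p => ?_
  have e : emb (p1_e1 p) + (z₁ + z₂ * omC) = ((p.2 + z₁ : ℝ) : ℂ) + ((p.1 + z₂ : ℝ) : ℂ) * omC := by
    rw [p1_emb]; simp only [p1_e1, Equiv.coe_fn_mk]; push_cast; ring
  rw [p1_g_norm, Function.comp_apply, e, p1_norm, Phi, c0]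
  congr 1; ring

theorem summable_Phi {R : ℝ} (hR : 0 < R) (A : ℝ) (z : ℂ) :
    Summable (fun x : O => Nr x ^ A * Phi (‖emb x + z‖ ^ 2 / R)) := by
  have hc := c0_pos
  obtain ⟨C, hC⟩ := Phi_le_rpow (le_max_right A 0)
  set B := max A 0 with hB
  have hC0 : 0 ≤ C := by
    have := (Phi_pos 1).le.trans (hC 1 one_pos)
    simpa using this
  have key : ∀ x : O, Nr x ^ A * Phi (Nr x / (4 * R)) ≤ 1 + C * (4 * R) ^ B := by
    intro x
    have h0 : 0 ≤ C * (4 * R) ^ B := by positivity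
    by_cases hx : x = 0
    · rw [hx, Nr_zero, zero_div]
      have : (0 : ℝ) ^ A * Phi 0 ≤ 1 :=
        mul_le_one₀ (Real.zero_rpow_le_one A) (Phi_pos 0).le (Phi_le_one le_rfl)
      linarith
    · have h1 := one_le_Nr hx
      have h2 : Nr x ^ A ≤ Nr x ^ B := Real.rpow_le_rpow_of_exponent_le h1 (le_max_left _ _)
      have h3 := hC (Nr x / (4 * R)) (by positivity)
      have h4 : Nr x ^ B * (C * (Nr x / (4 * R)) ^ (-B)) = C * (4 * R) ^ B := by
        have : 0 < Nr x ^ B := by positivity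
        rw [Real.rpow_neg (by positivity), Real.div_rpow (by positivity) (by positivity)]
        field_simp
      have h5 : Nr x ^ A * Phi (Nr x / (4 * R)) ≤ Nr x ^ B * (C * (Nr x / (4 * R)) ^ (-B)) :=
        mul_le_mul h2 h3 (Phi_pos _).le (by positivity)
      linarith
  refine Summable.of_nonneg_of_le
    (fun x => mul_nonneg (Real.rpow_nonneg (Nr_nonneg x) A) (Phi_pos _).le) (fun x => ?_)
    ((p1_summable (R := 2 * R) (by positivity) z).mul_left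
      ((1 + C * (4 * R) ^ B) * Phi (-(‖z‖ ^ 2 / (2 * R)))))
  have h1 : Nr x ≤ 2 * ‖emb x + z‖ ^ 2 + 2 * ‖z‖ ^ 2 := by
    have h2 : ‖emb x‖ ≤ ‖emb x + z‖ + ‖z‖ := by simpa using norm_sub_le (emb x + z) z
    rw [← norm_emb_sq]
    nlinarith [norm_nonneg (emb x), sq_nonneg (‖emb x + z‖ - ‖z‖)]
  have h2 : Phi (‖emb x + z‖ ^ 2 / R) ≤ Phi (Nr x / (4 * R)) *
      (Phi (-(‖z‖ ^ 2 / (2 * R))) * Phi (‖emb x + z‖ ^ 2 / (2 * R))) := by
    simp only [Phi, ← Real.exp_add]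
    refine Real.exp_le_exp.2 ?_
    have h3 : Nr x / (4 * R) ≤ (2 * ‖emb x + z‖ ^ 2 + 2 * ‖z‖ ^ 2) / (4 * R) := by gcongr
    have h4 : (2 * ‖emb x + z‖ ^ 2 + 2 * ‖z‖ ^ 2) / (4 * R) =
        ‖emb x + z‖ ^ 2 / R - ‖emb x + z‖ ^ 2 / (2 * R) + ‖z‖ ^ 2 / (2 * R) := by
      field_simp; ring
    have h5 := mul_le_mul_of_nonneg_left (h3.trans h4.le) hc.le
    linarith
  calc Nr x ^ A * Phi (‖emb x + z‖ ^ 2 / R) ≤ Nr x ^ A * (Phi (Nr x / (4 * R)) *
        (Phi (-(‖z‖ ^ 2 / (2 * R))) * Phi (‖emb x + z‖ ^ 2 / (2 * R)))) :=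
        mul_le_mul_of_nonneg_left h2 (Real.rpow_nonneg (Nr_nonneg x) A)
    _ = Nr x ^ A * Phi (Nr x / (4 * R)) *
        (Phi (-(‖z‖ ^ 2 / (2 * R))) * Phi (‖emb x + z‖ ^ 2 / (2 * R))) := by ring
    _ ≤ (1 + C * (4 * R) ^ B) *
        (Phi (-(‖z‖ ^ 2 / (2 * R))) * Phi (‖emb x + z‖ ^ 2 / (2 * R))) :=
        mul_le_mul_of_nonneg_right (key x) (mul_pos (Phi_pos _) (Phi_pos _)).le
    _ = _ := by ring

theorem p1_gauss {R : ℝ} (hR : 0 < R) (z w : ℂ) :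
    ∑' x : O, (Phi (‖emb x + z‖ ^ 2 / R) : ℂ) * ec (emb x * w) =
      (R : ℂ) * ∑' h : O, (Phi (R * ‖emb h - w‖ ^ 2) : ℂ) * ec ((emb h - w) * z) := by
  obtain ⟨z₁, z₂, rfl⟩ := p1_coord z
  obtain ⟨w₁, w₂, rfl⟩ := p1_coord w
  have h3 : 0 < Real.sqrt 3 := by positivity
  have h33 : Real.sqrt 3 ^ 2 = 3 := Real.sq_sqrt (by norm_num)
  have ht : 0 < 2 / Real.sqrt 3 / R := by positivity
  have e0 : 2 / (Real.sqrt 3 * (2 / Real.sqrt 3 / R)) = R := by field_simp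
  have e0' : 4 / (3 * (2 / Real.sqrt 3 / R)) = 2 / Real.sqrt 3 * R := by
    field_simp; linarith
  have h := p1_two ht z₁ z₂ w₂ (w₁ - w₂)
  rw [e0, e0'] at h
  rw [← p1_e1.tsum_eq, ← p1_e2.tsum_eq]
  convert h using 2
  · ext p
    have e : emb (p1_e1 p) + (z₁ + z₂ * omC) =
        ((p.2 + z₁ : ℝ) : ℂ) + ((p.1 + z₂ : ℝ) : ℂ) * omC := by
      rw [p1_emb]; simp only [p1_e1, Equiv.coe_fn_mk]; push_cast; ring
    rw [e, p1_norm, p1_emb, p1_mul, p1_term]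
    simp only [p1_e1, Equiv.coe_fn_mk]
    congr 1 <;> ring
  · congr 1
    ext q
    have e : emb (p1_e2 q) - (w₁ + w₂ * omC) =
        ((q.2 + q.1 - w₁ : ℝ) : ℂ) + ((q.1 - w₂ : ℝ) : ℂ) * omC := by
      rw [p1_emb]; simp only [p1_e2, Equiv.coe_fn_mk]; push_cast; ring
    rw [e, p1_norm, p1_mul, p1_term]
    congr 1 <;> ring

theorem p1_ec_zero : ec 0 = 1 := by simp [ec]

theorem p1_summable0 {R : ℝ} (hR : 0 < R) : Summable fun x : O => Phi (Nr x / R) := by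
  simpa only [add_zero, norm_emb_sq] using p1_summable hR 0

theorem p1_summable0' {R : ℝ} (hR : 0 < R) : Summable fun x : O => Phi (R * Nr x) := by
  simpa only [div_inv_eq_mul, mul_comm] using p1_summable0 (inv_pos.2 hR)

theorem p1_anti {x y : ℝ} (h : x ≤ y) : Phi y ≤ Phi x :=
  Real.exp_le_exp.2 (neg_le_neg (mul_le_mul_of_nonneg_left h c0_pos.le))

theorem tsum_Phi_le : ∃ C : ℝ, ∀ R : ℝ, 0 < R → ∑' x : O, Phi (Nr x / R) ≤ C * (1 + R) := by
  have s1 : Summable fun x : O => Phi (Nr x) := by simpa using p1_summable0 one_pos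
  have h0 : 0 ≤ ∑' x : O, Phi (Nr x) := tsum_nonneg fun _ => (Phi_pos _).le
  refine ⟨∑' x : O, Phi (Nr x), fun R hR => ?_⟩
  rcases le_total R 1 with h | h
  · have : ∑' x : O, Phi (Nr x / R) ≤ ∑' x : O, Phi (Nr x) :=
      (p1_summable0 hR).tsum_le_tsum (fun x => p1_anti (le_div_self (Nr_nonneg x) hR h)) s1
    nlinarith
  · have h1 := p1_gauss hR 0 0
    simp only [add_zero, sub_zero, mul_zero, p1_ec_zero, mul_one, norm_emb_sq] at h1
    have h2 : ∑' x : O, Phi (Nr x / R) = R * ∑' x : O, Phi (R * Nr x) := by exact_mod_cast h1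
    have h3 : ∑' x : O, Phi (R * Nr x) ≤ ∑' x : O, Phi (Nr x) :=
      (p1_summable0' hR).tsum_le_tsum
        (fun x => p1_anti (le_mul_of_one_le_left (Nr_nonneg x) h)) s1
    rw [h2]
    nlinarith

/-- Poisson summation for shifted and modulated Gaussians. -/
theorem poisson_gauss {R : ℝ} (hR : 0 < R) (z w : ℂ) :
    ∑' x : O, (Phi (‖emb x + z‖ ^ 2 / R) : ℂ) * ec (emb x * w) =
      (R : ℂ) * ∑' h : O, (Phi (R * ‖emb h - w‖ ^ 2) : ℂ) * ec ((emb h - w) * z) :=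
  p1_gauss hR z w

/-- Poisson summation for a periodic function against the Gaussian. -/
theorem poisson_per {R : ℝ} (hR : 0 < R) {n : O} (hn : n ≠ 0) (f : O → ℂ)
    (hf : ∀ x y, n ∣ x - y → f x = f y) :
    ∑' x : O, (Phi (Nr x / R) : ℂ) * f x =
      ((R / Nr n : ℝ) : ℂ) * ∑' h : O, gs f n h * (Phi (R * Nr h / Nr n) : ℂ) := by
  have hN := Nr_pos hn
  have hR' : 0 < R / Nr n := by positivity
  have hne : emb n ≠ 0 := fun h => hn (emb_injective (h.trans (map_zero emb).symm))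
  have hb : ∀ x, ‖f x‖ ≤ ∑ a ∈ reps n, ‖f a‖ := fun x => by
    obtain ⟨a, ⟨ha, ha'⟩, -⟩ := reps_existsUnique hn x
    rw [← hf a x ha']
    exact Finset.single_le_sum (f := fun a => ‖f a‖) (fun _ _ => norm_nonneg _) ha
  have s1 : Summable fun x : O => (Phi (Nr x / R) : ℂ) * f x := by
    refine Summable.of_norm_bounded ((p1_summable0 hR).mul_right (∑ a ∈ reps n, ‖f a‖))
      fun x => ?_
    rw [norm_mul, Complex.norm_real, Real.norm_of_nonneg (Phi_pos _).le]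
    exact mul_le_mul_of_nonneg_left (hb x) (Phi_pos _).le
  have s2 : ∀ a : O, Summable fun h : O =>
      f a * eO (h * a) n * (Phi (R * Nr h / Nr n) : ℂ) := fun a => by
    refine Summable.of_norm_bounded ((p1_summable0' hR').mul_left ‖f a‖) fun h => ?_
    rw [norm_mul, norm_mul, norm_eO, mul_one, Complex.norm_real,
      Real.norm_of_nonneg (Phi_pos _).le, div_mul_eq_mul_div]
  have e1 : ∀ a : O, ∑' y : O, (Phi (Nr (a + n * y) / R) : ℂ) * f (a + n * y) =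
      ((R / Nr n : ℝ) : ℂ) * ∑' h : O, f a * eO (h * a) n * (Phi (R * Nr h / Nr n) : ℂ) := by
    intro a
    have h := p1_gauss hR' (emb a / emb n) 0
    simp only [sub_zero, mul_zero, p1_ec_zero, mul_one, norm_emb_sq] at h
    have a1 : ∀ y : O, (Phi (Nr (a + n * y) / R) : ℂ) * f (a + n * y) =
        f a * (Phi (‖emb y + emb a / emb n‖ ^ 2 / (R / Nr n)) : ℂ) := fun y => by
      have b1 : emb y + emb a / emb n = emb (a + n * y) / emb n := by
        rw [map_add, map_mul]; field_simp; ring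
      rw [hf (a + n * y) a ⟨y, by ring⟩, b1, norm_div, div_pow, norm_emb_sq, norm_emb_sq, mul_comm]
      congr 3
      field_simp
    have a2 : ∀ h : O, f a * eO (h * a) n * (Phi (R * Nr h / Nr n) : ℂ) =
        f a * ((Phi (R / Nr n * Nr h) : ℂ) * ec (emb h * (emb a / emb n))) := fun h => by
      rw [eO, map_mul, mul_div_assoc, div_mul_eq_mul_div]
      ring
    simp only [a1, a2]
    rw [tsum_mul_left, tsum_mul_left, h]
    ring
  rw [tsum_eq_sum_reps hn _ s1]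
  simp only [e1]
  rw [← Finset.mul_sum, ← Summable.tsum_finsetSum fun a _ => s2 a]
  simp only [gs, Finset.sum_mul]

end Crest.Agent.R017

end
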