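import Crest.Agent.R017.Recip2

/-! # Row 17, quadratic large sieve: definitions and elementary tools -/

set_option autoImplicit false

noncomputable section

open scoped BigOperators ComplexConjugate
open Complex MeasureTheory

namespace Crest.Agent.R017

open Classical in
/-- Odd primary squarefree elements of norm at most `Y`. -/
def obox (Y : ℝ) : Finset O := (box Y).filter (fun n => Prim n ∧ Squarefree n ∧ ¬ (2 : O) ∣ n)

open Classical in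
/-- All squarefree elements of norm at most `Y`. -/
def sqb (Y : ℝ) : Finset O := (box Y).filter (fun v => Squarefree v)

/-- `ℓ²` mass of the coefficients. -/
def q_l2 (Y : ℝ) (b : O → ℂ) : ℝ := ∑ n ∈ obox Y, ‖b n‖ ^ 2

/-- The row sum `∑ b(n) (v / n)`. -/
def q_row (Y : ℝ) (b : O → ℂ) (v : O) : ℂ := ∑ n ∈ obox Y, b n * rho n v

open Classical in
/-- The bilinear form over coprime pairs with kernel `K (n₁ n₂)`. -/
def q_form (Y : ℝ) (b₁ b₂ K : O → ℂ) : ℂ :=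
  ∑ n₁ ∈ obox Y, ∑ n₂ ∈ obox Y, if IsCoprime n₁ n₂ then b₁ n₁ * b₂ n₂ * K (n₁ * n₂) else 0

/-- Kernels whose weight only depends on the row `v` and the divisor `e`. -/
def q_ker (S : Finset O) (ω : O → O → ℂ) (q : O) : ℂ :=
  ∑ v ∈ S, rho q v * ∑ e ∈ pdiv q, ω v e

open Classical in
/-- The coefficients on the multiples of `g`. -/
def q_sh (X : ℝ) (a : O → ℂ) (g n : O) : ℂ := if g * n ∈ obox X then a (g * n) else 0

/-- `∑_{w ≠ 0} Φ(N(w)² / T)`. -/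
def q_Th (T : ℝ) : ℝ := ∑' w : O, if w = 0 then 0 else Phi (Nr w ^ 2 / T)

/-- The constant of the main term of `q_Th` (its value is irrelevant). -/
def q_c : ℂ := (Real.sqrt (c0 / (4 * Real.pi)) : ℂ) *
  ∫ t : ℝ, Complex.exp (c0 * (1 + t * I) ^ 2 / 4) / (1 + t * I)

/-- The error term of `q_Th`. -/
def q_E (T : ℝ) : ℂ := (q_Th T : ℂ) - q_c * (Real.sqrt T : ℂ)

/-- The error term of the sum over `w` prime to `q`. -/
def q_Eq (q : O) (T : ℝ) : ℂ := ∑ e ∈ pdiv q, mu e * q_E (T / Nr e ^ 2)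

open Classical in
/-- The weight on pairs `(v, w)` (standing for `m = v w²`, `v` squarefree of norm `> V`). -/
def q_wt (R V : ℝ) (p : O × O) : ℝ :=
  if Squarefree p.1 ∧ V < Nr p.1 ∧ p.2 ≠ 0 then Phi (Nr (p.1 * p.2 ^ 2) / R) else 0

/-- The character sum over `m = v w²` with squarefree kernel of norm `> V`. -/
def q_G (q : O) (R V : ℝ) : ℂ := ∑' p : O × O, (q_wt R V p : ℂ) * rho q (p.1 * p.2 ^ 2)

/-- The large sieve bound for squarefree rows of norm `≤ V`, used as induction hypothesis. -/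
def q_Hyp (κ ξ V N : ℝ) : Prop :=
  ∀ (V' Y : ℝ) (b : O → ℂ), 1 ≤ V' → V' ≤ V → 1 ≤ Y → Y ≤ N →
    ∑ v ∈ sqb V', ‖q_row Y b v‖ ^ 2 ≤ κ * (Y + V' ^ ξ) * q_l2 Y b

/-- The large sieve inequality with exponent `ξ`. -/
def q_P (ξ : ℝ) : Prop :=
  ∀ ε : ℝ, 0 < ε → ∃ C : ℝ, 0 ≤ C ∧ ∀ (M N : ℝ) (b : O → ℂ), 1 ≤ M → 1 ≤ N →
    ∑ m ∈ obox M, ‖q_row N b m‖ ^ 2 ≤ C * (M * N) ^ ε * (M + N ^ ξ) * q_l2 N b

theorem mem_obox {Y : ℝ} {n : O} :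
    n ∈ obox Y ↔ Prim n ∧ Squarefree n ∧ ¬ (2 : O) ∣ n ∧ Nr n ≤ Y := by
  classical
  simp only [obox, Finset.mem_filter, mem_box]
  exact ⟨fun h => ⟨h.2.1, h.2.2.1, h.2.2.2, h.1.2⟩,
    fun h => ⟨⟨h.1.ne_zero, h.2.2.2⟩, h.1, h.2.1, h.2.2.1⟩⟩

theorem mem_sqb {Y : ℝ} {v : O} : v ∈ sqb Y ↔ Squarefree v ∧ Nr v ≤ Y := by
  classical
  simp only [sqb, Finset.mem_filter, mem_box]
  exact ⟨fun h => ⟨h.2, h.1.2⟩, fun h => ⟨⟨h.1.ne_zero, h.2⟩, h.1⟩⟩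

theorem obox_mono {Y Z : ℝ} (h : Y ≤ Z) : obox Y ⊆ obox Z := fun _ hn =>
  mem_obox.2 ⟨(mem_obox.1 hn).1, (mem_obox.1 hn).2.1, (mem_obox.1 hn).2.2.1,
    (mem_obox.1 hn).2.2.2.trans h⟩

theorem sqb_mono {Y Z : ℝ} (h : Y ≤ Z) : sqb Y ⊆ sqb Z := fun _ hn =>
  mem_sqb.2 ⟨(mem_sqb.1 hn).1, (mem_sqb.1 hn).2.trans h⟩

theorem obox_subset_sqb (Y : ℝ) : obox Y ⊆ sqb Y := fun _ hn =>
  mem_sqb.2 ⟨(mem_obox.1 hn).2.1, (mem_obox.1 hn).2.2.2⟩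

theorem obox_subset_box (Y : ℝ) : obox Y ⊆ box Y := by
  classical exact Finset.filter_subset _ _

theorem sqb_subset_box (Y : ℝ) : sqb Y ⊆ box Y := by
  classical exact Finset.filter_subset _ _

theorem sqb_eq_empty {Y : ℝ} (h : Y < 1) : sqb Y = ∅ :=
  Finset.subset_empty.1 (box_eq_empty h ▸ sqb_subset_box Y)

theorem card_obox_le {Y : ℝ} (hY : 0 ≤ Y) : ((obox Y).card : ℝ) ≤ 25 * Y :=
  le_trans (by exact_mod_cast Finset.card_le_card (obox_subset_box Y)) (card_box_le hY)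

theorem card_sqb_le {Y : ℝ} (hY : 0 ≤ Y) : ((sqb Y).card : ℝ) ≤ 25 * Y :=
  le_trans (by exact_mod_cast Finset.card_le_card (sqb_subset_box Y)) (card_box_le hY)

theorem card_pdiv_le_Nr (q : O) : ((pdiv q).card : ℝ) ≤ 25 * Nr q := by
  classical
  exact le_trans (by exact_mod_cast Finset.card_le_card (Finset.filter_subset _ _))
    (card_box_le (Nr_nonneg q))

theorem q_l2_nonneg (Y : ℝ) (b : O → ℂ) : 0 ≤ q_l2 Y b :=
  Finset.sum_nonneg fun _ _ => by positivity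

theorem q_l2_mono {Y : ℝ} {b b' : O → ℂ} (h : ∀ n, ‖b' n‖ ≤ ‖b n‖) : q_l2 Y b' ≤ q_l2 Y b :=
  Finset.sum_le_sum fun n _ => pow_le_pow_left₀ (norm_nonneg _) (h n) 2

theorem q_l2_conj (Y : ℝ) (b : O → ℂ) : q_l2 Y (fun n => conj (b n)) = q_l2 Y b := by
  simp [q_l2]

/-- Divisors of elements of `obox` that are primary lie in `obox`. -/
theorem mem_obox_of_dvd {Y : ℝ} {n d : O} (hn : n ∈ obox Y) (hd : Prim d) (h : d ∣ n) :
    d ∈ obox Y := by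
  obtain ⟨h1, h2, h3, h4⟩ := mem_obox.1 hn
  exact mem_obox.2 ⟨hd, h2.squarefree_of_dvd h, fun h' => h3 (h'.trans h),
    (Nr_le_of_dvd h1.ne_zero h).trans h4⟩

/-- The cofactor lies in the smaller box. -/
theorem mem_obox_div {Y : ℝ} {g n : O} (hg : Prim g) (h : g * n ∈ obox Y) :
    n ∈ obox (Y / Nr g) := by
  obtain ⟨h1, h2, h3, h4⟩ := mem_obox.1 h
  refine mem_obox.2 ⟨hg.of_mul h1, h2.squarefree_of_dvd (dvd_mul_left _ _),
    fun h' => h3 (h'.mul_left _), ?_⟩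
  rw [le_div_iff₀ (Nr_pos hg.ne_zero), mul_comm, ← Nr_mul]
  exact h4

theorem q_form_add (Y : ℝ) (b₁ b₂ K K' : O → ℂ) :
    q_form Y b₁ b₂ (fun q => K q + K' q) = q_form Y b₁ b₂ K + q_form Y b₁ b₂ K' := by
  simp only [q_form, ← Finset.sum_add_distrib]
  refine Finset.sum_congr rfl fun _ _ => Finset.sum_congr rfl fun _ _ => ?_
  split_ifs <;> ring

theorem q_form_smul (Y : ℝ) (b₁ b₂ K : O → ℂ) (c : ℂ) :
    q_form Y b₁ b₂ (fun q => c * K q) = c * q_form Y b₁ b₂ K := by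
  simp only [q_form, Finset.mul_sum]
  refine Finset.sum_congr rfl fun _ _ => Finset.sum_congr rfl fun _ _ => ?_
  split_ifs <;> ring

theorem q_form_sum {ι : Type*} (s : Finset ι) (Y : ℝ) (b₁ b₂ : O → ℂ) (K : ι → O → ℂ) :
    q_form Y b₁ b₂ (fun q => ∑ i ∈ s, K i q) = ∑ i ∈ s, q_form Y b₁ b₂ (K i) := by
  classical
  induction s using Finset.induction_on with
  | empty => simp [q_form]
  | insert i s hi ih => simp only [Finset.sum_insert hi, q_form_add, ih]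

/-- Only the values of the kernel on products of coprime elements of the supports matter. -/
theorem q_form_congr {Y : ℝ} {b₁ b₂ K K' : O → ℂ}
    (h : ∀ n₁ ∈ obox Y, ∀ n₂ ∈ obox Y, IsCoprime n₁ n₂ → b₁ n₁ ≠ 0 → b₂ n₂ ≠ 0 →
      K (n₁ * n₂) = K' (n₁ * n₂)) : q_form Y b₁ b₂ K = q_form Y b₁ b₂ K' := by
  refine Finset.sum_congr rfl fun n₁ h₁ => Finset.sum_congr rfl fun n₂ h₂ => ?_
  split_ifs with hc
  · by_cases e₁ : b₁ n₁ = 0
    · simp [e₁]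
    by_cases e₂ : b₂ n₂ = 0
    · simp [e₂]
    rw [h n₁ h₁ n₂ h₂ hc e₁ e₂]
  · rfl

/-- The trivial bound. -/
theorem q_form_le {Y B : ℝ} (hY : 0 ≤ Y) (hB : 0 ≤ B) {b₁ b₂ K : O → ℂ}
    (h : ∀ n₁ ∈ obox Y, ∀ n₂ ∈ obox Y, IsCoprime n₁ n₂ → b₁ n₁ ≠ 0 → b₂ n₂ ≠ 0 →
      ‖K (n₁ * n₂)‖ ≤ B) :
    ‖q_form Y b₁ b₂ K‖ ≤ 25 * Y * B * (q_l2 Y b₁ + q_l2 Y b₂) := by
  classical
  have hc := card_obox_le hY
  have h1 : ‖q_form Y b₁ b₂ K‖ ≤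
      ∑ n₁ ∈ obox Y, ∑ n₂ ∈ obox Y, B * (‖b₁ n₁‖ ^ 2 + ‖b₂ n₂‖ ^ 2) := by
    refine (norm_sum_le _ _).trans (Finset.sum_le_sum fun n₁ h₁ => ?_)
    refine (norm_sum_le _ _).trans (Finset.sum_le_sum fun n₂ h₂ => ?_)
    split_ifs with hc
    · by_cases e₁ : b₁ n₁ = 0
      · simp only [e₁, zero_mul, norm_zero]; positivity
      by_cases e₂ : b₂ n₂ = 0
      · simp only [e₂, zero_mul, mul_zero, norm_zero]; positivity
      rw [norm_mul, norm_mul, mul_comm]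
      refine mul_le_mul (h n₁ h₁ n₂ h₂ hc e₁ e₂) ?_ (by positivity) hB
      nlinarith [sq_nonneg (‖b₁ n₁‖ - ‖b₂ n₂‖), mul_nonneg (norm_nonneg (b₁ n₁)) (norm_nonneg (b₂ n₂))]
    · simp only [norm_zero]; positivity
  have h2 : ∑ n₁ ∈ obox Y, ∑ n₂ ∈ obox Y, B * (‖b₁ n₁‖ ^ 2 + ‖b₂ n₂‖ ^ 2) =
      (obox Y).card * B * (q_l2 Y b₁ + q_l2 Y b₂) := by
    simp only [q_l2, mul_add, Finset.sum_add_distrib, Finset.sum_const, nsmul_eq_mul,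
      ← Finset.mul_sum]
    ring
  rw [h2] at h1
  refine h1.trans ?_
  have := add_nonneg (q_l2_nonneg Y b₁) (q_l2_nonneg Y b₂)
  gcongr

/-- Dyadic decomposition of `[1, V]`. -/
theorem q_dyadic {ε : ℝ} (hε : 0 < ε) : ∃ C : ℝ, 0 ≤ C ∧ ∀ V : ℝ, 1 ≤ V →
    ∃ (J : ℕ) (ι : ℝ → ℕ), (J : ℝ) ≤ C * V ^ ε ∧
      ∀ x : ℝ, 1 ≤ x → x ≤ V → ι x < J ∧ V / 2 ^ ι x / 2 < x ∧ x ≤ V / 2 ^ ι x := by
  refine ⟨2 / ε + 1, by positivity, fun V hV => ?_⟩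
  refine ⟨Nat.log 2 ⌊V⌋₊ + 1, fun x => Nat.log 2 ⌊V / x⌋₊, ?_, fun x h1 h2 => ⟨?_, ?_, ?_⟩⟩
  · have h0 : ⌊V⌋₊ ≠ 0 := (Nat.floor_pos.2 hV).ne'
    have h1 : ((2 : ℝ)) ^ Nat.log 2 ⌊V⌋₊ ≤ V := by
      have := Nat.pow_log_le_self 2 h0
      exact le_trans (by exact_mod_cast this) (Nat.floor_le (by linarith))
    have h2 : (Nat.log 2 ⌊V⌋₊ : ℝ) * Real.log 2 ≤ Real.log V := by
      rw [← Real.log_pow]; exact Real.log_le_log (by positivity) h1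
    have h3 : Real.log V ≤ V ^ ε / ε := Real.log_le_rpow_div (by linarith) hε
    have h4 : (1 : ℝ) / 2 ≤ Real.log 2 := by have := Real.log_two_gt_d9; linarith
    have h5 : 1 ≤ V ^ ε := Real.one_le_rpow hV hε.le
    have h6 : (0 : ℝ) ≤ Nat.log 2 ⌊V⌋₊ := Nat.cast_nonneg _
    push_cast
    have h7 : (2 / ε + 1) * V ^ ε = 2 * (V ^ ε / ε) + V ^ ε := by ring
    nlinarith
  · refine Nat.lt_succ_of_le (Nat.log_mono_right (Nat.floor_mono ?_))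
    exact div_le_self (by linarith) h1
  · have h3 := Nat.lt_pow_succ_log_self (b := 2) (by norm_num) ⌊V / x⌋₊
    have h4 : V / x < (2 : ℝ) ^ (Nat.log 2 ⌊V / x⌋₊ + 1) := by
      have h5 : ((⌊V / x⌋₊ + 1 : ℕ) : ℝ) ≤ ((2 ^ (Nat.log 2 ⌊V / x⌋₊ + 1) : ℕ) : ℝ) := by
        exact_mod_cast h3
      have h6 := Nat.lt_floor_add_one (V / x)
      push_cast at h5
      linarith
    rw [div_div, ← pow_succ, div_lt_iff₀ (by positivity)]
    rw [div_lt_iff₀ (by linarith)] at h4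
    linarith
  · have h0 : ⌊V / x⌋₊ ≠ 0 := (Nat.floor_pos.2 ((one_le_div (by linarith)).2 h2)).ne'
    have h3 : ((2 : ℝ)) ^ Nat.log 2 ⌊V / x⌋₊ ≤ V / x := by
      have := Nat.pow_log_le_self 2 h0
      exact le_trans (by exact_mod_cast this) (Nat.floor_le (by positivity))
    rw [le_div_iff₀ (by positivity)]
    rw [le_div_iff₀ (by linarith)] at h3
    linarith

/-- Splitting a sum into pieces (Cauchy–Schwarz). -/
theorem q_split {ι κ : Type*} [DecidableEq κ] (s : Finset ι) (t : Finset κ) (π : ι → κ)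
    (hπ : ∀ i ∈ s, π i ∈ t) (f : ι → ℂ) :
    ‖∑ i ∈ s, f i‖ ^ 2 ≤ t.card * ∑ k ∈ t, ‖∑ i ∈ s, if π i = k then f i else 0‖ ^ 2 := by
  have h1 : ∑ i ∈ s, f i = ∑ k ∈ t, ∑ i ∈ s, if π i = k then f i else 0 := by
    rw [Finset.sum_comm]
    refine Finset.sum_congr rfl fun i hi => ?_
    rw [Finset.sum_ite_eq]; simp [hπ i hi]
  rw [h1]
  refine (pow_le_pow_left₀ (norm_nonneg _) (norm_sum_le _ _) 2).trans ?_
  exact sq_sum_le_card_mul_sum_sq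

/-- `∑_{N e ≤ Y} 1 / N e ≪ Y^ε`. -/
theorem q_sum_inv {ε : ℝ} (hε : 0 < ε) : ∃ C : ℝ, 0 ≤ C ∧ ∀ Y : ℝ, 1 ≤ Y →
    ∑ x ∈ box Y, (Nr x)⁻¹ ≤ C * Y ^ ε := by
  obtain ⟨C, hC⟩ := sum_box_inv_le
  refine ⟨|C| * (1 + 1 / ε), by positivity, fun Y hY => (hC Y hY).trans ?_⟩
  have h3 : Real.log Y ≤ Y ^ ε / ε := Real.log_le_rpow_div (by linarith) hε
  have h5 : 1 ≤ Y ^ ε := Real.one_le_rpow hY hε.le
  have h6 : 0 ≤ Real.log Y := Real.log_nonneg hY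
  calc C * (1 + Real.log Y) ≤ |C| * (1 + Real.log Y) := by gcongr; exact le_abs_self C
    _ ≤ |C| * (Y ^ ε + Y ^ ε / ε) := by gcongr
    _ = |C| * (1 + 1 / ε) * Y ^ ε := by ring

/-- A non-negative version of the divisor bound. -/
theorem q_card_pdiv {ε : ℝ} (hε : 0 < ε) : ∃ C : ℝ, 0 ≤ C ∧ ∀ (Y : ℝ) (t : O), t ≠ 0 → Nr t ≤ Y →
    ((pdiv t).card : ℝ) ≤ C * Y ^ ε := by
  obtain ⟨C, hC⟩ := card_pdiv_le hε
  refine ⟨|C|, abs_nonneg _, fun Y t ht hY => (hC t ht).trans ?_⟩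
  have := Nr_nonneg t
  gcongr
  exact le_abs_self C

end Crest.Agent.R017

end
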