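import Crest.Agent.R017.QLSAux0

/-! # Row 17, quadratic large sieve: the theta function with complex argument -/

set_option autoImplicit false

noncomputable section

open scoped BigOperators ComplexConjugate
open Complex MeasureTheory

namespace Crest.Agent.R017

/-- `θ(z) = ∑_w exp (-c0 z N w)`. -/
def q_theta (z : ℂ) : ℂ := ∑' w : O, Complex.exp (-(c0 * z * Nr w))

theorem q1_norm (z : ℂ) (w : O) :
    ‖Complex.exp (-(c0 * z * Nr w))‖ = Phi (z.re * Nr w) := by
  rw [Complex.norm_exp, Phi]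
  congr 1
  simp only [neg_re, mul_re, ofReal_re, ofReal_im, mul_im]
  ring

theorem q1_sqrt {z : ℂ} (hz : z ≠ 0) {s t : ℝ} (hs : 0 < s) (ht : 0 < t) (h : t * s = 1) :
    ((t : ℂ) * z) ^ (1 / 2 : ℂ) * ((s : ℂ) * z) ^ (1 / 2 : ℂ) = z := by
  have hs0 : (s : ℂ) ≠ 0 := by exact_mod_cast hs.ne'
  have ht0 : (t : ℂ) ≠ 0 := by exact_mod_cast ht.ne'
  have hl : Real.log t + Real.log s = 0 := by rw [← Real.log_mul ht.ne' hs.ne', h, Real.log_one]
  have hl' : (Real.log t : ℂ) + (Real.log s : ℂ) = 0 := by exact_mod_cast hl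
  rw [cpow_def_of_ne_zero (mul_ne_zero ht0 hz), cpow_def_of_ne_zero (mul_ne_zero hs0 hz),
    ← Complex.exp_add, log_ofReal_mul ht hz, log_ofReal_mul hs hz]
  conv_rhs => rw [← Complex.exp_log hz]
  congr 1
  linear_combination (1 / 2 : ℂ) * hl'

/-- Compare norms with `p1_summable0'`. -/
theorem q_theta_summable {z : ℂ} (hz : 0 < z.re) :
    Summable fun w : O => Complex.exp (-(c0 * z * Nr w)) :=
  Summable.of_norm_bounded (p1_summable0' hz) fun w => (q1_norm z w).le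

/-- Two applications of `p3_step` (`A = C = 2z/√3`, `B = -z/√3`; intermediate form
`A' = z√3/2`, `B' = i/2`, `C' = √3/(2z)`; final form `(C/z², -B/z², A/z²)`, use the coordinates
`p3_e1`, `p3_e2` or `w ↦ (re w, ± im w)`); `A^{1/2} A'^{1/2} = z` by `mul_cpow_ofReal_nonneg`-type
lemmas.  (Alternatively: identity theorem from `poisson_gauss`.) -/
theorem q_theta_fe {z : ℂ} (hz : 0 < z.re) : q_theta z = z⁻¹ * q_theta z⁻¹ := by
  have hz0 : z ≠ 0 := fun h => by simp [h] at hz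
  have hzi : 0 < z⁻¹.re := by
    rw [inv_re]
    have := normSq_pos.2 hz0
    positivity
  have h3 : 0 < Real.sqrt 3 := by positivity
  have h33 : Real.sqrt 3 ^ 2 = 3 := Real.sq_sqrt (by norm_num)
  set t : ℝ := 2 / Real.sqrt 3 with ht
  have ht0 : 0 < t := by positivity
  have ht2 : 3 * t ^ 2 = 4 := by rw [ht, div_pow, h33]; ring
  have htC : (t : ℂ) ≠ 0 := by exact_mod_cast ht0.ne'
  have ht2' : 3 * (t : ℂ) ^ 2 = 4 := by exact_mod_cast ht2
  have hc : (c0 : ℂ) = Real.pi * t := by rw [c0, ht]; push_cast; ring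
  have e1 : ∀ p : ℤ × ℤ, Complex.exp (-(c0 * z * Nr (p3_e1 p))) =
      p3_g (t * z) (-(t * z) / 2) (t * z) p := fun p => by
    rw [p3_g, p3_Nr, hc]
    simp only [p3_e1, Equiv.coe_fn_mk]
    congr 1
    push_cast
    ring
  have e2 : ∀ p : ℤ × ℤ, Complex.exp (-(c0 * z⁻¹ * Nr (p3_e2 p))) =
      p3_g (t * z⁻¹) (t * z⁻¹ / 2) (t * z⁻¹) p := fun p => by
    rw [p3_g, p3_Nr, hc]
    simp only [p3_e2, Equiv.coe_fn_mk]
    congr 1
    push_cast
    ring
  have s1 : Summable (p3_g (t * z) (-(t * z) / 2) (t * z)) :=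
    (p3_e1.summable_iff.2 (q_theta_summable hz)).congr e1
  have s3 : Summable (p3_g (t * z⁻¹) (t * z⁻¹ / 2) (t * z⁻¹)) :=
    (p3_e2.summable_iff.2 (q_theta_summable hzi)).congr e2
  have hA : 0 < ((t : ℂ) * z).re := by rw [re_ofReal_mul]; positivity
  have hA' : 0 < (((3 * t / 4 : ℝ) : ℂ) * z).re := by rw [re_ofReal_mul]; positivity
  have hC' : 0 < (((t⁻¹ : ℝ) : ℂ) * z⁻¹).re := by rw [re_ofReal_mul]; positivity
  have s2 : Summable (p3_g (((3 * t / 4 : ℝ) : ℂ) * z) (I / 2) (((t⁻¹ : ℝ) : ℂ) * z⁻¹)) := by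
    refine p3_summable hA' ?_
    have : (I / 2 : ℂ).re = 0 := by simp
    rw [this]
    have := mul_pos hA' hC'
    linarith
  have k1 := p3_step hA s1 (by push_cast; field_simp; ring) (by field_simp)
    (by push_cast; field_simp) s2
  have k2 := p3_step hA' s2 (by
      push_cast; field_simp
      linear_combination 4 * ht2' + 4 * I_mul_I) (by
      push_cast; field_simp
      linear_combination ht2' + 4 * I_mul_I)
    (by push_cast; field_simp; linear_combination ht2') s3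
  have k3 := q1_sqrt hz0 (s := 3 * t / 4) (t := t) (by positivity) ht0 (by linarith)
  rw [q_theta, q_theta, ← p3_e1.tsum_eq, ← p3_e2.tsum_eq, tsum_congr e1, tsum_congr e2, k1, k2,
    ← mul_assoc]
  congr 1
  rw [div_mul_div_comm, k3, one_mul, one_div]

/-- The term `w = 0` gives `1`; the others are bounded by `Phi (re z * N w) ≤ C (re z N w)^(-A)`
(`Phi_le_rpow`, `summable_Nr_rpow`). -/
theorem q_theta_sub_one {A : ℝ} (hA : 1 < A) : ∃ C : ℝ, 0 ≤ C ∧ ∀ z : ℂ, 0 < z.re →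
    ‖q_theta z - 1‖ ≤ C * z.re ^ (-A) := by
  obtain ⟨C, hC⟩ := Phi_le_rpow (show 0 ≤ A by linarith)
  have hC0 : 0 ≤ C := by
    have := (Phi_pos 1).le.trans (hC 1 one_pos)
    simpa using this
  have hs := summable_Nr_rpow hA
  have h0 : 0 ≤ ∑' x : O, Nr x ^ (-A) := tsum_nonneg fun x => Real.rpow_nonneg (Nr_nonneg x) _
  refine ⟨C * ∑' x : O, Nr x ^ (-A), mul_nonneg hC0 h0, fun z hz => ?_⟩
  classical
  rw [q_theta, (q_theta_summable hz).tsum_eq_add_tsum_ite 0]
  have e : Complex.exp (-(c0 * z * Nr (0 : O))) = 1 := by simp [Nr_zero]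
  rw [e, add_sub_cancel_left]
  have hb : ∀ w : O, ‖(if w = 0 then 0 else Complex.exp (-(c0 * z * Nr w)))‖ ≤
      C * z.re ^ (-A) * Nr w ^ (-A) := by
    intro w
    split_ifs with hw
    · rw [norm_zero]
      exact mul_nonneg (mul_nonneg hC0 (Real.rpow_nonneg hz.le _)) (Real.rpow_nonneg (Nr_nonneg w) _)
    · rw [q1_norm, mul_assoc, ← Real.mul_rpow hz.le (Nr_nonneg w)]
      exact hC _ (mul_pos hz (Nr_pos hw))
  refine (tsum_of_norm_bounded (hs.hasSum.mul_left (C * z.re ^ (-A))) hb).trans_eq ?_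
  ring

end Crest.Agent.R017

end
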