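import Crest.Agent.R017.QLSAux1

/-! # Row 17, quadratic large sieve: the asymptotic formula for `q_Th` -/

set_option autoImplicit false

noncomputable section

open scoped BigOperators ComplexConjugate
open Complex MeasureTheory

namespace Crest.Agent.R017

/-- Gaussian integral (`integral_cexp_quadratic` with `b = -c0/4`, `c = c0 (1/2 - u) i`,
`d = c0 (1/4 - u)`). -/
theorem q_mix (u : ℝ) : (Phi (u ^ 2) : ℂ) = (Real.sqrt (c0 / (4 * Real.pi)) : ℂ) *
    ∫ t : ℝ, Complex.exp (c0 * (1 + t * I) ^ 2 / 4) * Complex.exp (-(c0 * (1 + t * I) * u)) := by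
  have hc := c0_pos
  have hc' : (c0 : ℂ) ≠ 0 := ofReal_ne_zero.2 hc.ne'
  have hb : (-(c0 : ℂ) / 4).re < 0 := by
    have : (-(c0 : ℂ) / 4) = ((-c0 / 4 : ℝ) : ℂ) := by push_cast; rfl
    rw [this, ofReal_re]; linarith
  have h1 : ∀ t : ℝ, Complex.exp (c0 * (1 + t * I) ^ 2 / 4) * Complex.exp (-(c0 * (1 + t * I) * u))
      = Complex.exp (-(c0 : ℂ) / 4 * t ^ 2 + c0 * (1 / 2 - u) * I * t + c0 * (1 / 4 - u)) := by
    intro t
    rw [← Complex.exp_add]
    congr 1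
    linear_combination (c0 * t ^ 2 / 4 : ℂ) * I_sq
  simp_rw [h1]
  rw [integral_cexp_quadratic hb]
  have h2 : ((Real.pi : ℂ) / -(-(c0 : ℂ) / 4)) ^ (1 / 2 : ℂ) =
      (Real.sqrt (4 * Real.pi / c0) : ℂ) := by
    rw [Real.sqrt_eq_rpow, ofReal_cpow (by positivity)]
    congr 1
    · push_cast; field_simp
    · push_cast; rfl
  have h3 : (c0 : ℂ) * (1 / 4 - u) - (c0 * (1 / 2 - u) * I) ^ 2 / (4 * (-(c0 : ℂ) / 4)) =
      ((-(c0 * u ^ 2) : ℝ) : ℂ) := by
    rw [mul_pow, I_sq]; push_cast; field_simp; ring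
  rw [h2, h3, ← mul_assoc, ← ofReal_mul, ← Real.sqrt_mul (by positivity), ← ofReal_exp]
  have h4 : c0 / (4 * Real.pi) * (4 * Real.pi / c0) = 1 := by
    have := Real.pi_pos
    field_simp
  rw [h4, Real.sqrt_one, ofReal_one, one_mul, Phi]

theorem q1b_norm_G (t : ℝ) :
    ‖Complex.exp (c0 * (1 + t * I) ^ 2 / 4)‖ = Real.exp (c0 * (1 - t ^ 2) / 4) := by
  rw [Complex.norm_exp]
  congr 1
  have : (c0 : ℂ) * (1 + t * I) ^ 2 / 4 =
      ((c0 * (1 - t ^ 2) / 4 : ℝ) : ℂ) + ((c0 * t / 2 : ℝ) : ℂ) * I := by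
    push_cast
    linear_combination (c0 * t ^ 2 / 4 : ℂ) * I_sq
  rw [this, add_re, ofReal_re, re_ofReal_mul, I_re, mul_zero, add_zero]

theorem q1b_norm_E (t u : ℝ) : ‖Complex.exp (-(c0 * (1 + t * I) * u))‖ = Phi u := by
  rw [Complex.norm_exp, Phi]
  congr 1
  simp

theorem q1b_bd {B : ℝ} (hB : 0 ≤ B) : ∃ D : ℝ, 0 ≤ D ∧ ∀ t : ℝ,
    Real.exp (c0 * (1 - t ^ 2) / 4) * (1 + t ^ 2) ^ B ≤ D * Real.exp (-(c0 / 8) * t ^ 2) := by
  obtain ⟨C, hC⟩ := Phi_le_rpow hB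
  have hc := c0_pos
  have hC0 : 0 ≤ C := by simpa using (Phi_pos 1).le.trans (hC 1 one_pos)
  refine ⟨Real.exp (c0 / 2) * C * 8 ^ B, by positivity, fun t => ?_⟩
  have hx : 0 < (1 + t ^ 2) / 8 := by positivity
  have h1 := hC _ hx
  rw [Real.rpow_neg hx.le, ← div_eq_mul_inv, le_div_iff₀ (Real.rpow_pos_of_pos hx _)] at h1
  have h2 : (1 + t ^ 2) ^ B = ((1 + t ^ 2) / 8) ^ B * 8 ^ B := by
    rw [← Real.mul_rpow hx.le (by norm_num)]; congr 1; ring
  have h3 : Real.exp (c0 * (1 - t ^ 2) / 4) ≤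
      Real.exp (c0 / 2) * Real.exp (-(c0 / 8) * t ^ 2) * Phi ((1 + t ^ 2) / 8) := by
    rw [Phi, ← Real.exp_add, ← Real.exp_add, Real.exp_le_exp]
    linarith
  calc _ ≤ (Real.exp (c0 / 2) * Real.exp (-(c0 / 8) * t ^ 2) * Phi ((1 + t ^ 2) / 8)) *
        (((1 + t ^ 2) / 8) ^ B * 8 ^ B) := by
        rw [← h2]; exact mul_le_mul_of_nonneg_right h3 (by positivity)
    _ = Real.exp (c0 / 2) * Real.exp (-(c0 / 8) * t ^ 2) * 8 ^ B *
        (Phi ((1 + t ^ 2) / 8) * ((1 + t ^ 2) / 8) ^ B) := by ring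
    _ ≤ Real.exp (c0 / 2) * Real.exp (-(c0 / 8) * t ^ 2) * 8 ^ B * C :=
        mul_le_mul_of_nonneg_left h1 (by positivity)
    _ = _ := by ring

theorem q1b_one_le (t : ℝ) : 1 ≤ ‖(1 : ℂ) + t * I‖ := by
  have := re_le_norm ((1 : ℂ) + t * I)
  simpa using this

theorem q1b_ne (t : ℝ) : (1 : ℂ) + t * I ≠ 0 := fun h => by
  have := q1b_one_le t
  rw [h, norm_zero] at this
  linarith

theorem q1b_int : Integrable fun t : ℝ => Real.exp (c0 * (1 - t ^ 2) / 4) := by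
  have h := (integrable_exp_neg_mul_sq (b := c0 / 4) (by have := c0_pos; positivity)).const_mul
    (Real.exp (c0 / 4))
  refine h.congr (Filter.Eventually.of_forall fun t => ?_)
  beta_reduce
  rw [← Real.exp_add]
  congr 1
  ring

/-- The mixture formula for `q_Th`. -/
theorem q1b_Th {T : ℝ} (hT : 0 < T) : (q_Th T : ℂ) + 1 = (Real.sqrt (c0 / (4 * Real.pi)) : ℂ) *
    ∫ t : ℝ, Complex.exp (c0 * (1 + t * I) ^ 2 / 4) * q_theta ((1 + t * I) / Real.sqrt T) := by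
  classical
  have hs : 0 < Real.sqrt T := Real.sqrt_pos.2 hT
  have h1 := hasSum_integral_of_summable_integral_norm (μ := volume)
    (F := fun (w : O) (t : ℝ) => Complex.exp (c0 * (1 + t * I) ^ 2 / 4) *
      Complex.exp (-(c0 * (1 + t * I) * ((Nr w / Real.sqrt T : ℝ) : ℂ)))) (fun w => ?_) ?_
  · have h2 := h1.mul_left (Real.sqrt (c0 / (4 * Real.pi)) : ℂ)
    simp_rw [← q_mix, tsum_mul_left] at h2
    have h3 : ∀ t : ℝ, ∑' w : O, Complex.exp (-(c0 * (1 + t * I) *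
        ((Nr w / Real.sqrt T : ℝ) : ℂ))) = q_theta ((1 + t * I) / Real.sqrt T) := by
      intro t
      refine tsum_congr fun w => ?_
      congr 1
      push_cast
      ring
    simp_rw [h3] at h2
    rw [← h2.tsum_eq, h2.summable.tsum_eq_add_tsum_ite 0, q_Th, ofReal_tsum, add_comm]
    congr 1
    · simp [Nr_zero, Phi]
    · refine tsum_congr fun w => ?_
      split_ifs
      · simp
      · rw [div_pow, Real.sq_sqrt hT.le]
  · refine (q1b_int.mul_const (Phi (Nr w / Real.sqrt T))).mono'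
      (Continuous.aestronglyMeasurable (by fun_prop)) (Filter.Eventually.of_forall fun t => ?_)
    rw [norm_mul, q1b_norm_G, q1b_norm_E]
  · simp_rw [norm_mul, q1b_norm_G, q1b_norm_E, integral_mul_const]
    exact (p1_summable0 hs).mul_left _

theorem q1b_cont {s : ℝ} (hs : 0 < s) : Continuous fun t : ℝ => q_theta ((1 + t * I) / s) := by
  refine continuous_tsum (fun w => by fun_prop) (p1_summable0 hs) fun w t => ?_
  rw [← q1b_norm_E t]
  refine le_of_eq ?_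
  congr 2
  push_cast
  ring

/-- Apply `q_mix` with `u = N w / √T`, sum over `w` (`integral_tsum_of_summable_integral_norm` or
`hasSum_integral_of_summable_integral_norm`; the integrand has norm
`exp (c0 (1 - t²)/4) * Phi (N w / √T)`):
`q_Th T + 1 = K ∫ exp (c0 z²/4) θ(z/√T) dt`, `z = 1 + t i`.  By `q_theta_fe`,
`θ(z/√T) = √T/z + (√T/z) (θ(√T/z) - 1)`, `re (√T/z) = √T/(1+t²)`, `‖z‖ ≥ 1`;
`q_theta_sub_one` with exponent `2A+2`... gives
`‖q_E T + 1‖ ≤ K C √T^(1-A') ∫ exp (c0 (1-t²)/4) (1+t²)^A' dt`; choose `A' = 2A+1 > 1`. -/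
theorem q_E_add_one {A : ℝ} (hA : 0 < A) : ∃ C : ℝ, 0 ≤ C ∧ ∀ T : ℝ, 0 < T →
    ‖q_E T + 1‖ ≤ C * T ^ (-A) := by
  obtain ⟨C, hC0, hC⟩ := q_theta_sub_one (A := 2 * A + 1) (by linarith)
  obtain ⟨D, hD0, hD⟩ := q1b_bd (B := 2 * A + 1) (by linarith)
  have hc := c0_pos
  have hI := integrable_exp_neg_mul_sq (b := c0 / 8) (by positivity)
  have hI0 : 0 ≤ ∫ t : ℝ, Real.exp (-(c0 / 8) * t ^ 2) :=
    integral_nonneg fun t => (Real.exp_pos _).le
  refine ⟨Real.sqrt (c0 / (4 * Real.pi)) * (C * D * ∫ t : ℝ, Real.exp (-(c0 / 8) * t ^ 2)),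
    by positivity, fun T hT => ?_⟩
  have hs : 0 < Real.sqrt T := Real.sqrt_pos.2 hT
  have hs' : (Real.sqrt T : ℂ) ≠ 0 := ofReal_ne_zero.2 hs.ne'
  have hc1 : Continuous fun t : ℝ => Complex.exp (c0 * (1 + t * I) ^ 2 / 4) / (1 + t * I) :=
    Continuous.div (by fun_prop) (by fun_prop) q1b_ne
  have hi1 : Integrable fun t : ℝ => Complex.exp (c0 * (1 + t * I) ^ 2 / 4) / (1 + t * I) := by
    refine q1b_int.mono' hc1.aestronglyMeasurable (Filter.Eventually.of_forall fun t => ?_)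
    rw [norm_div, q1b_norm_G]
    exact div_le_self (Real.exp_pos _).le (q1b_one_le t)
  have hb : ∀ t : ℝ, ‖Complex.exp (c0 * (1 + t * I) ^ 2 / 4) * q_theta ((1 + t * I) / Real.sqrt T)
      - Complex.exp (c0 * (1 + t * I) ^ 2 / 4) / (1 + t * I) * Real.sqrt T‖ ≤
      C * D * T ^ (-A) * Real.exp (-(c0 / 8) * t ^ 2) := by
    intro t
    have hz := q1b_ne t
    have hre : 0 < (((1 : ℂ) + t * I) / Real.sqrt T).re := by
      rw [div_ofReal_re]; simpa using hT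
    have hx : 0 < 1 + t ^ 2 := by positivity
    have hre' : (((1 : ℂ) + t * I) / Real.sqrt T)⁻¹.re = Real.sqrt T / (1 + t ^ 2) := by
      rw [inv_div, div_eq_mul_inv, re_ofReal_mul, inv_re, normSq_apply]
      simp [sq, div_eq_mul_inv]
    have h1 := hC (((1 : ℂ) + t * I) / Real.sqrt T)⁻¹ (by rw [hre']; positivity)
    rw [hre', Real.div_rpow hs.le hx.le, Real.rpow_neg hx.le, div_inv_eq_mul] at h1
    have h2 : Complex.exp (c0 * (1 + t * I) ^ 2 / 4) * q_theta ((1 + t * I) / Real.sqrt T)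
        - Complex.exp (c0 * (1 + t * I) ^ 2 / 4) / (1 + t * I) * Real.sqrt T =
        Complex.exp (c0 * (1 + t * I) ^ 2 / 4) * (Real.sqrt T / (1 + t * I)) *
          (q_theta (((1 : ℂ) + t * I) / Real.sqrt T)⁻¹ - 1) := by
      rw [q_theta_fe hre, inv_div]
      ring
    have h3 : ‖(Real.sqrt T : ℂ) / (1 + t * I)‖ ≤ Real.sqrt T := by
      rw [norm_div, norm_real, Real.norm_of_nonneg hs.le]
      exact div_le_self hs.le (q1b_one_le t)
    have h4 : Real.sqrt T * Real.sqrt T ^ (-(2 * A + 1)) = T ^ (-A) := by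
      rw [mul_comm, ← Real.rpow_add_one hs.ne', Real.sqrt_eq_rpow, ← Real.rpow_mul hT.le]
      congr 1
      ring
    rw [h2, norm_mul, norm_mul, q1b_norm_G]
    calc _ ≤ Real.exp (c0 * (1 - t ^ 2) / 4) * Real.sqrt T *
          (C * (Real.sqrt T ^ (-(2 * A + 1)) * (1 + t ^ 2) ^ (2 * A + 1))) := by gcongr
      _ = C * (Real.sqrt T * Real.sqrt T ^ (-(2 * A + 1))) *
          (Real.exp (c0 * (1 - t ^ 2) / 4) * (1 + t ^ 2) ^ (2 * A + 1)) := by ring
      _ ≤ C * T ^ (-A) * (D * Real.exp (-(c0 / 8) * t ^ 2)) := by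
          rw [h4]; exact mul_le_mul_of_nonneg_left (hD t) (by positivity)
      _ = _ := by ring
  have hi2 := (hI.const_mul (C * D * T ^ (-A))).mono' (Continuous.aestronglyMeasurable
    (((by fun_prop : Continuous fun t : ℝ => Complex.exp (c0 * (1 + t * I) ^ 2 / 4)).mul
      (q1b_cont hs)).sub (hc1.mul continuous_const))) (Filter.Eventually.of_forall hb)
  have h5 : q_E T + 1 = (Real.sqrt (c0 / (4 * Real.pi)) : ℂ) *
      ∫ t : ℝ, (Complex.exp (c0 * (1 + t * I) ^ 2 / 4) * q_theta ((1 + t * I) / Real.sqrt T)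
        - Complex.exp (c0 * (1 + t * I) ^ 2 / 4) / (1 + t * I) * Real.sqrt T) := by
    have h6 := (hi2.add (hi1.mul_const (Real.sqrt T : ℂ))).congr
      (g := fun t : ℝ => Complex.exp (c0 * (1 + t * I) ^ 2 / 4) *
        q_theta ((1 + t * I) / Real.sqrt T)) (Filter.Eventually.of_forall fun t => by simp)
    rw [integral_sub h6 (hi1.mul_const _), integral_mul_const, mul_sub, ← q1b_Th hT, q_E, q_c]
    ring
  rw [h5, norm_mul, norm_real, Real.norm_of_nonneg (Real.sqrt_nonneg _), mul_assoc]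
  refine mul_le_mul_of_nonneg_left ?_ (Real.sqrt_nonneg _)
  refine (norm_integral_le_of_norm_le (hI.const_mul _) (Filter.Eventually.of_forall hb)).trans ?_
  rw [integral_const_mul]
  exact le_of_eq (by ring)

end Crest.Agent.R017

end
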