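import Crest.Agent.R017.QLSAux1b

/-! # Row 17, quadratic large sieve: bounds and Mellin representation for `q_Th` -/

set_option autoImplicit false

noncomputable section

open scoped BigOperators ComplexConjugate
open Complex MeasureTheory

namespace Crest.Agent.R017

/-- `N w ≤ N w ^ 2`, compare with `p1_summable0`. -/
theorem q_Th_summable {T : ℝ} (hT : 0 < T) :
    Summable fun w : O => if w = 0 then (0 : ℝ) else Phi (Nr w ^ 2 / T) := by
  refine Summable.of_nonneg_of_le (fun w => ?_) (fun w => ?_) (p1_summable0 hT)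
  · split_ifs
    exacts [le_rfl, (Phi_pos _).le]
  · split_ifs with h
    · exact (Phi_pos _).le
    · exact p1_anti (div_le_div_of_nonneg_right (le_self_pow₀ (one_le_Nr h) two_ne_zero) hT.le)

theorem q_Th_nonneg (T : ℝ) : 0 ≤ q_Th T := tsum_nonneg fun w => by
  split_ifs
  exacts [le_rfl, (Phi_pos _).le]

theorem q2_rpow (w : O) : Nr w ^ (-(2 : ℝ)) = (Nr w ^ 2)⁻¹ := by
  rw [Real.rpow_neg (Nr_nonneg w), Real.rpow_two]

/-- `Phi_le_rpow 1`, `summable_Nr_rpow 2`. -/
theorem q_Th_le : ∃ C : ℝ, 0 ≤ C ∧ ∀ T : ℝ, 0 < T → q_Th T ≤ C * T := by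
  obtain ⟨C, hC⟩ := Phi_le_rpow zero_le_one
  have h0 : ∀ w : O, 0 ≤ Nr w ^ (-(2 : ℝ)) := fun w => Real.rpow_nonneg (Nr_nonneg w) _
  refine ⟨|C| * ∑' w : O, Nr w ^ (-(2 : ℝ)), mul_nonneg (abs_nonneg _) (tsum_nonneg h0), fun T hT => ?_⟩
  rw [mul_right_comm, ← tsum_mul_left]
  refine (q_Th_summable hT).tsum_le_tsum (fun w => ?_) ((summable_Nr_rpow one_lt_two).mul_left _)
  split_ifs with h
  · exact mul_nonneg (by positivity) (h0 w)
  · have h1 := Nr_pos h
    refine (hC _ (by positivity)).trans ?_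
    rw [Real.rpow_neg_one, inv_div, q2_rpow, mul_assoc, ← div_eq_mul_inv]
    exact mul_le_mul_of_nonneg_right (le_abs_self C) (by positivity)

/-- For `T ≥ 1` use `q_E_add_one`, for `T ≤ 1` use `q_Th_le` and `T ≤ √T ≤ 1`. -/
theorem q_E_le : ∃ C : ℝ, 0 < C ∧ ∀ T : ℝ, 0 < T → ‖q_E T‖ ≤ C ∧ ‖q_E T‖ ≤ C * Real.sqrt T := by
  obtain ⟨C, hC0, hC⟩ := q_Th_le
  obtain ⟨D, hD0, hD⟩ := q_E_add_one one_pos
  have hc := norm_nonneg q_c
  refine ⟨C + ‖q_c‖ + D + 1, by positivity, fun T hT => ?_⟩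
  rcases le_total T 1 with h | h
  · have h1 : Real.sqrt T ≤ 1 := Real.sqrt_le_one.2 h
    have h0 := Real.sqrt_nonneg T
    have h2 : T ≤ Real.sqrt T := by nlinarith [Real.mul_self_sqrt hT.le]
    have h3 : ‖q_E T‖ ≤ (C + ‖q_c‖ + D + 1) * Real.sqrt T := by
      refine (norm_sub_le _ _).trans ?_
      rw [norm_mul, Complex.norm_real, Complex.norm_real, Real.norm_of_nonneg (q_Th_nonneg T),
        Real.norm_of_nonneg h0]
      nlinarith [hC T hT, mul_le_mul_of_nonneg_left h2 hC0, mul_nonneg hD0 h0]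
    exact ⟨h3.trans (mul_le_of_le_one_right (by positivity) h1), h3⟩
  · have h1 : T ^ (-(1 : ℝ)) ≤ 1 := Real.rpow_le_one_of_one_le_of_nonpos h (by norm_num)
    have h3 : ‖q_E T‖ ≤ C + ‖q_c‖ + D + 1 := by
      have h4 := norm_sub_le (q_E T + 1) 1
      rw [add_sub_cancel_right, norm_one] at h4
      nlinarith [hD T hT, mul_le_mul_of_nonneg_left h1 hD0]
    exact ⟨h3, h3.trans (le_mul_of_one_le_right (by positivity) (Real.one_le_sqrt.2 h))⟩

/-- `Phi_mellin` with `σ = 1`, `y = N w ^ 2 / T`, summed over `w ≠ 0`;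
`h t = (2π)⁻¹ Γ(1+ti) c0^{-(1+ti)} ∑_{w≠0} (N w ^ 2)^{-(1+ti)}` (continuous, dominated by
`‖Γ(1+ti)‖`, see `integrable_Gamma_mul`, `p2_continuous_Gamma`). -/
theorem q_Th_mellin : ∃ h : ℝ → ℂ, Integrable h ∧ ∀ T : ℝ, 0 < T →
    (q_Th T : ℂ) = ∫ t : ℝ, h t * (T : ℂ) ^ (1 + t * I) := by
  have hc := c0_pos
  set a : O → ℝ → ℂ := fun w t =>
    if w = 0 then 0 else ((c0 * Nr w ^ 2 : ℝ) : ℂ) ^ (-(1 + t * I)) with ha
  have hac : ∀ w, Continuous (a w) := fun w => by
    simp only [ha]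
    split_ifs with h
    · exact continuous_const
    · have := Nr_pos h
      exact Continuous.const_cpow (by fun_prop) (Or.inl (ofReal_ne_zero.2 (by positivity)))
  have hab : ∀ w t, ‖a w t‖ ≤ c0⁻¹ * Nr w ^ (-(2 : ℝ)) := fun w t => by
    simp only [ha, q2_rpow]
    split_ifs with h
    · rw [norm_zero]
      positivity
    · have := Nr_pos h
      rw [norm_cpow_eq_rpow_re_of_pos (by positivity)]
      simp [Real.rpow_neg_one, mul_comm]
  have hs := (summable_Nr_rpow one_lt_two).mul_left c0⁻¹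
  have hG : Integrable fun t : ℝ => (1 / (2 * Real.pi) : ℂ) * Complex.Gamma ((1 : ℝ) + t * I) := by
    have h := integrable_Gamma_mul one_pos 0
    simp only [Real.rpow_zero, mul_one] at h
    exact ((integrable_norm_iff (p2_continuous_Gamma one_pos).aestronglyMeasurable).1 h).const_mul _
  refine ⟨fun t => (1 / (2 * Real.pi) : ℂ) * Complex.Gamma ((1 : ℝ) + t * I) * ∑' w, a w t,
    hG.mul_bdd (continuous_tsum hac hs hab).aestronglyMeasurable
      (ae_of_all _ fun t => tsum_of_norm_bounded hs.hasSum fun w => hab w t), fun T hT => ?_⟩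
  have hTc : Continuous fun t : ℝ => (T : ℂ) ^ (1 + t * I) :=
    Continuous.const_cpow (by fun_prop) (Or.inl (ofReal_ne_zero.2 hT.ne'))
  have hb : ∀ w (t : ℝ), ‖a w t * (T : ℂ) ^ (1 + t * I)‖ ≤ c0⁻¹ * Nr w ^ (-(2 : ℝ)) * T := fun w t => by
    rw [norm_mul, norm_cpow_eq_rpow_re_of_pos hT]
    simpa using mul_le_mul_of_nonneg_right (hab w t) hT.le
  have hi := fun w => hG.mul_bdd ((hac w).mul hTc).aestronglyMeasurable (ae_of_all _ (hb w))
  have h1 := integral_tsum_of_summable_integral_norm hi (by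
    refine Summable.of_nonneg_of_le (fun w => integral_nonneg fun t => norm_nonneg _) (fun w => ?_)
      ((hs.mul_right T).mul_left
        (∫ t : ℝ, ‖(1 / (2 * Real.pi) : ℂ) * Complex.Gamma ((1 : ℝ) + t * I)‖))
    rw [← integral_mul_const]
    refine integral_mono (hi w).norm (hG.norm.mul_const _) fun t => ?_
    simp only
    rw [norm_mul]
    exact mul_le_mul_of_nonneg_left (hb w t) (norm_nonneg _))
  simp only [Pi.mul_apply, tsum_mul_left, tsum_mul_right, ← mul_assoc] at h1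
  rw [← h1, q_Th, ofReal_tsum]
  refine tsum_congr fun w => ?_
  simp only [ha]
  split_ifs with h
  · simp
  · have := Nr_pos h
    rw [Phi_mellin one_pos (by positivity), ← integral_const_mul]
    refine integral_congr_ae (ae_of_all _ fun t => ?_)
    simp only
    rw [← mul_div_assoc, div_eq_mul_inv (c0 * _), ofReal_mul (c0 * _),
      mul_cpow_ofReal_nonneg (by positivity) (by positivity), ofReal_inv, ofReal_one,
      inv_cpow _ _ (by rw [arg_ofReal_of_nonneg hT.le]; exact Real.pi_ne_zero.symm), cpow_neg (T : ℂ), inv_inv]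
    ring

end Crest.Agent.R017

end
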