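import Crest.Agent.R017.QLSAux0

/-! # Row 17, quadratic large sieve: sums over `m = v w²` -/

set_option autoImplicit false

noncomputable section

open scoped BigOperators ComplexConjugate
open Complex MeasureTheory

namespace Crest.Agent.R017

open Classical in
/-- For `m ≠ 0` there are exactly six pairs `(v, w)` with `v` squarefree and `v w² = m`
(`a1_sq_mul` for existence; `w` is determined up to the six units (`isUnit_iff`, `a3_assoc`,
`a3_sqf`, `a3_mul`, `a3_pow`), and `v` is determined by `w`). -/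
theorem q_fiber {m : O} (hm : m ≠ 0) : ∃ s : Finset (O × O), s.card = 6 ∧
    ∀ p : O × O, p ∈ s ↔ Squarefree p.1 ∧ p.1 * p.2 ^ 2 = m := by
  obtain ⟨a, b, hab, ha⟩ := a1_sq_mul hm
  have hb : b ≠ 0 := by rintro rfl; simp at hab; exact hm hab
  obtain ⟨U, hU6, hU⟩ : ∃ U : Finset O, U.card = 6 ∧ ∀ u, u ∈ U ↔ IsUnit u :=
    ⟨{1, -1, om, -om, om ^ 2, -om ^ 2}, by decide, fun u => by simp [isUnit_iff]⟩
  have h6 : ∀ u : O, IsUnit u → u ^ 6 = 1 := fun u hu => by
    rcases isUnit_iff.1 hu with rfl | rfl | rfl | rfl | rfl | rfl <;> decide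
  refine ⟨U.image fun u => (a * u ^ 4, b * u), ?_, fun p => ⟨fun hp => ?_, fun hp => ?_⟩⟩
  · rw [Finset.card_image_of_injective _ fun u u' h => mul_left_cancel₀ hb (congrArg Prod.snd h), hU6]
  · obtain ⟨u, hu, rfl⟩ := Finset.mem_image.1 hp
    rw [hU] at hu
    refine ⟨(associated_mul_unit_right a _ (hu.pow 4)).squarefree_iff.1 ha, ?_⟩
    simp only
    linear_combination (a * b ^ 2) * h6 u hu - hab
  · obtain ⟨v, w⟩ := p
    obtain ⟨hv, hvw⟩ := hp
    simp only at hv hvw
    have hw : w ≠ 0 := by rintro rfl; simp at hvw; exact hm hvw.symm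
    obtain ⟨u, hu⟩ : Associated b w := a3_assoc hb hw fun q hq => by
      have h1 := (a3_sqf hv.ne_zero).1 hv q hq
      have h2 := (a3_sqf ha.ne_zero).1 ha q hq
      have h3 := a3_mul hq hv.ne_zero (pow_ne_zero 2 hw)
      have h4 := a3_mul hq ha.ne_zero (pow_ne_zero 2 hb)
      rw [a3_pow hq hw, hvw] at h3
      rw [a3_pow hq hb, sq, ← hab] at h4
      omega
    refine Finset.mem_image.2 ⟨u, (hU _).2 u.isUnit, Prod.ext ?_ hu⟩
    have h1 : v * (u : O) ^ 2 = a := mul_left_cancel₀ (pow_ne_zero 2 hb) (by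
      rw [← hu] at hvw
      linear_combination hvw + hab)
    simp only
    linear_combination (-(u : O) ^ 4) * h1 + v * h6 u u.isUnit

open Classical in
theorem q3_fib {E : Type*} [NormedAddCommGroup E] (f : O → E) (m : O) :
    HasSum (fun x : {p : O × O // p.1 * p.2 ^ 2 = m} =>
      if Squarefree x.1.1 ∧ x.1.2 ≠ 0 then f (x.1.1 * x.1.2 ^ 2) else 0)
      (6 • if m = 0 then 0 else f m) := by
  by_cases hm : m = 0
  · rw [if_pos hm, smul_zero]
    convert hasSum_zero with x
    rw [if_neg]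
    rintro ⟨h1, h2⟩
    exact mul_ne_zero h1.ne_zero (pow_ne_zero 2 h2) (x.2.trans hm)
  · obtain ⟨s, hs6, hs⟩ := q_fiber hm
    rw [if_neg hm]
    have h1 := hasSum_sum_of_ne_finset_zero (L := SummationFilter.unconditional _)
      (f := fun x : {p : O × O // p.1 * p.2 ^ 2 = m} =>
      if Squarefree x.1.1 ∧ x.1.2 ≠ 0 then f (x.1.1 * x.1.2 ^ 2) else 0)
      (s := s.subtype fun p => p.1 * p.2 ^ 2 = m) (fun x hx => by
        rw [if_neg]
        exact fun h => hx (Finset.mem_subtype.2 ((hs _).2 ⟨h.1, x.2⟩)))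
    convert h1
    rw [Finset.sum_congr rfl (g := fun _ => f m), Finset.sum_const, Finset.card_subtype,
      Finset.filter_true_of_mem fun p hp => ((hs p).1 hp).2, hs6]
    intro x hx
    rw [if_pos, x.2]
    refine ⟨((hs _).1 (Finset.mem_subtype.1 hx)).1, fun h => hm ?_⟩
    rw [← x.2, h]; simp

open Classical in
/-- Sum over the fibres of `(v, w) ↦ v w²` (`Equiv.sigmaFiberEquiv`, `summable_sigma_of_nonneg`
for the norms, `HasSum.sigma`/`Summable.tsum_sigma`). -/
theorem q_pairs {f : O → ℂ} (hf : Summable f) :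
    HasSum (fun p : O × O => if Squarefree p.1 ∧ p.2 ≠ 0 then f (p.1 * p.2 ^ 2) else 0)
      (6 * ∑' m : O, if m = 0 then 0 else f m) := by
  rw [← (Equiv.sigmaFiberEquiv fun p : O × O => p.1 * p.2 ^ 2).hasSum_iff]
  have hs : ∀ {E : Type} [NormedAddCommGroup E] [CompleteSpace E] {g : O → E}, Summable g →
      Summable fun m => if m = 0 then 0 else g m := fun {E} _ _ {g} hg =>
    (hg.indicator {m | m ≠ 0}).congr fun m => by simp [Set.indicator_apply]
  refine HasSum.sigma_of_hasSum (g := fun m => 6 • if m = 0 then 0 else f m) ?_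
    (fun m => q3_fib f m) (Summable.of_norm ?_)
  · simpa using (hs hf).hasSum.mul_left 6
  · have h1 : ∀ m, HasSum (fun x : {p : O × O // p.1 * p.2 ^ 2 = m} =>
        ‖if Squarefree x.1.1 ∧ x.1.2 ≠ 0 then f (x.1.1 * x.1.2 ^ 2) else 0‖)
        (6 • if m = 0 then 0 else ‖f m‖) := fun m => by
      refine (q3_fib (fun m => ‖f m‖) m).congr_fun fun x => ?_
      split_ifs <;> simp
    refine (summable_sigma_of_nonneg fun _ => norm_nonneg _).2 ⟨fun m => (h1 m).summable, ?_⟩
    refine ((hs hf.norm).const_smul 6).congr fun m => ?_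
    exact (h1 m).tsum_eq.symm

end Crest.Agent.R017

end
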