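import Crest.Agent.R017.QLSAux3

/-! # Row 17, quadratic large sieve: Poisson summation and tails for `q_G` -/

set_option autoImplicit false

noncomputable section

open scoped BigOperators ComplexConjugate
open Complex MeasureTheory

namespace Crest.Agent.R017

theorem q3b_bound {A : ℝ} (hA : 0 ≤ A) : ∃ C : ℝ, 0 ≤ C ∧ ∀ R V : ℝ, 0 < R → ∀ p : O × O,
    q_wt R V p ≤ C * R ^ A * ((if V < Nr p.1 then Nr p.1 ^ (-A) else 0) * Nr p.2 ^ (-A)) := by
  obtain ⟨C, hC⟩ := Phi_le_rpow hA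
  refine ⟨|C|, abs_nonneg C, fun R V hR p => ?_⟩
  unfold q_wt
  by_cases h : Squarefree p.1 ∧ V < Nr p.1 ∧ p.2 ≠ 0
  · rw [if_pos h, if_pos h.2.1]
    have h1 := Nr_pos h.1.ne_zero
    have h2 := one_le_Nr h.2.2
    have h3 : Nr p.1 * Nr p.2 / R ≤ Nr (p.1 * p.2 ^ 2) / R := by
      rw [Nr_mul, Nr_pow]
      gcongr
      nlinarith
    refine (p1_anti h3).trans ((hC _ (by positivity)).trans ?_)
    rw [Real.div_rpow (by positivity) hR.le, Real.mul_rpow h1.le (by positivity),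
      Real.rpow_neg hR.le, div_inv_eq_mul, mul_comm _ (R ^ A), ← mul_assoc]
    gcongr
    exact le_abs_self C
  · rw [if_neg h]
    have := b2_ite_nonneg A V p.1
    have := Real.rpow_nonneg (Nr_nonneg p.2) (-A)
    positivity

theorem q3b_summable_tail {A : ℝ} (hA : 1 < A) (V : ℝ) :
    Summable fun x : O => if V < Nr x then Nr x ^ (-A) else 0 := by
  refine Summable.of_nonneg_of_le (b2_ite_nonneg A V) (fun x => ?_) (summable_Nr_rpow hA)
  split_ifs
  · exact le_rfl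
  · exact Real.rpow_nonneg (Nr_nonneg x) _

theorem q3b_summable {A : ℝ} (hA : 1 < A) (V : ℝ) :
    Summable fun p : O × O => (if V < Nr p.1 then Nr p.1 ^ (-A) else 0) * Nr p.2 ^ (-A) :=
  (q3b_summable_tail hA V).mul_of_nonneg (summable_Nr_rpow hA) (b2_ite_nonneg A V)
    fun x => Real.rpow_nonneg (Nr_nonneg x) _

theorem q3b_summable_f {R : ℝ} (hR : 0 < R) (q : O) :
    Summable fun m : O => (Phi (Nr m / R) : ℂ) * rho q m := by
  refine Summable.of_norm_bounded (p1_summable0 hR) fun m => ?_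
  rw [norm_mul, Complex.norm_real, Real.norm_of_nonneg (Phi_pos _).le]
  exact mul_le_of_le_one_right (Phi_pos _).le (norm_rho_le _ _)

theorem q3b_split {R : ℝ} (hR : 0 < R) (q : O) :
    ∑' m : O, (Phi (Nr m / R) : ℂ) * rho q m =
      rho q 0 + ∑' m : O, if m = 0 then 0 else (Phi (Nr m / R) : ℂ) * rho q m := by
  rw [(q3b_summable_f hR q).tsum_eq_add_tsum_ite 0]
  congr 1
  simp [Nr_zero, Phi]

theorem q_wt_nonneg (R V : ℝ) (p : O × O) : 0 ≤ q_wt R V p := by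
  unfold q_wt
  split_ifs
  · exact (Phi_pos _).le
  · exact le_rfl

theorem q3b_norm_le (R V : ℝ) (q : O) (p : O × O) :
    ‖(q_wt R V p : ℂ) * rho q (p.1 * p.2 ^ 2)‖ ≤ q_wt R V p := by
  rw [norm_mul, Complex.norm_real, Real.norm_of_nonneg (q_wt_nonneg R V p)]
  exact mul_le_of_le_one_right (q_wt_nonneg R V p) (norm_rho_le _ _)

theorem q_wt_summable {R : ℝ} (hR : 0 < R) (V : ℝ) : Summable (q_wt R V) := by
  obtain ⟨C, hC, h⟩ := q3b_bound (A := 2) (by norm_num)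
  exact Summable.of_nonneg_of_le (q_wt_nonneg R V) (h R V hR)
    ((q3b_summable (by norm_num) V).mul_left _)

theorem q_G_summable {R : ℝ} (hR : 0 < R) (V : ℝ) (q : O) :
    Summable fun p : O × O => (q_wt R V p : ℂ) * rho q (p.1 * p.2 ^ 2) := by
  exact Summable.of_norm_bounded (q_wt_summable hR V) (q3b_norm_le R V q)

theorem q_G_zero {R : ℝ} (hR : 0 < R) (q : O) :
    q_G q R 0 = 6 * ∑' m : O, if m = 0 then 0 else (Phi (Nr m / R) : ℂ) * rho q m := by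
  rw [← (q_pairs (q3b_summable_f hR q)).tsum_eq]
  refine tsum_congr fun p => ?_
  unfold q_wt
  by_cases h : Squarefree p.1 ∧ p.2 ≠ 0
  · rw [if_pos h, if_pos ⟨h.1, Nr_pos h.1.ne_zero, h.2⟩]
  · rw [if_neg h, if_neg fun h' => h ⟨h'.1, h'.2.2⟩]
    simp

/-- `poisson_per` with `f = rho q` (`rho_congr'`), `gs_rho`, `g2_eq`; the terms `m = 0`, `h = 0`
vanish unless `q = 1` (`rho_eq_zero`, `Prim.eq_one_of_isUnit`, `rho_unit_left`). -/
theorem q_G_poisson {q : O} (hq : Prim q) (hs : Squarefree q) (h2 : ¬ (2 : O) ∣ q)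
    (hg : gam2 q = 1) {M : ℝ} (hM : 0 < M) :
    q_G q M 0 = (if q = 1 then 6 * ((M : ℂ) - 1) else 0) +
      ((M / Real.sqrt (Nr q) : ℝ) : ℂ) * q_G q (Nr q / M) 0 := by
  have hq0 := hq.ne_zero
  have hN := Nr_pos hq0
  have hS : 0 < Real.sqrt (Nr q) := Real.sqrt_pos.2 hN
  have hS' : (Real.sqrt (Nr q) : ℂ) ≠ 0 := by exact_mod_cast hS.ne'
  have hgs : gs (rho q) q 1 = (Real.sqrt (Nr q) : ℂ) := by
    have := (g2_eq h2 hs).trans hg
    unfold g2 at this
    rwa [div_eq_one_iff_eq hS'] at this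
  have hP := poisson_per hM hq0 (rho q) fun x y h => rho_congr' hq0 h
  have e1 : ∀ h : O, gs (rho q) q h * (Phi (M * Nr h / Nr q) : ℂ) =
      (Real.sqrt (Nr q) : ℂ) * ((Phi (Nr h / (Nr q / M)) : ℂ) * rho q h) := fun h => by
    rw [gs_rho h2 hs, hgs, show Nr h / (Nr q / M) = M * Nr h / Nr q by field_simp]
    ring
  simp only [e1] at hP
  rw [tsum_mul_left, q3b_split hM, q3b_split (div_pos hN hM), ← mul_assoc] at hP
  have e2 : ((M / Nr q : ℝ) : ℂ) * (Real.sqrt (Nr q) : ℂ) = ((M / Real.sqrt (Nr q) : ℝ) : ℂ) := by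
    rw [← Complex.ofReal_mul]
    congr 1
    rw [div_mul_eq_mul_div, div_eq_div_iff hN.ne' hS.ne', mul_assoc, Real.mul_self_sqrt hN.le]
  rw [e2] at hP
  rw [q_G_zero hM, q_G_zero (div_pos hN hM)]
  by_cases h1 : q = 1
  · subst h1
    rw [if_pos rfl]
    rw [rho_unit_left isUnit_one 0] at hP
    have e3 : ((M / Real.sqrt (Nr 1) : ℝ) : ℂ) = M := by rw [Nr_one]; simp
    rw [e3] at hP ⊢
    linear_combination 6 * hP
  · have h0 : rho q 0 = 0 := (rho_eq_zero hq0).2 (Or.inr fun hc =>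
      h1 (hq.eq_one_of_isUnit (isCoprime_zero_right.1 hc)))
    rw [if_neg h1]
    rw [h0] at hP
    linear_combination 6 * hP

/-- `Phi (N v N w² / R) ≤ C R^A (N v)^(-A) (N w)^(-2A)`; `tsum_tail_rpow_le`, `summable_Nr_rpow`,
`Summable.tsum_mul_tsum_of_nonneg`/`Summable.mul_of_nonneg`. -/
theorem q_G_tail {A : ℝ} (hA : 1 < A) : ∃ C : ℝ, 0 ≤ C ∧ ∀ (q : O) (R V : ℝ), 0 < R → 0 < V →
    ‖q_G q R V‖ ≤ C * R ^ A * V ^ (1 - A) := by
  obtain ⟨C, hC, h⟩ := q3b_bound (A := A) (by linarith)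
  obtain ⟨C', hC'⟩ := tsum_tail_rpow_le hA
  have hS : 0 ≤ ∑' x : O, Nr x ^ (-A) := tsum_nonneg fun x => Real.rpow_nonneg (Nr_nonneg x) _
  refine ⟨C * |C'| * ∑' x : O, Nr x ^ (-A), by positivity, fun q R V hR hV => ?_⟩
  have h1 : ‖q_G q R V‖ ≤ ∑' p : O × O, C * R ^ A *
      ((if V < Nr p.1 then Nr p.1 ^ (-A) else 0) * Nr p.2 ^ (-A)) :=
    tsum_of_norm_bounded ((q3b_summable hA V).mul_left _).hasSum fun p =>
      (q3b_norm_le R V q p).trans (h R V hR p)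
  rw [tsum_mul_left, ← (q3b_summable_tail hA V).tsum_mul_tsum (summable_Nr_rpow hA)
    (q3b_summable hA V)] at h1
  have h2 : ∑' x : O, (if V < Nr x then Nr x ^ (-A) else 0) ≤ |C'| * V ^ (1 - A) :=
    (hC' V hV).trans (mul_le_mul_of_nonneg_right (le_abs_self _) (by positivity))
  calc ‖q_G q R V‖ ≤ _ := h1
    _ ≤ C * R ^ A * (|C'| * V ^ (1 - A) * ∑' x : O, Nr x ^ (-A)) := by gcongr
    _ = _ := by ring

end Crest.Agent.R017

end
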