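import Crest.Agent.R017.QLSAux2
import Crest.Agent.R017.QLSAux3b

/-! # Row 17, quadratic large sieve: the cancellation of the main terms -/

set_option autoImplicit false

noncomputable section

open scoped BigOperators ComplexConjugate
open Complex MeasureTheory

namespace Crest.Agent.R017

theorem q4_has {T : ℝ} (hT : 0 < T) :
    HasSum (fun w : O => if w = 0 then (0 : ℂ) else (Phi (Nr w ^ 2 / T) : ℂ)) (q_Th T : ℂ) := by
  have := Complex.hasSum_ofReal.2 (q_Th_summable hT).hasSum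
  simpa only [apply_ite Complex.ofReal, Complex.ofReal_zero, q_Th] using this

open Classical in
theorem q4_dvd {e : O} (he : e ≠ 0) {T : ℝ} (hT : 0 < T) :
    HasSum (fun w : O => if e ∣ w then (if w = 0 then (0 : ℂ) else (Phi (Nr w ^ 2 / T) : ℂ)) else 0)
      (q_Th (T / Nr e ^ 2) : ℂ) := by
  have h0 := Nr_pos he
  refine ((mul_right_injective₀ he).hasSum_iff fun x hx => if_neg fun ⟨c, hc⟩ => hx ⟨c, hc.symm⟩).1 ?_
  convert q4_has (T := T / Nr e ^ 2) (by positivity) using 2 with w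
  simp only [Function.comp_apply, if_pos (dvd_mul_right e w), mul_eq_zero, he, false_or, Nr_mul]
  congr 3
  field_simp

open Classical in
theorem q4_cop {q : O} (hq : Prim q) {T : ℝ} (hT : 0 < T) :
    HasSum (fun w : O => if w ≠ 0 ∧ IsCoprime q w then (Phi (Nr w ^ 2 / T) : ℂ) else 0)
      (∑ e ∈ pdiv q, mu e * (q_Th (T / Nr e ^ 2) : ℂ)) := by
  refine (congrArg (HasSum · _) (funext fun w => ?_)).mpr (hasSum_sum fun e (he : e ∈ pdiv q) =>
    (q4_dvd ((mem_pdiv hq.ne_zero).1 he).1.ne_zero hT).mul_left (mu e))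
  have h := congrArg (· * if w = 0 then (0 : ℂ) else (Phi (Nr w ^ 2 / T) : ℂ))
    (sum_pdiv_mu_dvd hq w)
  simp only [Finset.sum_mul, ite_mul, zero_mul, one_mul] at h
  simp only [mul_ite (_ ∣ w), mul_zero]
  rw [h]
  by_cases h1 : w = 0 <;> simp [h1]

open Classical in
theorem q4_rho {q : O} (hq : q ≠ 0) (h2 : ¬ (2 : O) ∣ q) (v w : O) :
    rho q (v * w ^ 2) = if IsCoprime q w then rho q v else 0 := by
  rw [rho_mul_right, rho_pow_right _ _ two_ne_zero]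
  split_ifs with h
  · rw [rho_sq fun h' => ((rho_eq_zero hq).1 h').elim h2 fun h'' => h'' h, mul_one]
  · rw [(rho_eq_zero hq).2 (Or.inr h)]
    simp

open Classical in
/-- `sum_pdiv_mu_dvd`, then `w = e w'` (`Function.Injective.tsum_eq`). -/
theorem q_Th_coprime {q : O} (hq : Prim q) {T : ℝ} (hT : 0 < T) :
    ∑' w : O, (if w ≠ 0 ∧ IsCoprime q w then (Phi (Nr w ^ 2 / T) : ℂ) else 0) =
      ∑ e ∈ pdiv q, mu e * (q_Th (T / Nr e ^ 2) : ℂ) := by
  exact (q4_cop hq hT).tsum_eq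

/-- `q_wt R 0 p - q_wt R V p` is supported on `p.1 ∈ sqb V`; `Summable.tsum_prod`, `tsum_eq_sum`;
`rho q (v w²) = rho q v * 1[IsCoprime q w]` (`rho_mul_right`, `rho_pow_right`, `rho_sq`,
`rho_eq_zero`). -/
theorem q_G_split {q : O} (hq : Prim q) (h2 : ¬ (2 : O) ∣ q) {R V : ℝ} (hR : 0 < R) (hV : 0 < V) :
    q_G q R 0 = q_G q R V +
      ∑ v ∈ sqb V, rho q v * ∑ e ∈ pdiv q, mu e * (q_Th (R / Nr v / Nr e ^ 2) : ℂ) := by
  classical
  have h1 : ∀ v ∈ sqb V, HasSum (fun p : O × O => if p.1 = v then rho q v *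
      (if p.2 ≠ 0 ∧ IsCoprime q p.2 then (Phi (Nr p.2 ^ 2 / (R / Nr v)) : ℂ) else 0) else 0)
      (rho q v * ∑ e ∈ pdiv q, mu e * (q_Th (R / Nr v / Nr e ^ 2) : ℂ)) := by
    intro v hv
    have h0 := Nr_pos (mem_sqb.1 hv).1.ne_zero
    refine ((Prod.mk_right_injective v).hasSum_iff fun x hx =>
      if_neg fun h => hx ⟨x.2, Prod.ext h.symm rfl⟩).1 ?_
    simpa only [Function.comp_def, if_true] using
      (q4_cop hq (T := R / Nr v) (by positivity)).mul_left (rho q v)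
  refine Eq.trans ?_ ((q_G_summable hR V q).hasSum.add (hasSum_sum h1)).tsum_eq
  refine tsum_congr fun ⟨v, w⟩ => ?_
  simp only [Finset.sum_ite_eq, mem_sqb, q_wt, q4_rho hq.ne_zero h2]
  by_cases hv : Squarefree v
  · have h0 := Nr_pos hv.ne_zero
    have e : Nr (v * w ^ 2) / R = Nr w ^ 2 / (R / Nr v) := by
      rw [Nr_mul, Nr_pow]
      field_simp
    rw [e]
    by_cases hw : w = 0
    · simp [hw]
    by_cases hc : IsCoprime q w
    · rcases lt_or_ge V (Nr v) with h | h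
      · simp [hv, hw, hc, h0, h, h.not_ge]
      · simp [hv, hw, hc, h0, h, h.not_gt, mul_comm]
    · simp [hc]
  · simp [hv]

/-- `q_G_poisson`, `q_G_split` on both sides, `q_Th = q_E + q_c √·`, and
`(M/√Nq) √(Nq/(M Nv)/Ne²) = √(M/Nv/Ne²)`. -/
theorem q_id {q : O} (hq : Prim q) (hs : Squarefree q) (h2 : ¬ (2 : O) ∣ q) (hg : gam2 q = 1)
    {M V : ℝ} (hM : 0 < M) (hV : 0 < V) :
    q_G q M V = (if q = 1 then 6 * ((M : ℂ) - 1) else 0) +
      ((M / Real.sqrt (Nr q) : ℝ) : ℂ) * q_G q (Nr q / M) V +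
      ((M / Real.sqrt (Nr q) : ℝ) : ℂ) * ∑ v ∈ sqb V, rho q v * q_Eq q (Nr q / (M * Nr v)) -
      ∑ v ∈ sqb V, rho q v * q_Eq q (M / Nr v) := by
  have h0 := Nr_pos hq.ne_zero
  have h1 := q_G_poisson hq hs h2 hg hM
  rw [q_G_split hq h2 hM hV, q_G_split hq h2 (R := Nr q / M) (by positivity) hV] at h1
  have h3 : ((M / Real.sqrt (Nr q) : ℝ) : ℂ) * ∑ v ∈ sqb V, rho q v * q_Eq q (Nr q / (M * Nr v)) -
      ∑ v ∈ sqb V, rho q v * q_Eq q (M / Nr v) =
      ((M / Real.sqrt (Nr q) : ℝ) : ℂ) * ∑ v ∈ sqb V, rho q v *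
        ∑ e ∈ pdiv q, mu e * (q_Th (Nr q / M / Nr v / Nr e ^ 2) : ℂ) -
      ∑ v ∈ sqb V, rho q v * ∑ e ∈ pdiv q, mu e * (q_Th (M / Nr v / Nr e ^ 2) : ℂ) := by
    simp only [q_Eq, Finset.mul_sum, ← Finset.sum_sub_distrib]
    refine Finset.sum_congr rfl fun v _ => Finset.sum_congr rfl fun e _ => ?_
    have h4 : M / √(Nr q) * √(Nr q / (M * Nr v) / Nr e ^ 2) = √(M / Nr v / Nr e ^ 2) := by
      have h5 : M / Nr v / Nr e ^ 2 = (M / √(Nr q)) ^ 2 * (Nr q / (M * Nr v) / Nr e ^ 2) := by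
        rw [div_pow, Real.sq_sqrt h0.le, ← div_div]
        field_simp
      rw [h5, Real.sqrt_mul (sq_nonneg _), Real.sqrt_sq (by positivity)]
    have h6 : ((M / √(Nr q) : ℝ) : ℂ) * (√(Nr q / (M * Nr v) / Nr e ^ 2) : ℝ) =
        (√(M / Nr v / Nr e ^ 2) : ℝ) := by exact_mod_cast h4
    rw [q_E, q_E, div_div (Nr q) M]
    linear_combination (-(rho q v * mu e * q_c)) * h6
  linear_combination h1 - h3

/-- `n₁ n₂ ≡ n₁² mod 4` (`gam2_per`) and `gam2 (x²) = 1` for odd `x` (`r2_gam2_odd`, `r2_re_mul`,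
`r2_im_mul`, `decide` over `ZMod 4`). -/
theorem q_gam2_one {n₁ n₂ : O} (h₁ : ¬ (2 : O) ∣ n₁) (h : (4 : O) ∣ n₁ - n₂) :
    gam2 (n₁ * n₂) = 1 := by
  have h2 : ∀ a b : ZMod 4, r2_odd a b → r2_g (a * a - b * b) (a * b + b * a - b * b) = 0 := by
    decide
  rw [gam2_per (y := n₁ * n₁) (by
      rw [← mul_sub]
      exact (dvd_sub_comm.1 h).mul_left _),
    r2_gam2_odd (r2_odd_mul h₁ h₁), r2_re_mul, r2_im_mul, h2 _ _ (r2_odd_of h₁), r2_ch_zero]

end Crest.Agent.R017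

end
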