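import Crest.Agent.R017.QLSAux0

/-! # Row 17, quadratic large sieve: removing the common divisor by positivity -/

set_option autoImplicit false

noncomputable section

open scoped BigOperators ComplexConjugate
open Complex MeasureTheory

namespace Crest.Agent.R017

/-- The primary greatest common divisor of a primary `n` with an arbitrary `m`. -/
theorem q_exists_gcd {n : O} (hn : Prim n) (m : O) :
    ∃ g : O, Prim g ∧ ∀ d : O, d ∣ g ↔ d ∣ n ∧ d ∣ m := by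
  have h1 : ¬ lam ∣ EuclideanDomain.gcd n m := fun h =>
    hn.not_lam_dvd (h.trans (EuclideanDomain.gcd_dvd_left n m))
  obtain ⟨u, hu, hp⟩ := exists_prim h1
  refine ⟨_, hp, fun d => ?_⟩
  rw [hu.dvd_mul_left]
  exact ⟨fun h => ⟨h.trans (EuclideanDomain.gcd_dvd_left n m),
    h.trans (EuclideanDomain.gcd_dvd_right n m)⟩, fun h => EuclideanDomain.dvd_gcd h.1 h.2⟩

theorem q5_cop {x y : O} (h : ∀ d : O, d ∣ x → d ∣ y → IsUnit d) : IsCoprime x y :=
  IsRelPrime.isCoprime fun d h1 h2 => h d h1 h2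

theorem q5_dvd {g g' x y : O} (h : IsCoprime x y) (h1 : g ∣ g' * x) (h2 : g ∣ g' * y) : g ∣ g' := by
  obtain ⟨u, v, e⟩ := h
  rw [show g' = u * (g' * x) + v * (g' * y) by linear_combination (-g') * e]
  exact dvd_add (h1.mul_left u) (h2.mul_left v)

open Classical in
theorem q5_reindex (X : ℝ) (F : O → O → ℂ) :
    ∑ g ∈ obox X, ∑ n₁ ∈ obox (X / Nr g), ∑ n₂ ∈ obox (X / Nr g),
      (if IsCoprime n₁ n₂ ∧ g * n₁ ∈ obox X ∧ g * n₂ ∈ obox X then F (g * n₁) (g * n₂) else 0) =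
      ∑ n ∈ obox X, ∑ n' ∈ obox X, F n n' := by
  rw [← Finset.sum_product']
  simp_rw [← Finset.sum_product']
  rw [Finset.sum_sigma', ← Finset.sum_filter]
  refine Finset.sum_bij (fun x _ => (x.1 * x.2.1, x.1 * x.2.2)) ?_ ?_ ?_ ?_
  · intro x hx
    obtain ⟨-, -, h2, h3⟩ := Finset.mem_filter.1 hx
    exact Finset.mem_product.2 ⟨h2, h3⟩
  · rintro ⟨g, x, y⟩ hx ⟨g', x', y'⟩ hx' e
    obtain ⟨h0, h1, -, -⟩ := Finset.mem_filter.1 hx
    obtain ⟨h0', h1', -, -⟩ := Finset.mem_filter.1 hx'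
    have hg := (mem_obox.1 (Finset.mem_sigma.1 h0).1).1
    have hg' := (mem_obox.1 (Finset.mem_sigma.1 h0').1).1
    simp only [Prod.mk.injEq] at e h1 h1' hg hg'
    have e0 : g = g' := hg.eq_of_associated hg' (associated_of_dvd_dvd
      (q5_dvd h1' ⟨x, e.1.symm⟩ ⟨y, e.2.symm⟩) (q5_dvd h1 ⟨x', e.1⟩ ⟨y', e.2⟩))
    subst e0
    rw [mul_left_cancel₀ hg.ne_zero e.1, mul_left_cancel₀ hg.ne_zero e.2]
  · rintro ⟨n, n'⟩ hn
    obtain ⟨h1, h2⟩ := Finset.mem_product.1 hn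
    simp only at h1 h2
    obtain ⟨g, hg, hd⟩ := q_exists_gcd (mem_obox.1 h1).1 n'
    obtain ⟨⟨x, rfl⟩, ⟨y, rfl⟩⟩ := (hd g).1 dvd_rfl
    refine ⟨⟨g, x, y⟩, Finset.mem_filter.2 ⟨Finset.mem_sigma.2
      ⟨mem_obox_of_dvd h1 hg (dvd_mul_right _ _), Finset.mem_product.2
        ⟨mem_obox_div hg h1, mem_obox_div hg h2⟩⟩, q5_cop fun d d1 d2 => ?_, h1, h2⟩, rfl⟩
    have h3 : g * d ∣ g * 1 := by
      rw [mul_one]
      exact (hd _).2 ⟨mul_dvd_mul_left g d1, mul_dvd_mul_left g d2⟩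
    exact isUnit_of_dvd_one ((mul_dvd_mul_iff_left hg.ne_zero).1 h3)
  · intro x _
    rfl

theorem q5_DR (m : O) : ∃ D C : O → O, ∀ n : O, Prim n →
    Prim (D n) ∧ (∀ d : O, d ∣ D n ↔ d ∣ n ∧ d ∣ m) ∧ n = D n * C n := by
  have h : ∀ n : O, ∃ D C : O, Prim n →
      Prim D ∧ (∀ d : O, d ∣ D ↔ d ∣ n ∧ d ∣ m) ∧ n = D * C := fun n => by
    by_cases hn : Prim n
    · obtain ⟨g, hg, hd⟩ := q_exists_gcd hn m
      obtain ⟨c, hc⟩ := ((hd g).1 dvd_rfl).1
      exact ⟨g, c, fun _ => ⟨hg, hd, hc⟩⟩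
    · exact ⟨1, 1, fun h => absurd h hn⟩
  choose D C h using h
  exact ⟨D, C, h⟩

theorem q5_step {m : O} {D C : O → O} (H : ∀ n : O, Prim n →
    Prim (D n) ∧ (∀ d : O, d ∣ D n ↔ d ∣ n ∧ d ∣ m) ∧ n = D n * C n) {g x : O} (hg : Prim g)
    (hx : Prim x) (hc : IsCoprime x m) : D (g * x) = D g ∧ C (g * x) = C g * x := by
  obtain ⟨a1, a2, a3⟩ := H g hg
  obtain ⟨b1, b2, b3⟩ := H _ (hg.mul hx)
  have e : D (g * x) = D g := by
    refine b1.eq_of_associated a1 (associated_of_dvd_dvd ?_ ?_)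
    · obtain ⟨c1, c2⟩ := (b2 _).1 dvd_rfl
      exact (a2 _).2 ⟨(hc.of_isCoprime_of_dvd_right c2).symm.dvd_of_dvd_mul_right c1, c2⟩
    · obtain ⟨c1, c2⟩ := (a2 _).1 dvd_rfl
      exact (b2 _).2 ⟨c1.mul_right _, c2⟩
  refine ⟨e, mul_left_cancel₀ a1.ne_zero ?_⟩
  rw [← mul_assoc, ← a3, ← e, ← b3]

theorem q5_cop_of_eq {m : O} {D C : O → O} (H : ∀ n : O, Prim n →
    Prim (D n) ∧ (∀ d : O, d ∣ D n ↔ d ∣ n ∧ d ∣ m) ∧ n = D n * C n) {g x y : O}
    (hx : Prim (g * x)) (hy : Prim (g * y)) (hs : Squarefree (g * x)) (hc : IsCoprime x y)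
    (e : D (g * x) = D (g * y)) : IsCoprime x m := by
  refine q5_cop fun d d1 d2 => ?_
  have h1 : d ∣ D (g * y) := e ▸ ((H _ hx).2.1 d).2 ⟨d1.mul_left g, d2⟩
  have h2 : d ∣ g := (hc.of_isCoprime_of_dvd_left d1).dvd_of_dvd_mul_right
    (((H _ hy).2.1 d).1 h1).1
  exact hs d (mul_dvd_mul h2 d1)

theorem q5_ker {m : O} {D C : O → O} (H : ∀ n : O, Prim n →
    Prim (D n) ∧ (∀ d : O, d ∣ D n ↔ d ∣ n ∧ d ∣ m) ∧ n = D n * C n) {X : ℝ} {g x y : O}
    (hg : g ∈ obox X) (hx : g * x ∈ obox X) (hy : g * y ∈ obox X) (hc : IsCoprime x y) :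
    rho (x * y) m =
      if D (g * x) = D (g * y) then rho (C (g * x)) m * rho (C (g * y)) m else 0 := by
  obtain ⟨g1, g2, g3, -⟩ := mem_obox.1 hg
  obtain ⟨x1, x2, -, -⟩ := mem_obox.1 hx
  obtain ⟨y1, y2, -, -⟩ := mem_obox.1 hy
  have px := g1.of_mul x1
  have py := g1.of_mul y1
  split_ifs with e
  · have cx := q5_cop_of_eq H x1 y1 x2 hc e
    have cy := q5_cop_of_eq H y1 x1 y2 hc.symm e.symm
    obtain ⟨a1, a2, a3⟩ := H g g1
    have hC : C g ≠ 0 := fun h => g1.ne_zero (by rw [a3, h, mul_zero])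
    have hC1 : C g ∣ g := ⟨D g, by rw [mul_comm]; exact a3⟩
    have h0 : rho (C g) m ≠ 0 := fun h => by
      rcases (rho_eq_zero hC).1 h with h | h
      · exact g3 (h.trans hC1)
      · refine h (q5_cop fun d d1 d2 => g2 d ?_)
        rw [a3]
        exact mul_dvd_mul ((a2 d).2 ⟨d1.trans hC1, d2⟩) d1
    rw [(q5_step H g1 px cx).2, (q5_step H g1 py cy).2, rho_mul_left px.ne_zero py.ne_zero,
      rho_mul_left hC px.ne_zero, rho_mul_left hC py.ne_zero]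
    linear_combination (-(rho x m * rho y m)) * rho_sq h0
  · refine (rho_eq_zero (px.mul py).ne_zero).2 (Or.inr fun h => e ?_)
    rw [(q5_step H g1 px h.of_mul_left_left).1, (q5_step H g1 py h.of_mul_left_right).1]

theorem q5_pos (S : Finset O) (D : O → O) (f : O → ℂ) (d₀ : O) :
    ‖∑ n ∈ S, if D n = d₀ then f n else 0‖ ^ 2 ≤
      (∑ n ∈ S, ∑ n' ∈ S, if D n = D n' then f n * conj (f n') else 0).re := by
  have h1 : (∑ n ∈ S, ∑ n' ∈ S, if D n = D n' then f n * conj (f n') else 0) =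
      ∑ d ∈ insert d₀ (S.image D), ((‖∑ n ∈ S, if D n = d then f n else 0‖ ^ 2 : ℝ) : ℂ) := by
    simp_rw [Complex.ofReal_pow, ← Complex.mul_conj', map_sum, Finset.sum_mul_sum]
    rw [Finset.sum_comm (s := insert d₀ (S.image D))]
    refine Finset.sum_congr rfl fun n hn => ?_
    rw [Finset.sum_comm (s := insert d₀ (S.image D))]
    refine Finset.sum_congr rfl fun n' _ => ?_
    rw [Finset.sum_eq_single (D n)]
    · by_cases e : D n = D n'
      · rw [if_pos e, if_pos rfl, if_pos e.symm]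
      · rw [if_neg e, if_neg (Ne.symm e), map_zero, mul_zero]
    · intro d _ hd
      rw [if_neg (Ne.symm hd), zero_mul]
    · intro h
      exact absurd (Finset.mem_insert_of_mem (Finset.mem_image_of_mem D hn)) h
  rw [h1, ← Complex.ofReal_sum, Complex.ofReal_re]
  exact Finset.single_le_sum (f := fun d => ‖∑ n ∈ S, if D n = d then f n else 0‖ ^ 2)
    (fun _ _ => by positivity) (Finset.mem_insert_self _ _)

/-- Expand the right side as `∑_{n,n'} a n conj (a n') rho ((n/g)(n'/g)) m`, `g = gcd (n,n')`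
(each pair `(n, n')` comes from exactly one triple `(g, n₁, n₂)`).  With `d(n) = gcd (n, m)` one
has `rho ((n/g)(n'/g)) m = if d(n) = d(n') then rho (n/d) m * rho (n'/d) m else 0`
(`n, n'` squarefree and odd; `g/d` is prime to `m`, `rho² = 1`), so the right side equals
`∑_d ‖∑_{d(n) = d} a n rho (n/d) m‖²`, and the term `d = 1` is the left side.
Equivalent route: for `d ∣ m`, `‖∑_k a(dk) rho k m‖² = ∑_{(h,m)=1} form_{g = d h}`, and every
`g ∈ obox X` is uniquely `d h` with `d ∣ m`, `(h, m) = 1`. -/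
theorem q_psd (X : ℝ) (a : O → ℂ) {m : O} (hm : m ≠ 0) :
    ‖q_row X a m‖ ^ 2 ≤ (∑ g ∈ obox X, q_form (X / Nr g) (q_sh X a g)
      (fun n => conj (q_sh X a g n)) (fun q => rho q m)).re := by
  classical
  have _ := hm
  obtain ⟨D, C, H⟩ := q5_DR m
  have h1 : q_row X a m = ∑ n ∈ obox X, if D n = 1 then a n * rho (C n) m else 0 := by
    refine Finset.sum_congr rfl fun n hn => ?_
    have hp := (mem_obox.1 hn).1
    obtain ⟨a1, a2, a3⟩ := H n hp
    split_ifs with e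
    · rw [e, one_mul] at a3
      rw [← a3]
    · rw [(rho_eq_zero hp.ne_zero).2 (Or.inr fun h => e ?_), mul_zero]
      obtain ⟨c1, c2⟩ := (a2 _).1 dvd_rfl
      exact a1.eq_one_of_isUnit (h.isUnit_of_dvd' c1 c2)
  rw [h1]
  refine (q5_pos _ D _ 1).trans (le_of_eq ?_)
  congr 1
  rw [← q5_reindex]
  refine Finset.sum_congr rfl fun g hg => Finset.sum_congr rfl fun x _ =>
    Finset.sum_congr rfl fun y _ => ?_
  simp only [q_sh]
  by_cases hc : IsCoprime x y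
  · by_cases hx : g * x ∈ obox X
    · by_cases hy : g * y ∈ obox X
      · rw [if_pos ⟨hc, hx, hy⟩, if_pos hc, if_pos hx, if_pos hy, q5_ker H hg hx hy hc]
        split_ifs
        · rw [map_mul, conj_rho]; ring
        · rw [mul_zero]
      · simp [hy]
    · simp [hx]
  · simp [hc]

/-- Every `n ∈ obox X` is counted once for each `g ∈ pdiv n` (`q_card_pdiv`). -/
theorem q_sh_l2 {ε : ℝ} (hε : 0 < ε) : ∃ C : ℝ, 0 ≤ C ∧ ∀ (X : ℝ) (a : O → ℂ), 1 ≤ X →
    ∑ g ∈ obox X, q_l2 (X / Nr g) (q_sh X a g) ≤ C * X ^ ε * q_l2 X a := by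
  classical
  obtain ⟨C, hC0, hC⟩ := q_card_pdiv hε
  refine ⟨C, hC0, fun X a _ => ?_⟩
  have h1 : ∀ g ∈ obox X, q_l2 (X / Nr g) (q_sh X a g) ≤
      ∑ n ∈ obox X, if g ∈ pdiv n then ‖a n‖ ^ 2 else 0 := fun g hg => by
    have gp := (mem_obox.1 hg).1
    have e1 : q_l2 (X / Nr g) (q_sh X a g) =
        ∑ x ∈ (obox (X / Nr g)).filter (fun x => g * x ∈ obox X), ‖a (g * x)‖ ^ 2 := by
      rw [Finset.sum_filter]
      refine Finset.sum_congr rfl fun x _ => ?_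
      simp only [q_sh]
      split_ifs <;> simp
    rw [e1, ← Finset.sum_filter, ← Finset.sum_image (f := fun n => ‖a n‖ ^ 2) (g := fun x => g * x)
      fun x _ y _ e => mul_left_cancel₀ gp.ne_zero e]
    refine Finset.sum_le_sum_of_subset_of_nonneg (fun n hn => ?_) fun _ _ _ => by positivity
    obtain ⟨x, hx, rfl⟩ := Finset.mem_image.1 hn
    have h2 := (Finset.mem_filter.1 hx).2
    exact Finset.mem_filter.2 ⟨h2, (mem_pdiv (mem_obox.1 h2).1.ne_zero).2 ⟨gp, dvd_mul_right _ _⟩⟩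
  refine (Finset.sum_le_sum h1).trans ?_
  rw [Finset.sum_comm, q_l2, Finset.mul_sum]
  refine Finset.sum_le_sum fun n hn => ?_
  rw [← Finset.sum_filter, Finset.sum_const, nsmul_eq_mul]
  refine mul_le_mul_of_nonneg_right (le_trans ?_
    (hC X n (mem_obox.1 hn).1.ne_zero (mem_obox.1 hn).2.2.2)) (by positivity)
  exact_mod_cast Finset.card_le_card fun g hg => (Finset.mem_filter.1 hg).2

end Crest.Agent.R017

end
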