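import Crest.Agent.R017.QLSAux0

/-! # Row 17, quadratic large sieve: the bilinear estimate -/

set_option autoImplicit false

noncomputable section

open scoped BigOperators ComplexConjugate
open Complex MeasureTheory

namespace Crest.Agent.R017

/-- Primary divisors of a coprime product (`exists_part` or `exists_dvd_and_dvd_of_dvd_mul`,
`exists_prim`; injectivity by `Prim.eq_of_associated`). -/
theorem q_sum_pdiv_mul {n₁ n₂ : O} (h₁ : Prim n₁) (h₂ : Prim n₂) (h : IsCoprime n₁ n₂)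
    (f : O → ℂ) : ∑ e ∈ pdiv (n₁ * n₂), f e = ∑ e₁ ∈ pdiv n₁, ∑ e₂ ∈ pdiv n₂, f (e₁ * e₂) := by
  have h0 := (h₁.mul h₂).ne_zero
  rw [← Finset.sum_product']
  refine (Finset.sum_nbij (fun p : O × O => p.1 * p.2) (fun p hp => ?_) (fun p hp q hq e => ?_)
    (fun e he => ?_) fun _ _ => rfl).symm
  · rw [Finset.mem_product, mem_pdiv h₁.ne_zero, mem_pdiv h₂.ne_zero] at hp
    exact (mem_pdiv h0).2 ⟨hp.1.1.mul hp.2.1, mul_dvd_mul hp.1.2 hp.2.2⟩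
  · rw [Finset.mem_coe, Finset.mem_product, mem_pdiv h₁.ne_zero, mem_pdiv h₂.ne_zero] at hp hq
    have e' : p.1 * p.2 = q.1 * q.2 := e
    have a1 : p.1 ∣ q.1 := ((h.of_isCoprime_of_dvd_left hp.1.2).of_isCoprime_of_dvd_right
      hq.2.2).dvd_of_dvd_mul_right (e' ▸ dvd_mul_right _ _)
    have a2 : q.1 ∣ p.1 := ((h.of_isCoprime_of_dvd_left hq.1.2).of_isCoprime_of_dvd_right
      hp.2.2).dvd_of_dvd_mul_right (e'.symm ▸ dvd_mul_right _ _)
    have a3 : p.1 = q.1 := hp.1.1.eq_of_associated hq.1.1 (associated_of_dvd_dvd a1 a2)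
    rw [a3] at e'
    exact Prod.ext a3 (mul_left_cancel₀ hq.1.1.ne_zero e')
  · rw [Finset.mem_coe, mem_pdiv h0] at he
    obtain ⟨d₁, d₂, a1, a2, rfl⟩ := exists_dvd_and_dvd_of_dvd_mul he.2
    obtain ⟨u, hu, hp⟩ := exists_prim (x := d₁) fun hl => h₁.not_lam_dvd (hl.trans a1)
    obtain ⟨u, rfl⟩ := hu
    have e : (u : O) * d₁ * ((u⁻¹ : Oˣ) * d₂) = d₁ * d₂ := by
      rw [mul_mul_mul_comm, Units.mul_inv, one_mul]
    refine ⟨((u : O) * d₁, (u⁻¹ : Oˣ) * d₂), ?_, e⟩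
    rw [Finset.mem_coe, Finset.mem_product, mem_pdiv h₁.ne_zero, mem_pdiv h₂.ne_zero]
    exact ⟨⟨hp, Units.mul_left_dvd.2 a1⟩, hp.of_mul (e.symm ▸ he.1), Units.mul_left_dvd.2 a2⟩

open Classical in
/-- The partial row sums. -/
def q_A (Y : ℝ) (b : O → ℂ) (d e v : O) : ℂ :=
  ∑ n ∈ obox Y, if d ∣ n ∧ e ∣ n then b n * rho n v else 0

open Classical in
/-- The partial masses. -/
def q_al (Y : ℝ) (b : O → ℂ) (d e : O) : ℝ :=
  ∑ n ∈ obox Y, if d ∣ n ∧ e ∣ n then ‖b n‖ ^ 2 else 0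

open Classical in
theorem q6_pdiv {M : Type*} [AddCommMonoid M] {Y : ℝ} {n : O} (hn : n ∈ obox Y) (F : O → M) :
    ∑ x ∈ pdiv n, F x = ∑ x ∈ obox Y, if x ∣ n then F x else 0 := by
  rw [← Finset.sum_filter]
  refine Finset.sum_congr (Finset.ext fun x => ?_) fun _ _ => rfl
  rw [mem_pdiv (mem_obox.1 hn).1.ne_zero, Finset.mem_filter]
  exact ⟨fun h => ⟨mem_obox_of_dvd hn h.1 h.2, h.2⟩, fun h => ⟨(mem_obox.1 h.1).1, h.2⟩⟩

theorem q6_comm (A E F : Finset O) (f : O → O → O → ℂ) :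
    ∑ a ∈ A, ∑ x ∈ E, ∑ y ∈ F, f a x y = ∑ x ∈ E, ∑ y ∈ F, ∑ a ∈ A, f a x y := by
  rw [Finset.sum_comm]
  exact Finset.sum_congr rfl fun _ _ => Finset.sum_comm

/-- `q_sum_pdiv_mul`, `rho_mul_left`, `sum_pdiv_mu_dvd` for the coprimality condition, and
`∑ x ∈ pdiv n, F x = ∑ x ∈ obox Y, if x ∣ n then F x else 0` for `n ∈ obox Y`
(`mem_obox_of_dvd`); then exchange the sums. -/
theorem q_form_ker (Y : ℝ) (S : Finset O) (b₁ b₂ : O → ℂ) (ω : O → O → ℂ) :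
    q_form Y b₁ b₂ (q_ker S ω) = ∑ d ∈ obox Y, ∑ e₁ ∈ obox Y, ∑ e₂ ∈ obox Y,
      mu d * ∑ v ∈ S, ω v (e₁ * e₂) * q_A Y b₁ d e₁ v * q_A Y b₂ d e₂ v := by
  classical
  have e1 : ∀ d e₁ e₂ : O, mu d * ∑ v ∈ S, ω v (e₁ * e₂) * q_A Y b₁ d e₁ v * q_A Y b₂ d e₂ v =
      ∑ n₁ ∈ obox Y, ∑ n₂ ∈ obox Y, (if d ∣ n₁ then (if d ∣ n₂ then mu d else 0) else 0) *
        if e₁ ∣ n₁ then (if e₂ ∣ n₂ then
          ∑ v ∈ S, ω v (e₁ * e₂) * (b₁ n₁ * rho n₁ v * (b₂ n₂ * rho n₂ v)) else 0) else 0 := by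
    intro d e₁ e₂
    simp only [q_A, mul_assoc, Finset.sum_mul_sum]
    simp only [Finset.mul_sum]
    rw [q6_comm]
    refine Finset.sum_congr rfl fun n₁ _ => Finset.sum_congr rfl fun n₂ _ => ?_
    by_cases a1 : d ∣ n₁ <;> by_cases a2 : d ∣ n₂ <;> by_cases a3 : e₁ ∣ n₁ <;>
      by_cases a4 : e₂ ∣ n₂ <;> simp [a1, a2, a3, a4, Finset.mul_sum, mul_assoc]
  simp only [e1]
  rw [Finset.sum_congr rfl fun d _ => (Finset.sum_congr rfl fun e₁ _ => q6_comm _ _ _ _).trans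
    (q6_comm _ _ _ _), q6_comm]
  refine Finset.sum_congr rfl fun n₁ h₁ => Finset.sum_congr rfl fun n₂ h₂ => ?_
  have p₁ := (mem_obox.1 h₁).1
  have p₂ := (mem_obox.1 h₂).1
  simp only [← Finset.mul_sum, ← Finset.sum_mul, Finset.sum_ite_irrel, Finset.sum_const_zero]
  rw [← q6_pdiv h₁, ← q6_pdiv h₁, sum_pdiv_mu_dvd p₁]
  split_ifs with hc
  · simp only [← q6_pdiv h₂, one_mul, q_ker, q_sum_pdiv_mul p₁ p₂ hc,
      rho_mul_left p₁.ne_zero p₂.ne_zero, Finset.mul_sum]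
    rw [q6_comm]
    refine Finset.sum_congr rfl fun _ _ => Finset.sum_congr rfl fun _ _ =>
      Finset.sum_congr rfl fun _ _ => by ring
  · rw [zero_mul]

open Classical in
theorem q6_shift {M : Type*} [AddCommMonoid M] {Y : ℝ} {e : O} (he : Prim e) (F : O → M) :
    (∑ n ∈ obox Y, if e ∣ n then F n else 0) =
      ∑ k ∈ obox (Y / Nr e), if e * k ∈ obox Y then F (e * k) else 0 := by
  rw [← Finset.sum_filter, ← Finset.sum_filter]
  refine (Finset.sum_nbij (fun k => e * k) (fun k hk => ?_) (fun k _ l _ h => ?_)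
    (fun n hn => ?_) fun _ _ => rfl).symm
  · exact Finset.mem_filter.2 ⟨(Finset.mem_filter.1 hk).2, dvd_mul_right _ _⟩
  · exact mul_left_cancel₀ he.ne_zero h
  · obtain ⟨h1, k, rfl⟩ := Finset.mem_filter.1 (Finset.mem_coe.1 hn)
    exact ⟨k, Finset.mem_coe.2 (Finset.mem_filter.2 ⟨mem_obox_div he h1, h1⟩), rfl⟩

/-- Write `n = e k`, `k ∈ obox (Y / N e)` (`mem_obox_div`): `q_A Y b d e v = rho e v * q_row (Y/N e) b' v`
with `b' k = if e k ∈ obox Y ∧ d ∣ e k then b (e k) else 0`, and `q_l2 (Y/N e) b' = q_al Y b d e`. -/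
theorem q_A_le {Y κ W : ℝ} {S : Finset O}
    (H : ∀ (Y' : ℝ) (b : O → ℂ), 1 ≤ Y' → Y' ≤ Y →
      ∑ v ∈ S, ‖q_row Y' b v‖ ^ 2 ≤ κ * (Y' + W) * q_l2 Y' b)
    (b : O → ℂ) (d : O) {e : O} (he : e ∈ obox Y) :
    ∑ v ∈ S, ‖q_A Y b d e v‖ ^ 2 ≤ κ * (Y / Nr e + W) * q_al Y b d e := by
  classical
  obtain ⟨pe, -, -, hY⟩ := mem_obox.1 he
  have h1 := one_le_Nr pe.ne_zero
  let b' : O → ℂ := fun k => if e * k ∈ obox Y ∧ d ∣ e * k then b (e * k) else 0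
  have a1 : ∀ v, q_A Y b d e v = rho e v * q_row (Y / Nr e) b' v := fun v => by
    simp only [q_A, and_comm (a := d ∣ _), ite_and]
    rw [q6_shift pe, q_row, Finset.mul_sum]
    refine Finset.sum_congr rfl fun k hk => ?_
    simp only [b', rho_mul_left pe.ne_zero (mem_obox.1 hk).1.ne_zero, ite_and]
    split_ifs <;> ring
  have a2 : q_al Y b d e = q_l2 (Y / Nr e) b' := by
    simp only [q_al, and_comm (a := d ∣ _), ite_and]
    rw [q6_shift pe, q_l2]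
    refine Finset.sum_congr rfl fun k _ => ?_
    simp only [b', ite_and]
    split_ifs <;> simp
  rw [a2]
  refine le_trans (Finset.sum_le_sum fun v _ => ?_)
    (H (Y / Nr e) b' ((one_le_div (by linarith)).2 hY) (div_le_self (by linarith) h1))
  rw [a1, norm_mul]
  exact pow_le_pow_left₀ (by positivity) (mul_le_of_le_one_left (norm_nonneg _) (norm_rho_le _ _)) 2

/-- Each `n` is counted `(#pdiv n)²` times. -/
theorem q_al_sum {ε : ℝ} (hε : 0 < ε) : ∃ C : ℝ, 0 ≤ C ∧ ∀ (Y : ℝ) (b : O → ℂ), 1 ≤ Y →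
    ∑ d ∈ obox Y, ∑ e ∈ obox Y, q_al Y b d e ≤ C * Y ^ ε * q_l2 Y b := by
  classical
  obtain ⟨C, hC0, hC⟩ := q_card_pdiv (half_pos hε)
  refine ⟨C ^ 2, by positivity, fun Y b hY => ?_⟩
  simp only [q_al, ite_and]
  rw [Finset.sum_congr rfl fun d _ => Finset.sum_comm, Finset.sum_comm, q_l2, Finset.mul_sum]
  refine Finset.sum_le_sum fun n hn => ?_
  simp only [Finset.sum_ite_irrel, Finset.sum_const_zero, ← q6_pdiv hn, Finset.sum_const,
    nsmul_eq_mul]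
  have h1 := hC Y n (mem_obox.1 hn).1.ne_zero (mem_obox.1 hn).2.2.2
  have h2 : Y ^ ε = Y ^ (ε / 2) * Y ^ (ε / 2) := by rw [← Real.rpow_add (by linarith), add_halves]
  calc ((pdiv n).card : ℝ) * ((pdiv n).card * ‖b n‖ ^ 2)
      ≤ C * Y ^ (ε / 2) * (C * Y ^ (ε / 2) * ‖b n‖ ^ 2) := by gcongr
    _ = C ^ 2 * Y ^ ε * ‖b n‖ ^ 2 := by rw [h2]; ring

end Crest.Agent.R017

end
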