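import Crest.Agent.R017.QLSAux6

/-! # Row 17, quadratic large sieve: the bilinear estimate, conclusion -/

set_option autoImplicit false

noncomputable section

open scoped BigOperators ComplexConjugate
open Complex MeasureTheory

namespace Crest.Agent.R017

theorem q6b_real {a b Y W s η : ℝ} (ha0 : 0 ≤ a) (ha1 : a ≤ 1) (hb0 : 0 ≤ b) (hb1 : b ≤ 1)
    (hY : 0 ≤ Y) (hW : 0 ≤ W) (hs : 0 ≤ s) (h0 : 0 ≤ η) (h1 : η ≤ 1) (h2 : η ≤ s * (a * b)) :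
    η ^ 2 * ((Y * a + W) * (Y * b + W)) ≤ (Y + W * s) ^ 2 * (a * b) := by
  have hab0 : 0 ≤ a * b := mul_nonneg ha0 hb0
  have hab1 : a * b ≤ 1 := mul_le_one₀ ha1 hb0 hb1
  have e1 : η ^ 2 ≤ 1 := pow_le_one₀ h0 h1
  have e2 : η ^ 2 ≤ s * (a * b) := by nlinarith
  have e3 : η ^ 2 ≤ s ^ 2 * (a * b) := by
    have h3 : η ^ 2 ≤ (s * (a * b)) ^ 2 := pow_le_pow_left₀ h0 h2 2
    have h4 : (a * b) ^ 2 ≤ a * b := by nlinarith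
    calc η ^ 2 ≤ s ^ 2 * (a * b) ^ 2 := by rw [← mul_pow]; exact h3
      _ ≤ s ^ 2 * (a * b) := by gcongr
  have t1 : η ^ 2 * (Y ^ 2 * (a * b)) ≤ 1 * (Y ^ 2 * (a * b)) := by gcongr
  have t2 : η ^ 2 * (Y * W * (a + b)) ≤ s * (a * b) * (Y * W * 2) := by
    gcongr
    linarith
  have t3 : η ^ 2 * W ^ 2 ≤ s ^ 2 * (a * b) * W ^ 2 := by gcongr
  nlinarith

theorem q6b_al_nonneg (Y : ℝ) (b : O → ℂ) (d e : O) : 0 ≤ q_al Y b d e := by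
  unfold q_al
  refine Finset.sum_nonneg fun n _ => ?_
  split_ifs <;> positivity

theorem q6b_real2 {a b Y W s η κ x y P : ℝ} (ha0 : 0 ≤ a) (ha1 : a ≤ 1) (hb0 : 0 ≤ b)
    (hb1 : b ≤ 1) (hY : 0 ≤ Y) (hW : 0 ≤ W) (hs : 0 ≤ s) (h0 : 0 ≤ η) (h1 : η ≤ 1)
    (h2 : η ≤ s * (a * b)) (hκ : 0 ≤ κ) (hx : 0 ≤ x) (hy : 0 ≤ y) (hP : 0 ≤ P)
    (s2 : P ^ 2 ≤ (κ * (Y * a + W) * x) * (κ * (Y * b + W) * y)) :
    η * P ≤ κ * (Y + W * s) * (x * b + y * a) := by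
  have s3 := q6b_real ha0 ha1 hb0 hb1 hY hW hs h0 h1 h2
  refine (sq_le_sq₀ (by positivity) (by positivity)).1 ?_
  calc (η * P) ^ 2 = η ^ 2 * P ^ 2 := by ring
    _ ≤ η ^ 2 * ((κ * (Y * a + W) * x) * (κ * (Y * b + W) * y)) := by gcongr
    _ = κ ^ 2 * (x * y) * (η ^ 2 * ((Y * a + W) * (Y * b + W))) := by ring
    _ ≤ κ ^ 2 * (x * y) * ((Y + W * s) ^ 2 * (a * b)) := by gcongr
    _ = (κ * (Y + W * s)) ^ 2 * ((x * b) * (y * a)) := by ring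
    _ ≤ (κ * (Y + W * s)) ^ 2 * (x * b + y * a) ^ 2 := by
        have u1 : 0 ≤ x * b := by positivity
        have u2 : 0 ≤ y * a := by positivity
        gcongr
        nlinarith [mul_nonneg u1 u2, sq_nonneg (x * b), sq_nonneg (y * a)]
    _ = (κ * (Y + W * s) * (x * b + y * a)) ^ 2 := by ring

theorem q6b_inner {Y κ W s : ℝ} {S : Finset O} (hY : 0 ≤ Y) (hκ : 0 ≤ κ) (hW : 0 ≤ W)
    (hs : 0 ≤ s)
    (H : ∀ (Y' : ℝ) (b : O → ℂ), 1 ≤ Y' → Y' ≤ Y →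
      ∑ v ∈ S, ‖q_row Y' b v‖ ^ 2 ≤ κ * (Y' + W) * q_l2 Y' b)
    {ω : O → O → ℂ} (hω : ∀ v ∈ S, ∀ e, Prim e → ‖ω v e‖ ≤ 1 ∧ ‖ω v e‖ ≤ s / Nr e)
    (b₁ b₂ : O → ℂ) (d : O) {e₁ e₂ : O} (h₁ : e₁ ∈ obox Y) (h₂ : e₂ ∈ obox Y) :
    ‖∑ v ∈ S, ω v (e₁ * e₂) * q_A Y b₁ d e₁ v * q_A Y b₂ d e₂ v‖ ≤
      κ * (Y + W * s) * (q_al Y b₁ d e₁ * (Nr e₂)⁻¹ + q_al Y b₂ d e₂ * (Nr e₁)⁻¹) := by
  have p₁ := (mem_obox.1 h₁).1
  have p₂ := (mem_obox.1 h₂).1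
  have n₁ := one_le_Nr p₁.ne_zero
  have n₂ := one_le_Nr p₂.ne_zero
  have ha0 : 0 ≤ (Nr e₁)⁻¹ := inv_nonneg.2 (Nr_nonneg _)
  have hb0 : 0 ≤ (Nr e₂)⁻¹ := inv_nonneg.2 (Nr_nonneg _)
  have ha1 : (Nr e₁)⁻¹ ≤ 1 := inv_le_one_of_one_le₀ n₁
  have hb1 : (Nr e₂)⁻¹ ≤ 1 := inv_le_one_of_one_le₀ n₂
  obtain ⟨η, hη⟩ : ∃ η : ℝ, η = min 1 (s * ((Nr e₁)⁻¹ * (Nr e₂)⁻¹)) := ⟨_, rfl⟩
  have h0 : 0 ≤ η := hη ▸ le_min zero_le_one (mul_nonneg hs (mul_nonneg ha0 hb0))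
  have hωη : ∀ v ∈ S, ‖ω v (e₁ * e₂)‖ ≤ η := fun v hv => by
    obtain ⟨u1, u2⟩ := hω v hv _ (p₁.mul p₂)
    rw [hη]
    refine le_min u1 (u2.trans_eq ?_)
    rw [Nr_mul, div_eq_mul_inv, mul_inv]
  have hP0 : 0 ≤ ∑ v ∈ S, ‖q_A Y b₁ d e₁ v‖ * ‖q_A Y b₂ d e₂ v‖ :=
    Finset.sum_nonneg fun _ _ => mul_nonneg (norm_nonneg _) (norm_nonneg _)
  have s1 : ‖∑ v ∈ S, ω v (e₁ * e₂) * q_A Y b₁ d e₁ v * q_A Y b₂ d e₂ v‖ ≤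
      η * ∑ v ∈ S, ‖q_A Y b₁ d e₁ v‖ * ‖q_A Y b₂ d e₂ v‖ := by
    refine (norm_sum_le _ _).trans ?_
    rw [Finset.mul_sum]
    refine Finset.sum_le_sum fun v hv => ?_
    rw [norm_mul, norm_mul, mul_assoc]
    exact mul_le_mul_of_nonneg_right (hωη v hv) (mul_nonneg (norm_nonneg _) (norm_nonneg _))
  have A₁ := q_A_le H b₁ d h₁
  have A₂ := q_A_le H b₂ d h₂
  rw [div_eq_mul_inv] at A₁ A₂
  have α₁ := q6b_al_nonneg Y b₁ d e₁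
  have α₂ := q6b_al_nonneg Y b₂ d e₂
  refine s1.trans (q6b_real2 ha0 ha1 hb0 hb1 hY hW hs h0 (hη ▸ min_le_left _ _)
    (hη ▸ min_le_right _ _) hκ α₁ α₂ hP0 ?_)
  refine (Finset.sum_mul_sq_le_sq_mul_sq _ _ _).trans ?_
  exact mul_le_mul A₁ A₂ (Finset.sum_nonneg fun _ _ => sq_nonneg _)
    (mul_nonneg (mul_nonneg hκ (add_nonneg (mul_nonneg hY ha0) hW)) α₁)

/-- With `E₁ = N e₁`, `E₂ = N e₂ ≥ 1`, `η = min 1 (√T/(E₁E₂))`: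
`η² (Y/E₁ + W)(Y/E₂ + W) ≤ (Y + W √T)² / (E₁ E₂)` (use `η² ≤ 1`, `η² ≤ √T/(E₁E₂)`,
`η² ≤ T/(E₁E₂)` for the three kinds of terms).  Cauchy–Schwarz in `v` and `q_A_le` bound the inner sum
by `κ (Y + W√T) √(α₁ α₂/(E₁E₂)) ≤ κ (Y + W√T) (α₁/E₂ + α₂/E₁)/2`; finish with `q_sum_inv`,
`q_al_sum`. -/
theorem q_bil {ε : ℝ} (hε : 0 < ε) : ∃ C : ℝ, 0 ≤ C ∧
    ∀ (Y κ W T : ℝ) (S : Finset O) (b₁ b₂ : O → ℂ) (ω : O → O → ℂ),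
      1 ≤ Y → 0 ≤ κ → 0 ≤ W → 0 ≤ T →
      (∀ (Y' : ℝ) (b : O → ℂ), 1 ≤ Y' → Y' ≤ Y →
        ∑ v ∈ S, ‖q_row Y' b v‖ ^ 2 ≤ κ * (Y' + W) * q_l2 Y' b) →
      (∀ v ∈ S, ∀ e, Prim e → ‖ω v e‖ ≤ 1 ∧ ‖ω v e‖ ≤ Real.sqrt T / Nr e) →
      ‖q_form Y b₁ b₂ (q_ker S ω)‖ ≤
        C * Y ^ ε * κ * (Y + W * Real.sqrt T) * (q_l2 Y b₁ + q_l2 Y b₂) := by
  obtain ⟨C₁, hC₁, H₁⟩ := q_sum_inv (half_pos hε)
  obtain ⟨C₂, hC₂, H₂⟩ := q_al_sum (half_pos hε)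
  refine ⟨C₁ * C₂, by positivity, fun Y κ W T S b₁ b₂ ω hY hκ hW hT H hω => ?_⟩
  have hY0 : 0 < Y := by linarith
  have hs := Real.sqrt_nonneg T
  set s := Real.sqrt T
  set I := ∑ e ∈ obox Y, (Nr e)⁻¹ with hI
  have hI0 : 0 ≤ I := Finset.sum_nonneg fun e _ => inv_nonneg.2 (Nr_nonneg e)
  have hI1 : I ≤ C₁ * Y ^ (ε / 2) :=
    (Finset.sum_le_sum_of_subset_of_nonneg (obox_subset_box Y)
      fun e _ _ => inv_nonneg.2 (Nr_nonneg e)).trans (H₁ Y hY)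
  have l₁ := q_l2_nonneg Y b₁
  have l₂ := q_l2_nonneg Y b₂
  have hK : 0 ≤ κ * (Y + W * s) := by positivity
  have s1 : ‖q_form Y b₁ b₂ (q_ker S ω)‖ ≤ ∑ d ∈ obox Y, ∑ e₁ ∈ obox Y, ∑ e₂ ∈ obox Y,
      κ * (Y + W * s) * (q_al Y b₁ d e₁ * (Nr e₂)⁻¹ + q_al Y b₂ d e₂ * (Nr e₁)⁻¹) := by
    rw [q_form_ker]
    refine (norm_sum_le _ _).trans (Finset.sum_le_sum fun d _ => ?_)
    refine (norm_sum_le _ _).trans (Finset.sum_le_sum fun e₁ h₁ => ?_)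
    refine (norm_sum_le _ _).trans (Finset.sum_le_sum fun e₂ h₂ => ?_)
    rw [norm_mul]
    refine (mul_le_of_le_one_left (norm_nonneg _) (norm_mu_le d)).trans ?_
    exact q6b_inner hY0.le hκ hW hs H hω b₁ b₂ d h₁ h₂
  have s2 : ∑ d ∈ obox Y, ∑ e₁ ∈ obox Y, ∑ e₂ ∈ obox Y,
      κ * (Y + W * s) * (q_al Y b₁ d e₁ * (Nr e₂)⁻¹ + q_al Y b₂ d e₂ * (Nr e₁)⁻¹) =
      κ * (Y + W * s) * I * ((∑ d ∈ obox Y, ∑ e ∈ obox Y, q_al Y b₁ d e) +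
        ∑ d ∈ obox Y, ∑ e ∈ obox Y, q_al Y b₂ d e) := by
    rw [← Finset.sum_add_distrib, Finset.mul_sum]
    refine Finset.sum_congr rfl fun d _ => ?_
    simp only [← Finset.mul_sum, Finset.sum_add_distrib, ← Finset.sum_mul, ← hI]
    ring
  rw [s2] at s1
  refine s1.trans ?_
  have e : Y ^ ε = Y ^ (ε / 2) * Y ^ (ε / 2) := by
    rw [← Real.rpow_add hY0]; congr 1; ring
  calc κ * (Y + W * s) * I * ((∑ d ∈ obox Y, ∑ e ∈ obox Y, q_al Y b₁ d e) +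
        ∑ d ∈ obox Y, ∑ e ∈ obox Y, q_al Y b₂ d e)
      ≤ κ * (Y + W * s) * (C₁ * Y ^ (ε / 2)) *
        (C₂ * Y ^ (ε / 2) * q_l2 Y b₁ + C₂ * Y ^ (ε / 2) * q_l2 Y b₂) := by
        refine mul_le_mul (mul_le_mul_of_nonneg_left hI1 hK) (add_le_add (H₂ Y b₁ hY) (H₂ Y b₂ hY))
          (add_nonneg ?_ ?_) (by positivity) <;>
        exact Finset.sum_nonneg fun _ _ => Finset.sum_nonneg fun _ _ => q6b_al_nonneg _ _ _ _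
    _ = C₁ * C₂ * Y ^ ε * κ * (Y + W * s) * (q_l2 Y b₁ + q_l2 Y b₂) := by rw [e]; ring

/-- For `V < 1` the row set is empty.  Otherwise split `sqb V` by `q_dyadic` into blocks
`V'/2 < N v ≤ V'`, `V' = V/2^j ∈ [1, V]` (`q_form_sum`; empty blocks contribute `0`), and apply
`q_bil` with `W = V'^ξ` and `2T/V'` in place of `T`: `W √(2T/V') ≤ √2 √T V^(ξ-1/2)`. -/
theorem q_bilv {ε : ℝ} (hε : 0 < ε) : ∃ C : ℝ, 0 ≤ C ∧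
    ∀ (Y N V κ ξ T : ℝ) (b₁ b₂ : O → ℂ) (ω : O → O → ℂ),
      1 ≤ Y → Y ≤ N → 0 < V → 0 ≤ κ → 1 / 2 ≤ ξ → 0 ≤ T → q_Hyp κ ξ V N →
      (∀ v ∈ sqb V, ∀ e, Prim e → ‖ω v e‖ ≤ 1 ∧ ‖ω v e‖ ≤ Real.sqrt (T / Nr v) / Nr e) →
      ‖q_form Y b₁ b₂ (q_ker (sqb V) ω)‖ ≤
        C * Y ^ ε * (1 + V) ^ ε * κ * (Y + Real.sqrt T * V ^ (ξ - 1 / 2)) *
          (q_l2 Y b₁ + q_l2 Y b₂) := by
  classical
  obtain ⟨C₁, hC₁, H₁⟩ := q_dyadic hε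
  obtain ⟨C₂, hC₂, H₂⟩ := q_bil hε
  refine ⟨C₁ * C₂ * 2, by positivity, fun Y N V κ ξ T b₁ b₂ ω hY hYN hV hκ hξ hT H hω => ?_⟩
  have hY0 : 0 < Y := by linarith
  have l₁ := q_l2_nonneg Y b₁
  have l₂ := q_l2_nonneg Y b₂
  have hs := Real.sqrt_nonneg T
  rcases lt_or_ge V 1 with hV1 | hV1
  · have : q_form Y b₁ b₂ (q_ker (sqb V) ω) = 0 := by
      simp [sqb_eq_empty hV1, q_form, q_ker]
    rw [this, norm_zero]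
    positivity
  obtain ⟨J, ι, hJ, hι⟩ := H₁ V hV1
  have hmem : ∀ v ∈ sqb V, 1 ≤ Nr v ∧ Nr v ≤ V := fun v hv =>
    ⟨one_le_Nr (mem_sqb.1 hv).1.ne_zero, (mem_sqb.1 hv).2⟩
  have hk : q_ker (sqb V) ω = fun q => ∑ j ∈ Finset.range J,
      q_ker ((sqb V).filter fun v => ι (Nr v) = j) ω q := by
    funext q
    simp only [q_ker]
    exact (Finset.sum_fiberwise_of_maps_to (g := fun v => ι (Nr v))
      (fun v hv => Finset.mem_range.2 (hι _ (hmem v hv).1 (hmem v hv).2).1) _).symm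
  set B := C₂ * Y ^ ε * κ * (2 * (Y + Real.sqrt T * V ^ (ξ - 1 / 2))) *
    (q_l2 Y b₁ + q_l2 Y b₂) with hB
  have hB0 : 0 ≤ B := by positivity
  have hblock : ∀ j ∈ Finset.range J,
      ‖q_form Y b₁ b₂ (q_ker ((sqb V).filter fun v => ι (Nr v) = j) ω)‖ ≤ B := by
    intro j _
    rcases ((sqb V).filter fun v => ι (Nr v) = j).eq_empty_or_nonempty with he | ⟨v₀, hv₀⟩
    · have : q_form Y b₁ b₂ (q_ker ((sqb V).filter fun v => ι (Nr v) = j) ω) = 0 := by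
        rw [he]; simp [q_form, q_ker]
      rw [this, norm_zero]; exact hB0
    set V' := V / 2 ^ j with hV'
    have hfib : ∀ v ∈ (sqb V).filter fun v => ι (Nr v) = j,
        v ∈ sqb V ∧ V' / 2 < Nr v ∧ Nr v ≤ V' := fun v hv => by
      obtain ⟨h1, h2⟩ := Finset.mem_filter.1 hv
      have := (hι _ (hmem v h1).1 (hmem v h1).2).2
      rw [h2] at this
      exact ⟨h1, this⟩
    have hV'1 : 1 ≤ V' := (hmem v₀ (hfib v₀ hv₀).1).1.trans (hfib v₀ hv₀).2.2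
    have hV'0 : 0 < V' := by linarith
    have hV'V : V' ≤ V := div_le_self hV.le (one_le_pow₀ (by norm_num))
    have key := H₂ Y κ (V' ^ ξ) (2 * T / V') ((sqb V).filter fun v => ι (Nr v) = j) b₁ b₂ ω hY hκ
      (by positivity) (by positivity)
      (fun Y' b h1 h2 => by
        refine le_trans (Finset.sum_le_sum_of_subset_of_nonneg (fun v hv => ?_)
          fun _ _ _ => by positivity) (H V' Y' b hV'1 hV'V h1 (h2.trans hYN))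
        exact mem_sqb.2 ⟨(mem_sqb.1 (hfib v hv).1).1, (hfib v hv).2.2⟩)
      (fun v hv e he => by
        obtain ⟨h1, h2, _⟩ := hfib v hv
        refine ⟨(hω v h1 e he).1, (hω v h1 e he).2.trans ?_⟩
        refine div_le_div_of_nonneg_right (Real.sqrt_le_sqrt ?_) (Nr_nonneg e)
        have h3 : 0 < Nr v := by linarith
        rw [div_le_div_iff₀ h3 hV'0]
        nlinarith)
    refine key.trans ?_
    have hw : V' ^ ξ * Real.sqrt (2 * T / V') ≤ 2 * (Real.sqrt T * V ^ (ξ - 1 / 2)) := by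
      have e1 : Real.sqrt (2 * T / V') = Real.sqrt 2 * Real.sqrt T / V' ^ (1 / 2 : ℝ) := by
        rw [Real.sqrt_div (by positivity), Real.sqrt_mul (by norm_num), Real.sqrt_eq_rpow V']
      have e2 : V' ^ (ξ - 1 / 2) = V' ^ ξ / V' ^ (1 / 2 : ℝ) := Real.rpow_sub hV'0 _ _
      have e3 : V' ^ (ξ - 1 / 2) ≤ V ^ (ξ - 1 / 2) :=
        Real.rpow_le_rpow hV'0.le hV'V (by linarith)
      have e4 : Real.sqrt 2 ≤ 2 := Real.sqrt_le_iff.2 ⟨by norm_num, by norm_num⟩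
      calc V' ^ ξ * Real.sqrt (2 * T / V')
          = Real.sqrt 2 * (Real.sqrt T * V' ^ (ξ - 1 / 2)) := by rw [e1, e2]; ring
        _ ≤ 2 * (Real.sqrt T * V ^ (ξ - 1 / 2)) := by gcongr
    rw [hB]
    gcongr
    linarith
  rw [hk, q_form_sum]
  refine (norm_sum_le _ _).trans ((Finset.sum_le_card_nsmul _ _ _ hblock).trans ?_)
  rw [Finset.card_range, nsmul_eq_mul]
  have hJ' : (J : ℝ) ≤ C₁ * (1 + V) ^ ε :=
    hJ.trans (mul_le_mul_of_nonneg_left (Real.rpow_le_rpow hV.le (by linarith) hε.le) hC₁)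
  calc (J : ℝ) * B ≤ C₁ * (1 + V) ^ ε * B := by gcongr
    _ = _ := by rw [hB]; ring

end Crest.Agent.R017

end
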