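import Crest.Agent.R017.QLSAux2

/-! # Row 17, quadratic large sieve: separation of variables on the dual side -/

set_option autoImplicit false

noncomputable section

open scoped BigOperators ComplexConjugate
open Complex MeasureTheory

namespace Crest.Agent.R017

/-- The hypothesis that all forms with separated weights are bounded by `Λ`. -/
def q_Sep (Y T Λ : ℝ) (S : Finset O) (b₁ b₂ : O → ℂ) : Prop :=
  ∀ (b₁' b₂' : O → ℂ) (ω : O → O → ℂ), (∀ n, ‖b₁' n‖ ≤ ‖b₁ n‖) → (∀ n, ‖b₂' n‖ ≤ ‖b₂ n‖) →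
    (∀ v ∈ S, ∀ e, Prim e → ‖ω v e‖ ≤ 1 ∧ ‖ω v e‖ ≤ Real.sqrt (T / Nr v) / Nr e) →
    ‖q_form Y b₁' b₂' (q_ker S ω)‖ ≤ Λ

/-- `f` is integrable with integral `c`. -/
def q7_I (f : ℝ → ℂ) (c : ℂ) : Prop := Integrable f ∧ ∫ t, f t = c

theorem q7_I.zero : q7_I (fun _ => 0) 0 := ⟨integrable_zero _ _ _, by simp⟩

theorem q7_I.const_mul {f : ℝ → ℂ} {c : ℂ} (h : q7_I f c) (a : ℂ) :
    q7_I (fun t => a * f t) (a * c) := ⟨h.1.const_mul a, by rw [integral_const_mul, h.2]⟩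

theorem q7_I.sum {ι : Type*} (s : Finset ι) {f : ι → ℝ → ℂ} {c : ι → ℂ}
    (h : ∀ i ∈ s, q7_I (f i) (c i)) : q7_I (fun t => ∑ i ∈ s, f i t) (∑ i ∈ s, c i) :=
  ⟨integrable_finsetSum s fun i hi => (h i hi).1, by
    rw [integral_finsetSum s fun i hi => (h i hi).1]
    exact Finset.sum_congr rfl fun i hi => (h i hi).2⟩

theorem q7_I.ite {p : Prop} [Decidable p] {f : ℝ → ℂ} {c : ℂ} (h : p → q7_I f c) :
    q7_I (fun t => if p then f t else 0) (if p then c else 0) := by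
  by_cases hp : p
  · simpa only [if_pos hp] using h hp
  · simpa only [if_neg hp] using q7_I.zero

/-- the phase `x ^ (t i)` -/
def q7_P (x t : ℝ) : ℂ := Complex.exp ((t * Real.log x : ℝ) * I)

theorem q7_P_norm (x t : ℝ) : ‖q7_P x t‖ = 1 := Complex.norm_exp_ofReal_mul_I _

theorem q7_P_mul {x y : ℝ} (hx : 0 < x) (hy : 0 < y) (t : ℝ) :
    q7_P (x * y) t = q7_P x t * q7_P y t := by
  unfold q7_P
  rw [Real.log_mul hx.ne' hy.ne', ← Complex.exp_add]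
  congr 1
  push_cast
  ring

theorem q7_cpow {x : ℝ} (hx : 0 < x) (t : ℝ) : (x : ℂ) ^ (1 + t * I) = x * q7_P x t := by
  have h0 : (x : ℂ) ≠ 0 := by exact_mod_cast hx.ne'
  rw [Complex.cpow_add _ _ h0, Complex.cpow_one, Complex.cpow_def_of_ne_zero h0,
    ← Complex.ofReal_log hx.le]
  unfold q7_P
  congr 2
  push_cast
  ring

theorem q7_P_continuous (x : ℝ) : Continuous (q7_P x) := by
  unfold q7_P
  fun_prop

open Classical in
/-- The `q_Th` part in the range `T₀ < U`, where `T₀ = T / N v / N e ²` and `y = N q / Y²`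
(`y = y₁ y₂`, `y_i = N n_i / Y ≤ 1`).  By `q_Th_mellin`,
`y^{-1/2} Th (T₀ y) = ∫ h t * T₀^{1+ti} y₁^{1/2+ti} y₂^{1/2+ti}`; exchange with the finite sums
(`integral_finset_sum`), for fixed `t` use `q_Sep` with `b_i' n = b_i n * (N n/Y)^{1/2+ti}` on
`obox Y` (`0` elsewhere) and `ω v e = if T₀ < U then mu e * T₀^{1+ti} / U else 0`
(`T₀/U ≤ 1`, `T₀/U ≤ √T₀ = √(T/N v)/N e`); `C = ∫ ‖h‖`. -/
theorem q_dual_th : ∃ C : ℝ, 0 ≤ C ∧
    ∀ (Y T U Λ : ℝ) (S : Finset O) (b₁ b₂ : O → ℂ), 1 ≤ Y → 0 < T → 1 ≤ U → (∀ v ∈ S, v ≠ 0) →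
      q_Sep Y T Λ S b₁ b₂ →
      ‖q_form Y b₁ b₂ (fun q => ((Y / Real.sqrt (Nr q) : ℝ) : ℂ) * ∑ v ∈ S, rho q v *
        ∑ e ∈ pdiv q, if T / Nr v / Nr e ^ 2 < U then
          mu e * (q_Th (T / Nr v / Nr e ^ 2 * (Nr q / Y ^ 2)) : ℂ) else 0)‖ ≤ C * U * Λ := by
  obtain ⟨h, hh, hTh⟩ := q_Th_mellin
  refine ⟨∫ t, ‖h t‖, integral_nonneg fun _ => norm_nonneg _, ?_⟩
  intro Y T U Λ S b₁ b₂ hY hT hU hS hSep
  have hY0 : 0 < Y := by linarith
  have hU0 : 0 < U := by linarith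
  have hI : ∀ x : ℝ, 0 < x → q7_I (fun t => h t * (x * q7_P x t)) (q_Th x) := fun x hx =>
    ⟨hh.mul_bdd (c := x) (continuous_const.mul (q7_P_continuous x)).aestronglyMeasurable
      (Filter.Eventually.of_forall fun t => by
        rw [norm_mul, q7_P_norm, mul_one, Complex.norm_real, Real.norm_of_nonneg hx.le]), by
      rw [hTh x hx]
      simp only [q7_cpow hx]⟩
  let b' : (O → ℂ) → ℝ → O → ℂ := fun b t n =>
    if n ∈ obox Y then b n * ((Real.sqrt (Nr n / Y) : ℝ) * q7_P (Nr n / Y) t) else 0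
  let ω : ℝ → O → O → ℂ := fun t v e =>
    if T / Nr v / Nr e ^ 2 < U then
      mu e * (((T / Nr v / Nr e ^ 2 / U : ℝ) : ℂ) * q7_P (T / Nr v / Nr e ^ 2) t) else 0
  have hb' : ∀ b t n, ‖b' b t n‖ ≤ ‖b n‖ := by
    intro b t n
    simp only [b']
    split_ifs with hn
    · rw [norm_mul, norm_mul, q7_P_norm, mul_one, Complex.norm_real,
        Real.norm_of_nonneg (Real.sqrt_nonneg _)]
      refine mul_le_of_le_one_right (norm_nonneg _) (Real.sqrt_le_one.2 ?_)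
      exact (div_le_one hY0).2 (mem_obox.1 hn).2.2.2
    · simp
  have hω : ∀ t, ∀ v ∈ S, ∀ e, Prim e →
      ‖ω t v e‖ ≤ 1 ∧ ‖ω t v e‖ ≤ Real.sqrt (T / Nr v) / Nr e := by
    intro t v hv e he
    have h1 := Nr_pos (hS v hv)
    have h2 := Nr_pos he.ne_zero
    have h3 : Real.sqrt (T / Nr v) / Nr e = Real.sqrt (T / Nr v / Nr e ^ 2) := by
      rw [Real.sqrt_div' _ (sq_nonneg _), Real.sqrt_sq h2.le]
    have h4 : 0 < T / Nr v / Nr e ^ 2 := by positivity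
    rw [h3]
    simp only [ω]
    generalize T / Nr v / Nr e ^ 2 = x at h4 ⊢
    split_ifs with hx
    · have h5 : ‖mu e * (((x / U : ℝ) : ℂ) * q7_P x t)‖ ≤ x / U := by
        rw [norm_mul, norm_mul, q7_P_norm, mul_one, Complex.norm_real,
          Real.norm_of_nonneg (by positivity)]
        exact mul_le_of_le_one_left (by positivity) (norm_mu_le e)
      refine ⟨h5.trans ((div_le_one hU0).2 hx.le), h5.trans ?_⟩
      have h6 : Real.sqrt x ≤ U := Real.sqrt_le_iff.2 ⟨hU0.le, by nlinarith⟩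
      rw [div_le_iff₀ hU0]
      nlinarith [Real.mul_self_sqrt h4.le, Real.sqrt_nonneg x]
    · simp
  have key : q7_I (fun t => h t * U * q_form Y (b' b₁ t) (b' b₂ t) (q_ker S (ω t)))
      (q_form Y b₁ b₂ (fun q => ((Y / Real.sqrt (Nr q) : ℝ) : ℂ) * ∑ v ∈ S, rho q v *
        ∑ e ∈ pdiv q, if T / Nr v / Nr e ^ 2 < U then
          mu e * (q_Th (T / Nr v / Nr e ^ 2 * (Nr q / Y ^ 2)) : ℂ) else 0)) := by
    simp only [q_form, q_ker, Finset.mul_sum, mul_ite, mul_zero]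
    refine q7_I.sum _ fun n₁ h₁ => q7_I.sum _ fun n₂ h₂ => q7_I.ite fun _ => ?_
    refine q7_I.sum _ fun v hv => q7_I.sum _ fun e he => ?_
    have p₁ := (mem_obox.1 h₁).1.ne_zero
    have p₂ := (mem_obox.1 h₂).1.ne_zero
    have q₁ := Nr_pos p₁
    have q₂ := Nr_pos p₂
    have q₃ := Nr_pos (hS v hv)
    have q₄ := Nr_pos ((mem_pdiv (mul_ne_zero p₁ p₂)).1 he).1.ne_zero
    have h4 : 0 < T / Nr v / Nr e ^ 2 := by positivity
    simp only [b', ω, if_pos h₁, if_pos h₂, mul_ite, mul_zero]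
    generalize T / Nr v / Nr e ^ 2 = x at h4 ⊢
    refine q7_I.ite fun _ => ?_
    have e1 : Nr (n₁ * n₂) / Y ^ 2 = Nr n₁ / Y * (Nr n₂ / Y) := by rw [Nr_mul]; ring
    have e2 : Y / Real.sqrt (Nr (n₁ * n₂)) * (Nr n₁ / Y * (Nr n₂ / Y)) =
        Real.sqrt (Nr n₁ / Y) * Real.sqrt (Nr n₂ / Y) := by
      rw [← Real.sqrt_mul (by positivity), ← e1, Real.sqrt_div' _ (sq_nonneg _),
        Real.sqrt_sq hY0.le]
      have h5 : 0 < Nr (n₁ * n₂) := Nr_pos (mul_ne_zero p₁ p₂)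
      have h6 := Real.sqrt_pos.2 h5
      field_simp
      rw [Real.sq_sqrt h5.le]
    have h7 := ((((hI (x * (Nr (n₁ * n₂) / Y ^ 2)) (by rw [e1]; positivity)).const_mul
      (mu e)).const_mul (rho (n₁ * n₂) v)).const_mul
      ((Y / Real.sqrt (Nr (n₁ * n₂)) : ℝ) : ℂ)).const_mul (b₁ n₁ * b₂ n₂)
    convert h7 using 2 with t
    rw [e1, q7_P_mul h4 (by positivity), q7_P_mul (by positivity) (by positivity)]
    have e3 := congrArg (fun r : ℝ => (r : ℂ)) e2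
    have hU1 : (U : ℂ) ≠ 0 := by exact_mod_cast hU0.ne'
    have e4 : (U : ℂ) * ((x / U : ℝ) : ℂ) = x := by push_cast; field_simp
    simp only [Complex.ofReal_mul] at e3 ⊢
    linear_combination (h t * b₁ n₁ * b₂ n₂ * rho (n₁ * n₂) v * mu e * q7_P x t *
      q7_P (Nr n₁ / Y) t * q7_P (Nr n₂ / Y) t) * (((Real.sqrt (Nr n₁ / Y) : ℝ) : ℂ) *
        ((Real.sqrt (Nr n₂ / Y) : ℝ) : ℂ) * e4 - x * e3)
  rw [← key.2, mul_assoc, ← integral_mul_const]
  refine norm_integral_le_of_norm_le (hh.norm.mul_const _) (Filter.Eventually.of_forall fun t => ?_)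
  rw [norm_mul, norm_mul, Complex.norm_real, Real.norm_of_nonneg hU0.le, mul_assoc]
  gcongr
  exact hSep _ _ _ (hb' b₁ t) (hb' b₂ t) (hω t)

end Crest.Agent.R017

end
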