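import Crest.Agent.R017.QLSAux7

/-! # Row 17, quadratic large sieve: the dual error term -/

set_option autoImplicit false

noncomputable section

open scoped BigOperators ComplexConjugate
open Complex MeasureTheory

namespace Crest.Agent.R017

theorem q7b_sqrt {T a e : ℝ} (he : 0 < e) : Real.sqrt (T / a / e ^ 2) = Real.sqrt (T / a) / e := by
  rw [Real.sqrt_div' _ (sq_nonneg e), Real.sqrt_sq he.le]

theorem q7b_nonneg {Y T Λ : ℝ} {S : Finset O} {b₁ b₂ : O → ℂ} (h : q_Sep Y T Λ S b₁ b₂) : 0 ≤ Λ :=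
  le_trans (norm_nonneg _) (h b₁ b₂ (fun _ _ => 0) (fun _ => le_rfl) (fun _ => le_rfl)
    fun v _ e _ => ⟨by simp, by
      simp only [norm_zero]; exact div_nonneg (Real.sqrt_nonneg _) (Nr_nonneg e)⟩)

open Classical in
/-- the rescaled coefficients -/
def q7b_b (Y : ℝ) (b : O → ℂ) (n : O) : ℂ :=
  if n ∈ obox Y then b n * ((Real.sqrt (Y / Nr n) / 2 : ℝ) : ℂ) else 0

theorem q7b_b_le {Y : ℝ} {b : O → ℂ} (hb : ∀ n ∈ obox Y, b n ≠ 0 → Y / 2 < Nr n) (n : O) :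
    ‖q7b_b Y b n‖ ≤ ‖b n‖ := by
  unfold q7b_b
  split_ifs with hn
  · by_cases h0 : b n = 0
    · simp [h0]
    have h1 := hb n hn h0
    have h2 := Nr_pos (mem_obox.1 hn).1.ne_zero
    have h3 : Y / Nr n ≤ 2 ^ 2 := by rw [div_le_iff₀ h2]; linarith
    have h4 : Real.sqrt (Y / Nr n) ≤ 2 := Real.sqrt_le_iff.2 ⟨by norm_num, h3⟩
    rw [norm_mul, Complex.norm_real, Real.norm_of_nonneg (by positivity)]
    exact mul_le_of_le_one_right (norm_nonneg _) (by linarith)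
  · simp

theorem q7b_form {Y : ℝ} (hY : 0 ≤ Y) (b₁ b₂ K : O → ℂ) :
    q_form Y b₁ b₂ (fun q => ((Y / Real.sqrt (Nr q) : ℝ) : ℂ) * K q) =
      4 * q_form Y (q7b_b Y b₁) (q7b_b Y b₂) K := by
  simp only [q_form, Finset.mul_sum]
  refine Finset.sum_congr rfl fun n₁ h₁ => Finset.sum_congr rfl fun n₂ h₂ => ?_
  split_ifs
  · have e : Y / Real.sqrt (Nr (n₁ * n₂)) =
        4 * ((Real.sqrt (Y / Nr n₁) / 2) * (Real.sqrt (Y / Nr n₂) / 2)) := by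
      rw [Nr_mul, Real.sqrt_mul (Nr_nonneg _), Real.sqrt_div hY, Real.sqrt_div hY]
      have p1 := (Real.sqrt_pos.2 (Nr_pos (mem_obox.1 h₁).1.ne_zero)).ne'
      have p2 := (Real.sqrt_pos.2 (Nr_pos (mem_obox.1 h₂).1.ne_zero)).ne'
      have p3 := Real.mul_self_sqrt hY
      field_simp
      nlinarith
    rw [e]
    simp only [q7b_b, if_pos h₁, if_pos h₂]
    push_cast
    ring
  · simp

open Classical in
theorem q7b_t1 {Y T U Λ : ℝ} {S : Finset O} {b₁ b₂ : O → ℂ} (hY : 1 ≤ Y) (hU : 1 ≤ U)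
    (h₁ : ∀ n ∈ obox Y, b₁ n ≠ 0 → Y / 2 < Nr n) (h₂ : ∀ n ∈ obox Y, b₂ n ≠ 0 → Y / 2 < Nr n)
    (h : q_Sep Y T Λ S b₁ b₂) :
    ‖q_form Y b₁ b₂ (fun q => ((Y / Real.sqrt (Nr q) : ℝ) : ℂ) * ∑ v ∈ S, rho q v *
      ∑ e ∈ pdiv q, if T / Nr v / Nr e ^ 2 < U then 0 else -mu e)‖ ≤ 4 * Λ := by
  have e := q7b_form (by linarith : (0:ℝ) ≤ Y) b₁ b₂
    (q_ker S fun v e => if T / Nr v / Nr e ^ 2 < U then 0 else -mu e)
  have h3 := h (q7b_b Y b₁) (q7b_b Y b₂) (fun v e => if T / Nr v / Nr e ^ 2 < U then 0 else -mu e)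
    (q7b_b_le h₁) (q7b_b_le h₂) (fun v _ e he => by
      have p := Nr_pos he.ne_zero
      split_ifs with hc
      · exact ⟨by simp, by simp only [norm_zero]; positivity⟩
      · rw [norm_neg]
        refine ⟨norm_mu_le e, (norm_mu_le e).trans ?_⟩
        rw [← q7b_sqrt p]
        exact Real.one_le_sqrt.2 (hU.trans (not_lt.1 hc)))
  unfold q_ker at e h3
  rw [e, norm_mul]
  have : ‖(4 : ℂ)‖ = 4 := by simp
  rw [this]
  linarith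

open Classical in
theorem q7b_t2 {A : ℝ} (hA : 0 < A) : ∃ C : ℝ, 0 ≤ C ∧
    ∀ (Y T U : ℝ) (S : Finset O) (b₁ b₂ : O → ℂ), 1 ≤ Y → 1 ≤ U →
      (∀ n ∈ obox Y, b₁ n ≠ 0 → Y / 2 < Nr n) → (∀ n ∈ obox Y, b₂ n ≠ 0 → Y / 2 < Nr n) →
      ‖q_form Y b₁ b₂ (fun q => ((Y / Real.sqrt (Nr q) : ℝ) : ℂ) * ∑ v ∈ S, rho q v *
        ∑ e ∈ pdiv q, if T / Nr v / Nr e ^ 2 < U then 0 else
          mu e * (q_E (T / Nr v / Nr e ^ 2 * (Nr q / Y ^ 2)) + 1))‖ ≤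
        C * (U ^ (-A) * Y ^ 3 * S.card * (q_l2 Y b₁ + q_l2 Y b₂)) := by
  obtain ⟨C, hC0, hC⟩ := q_E_add_one hA
  have h4 : (0 : ℝ) ≤ (1 / 4 : ℝ) ^ (-A) := by positivity
  refine ⟨25 * (2 * (25 * (C * (1 / 4 : ℝ) ^ (-A)))), by positivity,
    fun Y T U S b₁ b₂ hY hU h₁ h₂ => ?_⟩
  have hY0 : 0 < Y := by linarith
  have hU0 : 0 < U := by linarith
  have hUA : 0 ≤ U ^ (-A) := by positivity
  have hB : (0 : ℝ) ≤ 2 * (S.card * (25 * Y ^ 2 * (C * ((1 / 4 : ℝ) ^ (-A) * U ^ (-A))))) := by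
    positivity
  refine le_trans (q_form_le hY0.le hB fun n₁ m₁ n₂ m₂ _ e₁ e₂ => ?_) (le_of_eq (by ring))
  have a₁ := h₁ n₁ m₁ e₁
  have a₂ := h₂ n₂ m₂ e₂
  have c₁ := (mem_obox.1 m₁).2.2.2
  have c₂ := (mem_obox.1 m₂).2.2.2
  have hq1 : Nr (n₁ * n₂) ≤ Y ^ 2 := by
    rw [Nr_mul, sq]; exact mul_le_mul c₁ c₂ (Nr_nonneg _) hY0.le
  have hq2 : (Y / 2) ^ 2 ≤ Nr (n₁ * n₂) := by
    rw [Nr_mul, sq]; exact mul_le_mul a₁.le a₂.le (by positivity) (Nr_nonneg _)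
  have hs : Y / 2 ≤ Real.sqrt (Nr (n₁ * n₂)) := Real.le_sqrt_of_sq_le hq2
  have hy : 1 / 4 ≤ Nr (n₁ * n₂) / Y ^ 2 := by
    rw [le_div_iff₀ (by positivity)]; nlinarith
  rw [norm_mul, Complex.norm_real, Real.norm_of_nonneg (by positivity)]
  refine mul_le_mul ?_ ?_ (norm_nonneg _) (by norm_num)
  · rw [div_le_iff₀ (by linarith)]; linarith
  · refine (norm_sum_le _ _).trans ?_
    rw [← nsmul_eq_mul]
    refine Finset.sum_le_card_nsmul _ _ _ fun v _ => ?_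
    rw [norm_mul]
    refine le_trans (mul_le_of_le_one_left (norm_nonneg _) (norm_rho_le _ _)) ?_
    refine (norm_sum_le _ _).trans ?_
    have hb : ∀ e ∈ pdiv (n₁ * n₂), ‖if T / Nr v / Nr e ^ 2 < U then (0 : ℂ) else
        mu e * (q_E (T / Nr v / Nr e ^ 2 * (Nr (n₁ * n₂) / Y ^ 2)) + 1)‖ ≤
        C * ((1 / 4 : ℝ) ^ (-A) * U ^ (-A)) := by
      intro e _
      split_ifs with hc
      · simp only [norm_zero]; positivity
      · have hc' := not_lt.1 hc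
        have hx : 1 / 4 * U ≤ T / Nr v / Nr e ^ 2 * (Nr (n₁ * n₂) / Y ^ 2) := by
          rw [mul_comm]; exact mul_le_mul hc' hy (by norm_num) (by linarith)
        have hx0 : 0 < 1 / 4 * U := by positivity
        rw [norm_mul]
        refine le_trans (mul_le_of_le_one_left (norm_nonneg _) (norm_mu_le _)) ?_
        refine (hC _ (by linarith)).trans (mul_le_mul_of_nonneg_left ?_ hC0)
        rw [← Real.mul_rpow (by norm_num) hU0.le]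
        exact Real.rpow_le_rpow_of_nonpos hx0 hx (by linarith)
    refine (Finset.sum_le_card_nsmul _ _ _ hb).trans ?_
    rw [nsmul_eq_mul]
    refine mul_le_mul_of_nonneg_right ((card_pdiv_le_Nr _).trans (by linarith)) (by positivity)

open Classical in
theorem q7b_t3 {Y T U Λ : ℝ} {S : Finset O} {b₁ b₂ : O → ℂ} (hU : 1 ≤ U)
    (h : q_Sep Y T Λ S b₁ b₂) :
    ‖q_form Y b₁ b₂ (fun q => ∑ v ∈ S, rho q v * ∑ e ∈ pdiv q, if T / Nr v / Nr e ^ 2 < U then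
      mu e * ((Real.sqrt (T / Nr v / Nr e ^ 2) / U : ℝ) : ℂ) else 0)‖ ≤ Λ := by
  have hU0 : 0 < U := by linarith
  refine h b₁ b₂ (fun v e => if T / Nr v / Nr e ^ 2 < U then
      mu e * ((Real.sqrt (T / Nr v / Nr e ^ 2) / U : ℝ) : ℂ) else 0) (fun _ => le_rfl)
    (fun _ => le_rfl) fun v _ e he => ?_
  have p := Nr_pos he.ne_zero
  split_ifs with hc
  · have h1 : ‖mu e * ((Real.sqrt (T / Nr v / Nr e ^ 2) / U : ℝ) : ℂ)‖ ≤
        Real.sqrt (T / Nr v / Nr e ^ 2) / U := by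
      rw [norm_mul, Complex.norm_real, Real.norm_of_nonneg (by positivity)]
      exact mul_le_of_le_one_left (by positivity) (norm_mu_le _)
    refine ⟨h1.trans ?_, h1.trans ?_⟩
    · rw [div_le_one hU0]
      exact Real.sqrt_le_iff.2 ⟨hU0.le, by nlinarith⟩
    · rw [← q7b_sqrt p]
      exact div_le_self (Real.sqrt_nonneg _) hU
  · exact ⟨by simp, by simp only [norm_zero]; positivity⟩

/-- Put `T = Y²/M`, `T₀ = T / N v / N e ²`, so that the argument of `q_E` is `T₀ · (N q / Y²)` with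
`N q / Y² ∈ (1/4, 1]` on the supports, and `M/√Nq = (M/Y) (Y/√Nq)`.  Split
`q_E = -1[U ≤ T₀] + 1[U ≤ T₀] (q_E + 1) - 1[T₀ < U] q_c √· + 1[T₀ < U] q_Th`.
Term 1: `q_Sep` with `b_i' n = b_i n √(Y/N n)/2`, `ω = -mu e 1[U ≤ T₀]` (`1 ≤ √T₀`), factor `4`.
Term 2: `q_form_le` with `q_E_add_one`, `card_pdiv_le_Nr` (`N q ≤ Y²`, `Y/√Nq ≤ 2`).
Term 3: `(Y/√Nq) √(T₀ Nq/Y²) = √T₀`, `ω = mu e 1[T₀ < U] √T₀ / U`.  Term 4: `q_dual_th`. -/
theorem q_dual {A : ℝ} (hA : 0 < A) : ∃ C : ℝ, 0 ≤ C ∧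
    ∀ (Y M U Λ : ℝ) (S : Finset O) (b₁ b₂ : O → ℂ), 1 ≤ Y → 0 < M → 1 ≤ U → (∀ v ∈ S, v ≠ 0) →
      (∀ n ∈ obox Y, b₁ n ≠ 0 → Y / 2 < Nr n) → (∀ n ∈ obox Y, b₂ n ≠ 0 → Y / 2 < Nr n) →
      q_Sep Y (Y ^ 2 / M) Λ S b₁ b₂ →
      ‖q_form Y b₁ b₂ (fun q => ((M / Real.sqrt (Nr q) : ℝ) : ℂ) *
        ∑ v ∈ S, rho q v * q_Eq q (Nr q / (M * Nr v)))‖ ≤
        C * (M / Y) * (U * Λ + U ^ (-A) * Y ^ 3 * S.card * (q_l2 Y b₁ + q_l2 Y b₂)) := by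
  classical
  obtain ⟨C₂, hC₂, H₂⟩ := q7b_t2 hA
  obtain ⟨C₄, hC₄, H₄⟩ := q_dual_th
  refine ⟨4 + C₂ + ‖q_c‖ + C₄, by positivity, fun Y M U Λ S b₁ b₂ hY hM hU hS h₁ h₂ h => ?_⟩
  have hY0 : 0 < Y := by linarith
  have hU0 : 0 < U := by linarith
  set T : ℝ := Y ^ 2 / M with hT
  have hT0 : 0 < T := by positivity
  have hΛ := q7b_nonneg h
  have t1 := q7b_t1 hY hU h₁ h₂ h
  have t2 := H₂ Y T U S b₁ b₂ hY hU h₁ h₂
  have t3 := q7b_t3 hU h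
  have t4 := H₄ Y T U Λ S b₁ b₂ hY hT0 hU hS h
  set K1 : O → ℂ := fun q => ((Y / Real.sqrt (Nr q) : ℝ) : ℂ) * ∑ v ∈ S, rho q v *
      ∑ e ∈ pdiv q, if T / Nr v / Nr e ^ 2 < U then 0 else -mu e with hK1
  set K2 : O → ℂ := fun q => ((Y / Real.sqrt (Nr q) : ℝ) : ℂ) * ∑ v ∈ S, rho q v *
        ∑ e ∈ pdiv q, if T / Nr v / Nr e ^ 2 < U then 0 else
          mu e * (q_E (T / Nr v / Nr e ^ 2 * (Nr q / Y ^ 2)) + 1) with hK2
  set K3 : O → ℂ := fun q => ∑ v ∈ S, rho q v * ∑ e ∈ pdiv q, if T / Nr v / Nr e ^ 2 < U then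
      mu e * ((Real.sqrt (T / Nr v / Nr e ^ 2) / U : ℝ) : ℂ) else 0 with hK3
  set K4 : O → ℂ := fun q => ((Y / Real.sqrt (Nr q) : ℝ) : ℂ) * ∑ v ∈ S, rho q v *
        ∑ e ∈ pdiv q, if T / Nr v / Nr e ^ 2 < U then
          mu e * (q_Th (T / Nr v / Nr e ^ 2 * (Nr q / Y ^ 2)) : ℂ) else 0 with hK4
  have key : q_form Y b₁ b₂ (fun q => ((M / Real.sqrt (Nr q) : ℝ) : ℂ) *
        ∑ v ∈ S, rho q v * q_Eq q (Nr q / (M * Nr v))) =
      q_form Y b₁ b₂ (fun q => ((M / Y : ℝ) : ℂ) *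
        (K1 q + K2 q + (-(q_c * (U : ℂ))) * K3 q + K4 q)) := by
    refine q_form_congr fun n₁ m₁ n₂ m₂ _ _ _ => ?_
    have hq : n₁ * n₂ ≠ 0 := ((mem_obox.1 m₁).1.mul (mem_obox.1 m₂).1).ne_zero
    generalize n₁ * n₂ = q at hq ⊢
    have hq0 := Nr_pos hq
    have hs0 := Real.sqrt_pos.2 hq0
    simp only [hK1, hK2, hK3, hK4, q_Eq, Finset.mul_sum, ← Finset.sum_add_distrib]
    refine Finset.sum_congr rfl fun v hv => Finset.sum_congr rfl fun e he => ?_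
    have hv0 := Nr_pos (hS v hv)
    have he0 := Nr_pos ((mem_pdiv hq).1 he).1.ne_zero
    have e1 : Nr q / (M * Nr v) / Nr e ^ 2 = T / Nr v / Nr e ^ 2 * (Nr q / Y ^ 2) := by
      rw [hT]; field_simp
    have e2 : M / Real.sqrt (Nr q) = M / Y * (Y / Real.sqrt (Nr q)) := by field_simp
    have hT1 : 0 ≤ T / Nr v / Nr e ^ 2 := by positivity
    have e3 : Y / Real.sqrt (Nr q) * Real.sqrt (T / Nr v / Nr e ^ 2 * (Nr q / Y ^ 2)) =
        U * (Real.sqrt (T / Nr v / Nr e ^ 2) / U) := by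
      rw [Real.sqrt_mul hT1, Real.sqrt_div' _ (sq_nonneg Y), Real.sqrt_sq hY0.le]
      field_simp
    have e3' : ((Y / Real.sqrt (Nr q) : ℝ) : ℂ) *
        ((Real.sqrt (T / Nr v / Nr e ^ 2 * (Nr q / Y ^ 2)) : ℝ) : ℂ) =
        (U : ℂ) * ((Real.sqrt (T / Nr v / Nr e ^ 2) / U : ℝ) : ℂ) := by
      rw [← Complex.ofReal_mul, e3, Complex.ofReal_mul]
    rw [e1, e2, Complex.ofReal_mul]
    split_ifs with hc
    · unfold q_E
      linear_combination (-(((M / Y : ℝ) : ℂ) * rho q v * mu e * q_c)) * e3'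
    · ring
  rw [key, q_form_smul, q_form_add, q_form_add, q_form_add, q_form_smul, norm_mul,
    Complex.norm_real, Real.norm_of_nonneg (by positivity)]
  have hl : 0 ≤ U ^ (-A) * Y ^ 3 * S.card * (q_l2 Y b₁ + q_l2 Y b₂) := by
    have := add_nonneg (q_l2_nonneg Y b₁) (q_l2_nonneg Y b₂)
    positivity
  have hUΛ : Λ ≤ U * Λ := le_mul_of_one_le_left hΛ hU
  have hUΛ0 : 0 ≤ U * Λ := by positivity
  have t3' : ‖-(q_c * (U : ℂ)) * q_form Y b₁ b₂ K3‖ ≤ ‖q_c‖ * (U * Λ) := by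
    rw [norm_mul, norm_neg, norm_mul, Complex.norm_real, Real.norm_of_nonneg hU0.le, mul_assoc]
    gcongr
  have tot : ‖q_form Y b₁ b₂ K1 + q_form Y b₁ b₂ K2 + -(q_c * (U : ℂ)) * q_form Y b₁ b₂ K3 +
      q_form Y b₁ b₂ K4‖ ≤ (4 + C₂ + ‖q_c‖ + C₄) *
        (U * Λ + U ^ (-A) * Y ^ 3 * S.card * (q_l2 Y b₁ + q_l2 Y b₂)) := by
    have n1 := norm_add_le (q_form Y b₁ b₂ K1 + q_form Y b₁ b₂ K2 +
      -(q_c * (U : ℂ)) * q_form Y b₁ b₂ K3) (q_form Y b₁ b₂ K4)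
    have n2 := norm_add_le (q_form Y b₁ b₂ K1 + q_form Y b₁ b₂ K2)
      (-(q_c * (U : ℂ)) * q_form Y b₁ b₂ K3)
    have n3 := norm_add_le (q_form Y b₁ b₂ K1) (q_form Y b₁ b₂ K2)
    have p1 := mul_nonneg hC₂ hUΛ0
    have p2 := mul_nonneg (norm_nonneg q_c) hl
    have p3 := mul_nonneg hC₄ hl
    nlinarith
  calc M / Y * _ ≤ M / Y * ((4 + C₂ + ‖q_c‖ + C₄) *
        (U * Λ + U ^ (-A) * Y ^ 3 * S.card * (q_l2 Y b₁ + q_l2 Y b₂))) :=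
        mul_le_mul_of_nonneg_left tot (by positivity)
    _ = _ := by ring

end Crest.Agent.R017

end
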