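import Crest.Agent.R017.QLSAux4
import Crest.Agent.R017.QLSAux6b
import Crest.Agent.R017.QLSAux7b

/-! # Row 17, quadratic large sieve: the estimate for coprime pairs -/

set_option autoImplicit false

noncomputable section

open scoped BigOperators ComplexConjugate
open Complex MeasureTheory

namespace Crest.Agent.R017

open Classical in
theorem q8_a {Y M : ℝ} (hM : 1 ≤ M) (b : O → ℂ) :
    ‖q_form Y b (fun n => conj (b n)) (fun q => if q = 1 then 6 * ((M : ℂ) - 1) else 0)‖ ≤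
      6 * M * q_l2 Y b := by
  rw [q_form, q_l2, Finset.mul_sum]
  refine (norm_sum_le _ _).trans (Finset.sum_le_sum fun n₁ h₁ => ?_)
  refine (norm_sum_le _ _).trans ?_
  have h : ∀ n₂ ∈ obox Y, ‖if IsCoprime n₁ n₂ then
      b n₁ * conj (b n₂) * (if n₁ * n₂ = 1 then 6 * ((M : ℂ) - 1) else 0) else 0‖ ≤
      if n₁ = n₂ then 6 * M * ‖b n₁‖ ^ 2 else 0 := by
    intro n₂ h₂
    by_cases h1 : n₁ * n₂ = 1
    · have e1 : n₁ = 1 := (mem_obox.1 h₁).1.eq_one_of_isUnit (IsUnit.of_mul_eq_one _ h1)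
      have e2 : n₂ = 1 := by rwa [e1, one_mul] at h1
      subst e1 e2
      rw [if_pos isCoprime_one_left, if_pos h1, if_pos rfl, norm_mul, norm_mul, norm_mul, Complex.norm_conj]
      have e3 : ‖(M : ℂ) - 1‖ = M - 1 := by
        rw [← Complex.ofReal_one, ← Complex.ofReal_sub, Complex.norm_real, Real.norm_of_nonneg (by linarith)]
      have e4 : ‖(6 : ℂ)‖ = 6 := by simp
      rw [e3, e4]
      nlinarith [sq_nonneg ‖b 1‖]
    · simp only [if_neg h1, mul_zero, ite_self, norm_zero]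
      split_ifs <;> positivity
  refine (Finset.sum_le_sum h).trans ?_
  rw [Finset.sum_ite_eq, if_pos h₁]

theorem q8_b {δ : ℝ} (hδ : 0 < δ) : ∃ C : ℝ, 0 ≤ C ∧ ∀ (Y N M V : ℝ) (b : O → ℂ), 1 ≤ Y → Y ≤ N → 1 ≤ M →
    0 < V → V ≤ N ^ 2 → N ^ (2 + δ) ≤ M * V →
    ‖q_form Y b (fun n => conj (b n))
      (fun q => ((M / Real.sqrt (Nr q) : ℝ) : ℂ) * q_G q (Nr q / M) V)‖ ≤ C * (M * q_l2 Y b) := by
  set A : ℝ := 3 / δ + 2 with hA
  have hA1 : 1 < A := by have : 0 < 3 / δ := by positivity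
                         linarith
  obtain ⟨C, hC0, hC⟩ := q_G_tail hA1
  refine ⟨50 * C, by positivity, fun Y N M V b hY hYN hM hV hVN hMV => ?_⟩
  have hN : 1 ≤ N := hY.trans hYN
  have hN0 : 0 < N := by linarith
  have hM0 : 0 < M := by linarith
  have hkey : (N ^ 2 / M) ^ A * V ^ (1 - A) ≤ N⁻¹ := by
    have e1 : (N ^ 2 / M) ^ A * V ^ (1 - A) = V * (N ^ 2 / (M * V)) ^ A := by
      rw [← div_div, Real.div_rpow (x := N ^ 2 / M) (by positivity) hV.le, Real.rpow_sub hV, Real.rpow_one]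
      ring
    have e2 : N ^ 2 / (M * V) ≤ N ^ (-δ) := by
      rw [div_le_iff₀ (by positivity)]
      calc N ^ 2 = N ^ (-δ) * N ^ (2 + δ) := by
            rw [← Real.rpow_add hN0, ← Real.rpow_two]; congr 1; ring
        _ ≤ _ := by gcongr
    have e3 : (N ^ (-δ)) ^ A ≤ N ^ (-3 : ℝ) := by
      rw [← Real.rpow_mul hN0.le]
      refine Real.rpow_le_rpow_of_exponent_le hN ?_
      have : δ * A = 3 + 2 * δ := by rw [hA]; field_simp
      linarith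
    have e4 : N ^ (-3 : ℝ) = (N ^ 3)⁻¹ := by
      rw [Real.rpow_neg hN0.le]; norm_cast
    calc _ = V * (N ^ 2 / (M * V)) ^ A := e1
      _ ≤ N ^ 2 * (N ^ (-δ)) ^ A := by gcongr
      _ ≤ N ^ 2 * (N ^ 3)⁻¹ := by rw [← e4]; gcongr
      _ = N⁻¹ := by field_simp
  have h := q_form_le (Y := Y) (B := M * (C * N⁻¹)) (by linarith) (by positivity) (b₁ := b)
    (b₂ := fun n => conj (b n)) (K := fun q => ((M / Real.sqrt (Nr q) : ℝ) : ℂ) * q_G q (Nr q / M) V)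
    (fun n₁ h₁ n₂ h₂ _ _ _ => by
      have p₁ := mem_obox.1 h₁
      have p₂ := mem_obox.1 h₂
      have hq1 : 1 ≤ Nr (n₁ * n₂) := one_le_Nr (p₁.1.mul p₂.1).ne_zero
      have hq2 : Nr (n₁ * n₂) ≤ N ^ 2 := by
        rw [Nr_mul, sq]
        exact mul_le_mul (p₁.2.2.2.trans hYN) (p₂.2.2.2.trans hYN) (Nr_nonneg _) hN0.le
      rw [norm_mul, Complex.norm_real, Real.norm_of_nonneg (by positivity)]
      refine mul_le_mul (div_le_self hM0.le (Real.one_le_sqrt.2 hq1)) ?_ (norm_nonneg _) hM0.le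
      refine (hC _ _ _ (by positivity) hV).trans ?_
      calc C * (Nr (n₁ * n₂) / M) ^ A * V ^ (1 - A) ≤ C * (N ^ 2 / M) ^ A * V ^ (1 - A) := by gcongr
        _ = C * ((N ^ 2 / M) ^ A * V ^ (1 - A)) := by ring
        _ ≤ _ := by gcongr)
  rw [q_l2_conj] at h
  refine h.trans ?_
  have hL := q_l2_nonneg Y b
  have e5 : Y * N⁻¹ ≤ 1 := by rw [← div_eq_mul_inv, div_le_one hN0]; exact hYN
  calc 25 * Y * (M * (C * N⁻¹)) * (q_l2 Y b + q_l2 Y b) = 50 * C * (M * q_l2 Y b) * (Y * N⁻¹) := by ring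
    _ ≤ 50 * C * (M * q_l2 Y b) * 1 := by gcongr
    _ = _ := mul_one _

theorem q8_P {ε Y N V : ℝ} (hε : 0 < ε) (hY : 1 ≤ Y) (hYN : Y ≤ N) (hV : 0 < V) (hVN : V ≤ N ^ 2) :
    Y ^ (ε / 6) * (1 + V) ^ (ε / 6) ≤ 2 ^ (ε / 6) * N ^ (ε / 2) := by
  have hN : 1 ≤ N := hY.trans hYN
  have e1 : N ^ (ε / 2) = (N ^ 3) ^ (ε / 6) := by
    rw [← Real.rpow_natCast, ← Real.rpow_mul (by linarith)]
    congr 1
    push_cast
    ring
  rw [e1, ← Real.mul_rpow (by linarith) (by linarith), ← Real.mul_rpow (by norm_num) (by positivity)]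
  refine Real.rpow_le_rpow (by positivity) ?_ (by positivity)
  have : 1 ≤ N ^ 2 := one_le_pow₀ hN
  calc Y * (1 + V) ≤ N * (N ^ 2 + N ^ 2) := by gcongr
    _ = _ := by ring

theorem q8_c {ε : ℝ} (hε : 0 < ε) : ∃ C : ℝ, 0 ≤ C ∧ ∀ (Y N M V κ ξ : ℝ) (b : O → ℂ), 1 ≤ Y → Y ≤ N → 1 ≤ M →
    0 < V → V ≤ N ^ 2 → 0 ≤ κ → 1 / 2 ≤ ξ → q_Hyp κ ξ V N → (∀ n ∈ obox Y, b n ≠ 0 → Y / 2 < Nr n) →
    ‖q_form Y b (fun n => conj (b n)) (fun q => ((M / Real.sqrt (Nr q) : ℝ) : ℂ) *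
        ∑ v ∈ sqb V, rho q v * q_Eq q (Nr q / (M * Nr v)))‖ ≤
      C * (N ^ ε * κ * (M + Real.sqrt M * V ^ (ξ - 1 / 2)) * q_l2 Y b + M * q_l2 Y b) := by
  obtain ⟨C₂, hC₂, h₂⟩ := q_bilv (ε := ε / 6) (by positivity)
  obtain ⟨C₃, hC₃, h₃⟩ := q_dual (A := 10 / ε) (by positivity)
  refine ⟨C₃ * (2 * C₂ * 2 ^ (ε / 6) + 50), by positivity,
    fun Y N M V κ ξ b hY hYN hM hV hVN hκ hξ hH hb => ?_⟩
  have hN : 1 ≤ N := hY.trans hYN
  have hN0 : 0 < N := by linarith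
  have hM0 : 0 < M := by linarith
  have hY0 : 0 < Y := by linarith
  have hL := q_l2_nonneg Y b
  set L := q_l2 Y b with hLdef
  set Z := V ^ (ξ - 1 / 2) with hZ
  have hZ0 : 0 ≤ Z := by positivity
  have hsep : q_Sep Y (Y ^ 2 / M) (C₂ * Y ^ (ε / 6) * (1 + V) ^ (ε / 6) * κ *
      (Y + Real.sqrt (Y ^ 2 / M) * Z) * (L + L)) (sqb V) b (fun n => conj (b n)) := by
    intro b₁ b₂ ω hb₁ hb₂ hω
    refine (h₂ Y N V κ ξ (Y ^ 2 / M) b₁ b₂ ω hY hYN hV hκ hξ (by positivity) hH hω).trans ?_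
    have e1 : q_l2 Y b₁ ≤ L := q_l2_mono hb₁
    have e2 : q_l2 Y b₂ ≤ L := (q_l2_mono hb₂).trans (q_l2_conj Y b).le
    gcongr
  have h := h₃ Y M (N ^ (ε / 2)) _ (sqb V) b (fun n => conj (b n)) hY hM0
    (Real.one_le_rpow hN (by positivity)) (fun v hv => (mem_sqb.1 hv).1.ne_zero) hb
    (fun n hn h0 => hb n hn (by simpa using h0)) hsep
  rw [q_l2_conj, ← hLdef] at h
  refine h.trans ?_
  have e1 : M / Y * (Y + Real.sqrt (Y ^ 2 / M) * Z) = M + Real.sqrt M * Z := by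
    have hs : 0 < Real.sqrt M := Real.sqrt_pos.2 hM0
    rw [Real.sqrt_div (by positivity), Real.sqrt_sq hY0.le]
    have : Real.sqrt M * Real.sqrt M = M := Real.mul_self_sqrt hM0.le
    field_simp
    linear_combination (-Z) * this
  have e2 : (N ^ (ε / 2)) ^ (-(10 / ε)) = (N ^ 5)⁻¹ := by
    rw [← Real.rpow_mul hN0.le, ← Real.rpow_natCast, ← Real.rpow_neg hN0.le]
    congr 1
    push_cast
    field_simp
    norm_num
  have e3 : (N ^ 5)⁻¹ * Y ^ 3 * (sqb V).card ≤ 25 := by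
    have := card_sqb_le hV.le
    calc (N ^ 5)⁻¹ * Y ^ 3 * (sqb V).card ≤ (N ^ 5)⁻¹ * N ^ 3 * (25 * N ^ 2) := by
          gcongr
          linarith
      _ = 25 := by field_simp
  have e4 := q8_P hε hY hYN hV hVN
  have e5 : N ^ (ε / 2) * N ^ (ε / 2) = N ^ ε := by rw [← Real.rpow_add hN0, add_halves]
  have e6 : M / Y ≤ M := div_le_self hM0.le hY
  rw [e2]
  have t1 : 0 ≤ N ^ ε * κ * (M + Real.sqrt M * Z) * L := by positivity
  have t2 : 0 ≤ M * L := by positivity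
  have t3 : 0 ≤ 2 * C₂ * 2 ^ (ε / 6) := by positivity
  calc C₃ * (M / Y) * (N ^ (ε / 2) * (C₂ * Y ^ (ε / 6) * (1 + V) ^ (ε / 6) * κ *
          (Y + Real.sqrt (Y ^ 2 / M) * Z) * (L + L)) + (N ^ 5)⁻¹ * Y ^ 3 * (sqb V).card * (L + L))
      = C₃ * (2 * C₂ * N ^ (ε / 2) * (Y ^ (ε / 6) * (1 + V) ^ (ε / 6)) * κ *
          (M / Y * (Y + Real.sqrt (Y ^ 2 / M) * Z)) * L +
          2 * ((N ^ 5)⁻¹ * Y ^ 3 * (sqb V).card) * (M / Y) * L) := by ring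
    _ ≤ C₃ * (2 * C₂ * N ^ (ε / 2) * (2 ^ (ε / 6) * N ^ (ε / 2)) * κ * (M + Real.sqrt M * Z) * L +
          2 * 25 * M * L) := by
        rw [e1]
        gcongr
    _ = C₃ * (2 * C₂ * 2 ^ (ε / 6) * (N ^ ε * κ * (M + Real.sqrt M * Z) * L) + 50 * (M * L)) := by
        rw [← e5]; ring
    _ ≤ _ := by
        rw [mul_assoc C₃]
        refine mul_le_mul_of_nonneg_left ?_ hC₃
        nlinarith [mul_nonneg t3 t2]

theorem q8_d {ε : ℝ} (hε : 0 < ε) : ∃ C : ℝ, 0 ≤ C ∧ ∀ (Y N M V κ ξ : ℝ) (b : O → ℂ), 1 ≤ Y → Y ≤ N → 1 ≤ M →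
    0 < V → V ≤ N ^ 2 → 0 ≤ κ → 1 / 2 ≤ ξ → q_Hyp κ ξ V N →
    ‖q_form Y b (fun n => conj (b n)) (fun q => ∑ v ∈ sqb V, rho q v * q_Eq q (M / Nr v))‖ ≤
      C * (N ^ ε * κ * (N + Real.sqrt M * V ^ (ξ - 1 / 2)) * q_l2 Y b) := by
  obtain ⟨C₂, hC₂, h₂⟩ := q_bilv (ε := ε / 6) (by positivity)
  obtain ⟨CE, hCE, hE⟩ := q_E_le
  refine ⟨CE * (2 * C₂ * 2 ^ (ε / 6)), by positivity, fun Y N M V κ ξ b hY hYN hM hV hVN hκ hξ hH => ?_⟩
  have hN : 1 ≤ N := hY.trans hYN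
  have hM0 : 0 < M := by linarith
  have hL := q_l2_nonneg Y b
  have hCE' : (CE : ℂ) ≠ 0 := by exact_mod_cast hCE.ne'
  have e0 : (fun q => ∑ v ∈ sqb V, rho q v * q_Eq q (M / Nr v)) = fun q => (CE : ℂ) *
      q_ker (sqb V) (fun v e => mu e * q_E (M / Nr v / Nr e ^ 2) / CE) q := by
    funext q
    simp only [q_ker, q_Eq, Finset.mul_sum]
    refine Finset.sum_congr rfl fun v _ => Finset.sum_congr rfl fun e _ => ?_
    field_simp
  have h := h₂ Y N V κ ξ M b (fun n => conj (b n)) (fun v e => mu e * q_E (M / Nr v / Nr e ^ 2) / CE)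
    hY hYN hV hκ hξ hM0.le hH (fun v hv e he => by
      have hv0 := Nr_pos (mem_sqb.1 hv).1.ne_zero
      have he0 := Nr_pos he.ne_zero
      obtain ⟨a1, a2⟩ := hE (M / Nr v / Nr e ^ 2) (by positivity)
      rw [Real.sqrt_div (by positivity), Real.sqrt_sq he0.le] at a2
      have a3 : ‖mu e * q_E (M / Nr v / Nr e ^ 2) / CE‖ ≤ ‖q_E (M / Nr v / Nr e ^ 2)‖ / CE := by
        rw [norm_div, norm_mul, Complex.norm_real, Real.norm_of_nonneg hCE.le]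
        gcongr
        exact mul_le_of_le_one_left (norm_nonneg _) (norm_mu_le e)
      exact ⟨a3.trans ((div_le_one hCE).2 a1), a3.trans ((div_le_iff₀' hCE).2 a2)⟩)
  rw [q_l2_conj] at h
  rw [e0, q_form_smul, norm_mul, Complex.norm_real, Real.norm_of_nonneg hCE.le, mul_assoc CE]
  refine mul_le_mul_of_nonneg_left (h.trans ?_) hCE.le
  have e4 := q8_P hε hY hYN hV hVN
  have e5 : N ^ (ε / 2) ≤ N ^ ε := Real.rpow_le_rpow_of_exponent_le hN (by linarith)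
  calc C₂ * Y ^ (ε / 6) * (1 + V) ^ (ε / 6) * κ * (Y + Real.sqrt M * V ^ (ξ - 1 / 2)) * (q_l2 Y b + q_l2 Y b)
      = 2 * C₂ * (Y ^ (ε / 6) * (1 + V) ^ (ε / 6)) * κ * (Y + Real.sqrt M * V ^ (ξ - 1 / 2)) * q_l2 Y b := by
        ring
    _ ≤ 2 * C₂ * (2 ^ (ε / 6) * N ^ ε) * κ * (N + Real.sqrt M * V ^ (ξ - 1 / 2)) * q_l2 Y b := by
        have e6 : Y ^ (ε / 6) * (1 + V) ^ (ε / 6) ≤ 2 ^ (ε / 6) * N ^ ε := e4.trans (by gcongr)
        gcongr 2 * C₂ * ?_ * κ * (?_ + _) * _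
    _ = _ := by ring

/-- Replace the kernel by `q_id` (`q_form_congr`; `n₁ n₂` is primary, squarefree, odd and
`q_gam2_one` applies) and bound four forms.
(a) `n₁ n₂ = 1` forces `n₁ = n₂ = 1`: `≤ 6 M ‖b 1‖²`.
(b) `q_form_le` with `q_G_tail` (`A = 3/δ + 2`): `M (N²/M)^A V^(1-A) = M V (N²/(MV))^A ≤ M N² N^(-δA)`.
(c) dual error: `q_dual` with `U = N^(ε/2)`, `A = 10/ε`, `S = sqb V` (`card_sqb_le`), and `Λ` from
`q_bilv` (exponent `ε/6`, `T = Y²/M`, `q_l2_mono`, `q_l2_conj`):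
`(M/Y)(Y + √(Y²/M) V^(ξ-1/2)) = M + √M V^(ξ-1/2)`.
(d) direct error: it is `C_E • q_ker (sqb V) ω` with `ω v e = mu e * q_E (M/N v/N e²) / C_E`
(`q_E_le`), `q_bilv` with `T = M`. -/
theorem q_pair {δ ε : ℝ} (hδ : 0 < δ) (hε : 0 < ε) : ∃ C : ℝ, 0 ≤ C ∧
    ∀ (Y N M V κ ξ : ℝ) (b : O → ℂ), 1 ≤ Y → Y ≤ N → 1 ≤ M → 0 < V → V ≤ N ^ 2 →
      N ^ (2 + δ) ≤ M * V → 0 ≤ κ → 1 / 2 ≤ ξ → q_Hyp κ ξ V N →
      (∀ n ∈ obox Y, b n ≠ 0 → Y / 2 < Nr n) →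
      (∀ n ∈ obox Y, ∀ n' ∈ obox Y, b n ≠ 0 → b n' ≠ 0 → (4 : O) ∣ n - n') →
      ‖q_form Y b (fun n => conj (b n)) (fun q => q_G q M V)‖ ≤
        C * N ^ ε * (1 + κ) * (M + N + Real.sqrt M * V ^ (ξ - 1 / 2)) * q_l2 Y b := by
  classical
  obtain ⟨Cb, hCb, hb⟩ := q8_b hδ
  obtain ⟨Cc, hCc, hc⟩ := q8_c hε
  obtain ⟨Cd, hCd, hd⟩ := q8_d hε
  refine ⟨6 + Cb + 2 * Cc + Cd, by positivity,
    fun Y N M V κ ξ b hY hYN hM hV hVN hMV hκ hξ hH hsupp h4 => ?_⟩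
  have hN : 1 ≤ N := hY.trans hYN
  have hM0 : 0 < M := by linarith
  have e0 : q_form Y b (fun n => conj (b n)) (fun q => q_G q M V) =
      q_form Y b (fun n => conj (b n)) (fun q => if q = 1 then 6 * ((M : ℂ) - 1) else 0) +
      q_form Y b (fun n => conj (b n)) (fun q => ((M / Real.sqrt (Nr q) : ℝ) : ℂ) * q_G q (Nr q / M) V) +
      q_form Y b (fun n => conj (b n)) (fun q => ((M / Real.sqrt (Nr q) : ℝ) : ℂ) *
        ∑ v ∈ sqb V, rho q v * q_Eq q (Nr q / (M * Nr v))) +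
      (-1) * q_form Y b (fun n => conj (b n)) (fun q => ∑ v ∈ sqb V, rho q v * q_Eq q (M / Nr v)) := by
    rw [← q_form_smul, ← q_form_add, ← q_form_add, ← q_form_add]
    refine q_form_congr fun n₁ h₁ n₂ h₂ hco hb₁ hb₂ => ?_
    have p₁ := mem_obox.1 h₁
    have p₂ := mem_obox.1 h₂
    rw [q_id (p₁.1.mul p₂.1) (squarefree_mul_iff.2 ⟨hco.isRelPrime, p₁.2.1, p₂.2.1⟩)
      (r2_odd_mul p₁.2.2.1 p₂.2.2.1)
      (q_gam2_one p₁.2.2.1 (h4 n₁ h₁ n₂ h₂ hb₁ (by simpa using hb₂))) hM0 hV]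
    ring
  have ha := q8_a (Y := Y) hM b
  have hb' := hb Y N M V b hY hYN hM hV hVN hMV
  have hc' := hc Y N M V κ ξ b hY hYN hM hV hVN hκ hξ hH hsupp
  have hd' := hd Y N M V κ ξ b hY hYN hM hV hVN hκ hξ hH
  have hL := q_l2_nonneg Y b
  set L := q_l2 Y b with hLdef
  set W := Real.sqrt M * V ^ (ξ - 1 / 2) with hW
  have hW0 : 0 ≤ W := by positivity
  have hNε : 1 ≤ N ^ ε := Real.one_le_rpow hN hε.le
  set X := N ^ ε * (1 + κ) * (M + N + W) * L with hX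
  have x1 : M * L ≤ X := by
    calc M * L = 1 * 1 * M * L := by ring
      _ ≤ X := by
        rw [hX]
        gcongr <;> linarith
  have x2 : N ^ ε * κ * (M + W) * L ≤ X := by
    rw [hX]
    gcongr <;> linarith
  have x3 : N ^ ε * κ * (N + W) * L ≤ X := by
    rw [hX]
    gcongr <;> linarith
  rw [e0]
  refine (norm_add_le _ _).trans ?_
  rw [norm_mul, norm_neg, norm_one, one_mul]
  refine (add_le_add (norm_add₃_le.trans (add_le_add (add_le_add ha hb') hc')) hd').trans ?_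
  have y1 := mul_le_mul_of_nonneg_left x1 hCb
  have y2 := mul_le_mul_of_nonneg_left (add_le_add x2 x1) hCc
  have y3 := mul_le_mul_of_nonneg_left x3 hCd
  calc _ ≤ 6 * X + Cb * X + Cc * (X + X) + Cd * X := by linarith
    _ = _ := by rw [hX]; ring

end Crest.Agent.R017

end
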