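import Crest.Agent.R017.QLSAux5
import Crest.Agent.R017.QLSAux8

/-! # Row 17, quadratic large sieve: the core estimate -/

set_option autoImplicit false

noncomputable section

open scoped BigOperators ComplexConjugate
open Complex MeasureTheory

namespace Crest.Agent.R017

theorem q9_form_hasSum {ι : Type*} (Y : ℝ) (b₁ b₂ : O → ℂ) {F : ι → O → ℂ} {K : O → ℂ}
    (h : ∀ q, HasSum (fun p => F p q) (K q)) :
    HasSum (fun p => q_form Y b₁ b₂ (F p)) (q_form Y b₁ b₂ K) := by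
  unfold q_form
  refine hasSum_sum fun n₁ _ => hasSum_sum fun n₂ _ => ?_
  split_ifs
  · exact (h _).mul_left _
  · exact hasSum_zero

theorem q9_four_dvd {g x : O} (hg : ¬ (2 : O) ∣ g) (h : (4 : O) ∣ g * x) : (4 : O) ∣ x := by
  have h1 : IsCoprime (2 : O) g := prime_two.irreducible.coprime_iff_not_dvd.2 hg
  have h2 : IsCoprime ((2 : O) ^ 2) g := h1.pow_left
  rw [show (2 : O) ^ 2 = 4 by norm_num] at h2
  exact h2.dvd_of_dvd_mul_left h

open Classical in
/-- The right side is `∑' p, q_wt M V p * P (p.1 p.2²)` with `P m` the right side of `q_psd`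
(finite sums of `q_G_summable` series; `Summable.tsum_finsetSum`, `re_tsum`), all terms are
non-negative; keep the terms `p = (m, 1)` (`Summable.sum_le_tsum`), `Phi 1 ≤ Phi (N m / M)`
(`p1_anti`). -/
theorem q_pos (X : ℝ) (a : O → ℂ) {M : ℝ} (hM : 0 < M) (V : ℝ) :
    Phi 1 * ∑ m ∈ (obox M).filter (fun m => V < Nr m), ‖q_row X a m‖ ^ 2 ≤
      (∑ g ∈ obox X, q_form (X / Nr g) (q_sh X a g) (fun n => conj (q_sh X a g n))
        (fun q => q_G q M V)).re := by
  set P : O → ℂ := fun m => ∑ g ∈ obox X, q_form (X / Nr g) (q_sh X a g)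
      (fun n => conj (q_sh X a g n)) (fun q => rho q m) with hP
  have h1 : HasSum (fun p : O × O => (q_wt M V p : ℂ) * P (p.1 * p.2 ^ 2))
      (∑ g ∈ obox X, q_form (X / Nr g) (q_sh X a g) (fun n => conj (q_sh X a g n))
        (fun q => q_G q M V)) := by
    have : (fun p : O × O => (q_wt M V p : ℂ) * P (p.1 * p.2 ^ 2)) = fun p : O × O =>
        ∑ g ∈ obox X, q_form (X / Nr g) (q_sh X a g) (fun n => conj (q_sh X a g n))
          (fun q => (q_wt M V p : ℂ) * rho q (p.1 * p.2 ^ 2)) := by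
      funext p
      simp only [hP, Finset.mul_sum, q_form_smul]
    rw [this]
    exact hasSum_sum fun g _ => q9_form_hasSum _ _ _ fun q => (q_G_summable hM V q).hasSum
  have h2 := Complex.hasSum_re h1
  simp only [re_ofReal_mul] at h2
  have h3 : ∀ p : O × O, 0 ≤ q_wt M V p * (P (p.1 * p.2 ^ 2)).re := by
    intro p
    unfold q_wt
    split_ifs with hp
    · exact mul_nonneg (Phi_pos _).le ((sq_nonneg _).trans
        (q_psd X a (mul_ne_zero hp.1.ne_zero (pow_ne_zero _ hp.2.2))))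
    · simp
  have h4 := sum_le_hasSum (((obox M).filter (fun m => V < Nr m)).image
    (fun m : O => (m, (1 : O)))) (fun p _ => h3 p) h2
  refine le_trans ?_ h4
  rw [Finset.sum_image (fun x _ y _ h => (Prod.ext_iff.1 h).1), Finset.mul_sum]
  refine Finset.sum_le_sum fun m hm => ?_
  obtain ⟨hm1, hm2⟩ := Finset.mem_filter.1 hm
  obtain ⟨e1, e2, -, e4⟩ := mem_obox.1 hm1
  simp only [q_wt, one_pow, mul_one]
  rw [if_pos ⟨e2, hm2, one_ne_zero⟩]
  exact mul_le_mul (p1_anti ((div_le_one hM).2 e4)) (q_psd X a e1.ne_zero) (sq_nonneg _)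
    (Phi_pos _).le

open Classical in
/-- `q_pos`, `q_pair` for each `g` with `Y = X / N g ∈ [1, N]` (the supports: `X/2 < N(g n)`;
`4 ∣ g n - g n'` and `g` odd give `4 ∣ n - n'`), `q_sh_l2`. -/
theorem q_piece {δ ε : ℝ} (hδ : 0 < δ) (hε : 0 < ε) : ∃ C : ℝ, 0 ≤ C ∧
    ∀ (X N M V κ ξ : ℝ) (a : O → ℂ), 1 ≤ X → X ≤ N → 1 ≤ M → 0 < V → V ≤ N ^ 2 →
      N ^ (2 + δ) ≤ M * V → 0 ≤ κ → 1 / 2 ≤ ξ → q_Hyp κ ξ V N →
      (∀ n ∈ obox X, a n ≠ 0 → X / 2 < Nr n) →
      (∀ n ∈ obox X, ∀ n' ∈ obox X, a n ≠ 0 → a n' ≠ 0 → (4 : O) ∣ n - n') →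
      ∑ m ∈ (obox M).filter (fun m => V < Nr m), ‖q_row X a m‖ ^ 2 ≤
        C * N ^ ε * (1 + κ) * (M + N + Real.sqrt M * V ^ (ξ - 1 / 2)) * q_l2 X a := by
  obtain ⟨C₁, hC₁, h₁⟩ := q_pair hδ (half_pos hε)
  obtain ⟨C₂, hC₂, h₂⟩ := q_sh_l2 (half_pos hε)
  have hΦ := Phi_pos 1
  refine ⟨C₁ * C₂ / Phi 1, by positivity, ?_⟩
  intro X N M V κ ξ a hX hXN hM hV hVN hMV hκ hξ hH hs h4
  have hN : 0 < N := by linarith
  have hM0 : 0 < M := by linarith
  set B : ℝ := M + N + Real.sqrt M * V ^ (ξ - 1 / 2) with hB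
  have hB0 : 0 ≤ B := by positivity
  have hsh : ∀ g n, q_sh X a g n ≠ 0 → g * n ∈ obox X ∧ a (g * n) ≠ 0 := by
    intro g n h
    unfold q_sh at h
    split_ifs at h with h'
    · exact ⟨h', h⟩
    · exact absurd rfl h
  have key : ∀ g ∈ obox X, ‖q_form (X / Nr g) (q_sh X a g) (fun n => conj (q_sh X a g n))
      (fun q => q_G q M V)‖ ≤ C₁ * N ^ (ε / 2) * (1 + κ) * B * q_l2 (X / Nr g) (q_sh X a g) := by
    intro g hg
    obtain ⟨e1, -, e3, e4⟩ := mem_obox.1 hg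
    have hg0 := Nr_pos e1.ne_zero
    have hg1 := one_le_Nr e1.ne_zero
    refine h₁ (X / Nr g) N M V κ ξ (q_sh X a g) ((one_le_div hg0).2 e4)
      ((div_le_self (by linarith) hg1).trans hXN) hM hV hVN hMV hκ hξ hH ?_ ?_
    · intro n _ hn
      obtain ⟨f1, f2⟩ := hsh g n hn
      have := hs _ f1 f2
      rw [Nr_mul] at this
      rw [div_div, div_lt_iff₀ (by positivity)]
      nlinarith
    · intro n _ n' _ hn hn'
      obtain ⟨f1, f2⟩ := hsh g n hn
      obtain ⟨f3, f4⟩ := hsh g n' hn'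
      have := h4 _ f1 _ f3 f2 f4
      rw [← mul_sub] at this
      exact q9_four_dvd e3 this
  have h5 := (q_pos X a hM0 V).trans ((re_le_norm _).trans
    ((norm_sum_le _ _).trans (Finset.sum_le_sum key)))
  rw [← Finset.mul_sum] at h5
  have h6 : X ^ (ε / 2) ≤ N ^ (ε / 2) := Real.rpow_le_rpow (by linarith) hXN (by positivity)
  have h7 : N ^ ε = N ^ (ε / 2) * N ^ (ε / 2) := by rw [← Real.rpow_add hN, add_halves]
  have h8 := q_l2_nonneg X a
  have h9 : ∑ g ∈ obox X, q_l2 (X / Nr g) (q_sh X a g) ≤ C₂ * N ^ (ε / 2) * q_l2 X a :=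
    (h₂ X a hX).trans (by gcongr)
  have h10 := h5.trans (mul_le_mul_of_nonneg_left h9 (by positivity))
  rw [← le_div_iff₀' hΦ] at h10
  refine h10.trans (le_of_eq ?_)
  rw [h7]
  ring

end Crest.Agent.R017

end
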