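import Crest.Agent.R017.QLSAux9

/-! # Row 17, quadratic large sieve: the core estimate, conclusion -/

set_option autoImplicit false

noncomputable section

open scoped BigOperators ComplexConjugate
open Complex MeasureTheory

namespace Crest.Agent.R017

open Classical in
theorem q9b_small {N V κ ξ : ℝ} (M : ℝ) (b : O → ℂ) (hN : 1 ≤ N) (hV : 0 < V) (hκ : 0 ≤ κ)
    (hH : q_Hyp κ ξ V N) :
    ∑ m ∈ (obox M).filter (fun m => ¬ V < Nr m), ‖q_row N b m‖ ^ 2 ≤
      κ * (N + V ^ ξ) * q_l2 N b := by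
  have hsub : (obox M).filter (fun m => ¬ V < Nr m) ⊆ sqb V := by
    intro m hm
    obtain ⟨h1, h2⟩ := Finset.mem_filter.1 hm
    exact mem_sqb.2 ⟨(mem_obox.1 h1).2.1, not_lt.1 h2⟩
  by_cases h1 : 1 ≤ V
  · exact (Finset.sum_le_sum_of_subset_of_nonneg hsub (fun _ _ _ => by positivity)).trans
      (hH V N b h1 le_rfl hN le_rfl)
  · rw [sqb_eq_empty (not_le.1 h1)] at hsub
    rw [Finset.subset_empty.1 hsub, Finset.sum_empty]
    have := q_l2_nonneg N b
    have : 0 < N := by linarith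
    positivity

open Classical in
theorem q9b_large {δ ε : ℝ} (hδ : 0 < δ) (hε : 0 < ε) : ∃ C : ℝ, 0 ≤ C ∧
    ∀ (N M V κ ξ : ℝ) (b : O → ℂ), 1 ≤ N → 1 ≤ M → 0 < V → V ≤ N ^ 2 →
      N ^ (2 + δ) ≤ M * V → 0 ≤ κ → 1 / 2 ≤ ξ → q_Hyp κ ξ V N →
      ∑ m ∈ (obox M).filter (fun m => V < Nr m), ‖q_row N b m‖ ^ 2 ≤
        C * N ^ ε * (1 + κ) * (M + N + Real.sqrt M * V ^ (ξ - 1 / 2)) * q_l2 N b := by
  obtain ⟨C₁, hC₁, h₁⟩ := q_piece hδ (half_pos hε)
  obtain ⟨C₂, hC₂, h₂⟩ := q_dyadic (half_pos hε)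
  refine ⟨C₁ * C₂ * (reps 4).card, by positivity, ?_⟩
  intro N M V κ ξ b hN hM hV hVN hMV hκ hξ hH
  obtain ⟨J, ι, hJ, hι⟩ := h₂ N hN
  have hN0 : 0 < N := by linarith
  have hM0 : 0 < M := by linarith
  set B : ℝ := M + N + Real.sqrt M * V ^ (ξ - 1 / 2) with hB
  have hB0 : 0 ≤ B := by positivity
  have h4 : (4 : O) ≠ 0 := by norm_num
  set t : Finset (ℕ × O) := Finset.range J ×ˢ reps 4 with ht
  set π : O → ℕ × O := fun n => (ι (Nr n), b3_r 4 n) with hπ
  have hιn : ∀ n ∈ obox N, ι (Nr n) < J ∧ N / 2 ^ ι (Nr n) / 2 < Nr n ∧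
      Nr n ≤ N / 2 ^ ι (Nr n) := fun n hn =>
    hι _ (one_le_Nr (mem_obox.1 hn).1.ne_zero) (mem_obox.1 hn).2.2.2
  have hπt : ∀ n ∈ obox N, π n ∈ t := fun n hn =>
    Finset.mk_mem_product (Finset.mem_range.2 (hιn n hn).1) (b3_r_mem h4 n)
  have hpiece : ∀ k : ℕ × O,
      ∑ m ∈ (obox M).filter (fun m => V < Nr m),
        ‖∑ n ∈ obox N, if π n = k then b n * rho n m else 0‖ ^ 2 ≤
      C₁ * N ^ (ε / 2) * (1 + κ) * B * ∑ n ∈ obox N, if π n = k then ‖b n‖ ^ 2 else 0 := by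
    intro k
    set X : ℝ := N / 2 ^ k.1 with hX
    have hXN : X ≤ N := div_le_self hN0.le (one_le_pow₀ (by norm_num))
    have hk : ∀ n ∈ obox N, π n = k → X / 2 < Nr n ∧ Nr n ≤ X := by
      intro n hn e
      have e1 : ι (Nr n) = k.1 := congrArg Prod.fst e
      have := (hιn n hn).2
      rw [e1] at this
      exact this
    by_cases hX1 : 1 ≤ X
    · set a : O → ℂ := fun n => if π n = k then b n else 0 with ha
      have hsub : obox X ⊆ obox N := obox_mono hXN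
      have hout : ∀ n ∈ obox N, n ∉ obox X → π n ≠ k := by
        intro n hn hn' e
        obtain ⟨f1, f2, f3, -⟩ := mem_obox.1 hn
        exact hn' (mem_obox.2 ⟨f1, f2, f3, (hk n hn e).2⟩)
      have hane : ∀ n, a n ≠ 0 → π n = k := by
        intro n hn
        by_contra e
        exact hn (if_neg e)
      have e1 : ∀ m, (∑ n ∈ obox N, if π n = k then b n * rho n m else 0) = q_row X a m := by
        intro m
        unfold q_row
        rw [← Finset.sum_subset hsub (fun n hn hn' => if_neg (hout n hn hn'))]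
        refine Finset.sum_congr rfl fun n _ => ?_
        simp only [ha]
        split_ifs <;> simp
      have e2 : (∑ n ∈ obox N, if π n = k then ‖b n‖ ^ 2 else 0) = q_l2 X a := by
        unfold q_l2
        rw [← Finset.sum_subset hsub (fun n hn hn' => if_neg (hout n hn hn'))]
        refine Finset.sum_congr rfl fun n _ => ?_
        simp only [ha]
        split_ifs <;> simp
      simp only [e1, e2]
      refine h₁ X N M V κ ξ a hX1 hXN hM hV hVN hMV hκ hξ hH ?_ ?_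
      · intro n hn hn'
        exact (hk n (hsub hn) (hane n hn')).1
      · intro n _ n' _ hn hn'
        have f1 : b3_r 4 n = k.2 := congrArg Prod.snd (hane n hn)
        have f2 : b3_r 4 n' = k.2 := congrArg Prod.snd (hane n' hn')
        have f3 := (b3_r_dvd 4 n').sub (b3_r_dvd 4 n)
        rw [f1, f2] at f3
        rwa [show k.2 - n' - (k.2 - n) = n - n' by ring] at f3
    · have hout : ∀ n ∈ obox N, π n ≠ k := by
        intro n hn e
        exact hX1 ((one_le_Nr (mem_obox.1 hn).1.ne_zero).trans (hk n hn e).2)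
      have e1 : ∀ m, (∑ n ∈ obox N, if π n = k then b n * rho n m else 0) = 0 := fun m =>
        Finset.sum_eq_zero fun n hn => if_neg (hout n hn)
      have e2 : (∑ n ∈ obox N, if π n = k then ‖b n‖ ^ 2 else 0) = 0 :=
        Finset.sum_eq_zero fun n hn => if_neg (hout n hn)
      simp [e1, e2]
  have hmass : ∑ k ∈ t, (∑ n ∈ obox N, if π n = k then ‖b n‖ ^ 2 else 0) = q_l2 N b := by
    rw [Finset.sum_comm]
    refine Finset.sum_congr rfl fun n hn => ?_
    rw [Finset.sum_ite_eq, if_pos (hπt n hn)]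
  have hcard : (t.card : ℝ) ≤ C₂ * N ^ (ε / 2) * (reps 4).card := by
    rw [ht, Finset.card_product, Finset.card_range]
    push_cast
    gcongr
  have h7 : N ^ ε = N ^ (ε / 2) * N ^ (ε / 2) := by rw [← Real.rpow_add hN0, add_halves]
  have h8 := q_l2_nonneg N b
  calc ∑ m ∈ (obox M).filter (fun m => V < Nr m), ‖q_row N b m‖ ^ 2
      ≤ ∑ m ∈ (obox M).filter (fun m => V < Nr m), (t.card : ℝ) * ∑ k ∈ t,
          ‖∑ n ∈ obox N, if π n = k then b n * rho n m else 0‖ ^ 2 :=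
        Finset.sum_le_sum fun m _ => q_split (obox N) t π hπt (fun n => b n * rho n m)
    _ = (t.card : ℝ) * ∑ k ∈ t, ∑ m ∈ (obox M).filter (fun m => V < Nr m),
          ‖∑ n ∈ obox N, if π n = k then b n * rho n m else 0‖ ^ 2 := by
        rw [← Finset.mul_sum, Finset.sum_comm]
    _ ≤ (t.card : ℝ) * ∑ k ∈ t, C₁ * N ^ (ε / 2) * (1 + κ) * B *
          ∑ n ∈ obox N, if π n = k then ‖b n‖ ^ 2 else 0 :=
        mul_le_mul_of_nonneg_left (Finset.sum_le_sum fun k _ => hpiece k) (Nat.cast_nonneg _)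
    _ = (t.card : ℝ) * (C₁ * N ^ (ε / 2) * (1 + κ) * B * q_l2 N b) := by
        rw [← Finset.mul_sum, hmass]
    _ ≤ (C₂ * N ^ (ε / 2) * (reps 4).card) * (C₁ * N ^ (ε / 2) * (1 + κ) * B * q_l2 N b) :=
        mul_le_mul_of_nonneg_right hcard (by positivity)
    _ = _ := by rw [h7]; ring

/-- Rows with `N m ≤ V`: `q_Hyp` with `V' = V` (no such rows if `V < 1`).  Rows with `V < N m`:
split the columns by `q_split` with `π n = (ι (N n), b3_r 4 n) ∈ range J ×ˢ reps 4`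
(`q_dyadic`, `b3_r_mem`, `b3_r_dvd`, `card_reps`); a piece `a n = if π n = (j,c) ∧ n ∈ obox N then b n else 0`
is zero or has `X = N/2^j ∈ [1, N]`, `q_row N a = q_row X a`; apply `q_piece`; the masses of the
pieces add up to `q_l2 N b`. -/
theorem q_core {δ ε : ℝ} (hδ : 0 < δ) (hε : 0 < ε) : ∃ C : ℝ, 0 ≤ C ∧
    ∀ (N M V κ ξ : ℝ) (b : O → ℂ), 1 ≤ N → 1 ≤ M → 0 < V → V ≤ N ^ 2 →
      N ^ (2 + δ) ≤ M * V → 0 ≤ κ → 1 / 2 ≤ ξ → q_Hyp κ ξ V N →
      ∑ m ∈ obox M, ‖q_row N b m‖ ^ 2 ≤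
        C * N ^ ε * (1 + κ) * (M + N + V ^ ξ + Real.sqrt M * V ^ (ξ - 1 / 2)) * q_l2 N b := by
  classical
  obtain ⟨C, hC, h⟩ := q9b_large hδ hε
  refine ⟨C + 1, by positivity, ?_⟩
  intro N M V κ ξ b hN hM hV hVN hMV hκ hξ hH
  have h1 := h N M V κ ξ b hN hM hV hVN hMV hκ hξ hH
  have h2 := q9b_small M b hN hV hκ hH
  rw [← Finset.sum_filter_add_sum_filter_not (obox M) (fun m => V < Nr m)]
  have hN0 : 0 < N := by linarith
  have hM0 : 0 < M := by linarith
  have h3 : 1 ≤ N ^ ε := Real.one_le_rpow hN hε.le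
  have h4 := q_l2_nonneg N b
  have h5 : 0 ≤ V ^ ξ := by positivity
  have h6 : 0 ≤ Real.sqrt M * V ^ (ξ - 1 / 2) := by positivity
  have h7 : C * N ^ ε * (1 + κ) * (M + N + Real.sqrt M * V ^ (ξ - 1 / 2)) * q_l2 N b ≤
      C * N ^ ε * (1 + κ) * (M + N + V ^ ξ + Real.sqrt M * V ^ (ξ - 1 / 2)) * q_l2 N b := by
    refine mul_le_mul_of_nonneg_right (mul_le_mul_of_nonneg_left (by linarith) (by positivity)) h4
  have h8 : κ * (N + V ^ ξ) * q_l2 N b ≤
      N ^ ε * (1 + κ) * (M + N + V ^ ξ + Real.sqrt M * V ^ (ξ - 1 / 2)) * q_l2 N b := by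
    refine mul_le_mul_of_nonneg_right ?_ h4
    refine mul_le_mul ?_ (by linarith) (by positivity) (by positivity)
    nlinarith
  refine (add_le_add (h1.trans h7) (h2.trans h8)).trans (le_of_eq ?_)
  ring

end Crest.Agent.R017

end
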