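import Crest.Agent.R017.Recip2

/-! # Row 17: reciprocity laws, the key identity, `τ` and `ϑ` -/

set_option autoImplicit false

noncomputable section

open scoped BigOperators ComplexConjugate
open Complex

namespace Crest.Agent.R017

theorem r3_two {n j : O} (h : ¬ (2 : O) ∣ n * j) : ¬ (2 : O) ∣ n * j ^ 3 := fun h2 =>
  (prime_two.dvd_or_dvd h2).elim (fun h3 => h (h3.mul_right _))
    fun h3 => h ((prime_two.dvd_of_dvd_pow h3).mul_left _)

theorem r3_kap_ne {n x : O} (hn : Prim n) (h : IsCoprime n x) : kap n x ≠ 0 := fun h0 =>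
  ((kap_eq_zero hn.ne_zero).1 h0).elim hn.not_lam_dvd fun h1 => h1 h

theorem r3_split {N M n j : O} (hN : Prim N) (h : IsCoprime N M) (hs : Squarefree n)
    (he : N * M = n * j ^ 3) : ∃ n j : O, Prim n ∧ Squarefree n ∧ Prim j ∧ N = n * j ^ 3 := by
  obtain ⟨j1, j2, h1, h2, rfl⟩ := exists_dvd_and_dvd_of_dvd_mul
    (he ▸ (dvd_pow_self j three_ne_zero).mul_left n : j ∣ N * M)
  obtain ⟨u, hu, hp⟩ := exists_prim fun h3 => hN.not_lam_dvd (h3.trans h1)
  have h3 : j1 ^ 3 ∣ N := (h.of_isCoprime_of_dvd_left h1).pow_left.dvd_of_dvd_mul_right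
    ⟨n * j2 ^ 3, he.trans (by ring)⟩
  obtain ⟨c, rfl⟩ : (u * j1) ^ 3 ∣ N := by rwa [mul_pow, (hu.pow 3).mul_left_dvd]
  refine ⟨c, _, (hp.pow 3).of_mul hN, hs.squarefree_of_dvd ?_, hp, mul_comm _ _⟩
  refine ((h.of_mul_left_right.of_isCoprime_of_dvd_right h2).pow_right (n := 3)).dvd_of_dvd_mul_right
    ⟨u ^ 3 * M, mul_left_cancel₀ (pow_ne_zero 3 (right_ne_zero_of_mul hp.ne_zero)) ?_⟩
  linear_combination -he

theorem r3_dvd {n j : O} (hs : Squarefree n) (hj : Prim j) : ∀ i, j ^ 3 ∣ n * i ^ 3 → j ∣ i := by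
  refine Prim.induction (P := fun j => ∀ i, j ^ 3 ∣ n * i ^ 3 → j ∣ i) (fun i _ => one_dvd i)
    (fun p j hp _ _ ih i h => ?_) hj
  rw [mul_pow] at h
  obtain ⟨c, rfl⟩ : p ∣ i := by
    by_contra h0
    exact hp.not_isUnit (hs p (((pow_two p) ▸ pow_dvd_pow p (by norm_num : 2 ≤ 3)).trans
      ((hp.coprime_iff_not_dvd.2 h0).pow.dvd_of_dvd_mul_right (dvd_of_mul_right_dvd h))))
  rw [mul_pow, mul_left_comm, mul_dvd_mul_iff_left (pow_ne_zero 3 hp.ne_zero)] at h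
  exact mul_dvd_mul_left p (ih c h)

/-! ### the key identity -/
theorem ang_mul (x y : O) : ang (x * y) = ang x * ang y := by
  simp only [ang, map_mul, norm_mul, ofReal_mul, mul_div_mul_comm]
theorem norm_ang {x : O} (hx : x ≠ 0) : ‖ang x‖ = 1 := by
  rw [ang, norm_div, norm_real, norm_norm, div_self]
  exact norm_ne_zero_iff.2 ((map_ne_zero_iff _ emb_injective).2 hx)
theorem tau_eq {n j : O} (hn : Prim n) (hs : Squarefree n) (hj : Prim j) :
    tau (n * j ^ 3) = (‖emb j‖ : ℂ) * conj (g3 n) := by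
  classical
  have hN := hn.mul (hj.pow 3)
  rw [tau, Finset.sum_eq_single j, if_pos ⟨hj, dvd_mul_left _ _⟩,
    mul_div_cancel_right₀ _ (hj.pow 3).ne_zero, tau0, if_pos hs]
  · refine fun i _ hi => ite_eq_right_iff.2 fun ⟨h1, c, hc⟩ => ?_
    rw [hc, mul_div_cancel_left₀ _ (h1.pow 3).ne_zero, tau0, if_neg, mul_zero]
    exact fun h2 => hi (cube_unique ((h1.pow 3).of_mul (hc ▸ hN)) hn h1 hj h2 hs
      ((mul_comm _ _).trans hc.symm)).2
  · exact fun h => absurd (mem_box.2 ⟨hj.ne_zero, Nr_le_of_dvd hN.ne_zero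
      ((dvd_pow_self j three_ne_zero).mul_left n)⟩) h
theorem tau_eq_zero {N : O} (hN : Prim N)
    (h : ¬ ∃ n j : O, Prim n ∧ Squarefree n ∧ Prim j ∧ N = n * j ^ 3) : tau N = 0 := by
  classical
  refine Finset.sum_eq_zero fun i _ => ite_eq_right_iff.2 fun ⟨h1, c, hc⟩ => ?_
  rw [hc, mul_div_cancel_left₀ _ (h1.pow 3).ne_zero, tau0, if_neg, mul_zero]
  exact fun h2 => h ⟨c, i, (h1.pow 3).of_mul (hc ▸ hN), h2, h1, hc.trans (mul_comm _ _)⟩
theorem vth_eq_zero {N : O} (hN : Prim N)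
    (h : (2 : O) ∣ N ∨ ¬ ∃ n j : O, Prim n ∧ Squarefree n ∧ Prim j ∧ N = n * j ^ 3) : vth N = 0 := by
  rcases h with h | h
  · rw [vth, (kap_eq_zero hN.ne_zero).2 (Or.inr fun hc => prime_two.not_isUnit
      (hc.isUnit_of_dvd' h dvd_rfl)), map_zero, zero_mul, zero_mul, zero_mul]
  · rw [vth, tau_eq_zero hN h, mul_zero]
theorem norm_vth {n j : O} (hn : Prim n) (hs : Squarefree n) (hj : Prim j)
    (h2 : ¬ (2 : O) ∣ n * j) : ‖vth (n * j ^ 3)‖ = Real.sqrt (Nr j) := by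
  have hN := hn.mul (hj.pow 3)
  have h3 := r3_two h2
  rw [vth, tau_eq hn hs hj, ← norm_emb]
  simp only [norm_mul, RCLike.norm_conj, norm_real, norm_norm, norm_gam2 h3, norm_ang hN.ne_zero,
    norm_g3 hn.not_lam_dvd hs, one_mul, mul_one,
    norm_kap (r3_kap_ne hN (prime_two.coprime_iff_not_dvd.2 h3).symm)]
theorem norm_vth_le {N : O} (hN : Prim N) : ‖vth N‖ ≤ Nr N ^ (1 / 6 : ℝ) := by
  by_cases h : (2 : O) ∣ N ∨ ¬ ∃ n j : O, Prim n ∧ Squarefree n ∧ Prim j ∧ N = n * j ^ 3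
  · rw [vth_eq_zero hN h, norm_zero]
    exact Real.rpow_nonneg (Nr_nonneg _) _
  push Not at h
  obtain ⟨h2, n, j, hn, hs, hj, rfl⟩ := h
  rw [norm_vth hn hs hj fun h3 => h2 (h3.trans (mul_dvd_mul_left n (dvd_pow_self j three_ne_zero))),
    Real.sqrt_eq_rpow, show (1 / 2 : ℝ) = (3 : ℕ) * (1 / 6) by norm_num,
    Real.rpow_natCast_mul (Nr_nonneg j), Nr_mul, Nr_pow]
  exact Real.rpow_le_rpow (pow_nonneg (Nr_nonneg j) 3)
    (le_mul_of_one_le_left (pow_nonneg (Nr_nonneg j) 3) (one_le_Nr hn.ne_zero)) (by norm_num)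
theorem vth_mul {N M : O} (hN : Prim N) (hM : Prim M) (h : IsCoprime N M) :
    vth (N * M) = vth N * vth M * (chi N M * chi M N) := by
  by_cases h2 : (2 : O) ∣ N * M
  · rw [vth_eq_zero (hN.mul hM) (Or.inl h2)]
    rcases prime_two.dvd_or_dvd h2 with h2 | h2
    · simp [vth_eq_zero hN (Or.inl h2)]
    · simp [vth_eq_zero hM (Or.inl h2)]
  by_cases h3 : ∃ n j : O, Prim n ∧ Squarefree n ∧ Prim j ∧ N * M = n * j ^ 3
  · obtain ⟨n, j, -, hs, -, h3⟩ := h3
    obtain ⟨m, i, hm, sm, hi, rfl⟩ := r3_split hM h.symm hs ((mul_comm _ _).trans h3)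
    obtain ⟨n, j, hn, sn, hj, rfl⟩ := r3_split hN h hs h3
    have a1 : ¬ (2 : O) ∣ n * j ^ 3 := fun h => h2 (h.mul_right _)
    have a2 : ¬ (2 : O) ∣ m * i ^ 3 := fun h => h2 (h.mul_left _)
    have c1 : IsCoprime n m := h.of_mul_left_left.of_mul_right_left
    have e1 : kap (m * i ^ 3) (n * j ^ 3) = kap m n := by
      rw [kap_mul_left hm.ne_zero (hi.pow 3).ne_zero, kap_pow_left hi.ne_zero, kap_cube
        (r3_kap_ne hi ((IsCoprime.pow_left_iff three_pos).1 h.symm.of_mul_left_right)), mul_one,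
        kap_mul_right, kap_pow_right _ _ three_ne_zero, kap_cube (r3_kap_ne hm
          ((IsCoprime.pow_right_iff three_pos).1 h.symm.of_mul_left_left.of_mul_right_right)),
        mul_one]
    have e2 : tau (n * j ^ 3 * (m * i ^ 3)) = _ := (congrArg tau (by ring)).trans
      (tau_eq (hn.mul hm) (squarefree_mul_iff.2 ⟨c1.isRelPrime, sn, sm⟩) (hj.mul hi))
    have e3 := chi_sq (coprime_six_iff.2 ⟨hM.not_lam_dvd, a2⟩) (n * j ^ 3)
    have e4 := kap_cube (r3_kap_ne hm c1.symm)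
    rw [vth, vth, vth, e2, tau_eq hn sn hj, tau_eq hm sm hi, kap_mul_left hN.ne_zero hM.ne_zero,
      gam2_mul a1 a2, ang_mul, chi_recip hN hM a1 a2, mul_assoc (sig _ _), ← sq, e3, e1,
      g3_mul hn.not_lam_dvd hm.not_lam_dvd c1, cubic_recip hn hm]
    simp only [map_mul, norm_mul, ofReal_mul, conj_kap m n]
    linear_combination conj (kap (n * j ^ 3) 2) * conj (kap (m * i ^ 3) 2) * gam2 (n * j ^ 3) *
      gam2 (m * i ^ 3) * sig (n * j ^ 3) (m * i ^ 3) * ang (n * j ^ 3) * ang (m * i ^ 3) *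
      (‖emb j‖ : ℂ) * (‖emb i‖ : ℂ) * conj (g3 n) * conj (g3 m) * kap m n * e4
  · rw [vth_eq_zero (hN.mul hM) (Or.inr h3)]
    by_cases h4 : ∃ n j : O, Prim n ∧ Squarefree n ∧ Prim j ∧ N = n * j ^ 3
    · rw [vth_eq_zero hM (Or.inr ?_), mul_zero, zero_mul]
      obtain ⟨n, j, hn, sn, hj, rfl⟩ := h4
      rintro ⟨m, i, hm, sm, hi, rfl⟩
      exact h3 ⟨n * m, j * i, hn.mul hm, squarefree_mul_iff.2
        ⟨h.of_mul_left_left.of_mul_right_left.isRelPrime, sn, sm⟩, hj.mul hi, by ring⟩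
    · rw [vth_eq_zero hN (Or.inr h4), zero_mul, zero_mul]
theorem vth_cube {N j : O} (hN : Prim N) (hj : Prim j) (h2 : ¬ (2 : O) ∣ N * j) :
    vth (N * j ^ 3) = vth N * vth (j ^ 3) * sig N j := by
  by_cases h4 : ∃ n i : O, Prim n ∧ Squarefree n ∧ Prim i ∧ N = n * i ^ 3
  · obtain ⟨n, i, hn, sn, hi, rfl⟩ := h4
    have a1 : ¬ (2 : O) ∣ n * i ^ 3 := fun h => h2 (h.mul_right _)
    have a2 : ¬ (2 : O) ∣ j := fun h => h2 (h.mul_left _)
    have a3 : ∀ k, ¬ (2 : O) ∣ j ^ k := fun k h => a2 (prime_two.dvd_of_dvd_pow h)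
    have e1 : tau (j ^ 3) = _ :=
      (congrArg tau (one_mul _).symm).trans (tau_eq prim_one squarefree_one hj)
    have e2 : tau (n * i ^ 3 * j ^ 3) = _ :=
      (congrArg tau (by ring)).trans (tau_eq hn sn (hi.mul hj))
    have e3 : sig (n * i ^ 3) (j ^ 3) = sig (n * i ^ 3) j := by
      rw [sig_comm, pow_succ j 2, sig_mul_left (a3 2) a2 a1, sig_sq a2 a1, one_mul, sig_comm]
    rw [vth, vth, vth, e1, e2, tau_eq hn sn hi, kap_mul_left hN.ne_zero (hj.pow 3).ne_zero,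
      gam2_mul a1 (a3 3), ang_mul, e3, g3_one]
    simp only [map_mul, norm_mul, ofReal_mul, map_one]
    ring
  · rw [vth_eq_zero hN (Or.inr h4), zero_mul, zero_mul, vth_eq_zero (hN.mul (hj.pow 3)) (Or.inr ?_)]
    rintro ⟨n, i, hn, sn, hi, h⟩
    obtain ⟨c, rfl⟩ := r3_dvd sn hj i (h ▸ dvd_mul_left _ _)
    exact h4 ⟨n, c, hn, sn, hj.of_mul hi, mul_right_cancel₀ (hj.pow 3).ne_zero (h.trans (by ring))⟩
theorem key_identity {n : O} (hn : Prim n) (h6 : IsCoprime n 6) (hs : Squarefree n) :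
    vth n = mu n * g6 n := by
  refine Prim.sqf_induction (P := fun n => IsCoprime n 6 → vth n = mu n * g6 n) (fun _ => ?_)
    (fun p n hp h1 hn hs hpn ih h6 => ?_) hn hs h6
  · have := tau_eq prim_one squarefree_one prim_one
    rw [one_pow, one_mul] at this
    simp [vth, this, kap_unit_left isUnit_one, gam2_one, ang, g3_one, mu_one, g6_one]
  · have hc := hp.coprime_iff_not_dvd.2 hpn
    have hp6 := h6.of_mul_left_left
    have e1 := tau_eq h1 hp.squarefree prim_one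
    rw [one_pow, mul_one] at e1
    have e2 : g3 p * conj (g3 p) = 1 := by
      rw [mul_conj', norm_g3 h1.not_lam_dvd hp.squarefree]
      simp
    have e3 : vth p = -g6 p := by
      rw [vth, e1, ← g2_eq (coprime_six_iff.1 hp6).2 hp.squarefree, map_one, norm_one, ofReal_one]
      linear_combination g3 p * g6_prime hp hp6 + conj (kap p 2) * g2 p * conj (g3 p) *
        g3_cube hp h1 - (g6 p + conj (kap p 2) * g2 p * g3 p ^ 2) * e2
    rw [vth_mul h1 hn hc, ih h6.of_mul_left_right, mu_mul hc, g6_mul hp6 h6.of_mul_left_right hc,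
      mu_prime hp, e3]
    ring

end Crest.Agent.R017

end
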