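import Crest.Agent.R017.Recip2Aux

/-! # Row 17: reciprocity laws, the key identity, `τ` and `ϑ` -/

set_option autoImplicit false

noncomputable section

open scoped BigOperators ComplexConjugate
open Complex

namespace Crest.Agent.R017

/-! ### quadratic reciprocity -/
theorem gam2_per {x y : O} (h : (4 : O) ∣ x - y) : gam2 x = gam2 y := by
  have e : ∀ c : O, eO (-(x * c)) 4 = eO (-(y * c)) 4 := fun c => eO_congr (by
    have : -(x * c) - -(y * c) = (x - y) * (-c) := by ring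
    rw [this]
    exact h.mul_right _)
  have e1 := e 1
  rw [mul_one, mul_one] at e1
  rw [gam2, gam2, e1, e, e]
theorem norm_gam2 {x : O} (hx : ¬ (2 : O) ∣ x) : ‖gam2 x‖ = 1 := by
  rw [r2_gam2_odd hx, r2_norm_ch]
theorem norm_gam2_le (x : O) : ‖gam2 x‖ ≤ 2 := by
  rw [gam2, norm_div]
  have h1 : ‖1 + eO (-x) 4 + eO (-(x * om)) 4 + eO (-(x * om ^ 2)) 4‖ ≤ 1 + 1 + 1 + 1 := by
    refine (norm_add_le _ _).trans (add_le_add ((norm_add_le _ _).trans (add_le_add
      ((norm_add_le _ _).trans (add_le_add ?_ ?_)) ?_)) ?_) <;> simp [norm_eO]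
  have h2 : ‖(2 : ℂ)‖ = 2 := by simp
  rw [h2]
  linarith
theorem gam2_one : gam2 1 = 1 := by
  rw [r2_gam2_odd (r2_odd_unit isUnit_one)]
  have : r2_g ((1 : O).re : ℤ) ((1 : O).im : ℤ) = 0 := by decide
  rw [this, r2_ch_zero]
theorem gam2_mul {x y : O} (hx : ¬ (2 : O) ∣ x) (hy : ¬ (2 : O) ∣ y) :
    gam2 (x * y) = gam2 x * gam2 y * sig x y := by
  have h1 : gam2 x * conj (gam2 x) = 1 := by rw [r2_gam2_odd hx, r2_ch_mul_conj]
  have h2 : gam2 y * conj (gam2 y) = 1 := by rw [r2_gam2_odd hy, r2_ch_mul_conj]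
  rw [sig]
  linear_combination (-gam2 (x * y)) * h1 - gam2 (x * y) * (gam2 x * conj (gam2 x)) * h2
theorem sig_comm (x y : O) : sig x y = sig y x := by
  rw [sig, sig, mul_comm x y]
  ring
theorem sig_cases {x y : O} (hx : ¬ (2 : O) ∣ x) (hy : ¬ (2 : O) ∣ y) : sig x y = 1 ∨ sig x y = -1 := by
  rw [r2_sig hx hy]
  rcases r2_s_cases _ _ _ _ (r2_odd_of hx) (r2_odd_of hy) with h | h
  · rw [h, r2_ch_zero]; exact Or.inl rfl
  · rw [h, r2_ch_two]; exact Or.inr rfl
theorem sig_mul_left {x x' y : O} (hx : ¬ (2 : O) ∣ x) (hx' : ¬ (2 : O) ∣ x') (hy : ¬ (2 : O) ∣ y) :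
    sig (x * x') y = sig x y * sig x' y := by
  rw [r2_sig (r2_odd_mul hx hx') hy, r2_sig hx hy, r2_sig hx' hy, r2_re_mul, r2_im_mul,
    r2_s_mul _ _ _ _ _ _ (r2_odd_of hx) (r2_odd_of hx') (r2_odd_of hy), r2_ch_add]
theorem sig_per {x x' y y' : O} (hx : (4 : O) ∣ x - x') (hy : (4 : O) ∣ y - y') :
    sig x y = sig x' y' := by
  have h : (4 : O) ∣ x * y - x' * y' := by
    have : x * y - x' * y' = (x - x') * y + x' * (y - y') := by ring
    rw [this]
    exact dvd_add (hx.mul_right _) (hy.mul_left _)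
  rw [sig, sig, gam2_per h, gam2_per hx, gam2_per hy]
theorem sig_one {y : O} (hy : ¬ (2 : O) ∣ y) : sig 1 y = 1 := by
  rw [sig, one_mul, gam2_one, map_one, mul_one, r2_gam2_odd hy, r2_ch_mul_conj]
theorem sig_sq {x y : O} (hx : ¬ (2 : O) ∣ x) (hy : ¬ (2 : O) ∣ y) : sig (x ^ 2) y = 1 := by
  rw [sq, sig_mul_left hx hx hy]
  rcases sig_cases hx hy with h | h <;> rw [h] <;> norm_num
theorem g2_eq {n : O} (hn : ¬ (2 : O) ∣ n) (hs : Squarefree n) : g2 n = gam2 n := by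
  have h := r2_quad n hs hn 1 isCoprime_one_left
  simp only [one_mul] at h
  have h0 : (Real.sqrt (Nr n) : ℂ) ≠ 0 := by
    have := Real.sqrt_pos.2 (Nr_pos (r2_odd_ne hn))
    exact_mod_cast this.ne'
  rw [g2, ← h, quad_gauss hn, mul_div_cancel_left₀ _ h0]
theorem r2_recip_sqf {x y : O} (hx : ¬ (2 : O) ∣ x) (hy : ¬ (2 : O) ∣ y) (sx : Squarefree x)
    (sy : Squarefree y) : rho x y = sig x y * rho y x := by
  by_cases hc : IsCoprime x y
  · have h1 := g2_mul hx hy hc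
    rw [g2_eq hx sx, g2_eq hy sy, g2_eq (r2_odd_mul hx hy) (squarefree_mul_iff.2 ⟨hc.isRelPrime, sx, sy⟩),
      gam2_mul hx hy] at h1
    have hx0 : gam2 x ≠ 0 := by rw [← norm_ne_zero_iff, norm_gam2 hx]; exact one_ne_zero
    have hy0 : gam2 y ≠ 0 := by rw [← norm_ne_zero_iff, norm_gam2 hy]; exact one_ne_zero
    have h2 := mul_left_cancel₀ (mul_ne_zero hx0 hy0) h1
    have h3 : rho y x ^ 2 = 1 := rho_sq fun h0 =>
      ((rho_eq_zero (r2_odd_ne hy)).1 h0).elim hy fun h' => h' hc.symm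
    rw [h2]
    linear_combination (-rho x y) * h3
  · rw [(rho_eq_zero (r2_odd_ne hx)).2 (Or.inr hc),
      (rho_eq_zero (r2_odd_ne hy)).2 (Or.inr fun h => hc h.symm), mul_zero]
theorem r2_recip_left (x : O) {y : O} (hx : ¬ (2 : O) ∣ x) (hy : ¬ (2 : O) ∣ y) (hy' : IsUnit y ∨ Prime y) :
    rho x y = sig x y * rho y x := by
  have sy : Squarefree y := hy'.elim IsUnit.squarefree Prime.squarefree
  induction x using UniqueFactorizationMonoid.induction_on_prime with
  | h₁ => exact absurd (dvd_zero _) hx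
  | h₂ u hu => exact r2_recip_sqf hx hy hu.squarefree sy
  | h₃ a p ha hp ih =>
    have h2p : ¬ (2 : O) ∣ p := fun hd => hx (hd.mul_right _)
    have h2a : ¬ (2 : O) ∣ a := fun hd => hx (hd.mul_left _)
    rw [rho_mul_right, rho_mul_left hp.ne_zero ha, sig_mul_left h2p h2a hy, ih h2a,
      r2_recip_sqf h2p hy hp.squarefree sy]
    ring
theorem quad_recip {x y : O} (hx : ¬ (2 : O) ∣ x) (hy : ¬ (2 : O) ∣ y) :
    rho x y = sig x y * rho y x := by
  induction y using UniqueFactorizationMonoid.induction_on_prime with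
  | h₁ => exact absurd (dvd_zero _) hy
  | h₂ u hu => exact r2_recip_left x hx hy (Or.inl hu)
  | h₃ a p ha hp ih =>
    have h2p : ¬ (2 : O) ∣ p := fun hd => hy (hd.mul_right _)
    have h2a : ¬ (2 : O) ∣ a := fun hd => hy (hd.mul_left _)
    rw [rho_mul_right, rho_mul_left hp.ne_zero ha, sig_comm, sig_mul_left h2p h2a hx, ih h2a,
      r2_recip_left x hx h2p (Or.inr hp), sig_comm p x, sig_comm a x]
    ring
theorem r2_two_step {u : O} (hu : ∀ M : O, ¬ (2 : O) ∣ M → rho M u = 1) {N : O} (hN : ¬ (2 : O) ∣ N) :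
    rho N 2 = (sig N (N + 2 * u) * sig (N + 2 * u) (-1)) * rho (N + 2 * u) 2 := by
  have hM : ¬ (2 : O) ∣ N + 2 * u := fun h => hN ((dvd_add_left (dvd_mul_right 2 u)).1 h)
  have h1 : rho N 2 = rho N (N + 2 * u) := by
    rw [rho_congr' (x := N + 2 * u) (y := 2 * u) (r2_odd_ne hN) (by simp), rho_mul_right, hu N hN, mul_one]
  have h2 : rho (N + 2 * u) N = rho (N + 2 * u) (-1) * rho (N + 2 * u) 2 := by
    rw [rho_congr' (x := N) (y := -1 * 2 * u) (r2_odd_ne hM) ⟨1, by ring⟩, rho_mul_right, rho_mul_right,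
      hu _ hM, mul_one]
  have hneg : IsUnit (-1 : O) := isUnit_one.neg
  rw [h1, quad_recip hN hM, h2, quad_recip hM (r2_odd_unit hneg), rho_unit_left hneg]
  ring
theorem r2_two_eight {u : O} (hu : ∀ M : O, ¬ (2 : O) ∣ M → rho M u = 1) {N : O} (hN : ¬ (2 : O) ∣ N) :
    rho N 2 = rho (N + 8 * u) 2 := by
  let s : O → ℂ := fun M => sig M (M + 2 * u) * sig (M + 2 * u) (-1)
  have hodd : ∀ M : O, ¬ (2 : O) ∣ M → ¬ (2 : O) ∣ M + 2 * u :=
    fun M hM h => hM ((dvd_add_left (dvd_mul_right 2 u)).1 h)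
  have hneg : ¬ (2 : O) ∣ -1 := r2_odd_unit isUnit_one.neg
  have hs : ∀ M : O, ¬ (2 : O) ∣ M → s M ^ 2 = 1 := by
    intro M hM
    rcases sig_cases hM (hodd M hM) with h | h <;> rcases sig_cases (hodd M hM) hneg with h' | h' <;>
      simp only [s, h, h'] <;> norm_num
  have hper : ∀ M : O, s (M + 2 * u + 2 * u) = s M := by
    intro M
    simp only [s]
    rw [sig_per (x := M + 2 * u + 2 * u) (x' := M) (y := M + 2 * u + 2 * u + 2 * u) (y' := M + 2 * u)
      ⟨u, by ring⟩ ⟨u, by ring⟩,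
      sig_per (x := M + 2 * u + 2 * u + 2 * u) (x' := M + 2 * u) (y := -1) (y' := -1) ⟨u, by ring⟩ (by simp)]
  have o1 := hodd _ hN
  have o2 := hodd _ o1
  have o3 := hodd _ o2
  have e0 : rho N 2 = s N * rho (N + 2 * u) 2 := r2_two_step hu hN
  have e1 : rho (N + 2 * u) 2 = s (N + 2 * u) * rho (N + 2 * u + 2 * u) 2 := r2_two_step hu o1
  have e2 : rho (N + 2 * u + 2 * u) 2 = s (N + 2 * u + 2 * u) * rho (N + 2 * u + 2 * u + 2 * u) 2 :=
    r2_two_step hu o2
  have e3 : rho (N + 2 * u + 2 * u + 2 * u) 2 =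
      s (N + 2 * u + 2 * u + 2 * u) * rho (N + 2 * u + 2 * u + 2 * u + 2 * u) 2 := r2_two_step hu o3
  rw [hper] at e2 e3
  have e4 : N + 2 * u + 2 * u + 2 * u + 2 * u = N + 8 * u := by ring
  rw [e4] at e3
  rw [e0, e1, e2, e3]
  linear_combination (s (N + 2 * u) ^ 2 * rho (N + 8 * u) 2) * hs N hN + rho (N + 8 * u) 2 * hs _ o1
theorem rho_two_per {n n' : O} (hn : ¬ (2 : O) ∣ n) (h : (8 : O) ∣ n - n') : rho n 2 = rho n' 2 := by
  classical
  let F : O → ℂ := fun N => if (2 : O) ∣ N then 0 else rho N 2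
  have hF : ∀ u : O, IsUnit u → (∀ M : O, ¬ (2 : O) ∣ M → rho M u = 1) → Function.Periodic F (8 * u) := by
    intro u hu hu' N
    have hiff : (2 : O) ∣ N + 8 * u ↔ (2 : O) ∣ N := dvd_add_left ⟨4 * u, by ring⟩
    simp only [F, hiff]
    split_ifs with h2
    · rfl
    · exact (r2_two_eight hu' h2).symm
  have h1 := hF 1 isUnit_one fun M hM => rho_one_right hM
  have h2 := hF om (isUnit_iff.2 (by simp)) fun M hM => rho_om hM
  obtain ⟨c, hc⟩ := h
  have hn' : ¬ (2 : O) ∣ n' := by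
    intro hd
    apply hn
    have : n = n' + 8 * c := by rw [← hc]; ring
    rw [this]
    exact dvd_add hd ⟨4 * c, by ring⟩
  have hc' : c = (c.re : O) + (c.im : O) * om := by
    ext <;> simp [om]
  have e : n = n' + (c.re : O) * (8 * 1) + (c.im : O) * (8 * om) := by
    have : n = n' + 8 * c := by rw [← hc]; ring
    rw [this]
    conv_lhs => rw [hc']
    ring
  have e2 : F n = F n' := by
    rw [e, h2.int_mul, h1.int_mul]
  simpa only [F, if_neg hn, if_neg hn'] using e2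
theorem rho_per {r n n' : O} (hr : r ≠ 0) (hn : n ≠ 0) (hn' : n' ≠ 0) (h : 8 * rad r ∣ n - n') :
    rho n r = rho n' r := by
  have h8 : (8 : O) ∣ n - n' := (dvd_mul_right _ _).trans h
  have h4 : (4 : O) ∣ n - n' := (show (4 : O) ∣ 8 from ⟨2, by norm_num⟩).trans h8
  have h2 : (2 : O) ∣ n - n' := (show (2 : O) ∣ 8 from ⟨4, by norm_num⟩).trans h8
  have hrad : rad r ∣ n - n' := (dvd_mul_left _ _).trans h
  by_cases he : (2 : O) ∣ n
  · have he' : (2 : O) ∣ n' := by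
      have := dvd_sub he h2
      rwa [sub_sub_cancel] at this
    rw [(rho_eq_zero hn).2 (Or.inl he), (rho_eq_zero hn').2 (Or.inl he')]
  have he' : ¬ (2 : O) ∣ n' := by
    intro hd
    have := dvd_add h2 hd
    rw [sub_add_cancel] at this
    exact he this
  obtain ⟨k, a, ha, rfl⟩ := WfDvdMonoid.max_power_factor' hr prime_two.not_isUnit
  have e1 : rho n (2 ^ k) = rho n' (2 ^ k) := by
    rcases Nat.eq_zero_or_pos k with rfl | hk
    · rw [pow_zero, rho_one_right he, rho_one_right he']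
    · rw [rho_pow_right _ _ hk.ne', rho_pow_right _ _ hk.ne', rho_two_per he h8]
  have e2 : rho n a = rho n' a := by
    rw [quad_recip he ha, quad_recip he' ha, sig_per h4 (show (4 : O) ∣ a - a by simp),
      rho_congr (r2_odd_ne ha) ((rad_dvd_rad hr (dvd_mul_left _ _)).trans hrad)]
  rw [rho_mul_right, rho_mul_right, e1, e2]

/-! ### sextic reciprocity -/
theorem chi_recip {m n : O} (hm : Prim m) (hn : Prim n) (hm2 : ¬ (2 : O) ∣ m) (hn2 : ¬ (2 : O) ∣ n) :
    chi m n = sig m n * chi n m := by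
  rw [chi, chi, quad_recip hm2 hn2, cubic_recip hm hn]
  ring
theorem chi_per {r n n' : O} (hr : r ≠ 0) (hn : n ≠ 0) (hn' : n' ≠ 0) (h : 72 * rad r ∣ n - n') :
    chi n r = chi n' r := by
  have h8 : 8 * rad r ∣ n - n' := (show 8 * rad r ∣ 72 * rad r from ⟨9, by ring⟩).trans h
  have h9 : 9 * rad r ∣ n - n' := (show 9 * rad r ∣ 72 * rad r from ⟨8, by ring⟩).trans h
  rw [chi, chi, rho_per hr hn hn' h8, kap_per hr hn hn' h9]

end Crest.Agent.R017

end
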