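import Crest.Agent.R017.Recip1

/-! # Row 17: the finite computations modulo `4` and quadratic sums -/

set_option autoImplicit false

noncomputable section

open scoped BigOperators ComplexConjugate
open Complex

namespace Crest.Agent.R017

/-- `i ^ k` as a Gaussian integer. -/
def r2_z (k : ZMod 4) : GaussianInt := (![⟨1, 0⟩, ⟨0, 1⟩, ⟨-1, 0⟩, ⟨0, -1⟩] : Fin 4 → GaussianInt) k

/-- `i ^ k`. -/
def r2_ch (k : ZMod 4) : ℂ := GaussianInt.toComplex (r2_z k)

/-- The exponent of `gam2` on the odd classes modulo `4`. -/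
def r2_g (a b : ZMod 4) : ZMod 4 :=
  (![![0, 0, 0, 0], ![0, 0, 1, 1], ![0, 3, 0, 1], ![0, 3, 3, 0]] : Fin 4 → Fin 4 → ZMod 4) a b

/-- Odd classes. -/
def r2_odd (a b : ZMod 4) : Prop := ¬ (2 * a = 0 ∧ 2 * b = 0)

instance (a b : ZMod 4) : Decidable (r2_odd a b) := by unfold r2_odd; infer_instance

/-- The exponent of `sig`. -/
def r2_s (a b c d : ZMod 4) : ZMod 4 := r2_g (a * c - b * d) (a * d + b * c - b * d) - r2_g a b - r2_g c d

theorem r2_z_add : ∀ j k : ZMod 4, r2_z (j + k) = r2_z j * r2_z k := by decide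
theorem r2_z_neg : ∀ k : ZMod 4, r2_z (-k) = star (r2_z k) := by decide
theorem r2_z_g : ∀ a b : ZMod 4, r2_odd a b →
    1 + r2_z (-b) + r2_z (-(a - b)) + r2_z a = 2 * r2_z (r2_g a b) := by decide
theorem r2_s_cases : ∀ a b c d : ZMod 4, r2_odd a b → r2_odd c d → r2_s a b c d = 0 ∨ r2_s a b c d = 2 := by
  decide +kernel
theorem r2_s_mul : ∀ a b a' b' c d : ZMod 4, r2_odd a b → r2_odd a' b' → r2_odd c d →
    r2_s (a * a' - b * b') (a * b' + b * a' - b * b') c d = r2_s a b c d + r2_s a' b' c d := by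
  decide +kernel

theorem r2_ch_add (j k : ZMod 4) : r2_ch (j + k) = r2_ch j * r2_ch k := by
  rw [r2_ch, r2_z_add, map_mul]; rfl
theorem r2_ch_neg (k : ZMod 4) : r2_ch (-k) = conj (r2_ch k) := by
  rw [r2_ch, r2_z_neg, GaussianInt.toComplex_star]; rfl
theorem r2_ch_zero : r2_ch 0 = 1 := by
  have : r2_z 0 = 1 := by decide
  rw [r2_ch, this, map_one]
theorem r2_ch_one : r2_ch 1 = I := by
  have : r2_z 1 = ⟨0, 1⟩ := by decide
  rw [r2_ch, this, GaussianInt.toComplex_def']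
  simp
theorem r2_ch_two : r2_ch 2 = -1 := by
  have : r2_z 2 = -1 := by decide
  rw [r2_ch, this, map_neg, map_one]
theorem r2_ch_mul_conj (k : ZMod 4) : r2_ch k * conj (r2_ch k) = 1 := by
  rw [← r2_ch_neg, ← r2_ch_add, add_neg_cancel, r2_ch_zero]
theorem r2_norm_ch (k : ZMod 4) : ‖r2_ch k‖ = 1 := by
  have h := r2_ch_mul_conj k
  rw [Complex.mul_conj, Complex.normSq_eq_norm_sq] at h
  have h2 : ‖r2_ch k‖ ^ 2 = 1 := by exact_mod_cast h
  exact (pow_eq_one_iff_of_nonneg (norm_nonneg _) two_ne_zero).1 h2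

theorem r2_exp (m : ℤ) : Complex.exp (m * (Real.pi / 2 * I)) = r2_ch m := by
  have h1 : Complex.exp (Real.pi / 2 * I) = I := Complex.exp_pi_div_two_mul_I
  induction m using Int.induction_on with
  | zero => simp [r2_ch_zero]
  | succ m ih =>
    push_cast at ih ⊢
    rw [add_mul, Complex.exp_add, ih, one_mul, h1, r2_ch_add, r2_ch_one]
  | pred m ih =>
    push_cast at ih ⊢
    have h2 : r2_ch (-(m : ZMod 4)) = r2_ch (-(m : ZMod 4) - 1) * I := by
      rw [← r2_ch_one, ← r2_ch_add, sub_add_cancel]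
    have h3 : Complex.exp (-(m : ℂ) * (Real.pi / 2 * I)) =
        Complex.exp ((-(m : ℂ) - 1) * (Real.pi / 2 * I)) * I := by
      conv_rhs => rw [← h1]
      rw [h1]
      nth_rewrite 3 [← h1]
      rw [← Complex.exp_add]
      congr 1
      ring
    rw [h2, h3] at ih
    exact mul_right_cancel₀ I_ne_zero ih

theorem r2_eO_four (x : O) : eO x 4 = r2_ch x.im := by
  rw [← r2_exp, eO, ec, map_ofNat]
  congr 1
  have h3 : Real.sqrt 3 ≠ 0 := by positivity
  have h1 : (emb x / 4).im = x.im * (Real.sqrt 3 / 2) / 4 := by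
    have : emb x = (x.re : ℂ) + (x.im : ℂ) * omC := rfl
    rw [this]
    simp [omC]
  have h2 : 2 / Real.sqrt 3 * (emb x / 4).im = x.im / 4 := by
    rw [h1]
    field_simp
  rw [h2]
  push_cast
  ring

theorem r2_gam2 (n : O) : gam2 n = (1 + r2_ch (-(n.im : ZMod 4)) + r2_ch (-((n.re : ZMod 4) - n.im)) +
    r2_ch (n.re : ZMod 4)) / 2 := by
  have e1 : (-(n * om)).im = -(n.re - n.im) := by simp [om]; ring
  have e2 : (-(n * om ^ 2)).im = n.re := by simp [om, sq]
  rw [gam2, r2_eO_four, r2_eO_four, r2_eO_four, e1, e2]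
  simp

theorem r2_dvd_iff (k : ℤ) (x : O) : (k : O) ∣ x ↔ k ∣ x.re ∧ k ∣ x.im := by
  constructor
  · rintro ⟨y, rfl⟩
    simp
  · rintro ⟨⟨a, ha⟩, ⟨b, hb⟩⟩
    refine ⟨⟨a, b⟩, ?_⟩
    ext <;> simp [ha, hb]

theorem r2_odd_of {x : O} (hx : ¬ (2 : O) ∣ x) : r2_odd x.re x.im := by
  intro h
  apply hx
  have h1 : ((2 * x.re : ℤ) : ZMod 4) = 0 := by push_cast; exact h.1
  have h2 : ((2 * x.im : ℤ) : ZMod 4) = 0 := by push_cast; exact h.2
  rw [ZMod.intCast_zmod_eq_zero_iff_dvd] at h1 h2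
  have := (r2_dvd_iff 2 x).2 ⟨by omega, by omega⟩
  simpa using this

theorem r2_gam2_odd {x : O} (hx : ¬ (2 : O) ∣ x) : gam2 x = r2_ch (r2_g x.re x.im) := by
  have h := congrArg GaussianInt.toComplex (r2_z_g _ _ (r2_odd_of hx))
  simp only [map_add, map_mul, map_one, map_ofNat] at h
  rw [r2_gam2]
  unfold r2_ch
  rw [h]
  ring

theorem r2_odd_mul {x y : O} (hx : ¬ (2 : O) ∣ x) (hy : ¬ (2 : O) ∣ y) : ¬ (2 : O) ∣ x * y :=
  fun h => (prime_two.dvd_or_dvd h).elim hx hy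

theorem r2_re_mul (x y : O) : (((x * y).re : ℤ) : ZMod 4) = x.re * y.re - x.im * y.im := by
  simp; ring
theorem r2_im_mul (x y : O) : (((x * y).im : ℤ) : ZMod 4) = x.re * y.im + x.im * y.re - x.im * y.im := by
  simp; ring

theorem r2_sig {x y : O} (hx : ¬ (2 : O) ∣ x) (hy : ¬ (2 : O) ∣ y) :
    sig x y = r2_ch (r2_s x.re x.im y.re y.im) := by
  rw [sig, r2_gam2_odd hx, r2_gam2_odd hy, r2_gam2_odd (r2_odd_mul hx hy), r2_re_mul, r2_im_mul, ← r2_ch_neg,
    ← r2_ch_neg, ← r2_ch_add, ← r2_ch_add, r2_s, sub_eq_add_neg (_ - _) (r2_g _ _), sub_eq_add_neg _ (r2_g _ _)]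

theorem r2_odd_unit {u : O} (hu : IsUnit u) : ¬ (2 : O) ∣ u :=
  fun h => prime_two.not_isUnit (isUnit_of_dvd_unit h hu)

theorem r2_odd_ne {x : O} (hx : ¬ (2 : O) ∣ x) : x ≠ 0 := by
  rintro rfl
  exact hx (dvd_zero _)

/-- Quadratic sums modulo an odd prime. -/
theorem r2_quad_prime {p h : O} (hp : Prime p) (h2 : ¬ (2 : O) ∣ p) (hh : ¬ p ∣ h) :
    ∑ x ∈ reps p, eO (h * x ^ 2) p = gs (rho p) p h := by
  classical
  have hp0 := hp.ne_zero
  have h1 : ∀ x : O, eO (h * x ^ 2) p = ∑ y ∈ reps p, if p ∣ x ^ 2 - y then eO (h * y) p else 0 := by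
    intro x
    obtain ⟨y, ⟨hy, hy'⟩, huniq⟩ := reps_existsUnique hp0 (x ^ 2)
    rw [Finset.sum_eq_single y]
    · rw [if_pos (dvd_sub_comm.1 hy')]
      refine eO_congr ?_
      rw [← mul_sub]
      exact (dvd_sub_comm.1 hy').mul_left _
    · intro z hz hzy
      rw [if_neg]
      intro hd
      exact hzy (huniq z ⟨hz, dvd_sub_comm.1 hd⟩)
    · intro hn
      exact absurd hy hn
  calc ∑ x ∈ reps p, eO (h * x ^ 2) p
      = ∑ x ∈ reps p, ∑ y ∈ reps p, if p ∣ x ^ 2 - y then eO (h * y) p else 0 :=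
        Finset.sum_congr rfl fun x _ => h1 x
    _ = ∑ y ∈ reps p, (1 + rho p y) * eO (h * y) p := by
        rw [Finset.sum_comm]
        refine Finset.sum_congr rfl fun y _ => ?_
        rw [← Finset.sum_filter, Finset.sum_const, nsmul_eq_mul, ← card_sqrt_prime hp h2 y]
    _ = _ := by
        simp only [add_mul, one_mul, Finset.sum_add_distrib]
        rw [sum_reps_eO hp0, if_neg hh, zero_add, gs]

/-- Quadratic sums modulo an odd squarefree element. -/
theorem r2_quad (n : O) : Squarefree n → ¬ (2 : O) ∣ n → ∀ h : O, IsCoprime h n →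
    ∑ x ∈ reps n, eO (h * x ^ 2) n = gs (rho n) n h := by
  induction n using UniqueFactorizationMonoid.induction_on_prime with
  | h₁ => intro _ h; exact absurd (dvd_zero _) h
  | h₂ u hu =>
    intro _ _ h _
    refine Finset.sum_congr rfl fun x _ => ?_
    rw [rho_unit_left hu, eO_of_dvd hu.dvd, eO_of_dvd hu.dvd, one_mul]
  | h₃ a p ha hp ih =>
    intro hs h2 h hh
    obtain ⟨hrel, -, hsa⟩ := squarefree_mul_iff.1 hs
    have hc : IsCoprime p a := hrel.isCoprime
    have h2p : ¬ (2 : O) ∣ p := fun hd => h2 (hd.mul_right _)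
    have h2a : ¬ (2 : O) ∣ a := fun hd => h2 (hd.mul_left _)
    have hp0 := hp.ne_zero
    have hhp : IsCoprime h p := hh.of_mul_right_left
    have hha : IsCoprime h a := hh.of_mul_right_right
    rw [sum_reps_crt hp0 ha hc (fun x => eO (h * x ^ 2) (p * a)) (fun x y hxy => eO_congr (by
      have : h * x ^ 2 - h * y ^ 2 = (x - y) * (h * (x + y)) := by ring
      rw [this]
      exact hxy.mul_right _))]
    have e1 : ∀ x y : O, eO (h * (x * a + y * p) ^ 2) (p * a) = eO (a * h * x ^ 2) p * eO (p * h * y ^ 2) a := by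
      intro x y
      rw [← eO_mul_cancel ha (a * h * x ^ 2) p, ← eO_mul_cancel hp0 (p * h * y ^ 2) a, mul_comm a p, ← eO_add]
      refine eO_congr ⟨2 * h * x * y, by ring⟩
    simp only [e1]
    rw [← Finset.sum_mul_sum, ih hsa h2a _ (hc.mul_left hha), r2_quad_prime hp h2p
      ((hp.irreducible.coprime_iff_not_dvd).1 (hc.symm.mul_left hhp).symm),
      (homog_rho h2p).gs_mul hp0 hc.symm, (homog_rho h2a).gs_mul ha hc, conj_rho, conj_rho]
    have e2 : rho (p * a) = fun x => rho p x * rho a x := funext fun x => rho_mul_left hp0 ha x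
    rw [e2, gs_mul_coprime hp0 ha hc (homog_rho h2p) (homog_rho h2a)]
    ring

end Crest.Agent.R017

end
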