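import Crest.Agent.R017.Reflect1Aux2

/-! # Row 17: the reflected integral representation -/

set_option autoImplicit false

noncomputable section

open scoped BigOperators ComplexConjugate
open Complex MeasureTheory Filter Topology Set

namespace Crest.Agent.R017

theorem rf_one_add_le {C : ℝ} (hC : 0 ≤ C) {t y z : ℝ} (hz : |z| ≤ |t| + |y|) :
    (1 + |z|) ^ C ≤ (1 + |t|) ^ C * Real.exp (C * |y|) := by
  have h1 : 1 + |z| ≤ (1 + |t|) * Real.exp |y| := by
    have := Real.add_one_le_exp |y|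
    nlinarith [abs_nonneg t, abs_nonneg y]
  calc (1 + |z|) ^ C ≤ ((1 + |t|) * Real.exp |y|) ^ C := Real.rpow_le_rpow (by positivity) h1 hC
    _ = _ := by
      rw [Real.mul_rpow (by positivity) (by positivity), ← Real.exp_mul, mul_comm |y|]

theorem rf_exp_cpow (v : ℝ) (s : ℂ) : ((Real.exp v : ℝ) : ℂ) ^ s = cexp (v * s) := by
  rw [cpow_def_of_ne_zero (by exact_mod_cast (Real.exp_pos v).ne'), ← ofReal_log (Real.exp_pos v).le,
    Real.log_exp]

/-- moving the Mellin integral to the line `Re s = -1/2` -/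
theorem rf_left {a : ℝ} (ha : 0 < a) {q : O} {η : O → ℂ} (h : IsCh q η) (hη : ¬ Princ η) (v t : ℝ) :
    sm a η (Real.exp v) t = (1 / (2 * Real.pi) : ℂ) * ∫ y : ℝ,
      Lf η (1 - (((3 / 2 : ℝ) : ℂ) + y * I - t * I)) * Wh a (1 - (((3 / 2 : ℝ) : ℂ) + y * I)) *
        cexp (v * (1 - (((3 / 2 : ℝ) : ℂ) + y * I))) := by
  obtain ⟨C, hC0, hC⟩ := Lo_growth
  rw [sm_eq_integral ha (Real.exp_pos v) (K := 1) (A := 0) (σ := 2)
    (fun n _ => by simpa using h.norm_le n) (by norm_num) t]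
  congr 1
  have h1 := rf_shift (f := fun s => Lf η (s + t * I) * Wh a s * cexp (v * s)) (σ₁ := -1 / 2) (σ₂ := 2)
    (by norm_num) (fun s _ _ => ?_) (b := a) (D := C) (Y := |t| + 1)
    (C := C * (Nr q ^ C * (1 + |t|) ^ C) * (Real.sqrt (4 * Real.pi * a) * Real.exp (a * 4)) *
      Real.exp (2 * |v|)) ha fun σ y h1 h2 h3 => ?_
  · simp only [rf_exp_cpow]
    rw [← integral_neg_eq_self] at h1
    refine Eq.trans ?_ (h1.symm.trans ?_)
    · refine integral_congr_ae (Eventually.of_forall fun y => ?_)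
      simp only
      rw [h.Lf_eq (by simp)]
    · refine integral_congr_ae (Eventually.of_forall fun y => ?_)
      have e : (((-1 / 2 : ℝ) : ℂ) + ((-y : ℝ) : ℂ) * I) = 1 - (((3 / 2 : ℝ) : ℂ) + y * I) := by
        push_cast; ring
      simp only [e]
      congr 3
      ring
  · refine (DifferentiableAt.mul ?_ ?_).mul (by fun_prop)
    · exact (h.Lf_differentiableAt (Or.inr hη)).comp s (by fun_prop)
    · unfold Wh; fun_prop
  · have hq := Nr_pos h.ne
    have a1 : ‖Lf η (σ + y * I + t * I)‖ ≤ C * (Nr q ^ C * (1 + |t|) ^ C) * Real.exp (C * |y|) := by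
      have b1 := hC q η h (σ + y * I + t * I) (by simp; linarith) (by simp; linarith)
      rw [h.Lo_eq (Or.inr hη), norm_mul] at b1
      have b2 : 1 ≤ ‖(σ : ℂ) + y * I + t * I - 1‖ := by
        refine le_trans ?_ (abs_im_le_norm _)
        have : ((σ : ℂ) + y * I + t * I - 1).im = y + t := by simp
        rw [this]
        have := abs_sub_abs_le_abs_sub y (-t)
        rw [abs_neg, sub_neg_eq_add] at this
        linarith
      have b3 : ((σ : ℂ) + y * I + t * I).im = t + y := by simp; ring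
      rw [b3, Real.mul_rpow hq.le (by positivity)] at b1
      have b4 := rf_one_add_le hC0 (abs_add_le t y)
      calc _ ≤ ‖(σ : ℂ) + y * I + t * I - 1‖ * ‖Lf η (σ + y * I + t * I)‖ :=
            le_mul_of_one_le_left (norm_nonneg _) b2
        _ ≤ C * (Nr q ^ C * (1 + |t + y|) ^ C) := b1
        _ ≤ C * (Nr q ^ C * ((1 + |t|) ^ C * Real.exp (C * |y|))) := by gcongr
        _ = _ := by ring
    have a2 : ‖Wh a (σ + y * I)‖ ≤
        Real.sqrt (4 * Real.pi * a) * Real.exp (a * 4) * Real.exp (-(a * y ^ 2)) := by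
      rw [norm_Wh ha, mul_assoc _ (Real.exp _), ← Real.exp_add]
      gcongr
      nlinarith [mul_nonneg ha.le (show 0 ≤ 4 - σ ^ 2 by nlinarith)]
    have a3 : ‖cexp (v * (σ + y * I))‖ ≤ Real.exp (2 * |v|) := by
      rw [norm_exp, Real.exp_le_exp]
      have : (v * (σ + y * I) : ℂ).re = v * σ := by simp
      rw [this]
      have h4 : |σ| ≤ 2 := abs_le.2 ⟨by linarith, h2⟩
      calc v * σ ≤ |v * σ| := le_abs_self _
        _ = |σ| * |v| := by rw [abs_mul, mul_comm]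
        _ ≤ 2 * |v| := by gcongr
    rw [norm_mul, norm_mul, sub_eq_add_neg, Real.exp_add]
    calc _ ≤ C * (Nr q ^ C * (1 + |t|) ^ C) * Real.exp (C * |y|) *
          (Real.sqrt (4 * Real.pi * a) * Real.exp (a * 4) * Real.exp (-(a * y ^ 2))) *
          Real.exp (2 * |v|) := by gcongr
      _ = _ := by ring

/-- the kernel on the Mellin side -/
def rf_K (M : ℂ → ℂ) (a t v : ℝ) (s : ℂ) : ℂ :=
  M (s - t * I) * ((Real.sqrt 2 : ℂ) * cexp (a * s ^ 2 - 4 * a * s + 2 * a)) * cexp (-(v * s))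

theorem rf_K_diff {M : ℂ → ℂ} (hM : ∀ ζ : ℂ, 0 < ζ.re → DifferentiableAt ℂ M ζ) (a t v : ℝ) {s : ℂ}
    (hs : 0 < s.re) : DifferentiableAt ℂ (rf_K M a t v) s := by
  unfold rf_K
  refine (DifferentiableAt.mul ?_ (by fun_prop)).mul (by fun_prop)
  exact (hM (s - t * I) (by simpa using hs)).comp s (by fun_prop)

theorem rf_K_le {M : ℂ → ℂ} {a B C E Q : ℝ} (ha : 0 < a) (hC : 0 ≤ C) (hE : 0 ≤ E) (hQ : 0 < Q)
    (hM : ∀ σ τ : ℝ, 1 / 2 ≤ σ → σ ≤ B → ‖M (σ - τ * I)‖ ≤ E * Q ^ (σ - 1 / 2) * (1 + |τ|) ^ C)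
    (t v u : ℝ) {σ : ℝ} (h1 : 1 / 2 ≤ σ) (h2 : σ ≤ B) (y : ℝ) :
    ‖rf_K M a t v (σ + y * I) * cexp (-((σ + y * I) * u))‖ ≤
      E * (1 + |t|) ^ C * (Real.sqrt 2 * Real.exp (a * B ^ 2 + 2 * a)) *
        (Q ^ (σ - 1 / 2) * Real.exp (-(σ * (v + u)))) * Real.exp (C * |y| - a * y ^ 2) := by
  have a1 := hM σ (t - y) h1 h2
  rw [show ((σ : ℂ) - ((t - y : ℝ) : ℂ) * I) = σ + y * I - t * I by push_cast; ring] at a1
  have a2 := rf_one_add_le hC (abs_sub t y)
  have a3 : ‖cexp (a * (σ + y * I) ^ 2 - 4 * a * (σ + y * I) + 2 * a)‖ ≤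
      Real.exp (a * B ^ 2 + 2 * a) * Real.exp (-(a * y ^ 2)) := by
    rw [norm_exp, ← Real.exp_add, Real.exp_le_exp]
    have : (a * (σ + y * I) ^ 2 - 4 * a * (σ + y * I) + 2 * a : ℂ).re =
        a * (σ ^ 2 - y ^ 2) - 4 * a * σ + 2 * a := by
      simp [sq]
    rw [this]
    nlinarith [mul_nonneg ha.le (show 0 ≤ B ^ 2 - σ ^ 2 by nlinarith), mul_pos ha (show 0 < σ by linarith)]
  have a4 : ‖cexp (-(v * (σ + y * I)))‖ * ‖cexp (-((σ + y * I) * u))‖ =
      Real.exp (-(σ * (v + u))) := by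
    rw [norm_exp, norm_exp, ← Real.exp_add]
    congr 1
    simp
    ring
  have n1 := Real.rpow_pos_of_pos hQ (σ - 1 / 2)
  unfold rf_K
  rw [norm_mul, norm_mul, norm_mul, norm_mul, mul_assoc, a4, norm_real,
    Real.norm_of_nonneg (Real.sqrt_nonneg _), sub_eq_add_neg (C * |y|), Real.exp_add (C * |y|)]
  calc _ ≤ E * Q ^ (σ - 1 / 2) * ((1 + |t|) ^ C * Real.exp (C * |y|)) *
        (Real.sqrt 2 * (Real.exp (a * B ^ 2 + 2 * a) * Real.exp (-(a * y ^ 2)))) *
        Real.exp (-(σ * (v + u))) := by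
        gcongr
        exact a1.trans (by gcongr)
    _ = _ := by ring

theorem rf_integrable_sm {a : ℝ} (ha : 0 < a) {c : O → ℂ} (hc : ∀ n, Prim n → ‖c n‖ ≤ 1) (τ : ℝ) :
    Integrable fun u : ℝ => ‖sm a c (Real.exp u) τ‖ * Real.exp (-(3 / 2 * u)) := by
  have hcont : Continuous fun u : ℝ => sm a c (Real.exp u) τ :=
    (continuous_sm ha (K := 1) (A := 0) (fun n hn => by simpa using hc n hn)).comp
      (f := fun u : ℝ => (u, τ)) (by fun_prop)
  have hm : AEStronglyMeasurable (fun u : ℝ => ‖sm a c (Real.exp u) τ‖ * Real.exp (-(3 / 2 * u))) :=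
    (hcont.norm.mul (by fun_prop)).aestronglyMeasurable
  have key : ∀ σ : ℝ, 1 ≤ σ → ∃ C : ℝ, ∀ u : ℝ,
      ‖‖sm a c (Real.exp u) τ‖ * Real.exp (-(3 / 2 * u))‖ ≤ C * Real.exp ((σ - 3 / 2) * u) := by
    intro σ hσ
    obtain ⟨C, hC⟩ := norm_sm_le ha σ
    refine ⟨C, fun u => ?_⟩
    rw [Real.norm_of_nonneg (by positivity)]
    have := hC c (Real.exp u) τ (Real.exp_pos u) hc (Or.inl hσ)
    rw [← Real.exp_mul] at this
    calc _ ≤ C * Real.exp (u * σ) * Real.exp (-(3 / 2 * u)) := by gcongr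
      _ = _ := by rw [mul_assoc, ← Real.exp_add]; congr 2; ring
  obtain ⟨C₁, h₁⟩ := key 1 le_rfl
  obtain ⟨C₂, h₂⟩ := key 2 (by norm_num)
  rw [← integrableOn_univ, ← Iic_union_Ioi (a := (0 : ℝ))]
  refine IntegrableOn.union ?_ ?_
  · exact Integrable.mono' ((integrableOn_exp_mul_Iic (by norm_num) 0).const_mul C₂) hm.restrict
      (Eventually.of_forall h₂)
  · exact Integrable.mono' ((integrableOn_exp_mul_Ioi (by norm_num) 0).const_mul C₁) hm.restrict
      (Eventually.of_forall h₁)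

/-- the reflected representation -/
theorem rf_repr {a : ℝ} (ha : 0 < a) {q : O} {η : O → ℂ} (h : IsCh q η) (hη : ¬ Princ η)
    {M : ℂ → ℂ} (hM : ∀ ζ : ℂ, 0 < ζ.re → DifferentiableAt ℂ M ζ)
    (hM2 : ∀ ζ : ℂ, 1 < ζ.re → Lf η (1 - ζ) = M ζ * Dser (fun n => conj (η n)) ζ) (v t : ℝ)
    {C D : ℝ} (hK : ∀ y : ℝ, ‖rf_K M a t v (((3 / 2 : ℝ) : ℂ) + y * I)‖ ≤
      C * Real.exp (D * |y| - a * y ^ 2)) :
    sm (2 * a) η (Real.exp v) t = (1 / (2 * Real.pi) : ℂ) * cexp v *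
      ∫ u : ℝ, sm a (fun n => conj (η n)) (Real.exp u) (-t) * ∫ y : ℝ,
        rf_K M a t v (((3 / 2 : ℝ) : ℂ) + y * I) * cexp (-((((3 / 2 : ℝ) : ℂ) + y * I) * u)) := by
  have hc : ∀ n, Prim n → ‖conj (η n)‖ ≤ 1 := fun n _ => h.conj.norm_le n
  have hcont : Continuous fun u : ℝ => sm a (fun n => conj (η n)) (Real.exp u) (-t) :=
    (continuous_sm ha (K := 1) (A := 0) (fun n hn => by simpa using hc n hn)).comp
      (f := fun u : ℝ => (u, -t)) (by fun_prop)
  have hKc : Continuous fun y : ℝ => rf_K M a t v (((3 / 2 : ℝ) : ℂ) + y * I) :=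
    continuous_iff_continuousAt.2 fun y => ContinuousAt.comp
      (f := fun y : ℝ => ((3 / 2 : ℝ) : ℂ) + y * I) (rf_K_diff hM a t v (by simp)).continuousAt
      (by fun_prop)
  have hKi := rf_integrable_line hKc ha (Y := 0) fun y _ => hK y
  have hint : Integrable (Function.uncurry fun (y u : ℝ) =>
      rf_K M a t v (((3 / 2 : ℝ) : ℂ) + y * I) * (sm a (fun n => conj (η n)) (Real.exp u) (-t) *
        cexp (-((((3 / 2 : ℝ) : ℂ) + y * I) * u)))) (volume.prod volume) := by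
    refine Integrable.mono' (hKi.norm.mul_prod (rf_integrable_sm ha hc (-t))) ?_
      (Eventually.of_forall fun p => le_of_eq ?_)
    · exact ((hKc.comp continuous_fst).mul ((hcont.comp continuous_snd).mul
        (by fun_prop))).aestronglyMeasurable
    · simp only [Function.uncurry, norm_mul, norm_exp]
      congr 3
      simp
  rw [rf_left (by positivity) h hη, mul_assoc]
  congr 1
  have h1 := integral_integral_swap hint
  simp only [← integral_const_mul]
  simp only [mul_left_comm (sm a (fun n => conj (η n)) (Real.exp _) (-t))]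
  simp only [integral_const_mul] at h1 ⊢
  simp only [← integral_const_mul (rf_K M a t v _)] at h1
  rw [← h1, ← integral_const_mul]
  refine integral_congr_ae (Eventually.of_forall fun y => ?_)
  simp only
  rw [integral_const_mul, rf_mellin_sm ha hc (by simp; norm_num), hM2 _ (by simp; norm_num)]
  have e1 : (((3 / 2 : ℝ) : ℂ) + y * I + ((-t : ℝ) : ℂ) * I) = ((3 / 2 : ℝ) : ℂ) + y * I - t * I := by
    push_cast; ring
  rw [e1]
  generalize (((3 / 2 : ℝ) : ℂ) + y * I) = s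
  have e2 : Real.sqrt (4 * Real.pi * (2 * a)) = Real.sqrt 2 * Real.sqrt (4 * Real.pi * a) := by
    rw [← Real.sqrt_mul (by norm_num)]; congr 1; ring
  have e3 : cexp (((2 * a : ℝ) : ℂ) * (1 - s) ^ 2) =
      cexp (a * s ^ 2 - 4 * a * s + 2 * a) * cexp (a * s ^ 2) := by
    rw [← Complex.exp_add]; congr 1; push_cast; ring
  have e4 : cexp (v * (1 - s)) = cexp v * cexp (-(v * s)) := by
    rw [← Complex.exp_add]; congr 1; ring
  simp only [rf_K, Wh]
  rw [e2, e3, e4, ofReal_mul]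
  ring

end Crest.Agent.R017

end
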