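import Crest.Agent.R017.FE
import Crest.Agent.R017.Reflect1Aux3

/-! # Row 17: reflection, decay and asymptotics of smooth character sums -/

set_option autoImplicit false

noncomputable section

open scoped BigOperators ComplexConjugate
open Complex MeasureTheory

namespace Crest.Agent.R017

section
open MeasureTheory Filter Set

theorem rf_assemble {F k : ℝ → ℂ} (hF : Continuous F) {C₀ E c β U : ℝ} (hC₀ : 0 ≤ C₀) (hE : 0 ≤ E)
    (hβ : 1 ≤ β) (hU : 0 ≤ U) (_hc0 : 0 ≤ c) (hc : c * Real.exp (-β * U) ≤ 1)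
    (h0 : ∀ u, ‖F u‖ ≤ C₀ * Real.exp u) (h1 : ∀ u, ‖k u‖ ≤ E * Real.exp (-u / 2))
    (h2 : ∀ u, ‖k u‖ ≤ E * (c * Real.exp (-(β + 1) * u))) :
    ‖∫ u, F u * k u‖ ≤ E * (3 * C₀ + 1) * (1 + ∫ u in (0 : ℝ)..U, ‖F u‖ * Real.exp (-u / 2)) := by
  have i1 : Integrable ((Iic (0 : ℝ)).indicator fun u => C₀ * Real.exp (1 / 2 * u)) :=
    (integrable_indicator_iff measurableSet_Iic).2
      ((integrableOn_exp_mul_Iic (by norm_num) 0).const_mul C₀)
  have i2 : Integrable ((Ioc (0 : ℝ) U).indicator fun u => ‖F u‖ * Real.exp (-u / 2)) :=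
    ((hF.norm.mul (by fun_prop)).integrableOn_Ioc).integrable_indicator measurableSet_Ioc
  have i3 : Integrable ((Ioi U).indicator fun u => C₀ * c * Real.exp (-β * u)) :=
    (integrable_indicator_iff measurableSet_Ioi).2
      ((integrableOn_exp_mul_Ioi (by linarith) U).const_mul (C₀ * c))
  have hI : 0 ≤ ∫ u in (0 : ℝ)..U, ‖F u‖ * Real.exp (-u / 2) :=
    intervalIntegral.integral_nonneg hU fun u _ => by positivity
  refine (norm_integral_le_of_norm_le (((i1.add i2).add i3).const_mul E)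
    (Eventually.of_forall fun u => ?_)).trans ?_
  · simp only [Pi.add_apply, norm_mul]
    rcases le_or_gt u 0 with hu | hu
    · rw [indicator_of_mem (mem_Iic.2 hu), indicator_of_notMem (fun h => absurd h.1 (not_lt.2 hu)),
        indicator_of_notMem (fun h => absurd (mem_Ioi.1 h) (by linarith)), add_zero, add_zero]
      calc _ ≤ (C₀ * Real.exp u) * (E * Real.exp (-u / 2)) := by gcongr; exacts [h0 u, h1 u]
        _ = E * (C₀ * (Real.exp u * Real.exp (-u / 2))) := by ring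
        _ = _ := by rw [← Real.exp_add]; congr 3; ring
    rcases le_or_gt u U with hu' | hu'
    · rw [indicator_of_notMem (fun h => absurd (mem_Iic.1 h) (not_le.2 hu)),
        indicator_of_mem (show u ∈ Ioc 0 U from ⟨hu, hu'⟩),
        indicator_of_notMem (fun h => absurd (mem_Ioi.1 h) (not_lt.2 hu')), add_zero, zero_add]
      calc _ ≤ ‖F u‖ * (E * Real.exp (-u / 2)) := by gcongr; exact h1 u
        _ = _ := by ring
    · rw [indicator_of_notMem (fun h => absurd (mem_Iic.1 h) (not_le.2 hu)),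
        indicator_of_notMem (fun h => absurd h.2 (not_le.2 hu')), indicator_of_mem (mem_Ioi.2 hu'),
        zero_add, zero_add]
      calc _ ≤ (C₀ * Real.exp u) * (E * (c * Real.exp (-(β + 1) * u))) := by
            gcongr; exacts [h0 u, h2 u]
        _ = E * (C₀ * c * (Real.exp u * Real.exp (-(β + 1) * u))) := by ring
        _ = _ := by rw [← Real.exp_add]; congr 3; ring
  · rw [integral_const_mul, integral_add' (i1.add i2) i3, integral_add' i1 i2,
      integral_indicator measurableSet_Iic, integral_indicator measurableSet_Ioc,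
      integral_indicator measurableSet_Ioi, integral_const_mul, integral_const_mul,
      integral_exp_mul_Iic (by norm_num), integral_exp_mul_Ioi (by linarith),
      ← intervalIntegral.integral_of_le hU, mul_assoc E]
    refine mul_le_mul_of_nonneg_left ?_ hE
    have h3 : C₀ * c * (-Real.exp (-β * U) / -β) ≤ C₀ := by
      rw [neg_div_neg_eq, mul_assoc]
      refine mul_le_of_le_one_right hC₀ ?_
      rw [← mul_div_assoc, div_le_one (by linarith)]
      linarith
    simp only [mul_zero, Real.exp_zero]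
    nlinarith [mul_nonneg hC₀ hI]

end

open MeasureTheory Filter Set in
/-- Reflection of a smooth character sum. -/
theorem reflect {a ε : ℝ} (ha : 0 < a) (hε : 0 < ε) : ∃ C : ℝ, 0 ≤ C ∧ ∀ (x : ℝ) (q : O) (η : O → ℂ),
    1 ≤ x → IsCh q η → ¬ Princ η → Nr q ≤ x → ∀ v t : ℝ,
    ‖sm (2 * a) η (Real.exp v) t‖ * Real.exp (-v / 2) ≤ C * x ^ ε * (1 + |t|) ^ C *
      (1 + ∫ u in (0 : ℝ)..(max 0 (Real.log (Nr q) - v + ε * Real.log x)),
        ‖sm a η (Real.exp u) t‖ * Real.exp (-u / 2)) := by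
  set B : ℝ := 2 + 1 / ε with hB
  have hB2 : 2 ≤ B := by have := one_div_pos.2 hε; linarith
  obtain ⟨C₁, hC₁0, hC₁⟩ := rf_FE B hε
  obtain ⟨C₀, hC₀⟩ := norm_sm_le ha 1
  obtain ⟨C₂, hC₂⟩ := norm_sm_le (a := 2 * a) (by positivity) 1
  set J : ℝ := ∫ y : ℝ, Real.exp (C₁ * |y| - a * y ^ 2) with hJ
  have hJ0 : 0 ≤ J := integral_nonneg fun y => (Real.exp_pos _).le
  set A₀ : ℝ := Real.sqrt 2 * Real.exp (a * B ^ 2 + 2 * a) with hA₀
  have hA₀0 : 0 ≤ A₀ := by positivity
  set C : ℝ := max (max C₁ |C₂|) (C₁ * A₀ * J * (3 * |C₀| + 1)) with hC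
  have hCC₁ : C₁ ≤ C := (le_max_left _ _).trans (le_max_left _ _)
  have hC0 : 0 ≤ C := hC₁0.trans hCC₁
  refine ⟨C, hC0, fun x q η hx h hη hq v t => ?_⟩
  set U := max 0 (Real.log (Nr q) - v + ε * Real.log x) with hU
  have hU0 : 0 ≤ U := le_max_left _ _
  have hI : 0 ≤ ∫ u in (0 : ℝ)..U, ‖sm a η (Real.exp u) t‖ * Real.exp (-u / 2) :=
    intervalIntegral.integral_nonneg hU0 fun u _ => by positivity
  have hxε : 1 ≤ x ^ ε := Real.one_le_rpow hx hε.le
  have ht1 : (1 : ℝ) ≤ 1 + |t| := by linarith [abs_nonneg t]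
  have htC : 1 ≤ (1 + |t|) ^ C := Real.one_le_rpow ht1 hC0
  rcases le_total v 0 with hv | hv
  · have h1 := hC₂ η (Real.exp v) t (Real.exp_pos v) (fun n _ => h.norm_le n) (Or.inl le_rfl)
    rw [Real.rpow_one] at h1
    have h2 : Real.exp v * Real.exp (-v / 2) ≤ 1 := by
      rw [← Real.exp_add, Real.exp_le_one_iff]; linarith
    calc _ ≤ (|C₂| * Real.exp v) * Real.exp (-v / 2) := by
          gcongr; exact h1.trans (by gcongr; exact le_abs_self _)
      _ ≤ |C₂| * 1 := by rw [mul_assoc]; gcongr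
      _ ≤ C * 1 * 1 * 1 := by
          simp only [mul_one]; exact (le_max_right _ _).trans (le_max_left _ _)
      _ ≤ _ := by gcongr; linarith
  obtain ⟨M, hM1, hM2, hM3⟩ := hC₁ q η h hη
  have hQ := Nr_pos h.ne
  have hQ1 := one_le_Nr h.ne
  have hE0 : 0 ≤ C₁ * Nr q ^ ε := by positivity
  have hK := fun (u σ : ℝ) (h1 : 1 / 2 ≤ σ) (h2 : σ ≤ B) => rf_K_le ha hC₁0 hE0 hQ hM3 t v u h1 h2
  set k : ℝ → ℝ → ℂ := fun σ u => ∫ y : ℝ, rf_K M a t v (σ + y * I) * cexp (-((σ + y * I) * u))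
    with hk
  have hshift : ∀ u σ : ℝ, 1 / 2 ≤ σ → σ ≤ B → k (1 / 2) u = k σ u := by
    intro u σ h1 h2
    refine rf_shift (f := fun s => rf_K M a t v s * cexp (-(s * u))) h1 (fun s hs _ => ?_) ha
      (C := C₁ * Nr q ^ ε * (1 + |t|) ^ C₁ * A₀ * (Nr q ^ B * Real.exp (B * |v + u|))) (D := C₁)
      (Y := 0) fun σ' y h3 h4 _ => (hK u σ' h3 (h4.trans h2) y).trans ?_
    · exact (rf_K_diff hM1 a t v (by linarith)).mul (by fun_prop)
    · gcongr
      · linarith
      · have h5 : σ' * |v + u| ≤ B * |v + u| := by gcongr; linarith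
        nlinarith [neg_abs_le (v + u)]
  have hkle : ∀ u σ : ℝ, 1 / 2 ≤ σ → σ ≤ B → ‖k (3 / 2) u‖ ≤ C₁ * Nr q ^ ε * (1 + |t|) ^ C₁ * A₀ * J *
      (Nr q ^ (σ - 1 / 2) * Real.exp (-(σ * (v + u)))) := by
    intro u σ h1 h2
    rw [← hshift u (3 / 2) (by norm_num) (by linarith), hshift u σ h1 h2]
    refine (norm_integral_le_of_norm_le ((rf_integrable_gauss ha C₁).const_mul _)
      (Eventually.of_forall (hK u σ h1 h2))).trans (le_of_eq ?_)
    rw [integral_const_mul]
    ring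
  have hrep := rf_repr ha h hη hM1 hM2 v t (fun y => by
    simpa using hK 0 (3 / 2) (by norm_num) (by linarith) y)
  have hcont : Continuous fun u : ℝ => sm a (fun n => conj (η n)) (Real.exp u) (-t) :=
    (continuous_sm ha (K := 1) (A := 0) (fun n _ => by simpa using h.norm_le n)).comp
      (f := fun u : ℝ => (u, -t)) (by fun_prop)
  have hconj : ∀ u, ‖sm a (fun n => conj (η n)) (Real.exp u) (-t)‖ = ‖sm a η (Real.exp u) t‖ :=
    fun u => by rw [← sm_conj, norm_conj]
  have hmain := rf_assemble (k := fun u => cexp ((v / 2 : ℝ) : ℂ) * k (3 / 2) u) hcont (C₀ := |C₀|)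
    (E := C₁ * Nr q ^ ε * (1 + |t|) ^ C₁ * A₀ * J) (c := Nr q ^ (B - 1 / 2) * Real.exp (v / 2 - B * v))
    (β := B - 1) (abs_nonneg _) (by positivity) (by linarith) hU0 (by positivity) ?_ (fun u => ?_)
    (fun u => ?_) (fun u => ?_)
  · simp only [hconj, mul_left_comm _ (cexp ((v / 2 : ℝ) : ℂ)), integral_const_mul, norm_mul,
      norm_exp_ofReal] at hmain
    rw [hrep, norm_mul, norm_mul, norm_exp_ofReal]
    have h1 : ‖(1 / (2 * Real.pi) : ℂ)‖ ≤ 1 := by
      rw [norm_div, norm_one, norm_mul, norm_real, Real.norm_of_nonneg Real.pi_pos.le,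
        Complex.norm_ofNat, div_le_one (by have := Real.pi_pos; positivity)]
      linarith [Real.pi_gt_three]
    have h2 : Real.exp v * Real.exp (-v / 2) = Real.exp (v / 2) := by
      rw [← Real.exp_add]; congr 1; ring
    have h3 : Nr q ^ ε ≤ x ^ ε := Real.rpow_le_rpow hQ.le hq hε.le
    have h4 : (1 + |t|) ^ C₁ ≤ (1 + |t|) ^ C := Real.rpow_le_rpow_of_exponent_le ht1 hCC₁
    calc _ = ‖(1 / (2 * Real.pi) : ℂ)‖ * (Real.exp (v / 2) *
          ‖∫ u : ℝ, sm a (fun n => conj (η n)) (Real.exp u) (-t) * k (3 / 2) u‖) := by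
          rw [← h2]; ring
      _ ≤ 1 * (C₁ * Nr q ^ ε * (1 + |t|) ^ C₁ * A₀ * J * (3 * |C₀| + 1) *
          (1 + ∫ u in (0 : ℝ)..U, ‖sm a η (Real.exp u) t‖ * Real.exp (-u / 2))) := by gcongr
      _ = C₁ * A₀ * J * (3 * |C₀| + 1) * Nr q ^ ε * (1 + |t|) ^ C₁ *
          (1 + ∫ u in (0 : ℝ)..U, ‖sm a η (Real.exp u) t‖ * Real.exp (-u / 2)) := by ring
      _ ≤ _ := by gcongr; exact le_max_right _ _
  · rw [Real.rpow_def_of_pos hQ, ← Real.exp_add, ← Real.exp_add, Real.exp_le_one_iff]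
    have h1 : Real.log (Nr q) - v + ε * Real.log x ≤ U := le_max_right _ _
    have h2 : Real.log (Nr q) ≤ Real.log x := Real.log_le_log hQ hq
    have h3 : 0 ≤ Real.log x := Real.log_nonneg hx
    have h4 : (B - 1) * ε = ε + 1 := by rw [hB]; field_simp; ring
    have h5 := mul_le_mul_of_nonneg_left h1 (show 0 ≤ B - 1 by linarith)
    have h6 : (B - 1) * (ε * Real.log x) = (ε + 1) * Real.log x := by rw [← mul_assoc, h4]
    nlinarith [mul_nonneg hε.le h3]
  · have h1 := hC₀ _ (Real.exp u) (-t) (Real.exp_pos u) (fun n _ => h.conj.norm_le n) (Or.inl le_rfl)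
    rw [Real.rpow_one] at h1
    exact h1.trans (by gcongr; exact le_abs_self _)
  · rw [norm_mul, norm_exp_ofReal]
    refine (mul_le_mul_of_nonneg_left (hkle u (1 / 2) le_rfl (by linarith))
      (Real.exp_pos _).le).trans (le_of_eq ?_)
    have : Real.exp (-u / 2) = Real.exp (v / 2) * Real.exp (-(1 / 2 * (v + u))) := by
      rw [← Real.exp_add]; congr 1; ring
    rw [sub_self, Real.rpow_zero, this]
    ring
  · rw [norm_mul, norm_exp_ofReal]
    refine (mul_le_mul_of_nonneg_left (hkle u B (by linarith) le_rfl)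
      (Real.exp_pos _).le).trans (le_of_eq ?_)
    have : Real.exp (v / 2 - B * v) * Real.exp (-(B - 1 + 1) * u) =
        Real.exp (v / 2) * Real.exp (-(B * (v + u))) := by
      rw [← Real.exp_add, ← Real.exp_add]; congr 1; ring
    rw [mul_assoc (Nr q ^ (B - 1 / 2)), this]
    ring

end Crest.Agent.R017

end
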