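import Crest.Agent.R017.FE

/-! # Row 17: contour shifts and Mellin transforms for the reflection lemma -/

set_option autoImplicit false

noncomputable section

open scoped BigOperators ComplexConjugate
open Complex MeasureTheory Filter Topology Set

namespace Crest.Agent.R017

theorem rf_gauss_le {b : ℝ} (hb : 0 < b) (D y : ℝ) :
    Real.exp (D * |y| - b * y ^ 2) ≤ Real.exp (D ^ 2 / (2 * b)) * Real.exp (-(b / 2) * y ^ 2) := by
  rw [← Real.exp_add, Real.exp_le_exp, ← sq_abs y]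
  have h : D * |y| - b / 2 * |y| ^ 2 ≤ D ^ 2 / (2 * b) := by
    rw [le_div_iff₀ (by positivity)]
    nlinarith [sq_nonneg (D - b * |y|)]
  linarith

theorem rf_integrable_gauss {b : ℝ} (hb : 0 < b) (D : ℝ) :
    Integrable fun y : ℝ => Real.exp (D * |y| - b * y ^ 2) := by
  refine Integrable.mono' ((integrable_exp_neg_mul_sq (half_pos hb)).const_mul
    (Real.exp (D ^ 2 / (2 * b)))) (by fun_prop) (Eventually.of_forall fun y => ?_)
  rw [Real.norm_of_nonneg (Real.exp_pos _).le]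
  exact rf_gauss_le hb D y

theorem rf_integrable_line {f : ℝ → ℂ} (hf : Continuous f) {b C D Y : ℝ} (hb : 0 < b)
    (h : ∀ y, Y ≤ |y| → ‖f y‖ ≤ C * Real.exp (D * |y| - b * y ^ 2)) : Integrable f := by
  rw [← integrableOn_univ, ← union_compl_self (Icc (-Y) Y)]
  refine IntegrableOn.union hf.integrableOn_Icc ?_
  refine Integrable.mono' ((rf_integrable_gauss hb D).const_mul C).integrableOn
    hf.aestronglyMeasurable ?_
  filter_upwards [ae_restrict_mem measurableSet_Icc.compl] with y hy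
  refine h y ?_
  by_contra h'
  exact hy (abs_le.1 (not_le.1 h').le)

/-- Shifting a vertical line of integration through a strip of holomorphy (Gaussian decay). -/
theorem rf_shift {f : ℂ → ℂ} {σ₁ σ₂ : ℝ} (h12 : σ₁ ≤ σ₂)
    (hf : ∀ s : ℂ, σ₁ ≤ s.re → s.re ≤ σ₂ → DifferentiableAt ℂ f s) {b C D Y : ℝ} (hb : 0 < b)
    (h : ∀ σ y : ℝ, σ₁ ≤ σ → σ ≤ σ₂ → Y ≤ |y| →
      ‖f (σ + y * I)‖ ≤ C * Real.exp (D * |y| - b * y ^ 2)) :
    ∫ y : ℝ, f (σ₁ + y * I) = ∫ y : ℝ, f (σ₂ + y * I) := by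
  have hint : ∀ σ : ℝ, σ₁ ≤ σ → σ ≤ σ₂ → Integrable fun y : ℝ => f (σ + y * I) := by
    intro σ h1 h2
    refine rf_integrable_line (continuous_iff_continuousAt.2 fun y => ?_) hb (h σ · h1 h2)
    exact ContinuousAt.comp (f := fun y : ℝ => (σ : ℂ) + y * I)
      (hf _ (by simpa using h1) (by simpa using h2)).continuousAt (by fun_prop)
  have hR : ∀ R : ℝ, (∫ x : ℝ in σ₁..σ₂, f (x + (-R : ℝ) * I)) - (∫ x : ℝ in σ₁..σ₂, f (x + R * I)) +
      I • (∫ y : ℝ in (-R)..R, f (σ₂ + y * I)) - I • (∫ y : ℝ in (-R)..R, f (σ₁ + y * I)) = 0 := by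
    intro R
    have := integral_boundary_rect_eq_zero_of_differentiableOn f ⟨σ₁, -R⟩ ⟨σ₂, R⟩ fun s hs => by
      have h1 : s.re ∈ uIcc σ₁ σ₂ := hs.1
      rw [uIcc_of_le h12] at h1
      exact (hf s h1.1 h1.2).differentiableWithinAt
    exact this
  have hg : Tendsto (fun R : ℝ => |C| * (Real.exp (D ^ 2 / (2 * b)) * Real.exp (-(b / 2) * R ^ 2)) *
      |σ₂ - σ₁|) atTop (𝓝 0) := by
    have h1 : Tendsto (fun R : ℝ => -(b / 2) * R ^ 2) atTop atBot :=
      (tendsto_pow_atTop two_ne_zero).const_mul_atTop_of_neg (by linarith)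
    have := (((Real.tendsto_exp_atBot.comp h1).const_mul (Real.exp (D ^ 2 / (2 * b)))).const_mul
      |C|).mul_const |σ₂ - σ₁|
    simpa using this
  have hh : ∀ e : ℝ, |e| = 1 → Tendsto (fun R : ℝ => ∫ x : ℝ in σ₁..σ₂, f (x + (e * R : ℝ) * I))
      atTop (𝓝 0) := by
    intro e he
    refine squeeze_zero_norm' ?_ hg
    filter_upwards [eventually_ge_atTop (max Y 0)] with R hR
    refine intervalIntegral.norm_integral_le_of_norm_le_const fun x hx => ?_
    rw [uIoc_of_le h12] at hx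
    have h1 : |e * R| = |R| := by rw [abs_mul, he, one_mul]
    have h2 : (e * R) ^ 2 = R ^ 2 := by rw [← sq_abs, h1, sq_abs]
    have h3 := h x (e * R) hx.1.le hx.2 (by
      rw [h1]; exact (le_max_left _ _).trans (hR.trans (le_abs_self R)))
    rw [h1, h2] at h3
    refine h3.trans ?_
    exact mul_le_mul (le_abs_self C) (rf_gauss_le hb D R) (Real.exp_pos _).le (abs_nonneg C)
  have h1 := hh (-1) (by simp)
  have h2 := hh 1 (by simp)
  simp only [neg_mul, one_mul] at h1 h2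
  have h3 := fun σ (a : σ₁ ≤ σ) (b : σ ≤ σ₂) => intervalIntegral_tendsto_integral (hint σ a b)
    tendsto_neg_atTop_atBot tendsto_id
  have h4 := ((h1.sub h2).add ((h3 σ₂ h12 le_rfl).const_smul I)).sub ((h3 σ₁ le_rfl h12).const_smul I)
  have h5 := tendsto_nhds_unique h4 (tendsto_const_nhds.congr fun R => (hR R).symm)
  simp only [sub_zero, zero_add, smul_eq_mul, ← mul_sub, mul_eq_zero, I_ne_zero, false_or] at h5
  exact (sub_eq_zero.1 h5).symm

theorem rf_Wh_ne {a : ℝ} (ha : 0 < a) (s : ℂ) : Wh a s ≠ 0 := by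
  unfold Wh
  refine mul_ne_zero ?_ (exp_ne_zero _)
  have := Real.pi_pos
  exact_mod_cast (Real.sqrt_pos.2 (by positivity)).ne'

theorem rf_integral_W {a N : ℝ} (ha : 0 < a) (hN : 0 < N) (s : ℂ) :
    ∫ u : ℝ, (W a (N / Real.exp u) : ℂ) * cexp (-(s * u)) = (N : ℂ) ^ (-s) * Wh a s := by
  rw [← integral_add_right_eq_self _ (Real.log N), ← integral_W ha, ← integral_const_mul]
  refine integral_congr_ae (Eventually.of_forall fun u => ?_)
  have h1 : N / Real.exp (u + Real.log N) = Real.exp (-u) := by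
    rw [Real.exp_add, Real.exp_log hN, Real.exp_neg]; field_simp
  have hNC : (N : ℂ) ≠ 0 := by exact_mod_cast hN.ne'
  simp only [h1]
  rw [cpow_def_of_ne_zero hNC, ← ofReal_log hN.le, mul_left_comm, ← Complex.exp_add]
  congr 2
  push_cast
  ring

/-- Mellin transform of a smooth sum. -/
theorem rf_mellin_sm {a : ℝ} (ha : 0 < a) {c : O → ℂ} (hc : ∀ n, Prim n → ‖c n‖ ≤ 1) {s : ℂ}
    (hs : 1 < s.re) (τ : ℝ) :
    ∫ u : ℝ, sm a c (Real.exp u) τ * cexp (-(s * u)) = Dser c (s + τ * I) * Wh a s := by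
  set F : O → ℝ → ℂ := fun n u =>
    (if Prim n then c n * (Nr n : ℂ) ^ (-(τ * I)) * (W a (Nr n / Real.exp u) : ℂ) else 0) *
      cexp (-(s * u)) with hF
  have hI : ∀ (N : ℝ), 0 < N → ∀ s : ℂ,
      Integrable fun u : ℝ => (W a (N / Real.exp u) : ℂ) * cexp (-(s * u)) := by
    intro N hN s
    refine Integrable.of_integral_ne_zero ?_
    rw [rf_integral_W ha hN]
    refine mul_ne_zero ?_ (rf_Wh_ne ha s)
    rw [Ne, cpow_eq_zero_iff, not_and_or]
    exact Or.inl (by exact_mod_cast hN.ne')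
  have h1 : ∀ n, Integrable (F n) := by
    intro n
    by_cases hn : Prim n
    · simp only [hF, if_pos hn, mul_assoc]
      exact ((hI _ (Nr_pos hn.ne_zero) s).const_mul _).const_mul _
    · simp only [hF, if_neg hn, zero_mul]
      exact integrable_zero _ _ _
  have h2 : Summable fun n => ∫ u, ‖F n u‖ := by
    refine Summable.of_nonneg_of_le (fun n => integral_nonneg fun u => norm_nonneg _) (fun n => ?_)
      ((summable_Nr_rpow hs).mul_right ‖Wh a s.re‖)
    by_cases hn : Prim n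
    · have hN := Nr_pos hn.ne_zero
      have h3 : ∫ u, ‖F n u‖ ≤ ∫ u : ℝ, W a (Nr n / Real.exp u) * Real.exp (-(s.re * u)) := by
        refine integral_mono (h1 n).norm ?_ fun u => ?_
        · refine (hI _ hN s).norm.congr (Eventually.of_forall fun u => ?_)
          simp [norm_exp, abs_of_pos (W_pos _ _)]
        · simp only [hF, if_pos hn, norm_mul, norm_cpow_eq_rpow_re_of_pos hN, norm_exp, norm_real,
            Real.norm_of_nonneg (W_pos _ _).le]
          have := hc n hn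
          have h4 := W_pos a (Nr n / Real.exp u)
          simp only [neg_re, mul_re, ofReal_re, I_re, mul_zero, ofReal_im, I_im, sub_self,
            neg_zero, Real.rpow_zero, mul_one, sub_zero]
          gcongr
          nlinarith
      refine h3.trans ((le_abs_self _).trans (le_of_eq ?_))
      rw [← Real.norm_eq_abs, ← norm_real, ← integral_complex_ofReal]
      have h4 := rf_integral_W ha hN (s.re : ℂ)
      have h5 : ∀ u : ℝ, ((W a (Nr n / Real.exp u) * Real.exp (-(s.re * u)) : ℝ) : ℂ) =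
          (W a (Nr n / Real.exp u) : ℂ) * cexp (-(s.re * u)) := fun u => by push_cast; rfl
      simp only [h5, h4, norm_mul, norm_cpow_eq_rpow_re_of_pos hN, neg_re, ofReal_re]
    · simp only [hF, if_neg hn, zero_mul, norm_zero, integral_zero]
      exact mul_nonneg (Real.rpow_nonneg (Nr_nonneg n) _) (norm_nonneg _)
  have h3 := integral_tsum_of_summable_integral_norm h1 h2
  unfold sm Dser
  simp only [← tsum_mul_right]
  rw [← h3]
  refine tsum_congr fun n => ?_
  by_cases hn : Prim n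
  · have hN := Nr_pos hn.ne_zero
    have hNC : (Nr n : ℂ) ≠ 0 := by exact_mod_cast hN.ne'
    simp only [hF, if_pos hn, mul_assoc]
    rw [integral_const_mul, integral_const_mul, rf_integral_W ha hN, neg_add, cpow_add _ _ hNC]
    ring
  · simp [hF, if_neg hn]

/-- the Gamma ratio of the functional equation on a strip -/
theorem rf_Gamma_strip (B : ℝ) : ∃ C : ℝ, 0 ≤ C ∧ ∀ σ τ : ℝ, 1 / 2 ≤ σ → σ ≤ B →
    ‖Complex.Gamma (σ - τ * I) * (Complex.Gamma (((1 - σ : ℝ) : ℂ) + τ * I))⁻¹‖ ≤ C * (1 + |τ|) ^ C := by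
  have hmono : ∀ C C' τ : ℝ, C ≤ C' → 0 ≤ C' → C * (1 + |τ|) ^ C ≤ C' * (1 + |τ|) ^ C' := by
    intro C C' τ h h0
    have h1 : (1 : ℝ) ≤ 1 + |τ| := by linarith [abs_nonneg τ]
    exact mul_le_mul h (Real.rpow_le_rpow_of_exponent_le h1 h) (by positivity) h0
  have key : ∀ k : ℕ, ∃ C : ℝ, 0 ≤ C ∧ ∀ σ τ : ℝ, 1 / 2 ≤ σ → σ ≤ 1 / 2 + 2 * k →
      ‖Complex.Gamma (σ - τ * I) * (Complex.Gamma (((1 - σ : ℝ) : ℂ) + τ * I))⁻¹‖ ≤
        C * (1 + |τ|) ^ C := by
    intro k
    induction k with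
    | zero =>
      obtain ⟨C, hC⟩ := norm_Gamma_ratio_le (1 / 2) (1 / 2) (by norm_num)
      refine ⟨max C 0, le_max_right _ _, fun σ τ h1 h2 => ?_⟩
      simp only [Nat.cast_zero, mul_zero, add_zero] at h2
      exact (hC σ (1 - σ) τ h1 (by linarith) (by linarith) (by linarith)).trans
        (hmono _ _ _ (le_max_left _ _) (le_max_right _ _))
    | succ k ih =>
      obtain ⟨C₁, h0, h1⟩ := ih
      obtain ⟨C, hC⟩ := norm_Gamma_ratio_le (1 / 2 + 2 * k) (1 / 2 - 2 * k) (by positivity)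
      refine ⟨max C C₁, le_max_of_le_right h0, fun σ τ h2 h3 => ?_⟩
      push_cast at h3
      rcases le_total σ (1 / 2 + 2 * k) with h4 | h4
      · exact (h1 σ τ h2 h4).trans (hmono _ _ _ (le_max_right _ _) (le_max_of_le_right h0))
      · exact (hC σ (1 - σ) τ h4 (by linarith) (by linarith) (by linarith)).trans
          (hmono _ _ _ (le_max_left _ _) (le_max_of_le_right h0))
  obtain ⟨k, hk⟩ := exists_nat_ge B
  obtain ⟨C, h0, h1⟩ := key k
  exact ⟨C, h0, fun σ τ h2 h3 => h1 σ τ h2 (by linarith [Nat.cast_nonneg (α := ℝ) k])⟩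

end Crest.Agent.R017

end
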