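import Crest.Agent.R017.Reflect1Aux1

/-! # Row 17: the functional equation in quotient form -/

set_option autoImplicit false

noncomputable section

open scoped BigOperators ComplexConjugate
open Complex MeasureTheory Filter Topology Set

namespace Crest.Agent.R017

theorem rf_norm_lt {N σ : ℝ} (hN : 3 ≤ N) (hσ : 0 < σ) {c ζ : ℂ} (hc : ‖c‖ ≤ 1) (hζ : σ ≤ ζ.re) :
    ‖c * (N : ℂ) ^ (-ζ)‖ ≤ (3 : ℝ) ^ (-σ) := by
  rw [norm_mul, norm_cpow_eq_rpow_re_of_pos (by linarith), neg_re]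
  have h1 : N ^ (-ζ.re) ≤ N ^ (-σ) := Real.rpow_le_rpow_of_exponent_le (by linarith) (by linarith)
  have h2 : N ^ (-σ) ≤ (3 : ℝ) ^ (-σ) := Real.rpow_le_rpow_of_nonpos (by norm_num) hN (by linarith)
  have h3 : 0 ≤ N ^ (-ζ.re) := Real.rpow_nonneg (by linarith) _
  nlinarith [norm_nonneg c]

theorem rf_one_le_c0 : 1 ≤ c0 := by
  unfold c0
  have h : Real.sqrt 3 ≤ 2 := Real.sqrt_le_iff.2 ⟨by norm_num, by norm_num⟩
  rw [le_div_iff₀ (by positivity)]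
  linarith [Real.pi_gt_three]

theorem rf_three : (3 : ℝ) ^ (-(1 / 2 : ℝ)) ≤ 2 / 3 := by
  rw [Real.rpow_neg (by norm_num), ← Real.sqrt_eq_rpow, inv_le_comm₀ (by positivity) (by norm_num)]
  exact Real.le_sqrt_of_sq_le (by norm_num)

/-- `L(1 - ζ, η) = M(ζ) L(ζ, conj η)` with bounds for `M`. -/
theorem rf_FE (B : ℝ) {ε : ℝ} (hε : 0 < ε) : ∃ C : ℝ, 0 ≤ C ∧ ∀ (q : O) (η : O → ℂ), IsCh q η →
    ¬ Princ η → ∃ M : ℂ → ℂ, (∀ ζ : ℂ, 0 < ζ.re → DifferentiableAt ℂ M ζ) ∧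
      (∀ ζ : ℂ, 1 < ζ.re → Lf η (1 - ζ) = M ζ * Dser (fun n => conj (η n)) ζ) ∧
      ∀ σ τ : ℝ, 1 / 2 ≤ σ → σ ≤ B →
        ‖M (σ - τ * I)‖ ≤ C * Nr q ^ ε * Nr q ^ (σ - 1 / 2) * (1 + |τ|) ^ C := by
  obtain ⟨C₁, hC₁0, hC₁⟩ := rf_Gamma_strip B
  obtain ⟨C₂, hC₂⟩ := pow_card_pf_le hε (A := 6) (by norm_num)
  refine ⟨max C₁ (C₁ * C₂), le_max_of_le_left hC₁0, fun q η h hη => ?_⟩
  obtain ⟨f, S, η₁, w, G, hf, hw, hS, hdvd, -, hη₁, -, -, -, -, -, hLo, hFE, -⟩ := h.exists_FE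
  have hp3 : ∀ p ∈ S, 3 ≤ Nr p := fun p hp => three_le_Nr_prime ((mem_pf h.ne).1 (hS hp)).1.1
  have hpC : ∀ p ∈ S, (Nr p : ℂ) ≠ 0 := fun p hp => by
    have := hp3 p hp
    exact_mod_cast (by linarith : Nr p ≠ 0)
  have hfC : (Nr f : ℂ) ≠ 0 := by exact_mod_cast (Nr_pos hf).ne'
  have hc0 : (c0 : ℂ) ≠ 0 := by exact_mod_cast c0_pos.ne'
  have hne : ∀ ζ : ℂ, 0 < ζ.re → ∀ p ∈ S, 1 - conj (η₁ p) * (Nr p : ℂ) ^ (-ζ) ≠ 0 := by
    intro ζ hζ p hp h0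
    have h1 := rf_norm_lt (hp3 p hp) hζ (c := conj (η₁ p)) (by simpa using hη₁ p) le_rfl
    rw [← sub_eq_zero.1 h0, norm_one] at h1
    have : (3 : ℝ) ^ (-ζ.re) < 1 := Real.rpow_lt_one_of_one_lt_of_neg (by norm_num) (by linarith)
    linarith
  refine ⟨fun ζ => (∏ p ∈ S, ((1 - η₁ p * (Nr p : ℂ) ^ (-(1 - ζ))) *
      (1 - conj (η₁ p) * (Nr p : ℂ) ^ (-ζ))⁻¹)) * w * (Nr f : ℂ) ^ (ζ - 1 / 2) *
      (c0 : ℂ) ^ (1 - 2 * ζ) * (Complex.Gamma ζ * (Complex.Gamma (1 - ζ))⁻¹), fun ζ hζ => ?_,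
    fun ζ hζ => ?_, fun σ τ h1 h2 => ?_⟩
  · refine ((((DifferentiableAt.fun_finsetProd fun p hp => ?_).mul_const w).mul ?_).mul ?_).mul
      (DifferentiableAt.mul ?_ ?_)
    · refine DifferentiableAt.mul ?_ (DifferentiableAt.inv ?_ (hne ζ hζ p hp))
      · exact (((by fun_prop : DifferentiableAt ℂ (fun ζ : ℂ => -(1 - ζ)) ζ).const_cpow
          (Or.inl (hpC p hp))).const_mul _).const_sub _
      · exact (((by fun_prop : DifferentiableAt ℂ (fun ζ : ℂ => -ζ) ζ).const_cpow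
          (Or.inl (hpC p hp))).const_mul _).const_sub _
    · exact (by fun_prop : DifferentiableAt ℂ (fun ζ : ℂ => ζ - 1 / 2) ζ).const_cpow (Or.inl hfC)
    · exact (by fun_prop : DifferentiableAt ℂ (fun ζ : ℂ => 1 - 2 * ζ) ζ).const_cpow (Or.inl hc0)
    · refine Complex.differentiableAt_Gamma ζ fun m hm => ?_
      rw [hm] at hζ
      simp at hζ
      linarith [Nat.cast_nonneg (α := ℝ) m]
    · exact (Complex.differentiable_one_div_Gamma (1 - ζ)).comp ζ (by fun_prop)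
  · have hζ0 : ζ ≠ 0 := fun h0 => by rw [h0] at hζ; simp at hζ; linarith
    have hζ1 : 1 - ζ ≠ 0 := fun h0 => by rw [← sub_eq_zero.1 h0] at hζ; simp at hζ
    have e1 := h.Lo_eq (s := 1 - ζ) (Or.inr hη)
    have e2 := hLo (1 - ζ)
    have e3 := hFE (1 - ζ) (by simp; linarith)
    have e4 := h.Lo_conj ζ
    rw [h.conj.Lo_spec.2 ζ hζ, hLo, map_mul, map_prod] at e4
    have e5 : ∀ p ∈ S, conj (1 - η₁ p * (Nr p : ℂ) ^ (-conj ζ)) =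
        1 - conj (η₁ p) * (Nr p : ℂ) ^ (-ζ) := by
      intro p hp
      have harg : (Nr p : ℂ).arg ≠ Real.pi := by
        rw [arg_ofReal_of_nonneg (Nr_nonneg p)]; exact Real.pi_pos.ne
      rw [map_sub, map_one, map_mul, ← map_neg, cpow_conj _ _ harg, conj_ofReal, conj_conj]
    rw [Finset.prod_congr rfl e5] at e4
    have e6 : (∏ p ∈ S, (1 - conj (η₁ p) * (Nr p : ℂ) ^ (-ζ))) ≠ 0 :=
      Finset.prod_ne_zero_iff.2 (hne ζ (by linarith))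
    have e7 : Complex.Gamma (2 - (1 - ζ)) = ζ * Complex.Gamma ζ := by
      rw [← Complex.Gamma_add_one _ hζ0]; congr 1; ring
    have e8 : Complex.Gamma (1 + (1 - ζ)) = (1 - ζ) * Complex.Gamma (1 - ζ) := by
      rw [← Complex.Gamma_add_one _ hζ1]; congr 1; ring
    rw [e7, e8, sub_sub_cancel, show 1 / 2 - (1 - ζ) = ζ - 1 / 2 by ring,
      show 2 * (1 - ζ) - 1 = 1 - 2 * ζ by ring, mul_inv] at e3
    have e9 : conj (G (conj ζ)) = (ζ - 1) * Dser (fun n => conj (η n)) ζ *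
        (∏ p ∈ S, (1 - conj (η₁ p) * (Nr p : ℂ) ^ (-ζ)))⁻¹ := by
      rw [e4, mul_inv_cancel_right₀ e6]
    rw [e2, e3, e9] at e1
    beta_reduce
    rw [Finset.prod_mul_distrib, Finset.prod_inv_distrib]
    refine mul_left_cancel₀ (neg_ne_zero.2 hζ0) ?_
    rw [show (1 - ζ - 1) = -ζ by ring] at e1
    rw [← e1]
    have e10 : (1 - ζ)⁻¹ * (ζ - 1) = -1 := by field_simp; ring
    linear_combination (w * (Nr f : ℂ) ^ (ζ - 1 / 2) * (c0 : ℂ) ^ (1 - 2 * ζ) * ζ * Complex.Gamma ζ *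
      (Complex.Gamma (1 - ζ))⁻¹ * Dser (fun n => conj (η n)) ζ *
      (∏ p ∈ S, (1 - conj (η₁ p) * (Nr p : ℂ) ^ (-ζ)))⁻¹ *
      ∏ p ∈ S, (1 - η₁ p * (Nr p : ℂ) ^ (-(1 - ζ)))) * e10
  · have hq := Nr_pos h.ne
    have b1 : ∀ p ∈ S, ‖(1 - η₁ p * (Nr p : ℂ) ^ (-(1 - (σ - τ * I)))) *
        (1 - conj (η₁ p) * (Nr p : ℂ) ^ (-(σ - τ * I : ℂ)))⁻¹‖ ≤ 6 * Nr p ^ (σ - 1 / 2) := by
      intro p hp
      have h3 := hp3 p hp
      have a1 : ‖1 - η₁ p * (Nr p : ℂ) ^ (-(1 - (σ - τ * I)))‖ ≤ 2 * Nr p ^ (σ - 1 / 2) := by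
        refine (norm_sub_le _ _).trans ?_
        rw [norm_one, norm_mul, norm_cpow_eq_rpow_re_of_pos (by linarith)]
        have a2 : (1 : ℝ) ≤ Nr p ^ (σ - 1 / 2) := Real.one_le_rpow (by linarith) (by linarith)
        have a3 : Nr p ^ (-(1 - (σ - τ * I : ℂ))).re ≤ Nr p ^ (σ - 1 / 2) :=
          Real.rpow_le_rpow_of_exponent_le (by linarith) (by simp; linarith)
        have a4 : 0 ≤ Nr p ^ (-(1 - (σ - τ * I : ℂ))).re := Real.rpow_nonneg (by linarith) _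
        nlinarith [hη₁ p, norm_nonneg (η₁ p)]
      have a2 : ‖(1 - conj (η₁ p) * (Nr p : ℂ) ^ (-(σ - τ * I : ℂ)))⁻¹‖ ≤ 3 := by
        have a3 := (rf_norm_lt h3 (σ := 1 / 2) (by norm_num) (c := conj (η₁ p)) (ζ := σ - τ * I)
          (by simpa using hη₁ p) (by simpa using h1)).trans rf_three
        have a4 := norm_sub_norm_le (1 : ℂ) (conj (η₁ p) * (Nr p : ℂ) ^ (-(σ - τ * I : ℂ)))
        rw [norm_one] at a4
        rw [norm_inv, inv_le_comm₀ (by linarith) (by norm_num)]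
        linarith
      rw [norm_mul]
      calc _ ≤ (2 * Nr p ^ (σ - 1 / 2)) * 3 := mul_le_mul a1 a2 (norm_nonneg _) (by positivity)
        _ = _ := by ring
    have b2 : ‖∏ p ∈ S, ((1 - η₁ p * (Nr p : ℂ) ^ (-(1 - (σ - τ * I)))) *
        (1 - conj (η₁ p) * (Nr p : ℂ) ^ (-(σ - τ * I : ℂ)))⁻¹)‖ ≤
        C₂ * Nr q ^ ε * Nr (∏ p ∈ S, p) ^ (σ - 1 / 2) := by
      rw [norm_prod]
      refine (Finset.prod_le_prod (fun _ _ => norm_nonneg _) b1).trans ?_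
      rw [Finset.prod_mul_distrib, Finset.prod_const, Nr_prod,
        Real.finsetProd_rpow _ _ fun p _ => Nr_nonneg p]
      refine mul_le_mul_of_nonneg_right (le_trans ?_ (hC₂ q h.ne))
        (Real.rpow_nonneg (Finset.prod_nonneg fun p _ => Nr_nonneg p) _)
      exact pow_le_pow_right₀ (by norm_num) (Finset.card_le_card hS)
    have b3 : ‖(Nr f : ℂ) ^ ((σ - τ * I : ℂ) - 1 / 2)‖ = Nr f ^ (σ - 1 / 2) := by
      rw [norm_cpow_eq_rpow_re_of_pos (Nr_pos hf)]; congr 1; simp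
    have b4 : ‖(c0 : ℂ) ^ (1 - 2 * (σ - τ * I : ℂ))‖ ≤ 1 := by
      rw [norm_cpow_eq_rpow_re_of_pos c0_pos]
      exact Real.rpow_le_one_of_one_le_of_nonpos rf_one_le_c0 (by simp; linarith)
    have b5 := hC₁ σ τ h1 h2
    rw [show (((1 - σ : ℝ) : ℂ) + τ * I) = 1 - (σ - τ * I) by push_cast; ring] at b5
    have b6 : Nr (∏ p ∈ S, p) ^ (σ - 1 / 2) * Nr f ^ (σ - 1 / 2) ≤ Nr q ^ (σ - 1 / 2) := by
      rw [← Real.mul_rpow (Nr_nonneg _) (Nr_nonneg _), ← Nr_mul, mul_comm]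
      exact Real.rpow_le_rpow (Nr_nonneg _) (Nr_le_of_dvd h.ne hdvd) (by linarith)
    have hC₂0 : 0 ≤ C₂ := by
      have := (pow_pos (by norm_num : (0 : ℝ) < 6) _).le.trans (hC₂ q h.ne)
      exact nonneg_of_mul_nonneg_left this (Real.rpow_pos_of_pos hq _)
    have b7 : (1 + |τ|) ^ C₁ ≤ (1 + |τ|) ^ max C₁ (C₁ * C₂) :=
      Real.rpow_le_rpow_of_exponent_le (by linarith [abs_nonneg τ]) (le_max_left _ _)
    have n1 := Real.rpow_nonneg (Nr_nonneg (∏ p ∈ S, p)) (σ - 1 / 2)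
    have n2 := Real.rpow_nonneg (Nr_nonneg f) (σ - 1 / 2)
    rw [norm_mul, norm_mul, norm_mul, norm_mul, hw, mul_one, b3]
    calc _ ≤ C₂ * Nr q ^ ε * Nr (∏ p ∈ S, p) ^ (σ - 1 / 2) * Nr f ^ (σ - 1 / 2) * 1 *
          (C₁ * (1 + |τ|) ^ C₁) := by gcongr
      _ = (C₁ * C₂) * Nr q ^ ε * (Nr (∏ p ∈ S, p) ^ (σ - 1 / 2) * Nr f ^ (σ - 1 / 2)) *
          (1 + |τ|) ^ C₁ := by ring
      _ ≤ _ := by gcongr; exact le_max_right _ _

end Crest.Agent.R017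

end
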