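import Crest.Agent.R017.Chars

/-! # Row 17: log-Gaussian smooth sums -/

set_option autoImplicit false

noncomputable section

open scoped BigOperators ComplexConjugate
open Complex MeasureTheory

namespace Crest.Agent.R017

/-- Mellin transform of `W a`. -/
def Wh (a : ℝ) (s : ℂ) : ℂ := (Real.sqrt (4 * Real.pi * a) : ℂ) * Complex.exp (a * s ^ 2)

theorem W_pos (a x : ℝ) : 0 < W a x := Real.exp_pos _
theorem W_le_one {a : ℝ} (ha : 0 < a) (x : ℝ) : W a x ≤ 1 := by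
  rw [W, Real.exp_le_one_iff, neg_div]
  exact neg_nonpos.2 (by positivity)
theorem W_le_rpow {a x : ℝ} (ha : 0 < a) (hx : 0 < x) (A : ℝ) : W a x ≤ Real.exp (a * A ^ 2) * x ^ A := by
  rw [W, Real.rpow_def_of_pos hx, ← Real.exp_add, Real.exp_le_exp, div_le_iff₀ (by positivity)]
  nlinarith [sq_nonneg (Real.log x + 2 * a * A)]
theorem W_mul_rpow {a x : ℝ} (ha : 0 < a) (hx : 0 < x) (σ : ℝ) :
    W a x * x ^ σ = Real.exp (a * σ ^ 2) * W a (x / Real.exp (2 * a * σ)) := by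
  rw [W, W, Real.rpow_def_of_pos hx, ← Real.exp_add, ← Real.exp_add,
    Real.log_div hx.ne' (Real.exp_pos _).ne', Real.log_exp]
  congr 1
  field_simp
  ring
theorem w1_sqrt {x : ℝ} (hx : 0 ≤ x) : (x : ℂ) ^ (1 / 2 : ℂ) = (Real.sqrt x : ℂ) := by
  rw [Real.sqrt_eq_rpow, Complex.ofReal_cpow hx]
  norm_num
theorem integral_W {a : ℝ} (ha : 0 < a) (s : ℂ) :
    ∫ u : ℝ, (W a (Real.exp (-u)) : ℂ) * Complex.exp (-(s * u)) = Wh a s := by
  have ha' : (a : ℂ) ≠ 0 := Complex.ofReal_ne_zero.2 ha.ne'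
  have h := integral_cexp_quadratic (b := ((-1 / (4 * a) : ℝ) : ℂ))
    (by rw [Complex.ofReal_re, neg_div]; exact neg_neg_of_pos (by positivity)) (-s) 0
  have e : ∀ u : ℝ, (W a (Real.exp (-u)) : ℂ) * Complex.exp (-(s * u)) =
      Complex.exp (((-1 / (4 * a) : ℝ) : ℂ) * u ^ 2 + -s * u + 0) := by
    intro u
    rw [W, Real.log_exp, Complex.ofReal_exp, ← Complex.exp_add]
    congr 1
    push_cast
    ring
  simp only [e]
  rw [h, Wh, ← w1_sqrt (by positivity)]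
  congr 2
  · push_cast
    field_simp
  · push_cast
    field_simp
    ring
theorem W_mellin {a x : ℝ} (ha : 0 < a) (hx : 0 < x) (σ : ℝ) :
    (W a x : ℂ) = (1 / (2 * Real.pi) : ℂ) * ∫ t : ℝ, Wh a (σ + t * I) * (x : ℂ) ^ (-(σ + t * I)) := by
  have ha' : (a : ℂ) ≠ 0 := Complex.ofReal_ne_zero.2 ha.ne'
  have hπ := Real.pi_pos
  have h := integral_cexp_quadratic (b := ((-a : ℝ) : ℂ))
    (by rw [Complex.ofReal_re]; exact neg_neg_of_pos ha) ((2 * a * σ - Real.log x) * I)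
    (a * σ ^ 2 - σ * Real.log x)
  have e : ∀ t : ℝ, Wh a (σ + t * I) * (x : ℂ) ^ (-(σ + t * I)) =
      (Real.sqrt (4 * Real.pi * a) : ℂ) * Complex.exp (((-a : ℝ) : ℂ) * t ^ 2 +
        (2 * a * σ - Real.log x) * I * t + (a * σ ^ 2 - σ * Real.log x)) := by
    intro t
    rw [Wh, Complex.cpow_def_of_ne_zero (Complex.ofReal_ne_zero.2 hx.ne'),
      ← Complex.ofReal_log hx.le, mul_assoc, ← Complex.exp_add]
    congr 2
    push_cast
    linear_combination (a : ℂ) * (t : ℂ) ^ 2 * Complex.I_sq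
  simp only [e]
  have e1 : (Real.pi : ℂ) / -((-a : ℝ) : ℂ) = ((Real.pi / a : ℝ) : ℂ) := by
    push_cast
    rw [neg_neg]
  have e2 : Real.sqrt (4 * Real.pi * a) * Real.sqrt (Real.pi / a) = 2 * Real.pi := by
    rw [← Real.sqrt_mul (by positivity), show 4 * Real.pi * a * (Real.pi / a) = (2 * Real.pi) ^ 2 by
      field_simp; norm_num, Real.sqrt_sq (by positivity)]
  rw [integral_const_mul, h, e1, w1_sqrt (by positivity), ← mul_assoc (Real.sqrt _ : ℂ),
    ← Complex.ofReal_mul, e2, W, Complex.ofReal_exp, ← mul_assoc]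
  have e3 : (1 / (2 * Real.pi) : ℂ) * ((2 * Real.pi : ℝ) : ℂ) = 1 := by
    have : (Real.pi : ℂ) ≠ 0 := Complex.ofReal_ne_zero.2 hπ.ne'
    push_cast
    field_simp
  rw [e3, one_mul, mul_pow, Complex.I_sq]
  congr 1
  push_cast
  field_simp
  ring
theorem norm_Wh {a : ℝ} (ha : 0 < a) (σ t : ℝ) :
    ‖Wh a (σ + t * I)‖ = Real.sqrt (4 * Real.pi * a) * Real.exp (a * (σ ^ 2 - t ^ 2)) := by
  rw [Wh, norm_mul, Complex.norm_real, Real.norm_of_nonneg (Real.sqrt_nonneg _), Complex.norm_exp]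
  congr 2
  simp [sq]
theorem w1_nonneg (a X A : ℝ) (n : O) :
    0 ≤ (if n = 0 then 0 else Nr n ^ A * W a (Nr n / X)) := by
  split_ifs
  · exact le_rfl
  · exact mul_nonneg (Real.rpow_nonneg (Nr_nonneg n) _) (W_pos _ _).le

theorem w1_le {a X A D : ℝ} (ha : 0 < a) (hX : 0 < X) (hD : A + 2 ≤ D) (n : O) :
    (if n = 0 then 0 else Nr n ^ A * W a (Nr n / X)) ≤
      Real.exp (a * D ^ 2) * X ^ D * Nr n ^ (-(2 : ℝ)) := by
  split_ifs with h
  · have := Nr_nonneg n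
    positivity
  · have h0 := Nr_pos h
    have h1 := W_le_rpow ha (div_pos h0 hX) (-D)
    rw [neg_sq, Real.rpow_neg (by positivity), ← Real.inv_rpow (by positivity), inv_div,
      Real.div_rpow hX.le h0.le, div_eq_mul_inv (X ^ D), ← Real.rpow_neg h0.le] at h1
    calc Nr n ^ A * W a (Nr n / X) ≤ Nr n ^ A * (Real.exp (a * D ^ 2) * (X ^ D * Nr n ^ (-D))) :=
          mul_le_mul_of_nonneg_left h1 (by positivity)
      _ = Real.exp (a * D ^ 2) * X ^ D * Nr n ^ (A + -D) := by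
          rw [Real.rpow_add h0]
          ring
      _ ≤ _ := mul_le_mul_of_nonneg_left
          (Real.rpow_le_rpow_of_exponent_le (one_le_Nr h) (by linarith)) (by positivity)

theorem w1_small {a : ℝ} (ha : 0 < a) (A B : ℝ) : ∃ C : ℝ, ∀ X : ℝ, 0 < X → X ≤ 1 →
    ∑' n : O, (if n = 0 then 0 else Nr n ^ A * W a (Nr n / X)) ≤ C * X ^ B := by
  refine ⟨Real.exp (a * (max (A + 2) B) ^ 2) * ∑' n : O, Nr n ^ (-(2 : ℝ)), fun X hX h1 => ?_⟩
  have hs := (summable_Nr_rpow one_lt_two).mul_left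
    (Real.exp (a * (max (A + 2) B) ^ 2) * X ^ (max (A + 2) B))
  have hle := w1_le (A := A) ha hX (le_max_left _ B)
  refine ((Summable.of_nonneg_of_le (w1_nonneg a X A) hle hs).tsum_le_tsum hle hs).trans ?_
  rw [tsum_mul_left, mul_right_comm]
  refine mul_le_mul_of_nonneg_left (Real.rpow_le_rpow_of_exponent_ge hX h1 (le_max_right _ _))
    (mul_nonneg (Real.exp_pos _).le (tsum_nonneg fun n => Real.rpow_nonneg (Nr_nonneg n) _))

theorem summable_W {a X : ℝ} (ha : 0 < a) (hX : 0 < X) (A : ℝ) :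
    Summable (fun n : O => if n = 0 then 0 else Nr n ^ A * W a (Nr n / X)) := by
  refine Summable.of_nonneg_of_le (w1_nonneg a X A) (fun n => ?_)
    ((summable_Nr_rpow one_lt_two).mul_left (Real.exp (a * (A + 2) ^ 2) * X ^ (A + 2)))
  exact w1_le ha hX le_rfl n
/-- `∑ N n^A W(N n / X) ≪ X^{1+A}`, and `≪ X^B` for every `B` when `X ≤ 1`. -/
theorem tsum_W_le {a : ℝ} (ha : 0 < a) (A : ℝ) (hA : -1 < A) : ∃ C : ℝ, ∀ X : ℝ, 0 < X →
    ∑' n : O, (if n = 0 then 0 else Nr n ^ A * W a (Nr n / X)) ≤ C * X ^ (1 + A) := by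
  classical
  obtain ⟨C₁, h₁⟩ := w1_small ha A (1 + A)
  obtain ⟨C₂, h₂⟩ := sum_box_rpow_le (σ := -A) (by linarith)
  obtain ⟨C₃, h₃⟩ := tsum_tail_rpow_le one_lt_two
  refine ⟨max C₁ (C₂ + Real.exp (a * (A + 2) ^ 2) * C₃), fun X hX => ?_⟩
  rcases le_total X 1 with h1 | h1
  · exact (h₁ X hX h1).trans (mul_le_mul_of_nonneg_right (le_max_left _ _) (by positivity))
  refine le_trans ?_ (mul_le_mul_of_nonneg_right (le_max_right _ _) (by positivity))
  have s1 : HasSum (fun n : O => if n ∈ box X then Nr n ^ A else 0) (∑ n ∈ box X, Nr n ^ A) := by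
    have := hasSum_sum_of_ne_finset_zero (f := fun n : O => if n ∈ box X then Nr n ^ A else 0)
      (s := box X) (L := .unconditional O) fun n hn => if_neg hn
    rwa [Finset.sum_congr rfl fun n hn => if_pos hn] at this
  have s2 : Summable (fun n : O => if X < Nr n then Nr n ^ (-(2 : ℝ)) else 0) := by
    refine Summable.of_nonneg_of_le (fun n => ?_) (fun n => ?_) (summable_Nr_rpow one_lt_two)
    · have := Nr_nonneg n
      positivity
    · split_ifs
      · exact le_rfl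
      · exact Real.rpow_nonneg (Nr_nonneg n) _
  have s3 := s1.add (s2.hasSum.mul_left (Real.exp (a * (A + 2) ^ 2) * X ^ (A + 2)))
  refine (hasSum_le (fun n => ?_) (summable_W ha hX A).hasSum s3).trans ?_
  · by_cases hn : X < Nr n
    · rw [if_pos hn, if_neg fun h => (mem_box.1 h).2.not_gt hn, zero_add]
      exact w1_le ha hX le_rfl n
    · rw [if_neg hn, mul_zero, add_zero]
      split_ifs with h0 h2 h2
      · exact Real.rpow_nonneg (Nr_nonneg n) _
      · exact le_rfl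
      · exact mul_le_of_le_one_right (Real.rpow_nonneg (Nr_nonneg n) _) (W_le_one ha _)
      · exact absurd (mem_box.2 ⟨h0, not_lt.1 hn⟩) h2
  · have e1 := h₂ X h1
    rw [neg_neg, sub_neg_eq_add] at e1
    have e2 := mul_le_mul_of_nonneg_left (h₃ X hX)
      (show 0 ≤ Real.exp (a * (A + 2) ^ 2) * X ^ (A + 2) by positivity)
    have e3 : X ^ (A + 2) * X ^ (1 - 2 : ℝ) = X ^ (1 + A) := by
      rw [← Real.rpow_add hX]
      congr 1
      ring
    calc _ ≤ C₂ * X ^ (1 + A) + Real.exp (a * (A + 2) ^ 2) * X ^ (A + 2) * (C₃ * X ^ (1 - 2 : ℝ)) :=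
          add_le_add e1 e2
      _ = _ := by rw [← e3]; ring
theorem tsum_W_le_small {a : ℝ} (ha : 0 < a) (A B : ℝ) : ∃ C : ℝ, ∀ X : ℝ, 0 < X → X ≤ 1 →
    ∑' n : O, (if n = 0 then 0 else Nr n ^ A * W a (Nr n / X)) ≤ C * X ^ B := w1_small ha A B
/-- Tails are negligible. -/
theorem tsum_W_tail {a ε : ℝ} (ha : 0 < a) (hε : 0 < ε) (A B : ℝ) (hA : 0 ≤ A) :
    ∃ C : ℝ, ∀ x X : ℝ, 1 ≤ x → 0 < X → X ≤ x →
    ∑' n : O, (if n ≠ 0 ∧ (Nr n ≤ X * x ^ (-ε) ∨ X * x ^ ε ≤ Nr n) then Nr n ^ A * W a (Nr n / X) else 0)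
      ≤ C * x ^ (-B) := by
  have ha2 : 0 < 2 * a := by positivity
  obtain ⟨C, hC⟩ := tsum_W_le ha2 A (by linarith)
  set D : ℝ := -(B + (1 + A)) / ε with hD
  refine ⟨Real.exp (2 * a * D ^ 2) * max C 0, fun x X hx hX hXx => ?_⟩
  have hx0 : 0 < x := by linarith
  have hK : W (2 * a) (x ^ ε) ≤ Real.exp (2 * a * D ^ 2) * x ^ (-(B + (1 + A))) := by
    have := W_le_rpow ha2 (Real.rpow_pos_of_pos hx0 ε) D
    rwa [← Real.rpow_mul hx0.le, hD, mul_div_cancel₀ _ hε.ne'] at this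
  have hs := (summable_W ha2 hX A).mul_left (W (2 * a) (x ^ ε))
  have hle : ∀ n : O, (if n ≠ 0 ∧ (Nr n ≤ X * x ^ (-ε) ∨ X * x ^ ε ≤ Nr n) then
      Nr n ^ A * W a (Nr n / X) else 0) ≤
      W (2 * a) (x ^ ε) * (if n = 0 then 0 else Nr n ^ A * W (2 * a) (Nr n / X)) := by
    intro n
    by_cases h : n ≠ 0 ∧ (Nr n ≤ X * x ^ (-ε) ∨ X * x ^ ε ≤ Nr n)
    · rw [if_pos h, if_neg h.1, mul_left_comm]
      have h0 := Nr_pos h.1
      refine mul_le_mul_of_nonneg_left ?_ (by positivity)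
      have hl : 0 ≤ Real.log (x ^ ε) := Real.log_nonneg (Real.one_le_rpow hx hε.le)
      have h1 : Real.log (x ^ ε) ^ 2 ≤ Real.log (Nr n / X) ^ 2 := by
        rcases h.2 with h2 | h2
        · have : Real.log (Nr n / X) ≤ -Real.log (x ^ ε) := by
            rw [← Real.log_inv, ← Real.rpow_neg hx0.le]
            exact Real.log_le_log (by positivity) ((div_le_iff₀' hX).2 h2)
          nlinarith
        · exact pow_le_pow_left₀ hl
            (Real.log_le_log (by positivity) ((le_div_iff₀' hX).2 h2)) 2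
      rw [W, W, W, ← Real.exp_add, Real.exp_le_exp, ← add_div, div_le_div_iff₀ (by positivity)
        (by positivity)]
      nlinarith
    · rw [if_neg h]
      exact mul_nonneg (W_pos _ _).le (w1_nonneg _ _ _ n)
  have hnn : ∀ n : O, 0 ≤ (if n ≠ 0 ∧ (Nr n ≤ X * x ^ (-ε) ∨ X * x ^ ε ≤ Nr n) then
      Nr n ^ A * W a (Nr n / X) else 0) := by
    intro n
    split_ifs
    · exact mul_nonneg (Real.rpow_nonneg (Nr_nonneg n) _) (W_pos _ _).le
    · exact le_rfl
  refine ((Summable.of_nonneg_of_le hnn hle hs).tsum_le_tsum hle hs).trans ?_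
  rw [tsum_mul_left]
  have e1 : ∑' n : O, (if n = 0 then 0 else Nr n ^ A * W (2 * a) (Nr n / X)) ≤
      max C 0 * x ^ (1 + A) := (hC X hX).trans (mul_le_mul (le_max_left _ _)
        (Real.rpow_le_rpow hX.le hXx (by linarith)) (by positivity) (le_max_right _ _))
  have e2 : x ^ (-(B + (1 + A))) * x ^ (1 + A) = x ^ (-B) := by
    rw [← Real.rpow_add hx0]
    congr 1
    ring
  calc _ ≤ Real.exp (2 * a * D ^ 2) * x ^ (-(B + (1 + A))) * (max C 0 * x ^ (1 + A)) :=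
        mul_le_mul hK e1 (tsum_nonneg (w1_nonneg _ _ _)) (by positivity)
    _ = _ := by rw [← e2]; ring
end Crest.Agent.R017

end
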