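import Crest.Agent.R017.Smooth1

/-! # Row 17: log-Gaussian smooth sums -/

set_option autoImplicit false

noncomputable section

open scoped BigOperators ComplexConjugate
open Complex MeasureTheory

namespace Crest.Agent.R017

theorem w2_cpow {x : ℝ} (hx : 0 < x) (s : ℂ) :
    (x : ℂ) ^ s = Complex.exp ((Real.log x : ℝ) * s) := by
  rw [Complex.cpow_def_of_ne_zero (by exact_mod_cast hx.ne'), Complex.ofReal_log hx.le]

theorem w2_norm_term {a X : ℝ} {c : O → ℂ} {n : O} (hn : Prim n) (τ : ℝ) :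
    ‖c n * (Nr n : ℂ) ^ (-(τ * I)) * (W a (Nr n / X) : ℂ)‖ = ‖c n‖ * W a (Nr n / X) := by
  rw [norm_mul, norm_mul, Complex.norm_cpow_eq_rpow_re_of_pos (Nr_pos hn.ne_zero),
    Complex.norm_real, Real.norm_of_nonneg (W_pos _ _).le]
  simp

theorem w2_term_le {a X : ℝ} {c : O → ℂ} {K A : ℝ} (hc : ∀ n, Prim n → ‖c n‖ ≤ K * Nr n ^ A) (τ : ℝ)
    (n : O) : ‖(if Prim n then c n * (Nr n : ℂ) ^ (-(τ * I)) * (W a (Nr n / X) : ℂ) else 0)‖ ≤
      |K| * (if n = 0 then 0 else Nr n ^ A * W a (Nr n / X)) := by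
  have hp := Real.rpow_nonneg (Nr_nonneg n) A
  have hw := (W_pos a (Nr n / X)).le
  by_cases hn : Prim n
  · rw [if_pos hn, if_neg hn.ne_zero, w2_norm_term hn, ← mul_assoc]
    exact mul_le_mul_of_nonneg_right ((hc n hn).trans
      (mul_le_mul_of_nonneg_right (le_abs_self K) hp)) hw
  · rw [if_neg hn, norm_zero]
    split_ifs <;> positivity

theorem w2_integrable_Wh {a : ℝ} (ha : 0 < a) (σ : ℝ) :
    Integrable fun t : ℝ => ‖Wh a (σ + t * I)‖ := by
  simp only [norm_Wh ha]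
  have h := (integrable_exp_neg_mul_sq ha).const_mul
    (Real.sqrt (4 * Real.pi * a) * Real.exp (a * σ ^ 2))
  refine h.congr (Filter.Eventually.of_forall fun t => ?_)
  simp only [mul_assoc, ← Real.exp_add]
  congr 2
  ring

theorem summable_sm {a X : ℝ} (ha : 0 < a) (hX : 0 < X) {c : O → ℂ} {K A : ℝ}
    (hc : ∀ n, Prim n → ‖c n‖ ≤ K * Nr n ^ A) (τ : ℝ) :
    Summable (fun n : O => if Prim n then c n * (Nr n : ℂ) ^ (-(τ * I)) * (W a (Nr n / X) : ℂ) else 0) :=
  Summable.of_norm_bounded ((summable_W ha hX A).mul_left |K|) (w2_term_le hc τ)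
theorem norm_sm_le {a : ℝ} (ha : 0 < a) (σ : ℝ) : ∃ C : ℝ, ∀ (c : O → ℂ) (X τ : ℝ), 0 < X →
    (∀ n, Prim n → ‖c n‖ ≤ 1) → (1 ≤ σ ∨ X ≤ 1) → ‖sm a c X τ‖ ≤ C * X ^ σ := by
  obtain ⟨C1, h1⟩ := tsum_W_le ha 0 (by norm_num)
  obtain ⟨C2, h2⟩ := tsum_W_le_small ha 0 σ
  refine ⟨max (max C1 0) C2, fun c X τ hX hc hσ => ?_⟩
  have hc' : ∀ n, Prim n → ‖c n‖ ≤ 1 * Nr n ^ (0 : ℝ) := fun n hn => by simpa using hc n hn
  have h3 : ‖sm a c X τ‖ ≤ ∑' n : O, (if n = 0 then 0 else Nr n ^ (0 : ℝ) * W a (Nr n / X)) :=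
    tsum_of_norm_bounded (summable_W ha hX 0).hasSum fun n => by
      simpa only [abs_one, one_mul] using w2_term_le (a := a) (X := X) hc' τ n
  have hp := Real.rpow_nonneg hX.le σ
  rcases le_total X 1 with h | h
  · exact h3.trans ((h2 X hX h).trans (mul_le_mul_of_nonneg_right (le_max_right _ _) hp))
  · rcases hσ with hσ | hσ
    · refine h3.trans ((h1 X hX).trans ?_)
      calc C1 * X ^ (1 + 0 : ℝ) ≤ max C1 0 * X ^ (1 + 0 : ℝ) :=
            mul_le_mul_of_nonneg_right (le_max_left _ _) (Real.rpow_nonneg hX.le _)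
        _ ≤ max C1 0 * X ^ σ :=
            mul_le_mul_of_nonneg_left (Real.rpow_le_rpow_of_exponent_le h (by linarith))
              (le_max_right _ _)
        _ ≤ _ := mul_le_mul_of_nonneg_right (le_max_left _ _) hp
    · exact h3.trans ((h2 X hX hσ).trans (mul_le_mul_of_nonneg_right (le_max_right _ _) hp))
theorem sm_conj (a : ℝ) (c : O → ℂ) (X τ : ℝ) :
    conj (sm a c X τ) = sm a (fun n => conj (c n)) X (-τ) := by
  unfold sm
  rw [Complex.conj_tsum]
  refine tsum_congr fun n => ?_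
  split_ifs with hn
  · rw [w2_cpow (Nr_pos hn.ne_zero), w2_cpow (Nr_pos hn.ne_zero), map_mul, map_mul,
      ← Complex.exp_conj, Complex.conj_ofReal]
    simp
  · simp
theorem sm_rpow {a X : ℝ} (ha : 0 < a) (hX : 0 < X) (c : O → ℂ) (σ t τ : ℝ) :
    sm a (fun n => c n * (Nr n : ℂ) ^ ((σ : ℂ) + t * I)) X τ =
      ((X ^ σ * Real.exp (a * σ ^ 2) : ℝ) : ℂ) * sm a c (X * Real.exp (2 * a * σ)) (τ - t) := by
  unfold sm
  rw [← tsum_mul_left]
  refine tsum_congr fun n => ?_
  split_ifs with hn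
  · have hN := Nr_pos hn.ne_zero
    have h1 := W_mul_rpow ha (div_pos hN hX) σ
    rw [Real.div_rpow hN.le hX.le, div_div] at h1
    have hXσ := Real.rpow_pos_of_pos hX σ
    have h2 : Nr n ^ σ * W a (Nr n / X) =
        X ^ σ * Real.exp (a * σ ^ 2) * W a (Nr n / (X * Real.exp (2 * a * σ))) := by
      rw [mul_assoc, ← h1]; field_simp
    have h3 : (Nr n : ℂ) ^ ((σ : ℂ) + t * I) * (Nr n : ℂ) ^ (-(τ * I)) =
        ((Nr n ^ σ : ℝ) : ℂ) * (Nr n : ℂ) ^ (-((τ - t : ℝ) * I)) := by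
      have hN' : (Nr n : ℂ) ≠ 0 := by exact_mod_cast hN.ne'
      rw [Complex.ofReal_cpow hN.le, ← Complex.cpow_add _ _ hN', ← Complex.cpow_add _ _ hN']
      congr 1
      push_cast
      ring
    have h4 := congrArg (fun x : ℝ => (x : ℂ)) h2
    simp only [Complex.ofReal_mul] at h4 ⊢
    linear_combination c n * (W a (Nr n / X) : ℂ) * h3 +
      c n * (Nr n : ℂ) ^ (-((τ - t : ℝ) * I)) * h4
  · simp
theorem continuous_sm {a : ℝ} (ha : 0 < a) {c : O → ℂ} {K A : ℝ}
    (hc : ∀ n, Prim n → ‖c n‖ ≤ K * Nr n ^ A) :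
    Continuous (fun p : ℝ × ℝ => sm a c (Real.exp p.1) p.2) := by
  refine continuous_iff_continuousAt.2 fun q => ?_
  set R := |q.1| + 1 with hR
  set B := -(A + 2) with hB
  have hs : {p : ℝ × ℝ | |p.1| < R} ∈ nhds q :=
    (isOpen_lt (by fun_prop) continuous_const).mem_nhds (by simp [hR])
  refine ContinuousOn.continuousAt ?_ hs
  unfold sm
  refine continuousOn_tsum (fun n => Continuous.continuousOn ?_)
    ((summable_Nr_rpow (σ := 2) (by norm_num)).mul_left
      (|K| * (Real.exp (a * B ^ 2) * Real.exp (|B| * R)))) fun n p hp => ?_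
  · split_ifs with hn
    · have hN := Nr_pos hn.ne_zero
      have e : ∀ u : ℝ, W a (Nr n / Real.exp u) =
          Real.exp (-(Real.log (Nr n) - u) ^ 2 / (4 * a)) := fun u => by
        rw [W, Real.log_div hN.ne' (Real.exp_pos u).ne', Real.log_exp]
      simp only [e, w2_cpow hN]
      fun_prop
    · exact continuous_const
  · refine (w2_term_le hc _ n).trans ?_
    rw [mul_assoc]
    refine mul_le_mul_of_nonneg_left ?_ (abs_nonneg K)
    split_ifs with hn
    · have := Real.rpow_nonneg (Nr_nonneg n) (-2)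
      positivity
    · have hN := Nr_pos hn
      have h1 := W_le_rpow ha (div_pos hN (Real.exp_pos p.1)) B
      have h2 : Nr n ^ A * (Nr n / Real.exp p.1) ^ B = Real.exp (-(p.1 * B)) * Nr n ^ (-2 : ℝ) := by
        rw [Real.div_rpow hN.le (Real.exp_pos _).le, ← Real.exp_mul, Real.exp_neg, ← mul_div_assoc,
          ← Real.rpow_add hN, show A + B = -2 by rw [hB]; ring]
        ring
      have h3 : Real.exp (-(p.1 * B)) ≤ Real.exp (|B| * R) := by
        refine Real.exp_le_exp.2 ((neg_le_abs _).trans ?_)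
        rw [abs_mul, mul_comm]
        exact mul_le_mul_of_nonneg_left (le_of_lt hp) (abs_nonneg B)
      calc Nr n ^ A * W a (Nr n / Real.exp p.1)
          ≤ Nr n ^ A * (Real.exp (a * B ^ 2) * (Nr n / Real.exp p.1) ^ B) :=
            mul_le_mul_of_nonneg_left h1 (Real.rpow_nonneg hN.le _)
        _ = Real.exp (a * B ^ 2) * Real.exp (-(p.1 * B)) * Nr n ^ (-2 : ℝ) := by
            rw [mul_left_comm, h2, mul_assoc]
        _ ≤ _ := by
            have := Real.rpow_nonneg hN.le (-2)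
            gcongr
/-- Mellin inversion on a line of absolute convergence. -/
theorem sm_eq_integral {a X : ℝ} (ha : 0 < a) (hX : 0 < X) {c : O → ℂ} {K A σ : ℝ}
    (hc : ∀ n, Prim n → ‖c n‖ ≤ K * Nr n ^ A) (hσ : 1 + A < σ) (τ : ℝ) :
    sm a c X τ = (1 / (2 * Real.pi) : ℂ) *
      ∫ t : ℝ, Dser c (σ + t * I + τ * I) * Wh a (σ + t * I) * (X : ℂ) ^ ((σ : ℂ) + t * I) := by
  set F : O → ℝ → ℂ := fun n t => (if Prim n then c n * (Nr n : ℂ) ^ (-((σ : ℂ) + t * I + τ * I)) else 0) *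
    Wh a (σ + t * I) * (X : ℂ) ^ ((σ : ℂ) + t * I) with hF
  have hG := w2_integrable_Wh ha σ
  have hbd : ∀ n t, ‖F n t‖ ≤ |K| * X ^ σ * Nr n ^ (-(σ - A)) * ‖Wh a (σ + t * I)‖ := by
    intro n t
    have hp := Real.rpow_nonneg (Nr_nonneg n) (-(σ - A))
    have hq := Real.rpow_nonneg hX.le σ
    simp only [hF]
    split_ifs with hn
    · have hN := Nr_pos hn.ne_zero
      rw [norm_mul, norm_mul, norm_mul, Complex.norm_cpow_eq_rpow_re_of_pos hN,
        Complex.norm_cpow_eq_rpow_re_of_pos hX]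
      have e1 : (-((σ : ℂ) + t * I + τ * I)).re = -σ := by simp
      have e2 : ((σ : ℂ) + t * I).re = σ := by simp
      have e3 : Nr n ^ (-(σ - A)) = Nr n ^ A * Nr n ^ (-σ) := by
        rw [← Real.rpow_add hN]; congr 1; ring
      rw [e1, e2, e3]
      have h1 : ‖c n‖ ≤ |K| * Nr n ^ A := (hc n hn).trans
        (mul_le_mul_of_nonneg_right (le_abs_self K) (Real.rpow_nonneg hN.le _))
      have := Real.rpow_nonneg hN.le (-σ)
      calc _ ≤ |K| * Nr n ^ A * Nr n ^ (-σ) * ‖Wh a (σ + t * I)‖ * X ^ σ := by gcongr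
        _ = _ := by ring
    · simp only [zero_mul, norm_zero]
      positivity
  have hint : ∀ n, Integrable (F n) := by
    intro n
    refine (hG.const_mul _).mono' (Continuous.aestronglyMeasurable ?_)
      (Filter.Eventually.of_forall (hbd n))
    simp only [hF, Wh, w2_cpow hX]
    split_ifs with hn
    · simp only [w2_cpow (Nr_pos hn.ne_zero)]
      fun_prop
    · fun_prop
  have hsum : Summable fun n => ∫ t, ‖F n t‖ := by
    refine Summable.of_nonneg_of_le (fun n => integral_nonneg fun t => norm_nonneg _) (fun n => ?_)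
      (((summable_Nr_rpow (σ := σ - A) (by linarith)).mul_left (|K| * X ^ σ)).mul_right
        (∫ t : ℝ, ‖Wh a (σ + t * I)‖))
    rw [← integral_const_mul]
    exact integral_mono (hint n).norm (hG.const_mul _) (hbd n)
  have h1 : ∀ t : ℝ, Dser c (σ + t * I + τ * I) * Wh a (σ + t * I) * (X : ℂ) ^ ((σ : ℂ) + t * I) =
      ∑' n, F n t := fun t => by
    simp only [hF, Dser, tsum_mul_right]
  simp only [h1]
  rw [← integral_tsum_of_summable_integral_norm hint hsum, ← tsum_mul_left]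
  refine tsum_congr fun n => ?_
  simp only [hF]
  split_ifs with hn
  · have hN := Nr_pos hn.ne_zero
    rw [W_mellin ha (div_pos hN hX) σ, mul_left_comm, ← integral_const_mul]
    congr 1
    refine integral_congr_ae (Filter.Eventually.of_forall fun t => ?_)
    simp only [w2_cpow hN, w2_cpow hX, w2_cpow (div_pos hN hX), Real.log_div hN.ne' hX.ne']
    have : Complex.exp ((Real.log (Nr n) : ℝ) * -((τ : ℂ) * I)) *
        Complex.exp ((Real.log (Nr n) - Real.log X : ℝ) * -((σ : ℂ) + t * I)) =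
        Complex.exp ((Real.log (Nr n) : ℝ) * -((σ : ℂ) + t * I + τ * I)) *
        Complex.exp ((Real.log X : ℝ) * ((σ : ℂ) + t * I)) := by
      rw [← Complex.exp_add, ← Complex.exp_add]
      congr 1
      rw [Complex.ofReal_sub]
      ring
    linear_combination c n * Wh a (σ + t * I) * this
  · simp
end Crest.Agent.R017

end
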