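import Crest.Agent.R017.Symbols1

/-! # Row 17: residue symbols (elementary properties; denominator first) -/

set_option autoImplicit false

noncomputable section

open scoped BigOperators ComplexConjugate
open Complex

namespace Crest.Agent.R017

open UniqueFactorizationMonoid

theorem s2_two_dvd {p : O} (hp : Prime p) : p ∣ 2 ↔ (2 : O) ∣ p :=
  ⟨fun h => (hp.associated_of_dvd prime_two h).symm.dvd,
    fun h => (prime_two.associated_of_dvd hp h).symm.dvd⟩

theorem s2_odd {p : O} (h : ¬ (2 : O) ∣ p) : nm p % 2 = 1 := by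
  by_contra hc
  apply h
  have h1 : nz p % 2 = 0 := by rw [← nm_cast]; omega
  unfold nz at h1
  obtain ⟨a, ha⟩ : ∃ a, p.re = 2 * a ∨ p.re = 2 * a + 1 := ⟨p.re / 2, by omega⟩
  obtain ⟨b, hb⟩ : ∃ b, p.im = 2 * b ∨ p.im = 2 * b + 1 := ⟨p.im / 2, by omega⟩
  rcases ha with ha | ha <;> rcases hb with hb | hb
  · refine ⟨⟨a, b⟩, ?_⟩
    rw [two_mul]
    ext
    · simp only [QuadraticAlgebra.re_add]; omega
    · simp only [QuadraticAlgebra.im_add]; omega
  · rw [ha, hb, show (2 * a) ^ 2 - 2 * a * (2 * b + 1) + (2 * b + 1) ^ 2 =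
      2 * (2 * a ^ 2 - a * (2 * b + 1) + 2 * b ^ 2 + 2 * b) + 1 by ring] at h1
    omega
  · rw [ha, hb, show (2 * a + 1) ^ 2 - (2 * a + 1) * (2 * b) + (2 * b) ^ 2 =
      2 * (2 * a ^ 2 + 2 * a - (2 * a + 1) * b + 2 * b ^ 2) + 1 by ring] at h1
    omega
  · rw [ha, hb, show (2 * a + 1) ^ 2 - (2 * a + 1) * (2 * b + 1) + (2 * b + 1) ^ 2 =
      2 * (2 * a ^ 2 + a - 2 * a * b + 2 * b ^ 2 + b) + 1 by ring] at h1
    omega

theorem s2_zero {p x : O} (h : p ∣ 2 * x) : rhoP p x = 0 := if_pos h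

theorem s2_one {p x : O} (h : ¬ p ∣ 2 * x) (h1 : p ∣ x ^ ((nm p - 1) / 2) - 1) : rhoP p x = 1 := by
  unfold rhoP
  rw [if_neg h, if_pos h1]

theorem s2_neg' {p x : O} (h : ¬ p ∣ 2 * x) (h1 : ¬ p ∣ x ^ ((nm p - 1) / 2) - 1) :
    rhoP p x = -1 := by
  unfold rhoP
  rw [if_neg h, if_neg h1]

theorem s2_neg {p x : O} (h : ¬ p ∣ 2 * x) (h1 : p ∣ x ^ ((nm p - 1) / 2) + 1) : rhoP p x = -1 := by
  refine s2_neg' h fun h2 => h (Dvd.dvd.mul_right ?_ x)
  have := dvd_sub h1 h2
  rwa [show x ^ ((nm p - 1) / 2) + 1 - (x ^ ((nm p - 1) / 2) - 1) = 2 by ring] at this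

theorem s2_spec {p x : O} (hp : Prime p) (h : ¬ p ∣ 2 * x) :
    p ∣ x ^ ((nm p - 1) / 2) - 1 ∨ p ∣ x ^ ((nm p - 1) / 2) + 1 := by
  have h2 : ¬ (2 : O) ∣ p := fun h2 => h (((s2_two_dvd hp).2 h2).mul_right x)
  have h3 := fermat hp fun hx => h (Dvd.dvd.mul_left hx 2)
  have h4 := s2_odd h2
  rw [show nm p - 1 = (nm p - 1) / 2 * 2 by omega, pow_mul] at h3
  refine hp.dvd_or_dvd ?_
  rwa [show ∀ w : O, (w - 1) * (w + 1) = w ^ 2 - 1 from fun w => by ring]

theorem s2_mul {p : O} (hp : Prime p) (x y : O) : rhoP p (x * y) = rhoP p x * rhoP p y := by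
  by_cases hx : p ∣ 2 * x
  · rw [s2_zero hx, zero_mul, s2_zero (by rw [← mul_assoc]; exact hx.mul_right y)]
  by_cases hy : p ∣ 2 * y
  · rw [s2_zero hy, mul_zero, s2_zero (by rw [mul_left_comm]; exact hy.mul_left x)]
  have hxy : ¬ p ∣ 2 * (x * y) := fun h => by
    rw [← mul_assoc] at h
    exact (hp.dvd_or_dvd h).elim hx fun h' => hy (h'.mul_left 2)
  set e := (nm p - 1) / 2 with he
  rcases s2_spec hp hx with h1 | h1 <;> rcases s2_spec hp hy with h2 | h2
  · rw [s2_one hx h1, s2_one hy h2, s2_one hxy, mul_one]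
    have := dvd_add (h1.mul_right (y ^ e)) h2
    rwa [show (x ^ e - 1) * y ^ e + (y ^ e - 1) = (x * y) ^ e - 1 by ring] at this
  · rw [s2_one hx h1, s2_neg hy h2, s2_neg hxy, one_mul]
    have := dvd_add (h1.mul_right (y ^ e)) h2
    rwa [show (x ^ e - 1) * y ^ e + (y ^ e + 1) = (x * y) ^ e + 1 by ring] at this
  · rw [s2_neg hx h1, s2_one hy h2, s2_neg hxy, mul_one]
    have := dvd_sub (h1.mul_right (y ^ e)) h2
    rwa [show (x ^ e + 1) * y ^ e - (y ^ e - 1) = (x * y) ^ e + 1 by ring] at this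
  · rw [s2_neg hx h1, s2_neg hy h2, s2_one hxy, neg_mul_neg, mul_one]
    have := dvd_sub (h1.mul_right (y ^ e)) h2
    rwa [show (x ^ e + 1) * y ^ e - (y ^ e + 1) = (x * y) ^ e - 1 by ring] at this

theorem s2_assoc {p q : O} (h : Associated p q) (x : O) : rhoP p x = rhoP q x := by
  have h1 : nm p = nm q := by
    have := Nr_eq_of_associated h
    unfold Nr at this
    exact_mod_cast this
  classical
  unfold rhoP
  rw [h1]
  exact if_congr h.dvd_iff_dvd_left rfl (if_congr h.dvd_iff_dvd_left rfl rfl)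

theorem s2_congr {p x y : O} (h : p ∣ x - y) : rhoP p x = rhoP p y := by
  have h1 : p ∣ 2 * x ↔ p ∣ 2 * y := dvd_iff_dvd_of_dvd_sub (by rw [← mul_sub]; exact h.mul_left 2)
  have h2 : p ∣ x ^ ((nm p - 1) / 2) - 1 ↔ p ∣ y ^ ((nm p - 1) / 2) - 1 :=
    dvd_iff_dvd_of_dvd_sub (by rw [sub_sub_sub_cancel_right]; exact h.trans (sub_dvd_pow_sub_pow _ _ _))
  classical
  unfold rhoP
  exact if_congr h1 rfl (if_congr h2 rfl rfl)

theorem s2_cases (p x : O) : rhoP p x = 0 ∨ rhoP p x = 1 ∨ rhoP p x = -1 := by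
  unfold rhoP
  split_ifs <;> simp

theorem s2_eq_zero {p x : O} : rhoP p x = 0 ↔ p ∣ 2 * x := by
  unfold rhoP
  split_ifs with h1 h2 <;> simp [h1]

theorem s2_rel {s t : Multiset O} (h : Multiset.Rel Associated s t) (x : O) :
    (s.map fun p => rhoP p x).prod = (t.map fun p => rhoP p x).prod := by
  induction h with
  | zero => rfl
  | cons h _ ih => rw [Multiset.map_cons, Multiset.map_cons, Multiset.prod_cons, Multiset.prod_cons,
      ih, s2_assoc h]

/-- Euler's criterion -/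
theorem s2_euler {p : O} (hp : Prime p) (h2 : ¬ (2 : O) ∣ p) :
    (∀ y, ¬ p ∣ y → (∀ z, ¬ p ∣ z ^ 2 - y) → rhoP p y = -1) ∧ ∃ y, ¬ p ∣ y ∧ ∀ z, ¬ p ∣ z ^ 2 - y := by
  classical
  have hmax : (Ideal.span {p}).IsMaximal := PrincipalIdealRing.isMaximal_of_irreducible hp.irreducible
  let : Field (O ⧸ Ideal.span {p}) := Ideal.Quotient.field _
  have hc := card_quot hp.ne_zero
  have hodd := s2_odd h2
  have : Finite (O ⧸ Ideal.span {p}) := Nat.finite_of_card_ne_zero (by omega)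
  let : Fintype (O ⧸ Ideal.span {p}) := Fintype.ofFinite _
  rw [Nat.card_eq_fintype_card] at hc
  have hch : ringChar (O ⧸ Ideal.span {p}) ≠ 2 := fun h => by
    have := FiniteField.even_card_iff_char_two.1 h
    omega
  have hz : ∀ y : O, Ideal.Quotient.mk (Ideal.span {p}) y = 0 ↔ p ∣ y := fun y => by
    rw [Ideal.Quotient.eq_zero_iff_mem, Ideal.mem_span_singleton]
  have hsq : ∀ y : O, IsSquare (Ideal.Quotient.mk (Ideal.span {p}) y) ↔ ∃ z, p ∣ z ^ 2 - y := fun y => by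
    constructor
    · rintro ⟨w, hw⟩
      obtain ⟨z, rfl⟩ := Ideal.Quotient.mk_surjective w
      exact ⟨z, (hz _).1 (by rw [map_sub, map_pow, hw, sq, sub_self])⟩
    · rintro ⟨z, h⟩
      have := (hz _).2 h
      rw [map_sub, map_pow, sub_eq_zero, sq] at this
      exact ⟨_, this.symm⟩
  refine ⟨fun y hy hn => s2_neg' (fun h => (hp.dvd_or_dvd h).elim
    (fun h' => h2 ((s2_two_dvd hp).1 h')) hy) fun h => ?_, ?_⟩
  · refine not_exists.2 hn ((hsq y).1 ((FiniteField.isSquare_iff hch (mt (hz y).1 hy)).2 ?_))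
    have := (hz _).2 h
    rwa [map_sub, map_pow, map_one, sub_eq_zero, show (nm p - 1) / 2 = nm p / 2 by omega, ← hc] at this
  · obtain ⟨a, ha⟩ := FiniteField.exists_nonsquare hch
    obtain ⟨y, rfl⟩ := Ideal.Quotient.mk_surjective a
    refine ⟨y, fun h => ha ?_, fun z h => ha ((hsq y).2 ⟨z, h⟩)⟩
    rw [(hz y).2 h]
    exact IsSquare.zero

/-! ### quadratic symbol -/
theorem rho_prime {p : O} (hp : Prime p) (x : O) : rho p x = rhoP p x := by
  obtain ⟨b, hb, h⟩ := factors_eq_singleton_of_irreducible hp.irreducible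
  unfold rho
  rw [h, Multiset.map_singleton, Multiset.prod_singleton, s2_assoc hb]
theorem rho_mul_left {m n : O} (hm : m ≠ 0) (hn : n ≠ 0) (x : O) :
    rho (m * n) x = rho m x * rho n x := by
  unfold rho
  rw [s2_rel (factors_mul hm hn), Multiset.map_add, Multiset.prod_add]
theorem rho_unit_left {u : O} (hu : IsUnit u) (x : O) : rho u x = 1 := by
  unfold rho
  rw [factors_of_isUnit hu, Multiset.map_zero, Multiset.prod_zero]
theorem rho_pow_left {n : O} (hn : n ≠ 0) (k : ℕ) (x : O) : rho (n ^ k) x = rho n x ^ k := by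
  induction k with
  | zero => rw [pow_zero, pow_zero, rho_unit_left isUnit_one]
  | succ k ih => rw [pow_succ, pow_succ, rho_mul_left (pow_ne_zero _ hn) hn, ih]
theorem rho_associated {m n : O} (h : Associated m n) (x : O) : rho m x = rho n x :=
  s2_rel (factors_rel_of_associated h) x
theorem rho_mul_right (n x y : O) : rho n (x * y) = rho n x * rho n y := by
  unfold rho
  rw [← Multiset.prod_map_mul]
  exact congrArg _ (Multiset.map_congr rfl fun p hp => s2_mul (prime_of_factor p hp) x y)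
theorem rho_pow_right (n x : O) {k : ℕ} (hk : k ≠ 0) : rho n (x ^ k) = rho n x ^ k := by
  obtain ⟨k, rfl⟩ := Nat.exists_eq_succ_of_ne_zero hk
  induction k with
  | zero => simp
  | succ k ih => rw [pow_succ, rho_mul_right, ih (Nat.succ_ne_zero _), ← pow_succ]
theorem rho_one_right {n : O} (hn : ¬ (2 : O) ∣ n) : rho n 1 = 1 := by
  refine Multiset.prod_eq_one fun z hz => ?_
  obtain ⟨p, hp, rfl⟩ := Multiset.mem_map.1 hz
  refine s2_one (fun h => hn ?_) (by simp)
  rw [mul_one] at h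
  exact ((s2_two_dvd (prime_of_factor p hp)).1 h).trans (dvd_of_mem_factors hp)
theorem rho_cases (n x : O) : rho n x = 0 ∨ rho n x = 1 ∨ rho n x = -1 := by
  unfold rho
  induction factors n using Multiset.induction_on with
  | empty => simp
  | cons p s ih =>
    rw [Multiset.map_cons, Multiset.prod_cons]
    rcases s2_cases p x with h | h | h <;> rcases ih with h' | h' | h' <;> simp [h, h']
theorem rho_sq {n x : O} (h : rho n x ≠ 0) : rho n x ^ 2 = 1 := by
  rcases rho_cases n x with h' | h' | h'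
  · exact absurd h' h
  · rw [h', one_pow]
  · rw [h', neg_one_sq]
theorem rho_om {n : O} (hn : ¬ (2 : O) ∣ n) : rho n om = 1 := by
  have h1 : rho n (om ^ 2) * rho n om = 1 := by
    rw [← rho_mul_right, ← pow_succ, om_cube, rho_one_right hn]
  have h2 : rho n om ≠ 0 := right_ne_zero_of_mul_eq_one h1
  rwa [rho_pow_right _ _ two_ne_zero, rho_sq h2, one_mul] at h1
theorem rho_congr {n x y : O} (hn : n ≠ 0) (h : rad n ∣ x - y) : rho n x = rho n y :=
  congrArg Multiset.prod (Multiset.map_congr rfl fun p hp => s2_congr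
    (((prime_dvd_rad hn (prime_of_factor p hp)).2 (dvd_of_mem_factors hp)).trans h))
theorem rho_congr' {n x y : O} (hn : n ≠ 0) (h : n ∣ x - y) : rho n x = rho n y :=
  rho_congr hn ((rad_dvd hn).trans h)
theorem rho_eq_zero {n x : O} (hn : n ≠ 0) : rho n x = 0 ↔ (2 : O) ∣ n ∨ ¬ IsCoprime n x := by
  unfold rho
  simp only [Multiset.prod_eq_zero_iff, Multiset.mem_map, s2_eq_zero]
  constructor
  · rintro ⟨p, hp, h⟩
    have hpp := prime_of_factor p hp
    refine (hpp.dvd_or_dvd h).imp (fun h' => ((s2_two_dvd hpp).1 h').trans (dvd_of_mem_factors hp))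
      fun h' hc => hpp.not_isUnit (hc.isUnit_of_dvd' (dvd_of_mem_factors hp) h')
  · rintro (h | h)
    · obtain ⟨q, hq, ha⟩ := exists_mem_factors_of_dvd hn prime_two.irreducible h
      exact ⟨q, hq, ha.symm.dvd.mul_right x⟩
    · by_contra hc
      refine h (isCoprime_of_prime_dvd (fun h' => hn h'.1) fun z hz hzn hzx => hc ?_)
      obtain ⟨q, hq, ha⟩ := exists_mem_factors_of_dvd hn hz.irreducible hzn
      exact ⟨q, hq, (ha.symm.dvd.trans hzx).mul_left 2⟩
theorem norm_rho_le (n x : O) : ‖rho n x‖ ≤ 1 := by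
  rcases rho_cases n x with h | h | h <;> simp [h]
theorem conj_rho (n x : O) : conj (rho n x) = rho n x := by
  rcases rho_cases n x with h | h | h <;> simp [h]
open Classical in
/-- Number of square roots modulo an odd prime. -/
theorem card_sqrt_prime {p : O} (hp : Prime p) (h2 : ¬ (2 : O) ∣ p) (y : O) :
    ((((reps p).filter (fun x => p ∣ x ^ 2 - y)).card : ℕ) : ℂ) = 1 + rho p y := by
  by_cases hy : p ∣ y
  · obtain ⟨x, ⟨hx, hx0⟩, hu⟩ := reps_existsUnique hp.ne_zero 0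
    have h1 : (reps p).filter (fun x => p ∣ x ^ 2 - y) = {x} := by
      ext w
      rw [Finset.mem_filter, Finset.mem_singleton, dvd_sub_left hy, hp.dvd_pow_iff_dvd two_ne_zero]
      exact ⟨fun h => hu w ⟨h.1, by rw [sub_zero]; exact h.2⟩,
        fun h => h ▸ ⟨hx, by rwa [sub_zero] at hx0⟩⟩
    rw [h1, rho_prime hp, s2_zero (hy.mul_left 2)]
    simp
  by_cases hs : ∃ z, p ∣ z ^ 2 - y
  · obtain ⟨z, hz⟩ := hs
    have hz0 : ¬ p ∣ z := fun h => hy ((dvd_sub_right (dvd_pow h two_ne_zero)).1 hz)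
    have h2z : ¬ p ∣ 2 * z := fun h =>
      (hp.dvd_or_dvd h).elim (fun h' => h2 ((s2_two_dvd hp).1 h')) hz0
    obtain ⟨a, ⟨ha, ha0⟩, hua⟩ := reps_existsUnique hp.ne_zero z
    obtain ⟨b, ⟨hb, hb0⟩, hub⟩ := reps_existsUnique hp.ne_zero (-z)
    have hab : a ≠ b := fun h => h2z (by
      have := dvd_sub hb0 (h ▸ ha0)
      rwa [show b - -z - (b - z) = 2 * z by ring] at this)
    have key : ∀ w, p ∣ w ^ 2 - y ↔ p ∣ w - z ∨ p ∣ w - -z := fun w => by
      rw [← hp.dvd_mul]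
      exact dvd_iff_dvd_of_dvd_sub (by
        rwa [show w ^ 2 - y - (w - z) * (w - -z) = z ^ 2 - y by ring])
    have h1 : (reps p).filter (fun x => p ∣ x ^ 2 - y) = {a, b} := by
      ext w
      rw [Finset.mem_filter, Finset.mem_insert, Finset.mem_singleton, key]
      constructor
      · rintro ⟨hw, h | h⟩
        · exact Or.inl (hua w ⟨hw, h⟩)
        · exact Or.inr (hub w ⟨hw, h⟩)
      · rintro (rfl | rfl)
        · exact ⟨ha, Or.inl ha0⟩
        · exact ⟨hb, Or.inr hb0⟩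
    rw [h1, Finset.card_pair hab, ← rho_congr' hp.ne_zero hz, rho_pow_right _ _ two_ne_zero,
      rho_sq (by rw [rho_prime hp]; exact mt s2_eq_zero.1 h2z)]
    norm_num
  · rw [Finset.filter_eq_empty_iff.2 fun w _ h => hs ⟨w, h⟩, rho_prime hp,
      (s2_euler hp h2).1 y hy (not_exists.1 hs)]
    simp

/-! ### sextic symbol -/
theorem chi_mul_left {m n : O} (hm : m ≠ 0) (hn : n ≠ 0) (x : O) :
    chi (m * n) x = chi m x * chi n x := by
  unfold chi
  rw [rho_mul_left hm hn, kap_mul_left hm hn]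
  ring
theorem chi_pow_left {n : O} (hn : n ≠ 0) (k : ℕ) (x : O) : chi (n ^ k) x = chi n x ^ k := by
  unfold chi
  rw [rho_pow_left hn, kap_pow_left hn]
  ring
theorem chi_unit_left {u : O} (hu : IsUnit u) (x : O) : chi u x = 1 := by
  unfold chi
  rw [rho_unit_left hu, kap_unit_left hu]
  ring
theorem chi_associated {m n : O} (h : Associated m n) (x : O) : chi m x = chi n x := by
  unfold chi
  rw [rho_associated h, kap_associated h]
theorem chi_mul_right (n x y : O) : chi n (x * y) = chi n x * chi n y := by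
  unfold chi
  rw [rho_mul_right, kap_mul_right]
  ring
theorem chi_pow_right (n x : O) {k : ℕ} (hk : k ≠ 0) : chi n (x ^ k) = chi n x ^ k := by
  unfold chi
  rw [rho_pow_right _ _ hk, kap_pow_right _ _ hk]
  ring
theorem chi_one_right {n : O} (hn : IsCoprime n 6) : chi n 1 = 1 := by
  unfold chi
  rw [rho_one_right (coprime_six_iff.1 hn).2, kap_one_right (coprime_six_iff.1 hn).1]
  ring
theorem chi_congr {n x y : O} (hn : n ≠ 0) (h : rad n ∣ x - y) : chi n x = chi n y := by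
  unfold chi
  rw [rho_congr hn h, kap_congr hn h]
theorem chi_congr' {n x y : O} (hn : n ≠ 0) (h : n ∣ x - y) : chi n x = chi n y :=
  chi_congr hn ((rad_dvd hn).trans h)
theorem chi_eq_zero {n x : O} (hn : n ≠ 0) : chi n x = 0 ↔ ¬ IsCoprime n (6 * x) := by
  unfold chi
  rw [mul_eq_zero, pow_eq_zero_iff two_ne_zero, rho_eq_zero hn, kap_eq_zero hn,
    IsCoprime.mul_right_iff, coprime_six_iff]
  tauto
theorem chi_six {n x : O} (h : chi n x ≠ 0) : chi n x ^ 6 = 1 := by
  have h1 := rho_sq (left_ne_zero_of_mul h)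
  have h2 := kap_cube (pow_ne_zero_iff two_ne_zero |>.1 (right_ne_zero_of_mul h))
  calc chi n x ^ 6 = (rho n x ^ 2) ^ 3 * (kap n x ^ 3) ^ 4 := by unfold chi; ring
    _ = 1 := by rw [h1, h2]; ring
open Classical in
theorem chi_pow_six {n : O} (hn : n ≠ 0) (x : O) :
    chi n x ^ 6 = if IsCoprime n (6 * x) then 1 else 0 := by
  split_ifs with h
  · exact chi_six fun h' => (chi_eq_zero hn).1 h' h
  · rw [(chi_eq_zero hn).2 h]
    ring
theorem norm_chi_le (n x : O) : ‖chi n x‖ ≤ 1 := by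
  unfold chi
  rw [norm_mul, norm_pow]
  exact mul_le_one₀ (norm_rho_le n x) (by positivity) (pow_le_one₀ (norm_nonneg _) (norm_kap_le n x))
theorem norm_chi {n x : O} (h : chi n x ≠ 0) : ‖chi n x‖ = 1 :=
  norm_eq_one_of_pow_eq_one (chi_six h) (by norm_num)
theorem conj_chi (n x : O) : conj (chi n x) = chi n x ^ 5 := by
  by_cases h : chi n x = 0
  · rw [h]; simp
  have h1 := rho_sq (left_ne_zero_of_mul h)
  have h2 := kap_cube (pow_ne_zero_iff two_ne_zero |>.1 (right_ne_zero_of_mul h))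
  calc conj (chi n x) = rho n x * (kap n x ^ 2) ^ 2 := by
        unfold chi
        rw [map_mul, map_pow, conj_rho, conj_kap]
    _ = (rho n x ^ 2) ^ 2 * (kap n x ^ 3) ^ 2 * (rho n x * (kap n x ^ 2) ^ 2) := by rw [h1, h2]; ring
    _ = _ := by unfold chi; ring
theorem chi_sq {n : O} (hn : IsCoprime n 6) (x : O) : chi n x ^ 2 = kap n x := by
  obtain ⟨h3, h2⟩ := coprime_six_iff.1 hn
  have hn0 : n ≠ 0 := fun h => h3 (h ▸ dvd_zero _)
  by_cases h : kap n x = 0
  · unfold chi; rw [h]; ring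
  have h4 : rho n x ≠ 0 := fun h' =>
    h ((kap_eq_zero hn0).2 (Or.inr (((rho_eq_zero hn0).1 h').resolve_left h2)))
  calc chi n x ^ 2 = rho n x ^ 2 * kap n x ^ 3 * kap n x := by unfold chi; ring
    _ = _ := by rw [rho_sq h4, kap_cube h]; ring
theorem chi_cube {n : O} (hn : IsCoprime n 6) (x : O) : chi n x ^ 3 = rho n x := by
  obtain ⟨h3, h2⟩ := coprime_six_iff.1 hn
  have hn0 : n ≠ 0 := fun h => h3 (h ▸ dvd_zero _)
  by_cases h : rho n x = 0
  · unfold chi; rw [h]; ring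
  have h4 : kap n x ≠ 0 := fun h' =>
    h ((rho_eq_zero hn0).2 (Or.inr (((kap_eq_zero hn0).1 h').resolve_left h3)))
  calc chi n x ^ 3 = rho n x ^ 2 * (kap n x ^ 3) ^ 2 * rho n x := by unfold chi; ring
    _ = _ := by rw [rho_sq h, kap_cube h4]; ring
/-- The sextic symbol modulo a prime has exact order six. -/
theorem chi_order {p : O} (hp : Prime p) (h6 : IsCoprime p 6) {k : ℕ} (hk : ¬ 6 ∣ k) :
    ∃ x, chi p x ^ k ≠ 0 ∧ chi p x ^ k ≠ 1 := by
  obtain ⟨h3, h2⟩ := coprime_six_iff.1 h6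
  by_cases hk3 : 3 ∣ k
  · obtain ⟨y, hy, hn⟩ := (s2_euler hp h2).2
    have h1 := chi_cube h6 y
    rw [rho_prime hp, (s2_euler hp h2).1 y hy hn] at h1
    obtain ⟨j, rfl⟩ := hk3
    refine ⟨y, ?_⟩
    rw [pow_mul, h1, Odd.neg_one_pow (Nat.odd_iff.2 (by omega))]
    norm_num
  · obtain ⟨a, ha⟩ := kap_nontrivial hp h3
    have h1 : chi p (a ^ 2) = omC := by rw [chi_pow_right _ _ two_ne_zero, chi_sq h6, ha]
    have hc : omC ^ 3 = 1 := by linear_combination (omC - 1) * omC_sq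
    have hne : omC ≠ 1 := fun h => by
      have := omC_sq
      rw [h] at this
      norm_num at this
    refine ⟨a ^ 2, ?_⟩
    rw [h1]
    refine ⟨pow_ne_zero _ fun h => by rw [h] at hc; norm_num at hc, fun h => hne ?_⟩
    have h4 : Nat.gcd k 3 = 1 := ((Nat.Prime.coprime_iff_not_dvd Nat.prime_three).2 hk3).symm
    have h5 := pow_gcd_eq_one.2 ⟨h, hc⟩
    rwa [h4, pow_one] at h5

end Crest.Agent.R017

end
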