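import Crest.Agent.R017.Arith

/-! # Row 17: residue symbols (elementary properties; denominator first) -/

set_option autoImplicit false

noncomputable section

open scoped BigOperators ComplexConjugate
open Complex

namespace Crest.Agent.R017

theorem card_quot {n : O} (hn : n ≠ 0) : Nat.card (O ⧸ Ideal.span {n}) = nm n := by
  rw [← card_reps hn, ← Nat.card_eq_finsetCard]
  refine (Nat.card_congr (Equiv.ofBijective
    (fun x : reps n => Ideal.Quotient.mk (Ideal.span {n}) x.1) ⟨fun x y h => ?_, fun q => ?_⟩)).symm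
  · rw [Ideal.Quotient.eq, Ideal.mem_span_singleton] at h
    exact Subtype.ext ((reps_existsUnique hn y.1).unique ⟨x.2, h⟩ ⟨y.2, by simp⟩)
  · obtain ⟨y, rfl⟩ := Ideal.Quotient.mk_surjective q
    obtain ⟨x, ⟨hx, h⟩, -⟩ := reps_existsUnique hn y
    exact ⟨⟨x, hx⟩, Ideal.Quotient.eq.2 (Ideal.mem_span_singleton.2 h)⟩

theorem s1_finite {n : O} (hn : n ≠ 0) : Finite (O ⧸ Ideal.span {n}) :=
  Nat.finite_of_card_ne_zero (by rw [card_quot hn]; exact fun h => hn (nm_eq_zero.1 h))

theorem s1_max {p : O} (hp : Prime p) : (Ideal.span {p}).IsMaximal :=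
  PrincipalIdealRing.isMaximal_of_irreducible hp.irreducible

theorem fermat {p x : O} (hp : Prime p) (hx : ¬ p ∣ x) : p ∣ x ^ (nm p - 1) - 1 := by
  have := s1_finite hp.ne_zero
  have := s1_max hp
  let := Ideal.Quotient.field (Ideal.span {p})
  let := Fintype.ofFinite (O ⧸ Ideal.span {p})
  have h := FiniteField.pow_card_sub_one_eq_one (Ideal.Quotient.mk (Ideal.span {p}) x)
    (fun h => hx (Ideal.mem_span_singleton.1 (Ideal.Quotient.eq_zero_iff_mem.1 h)))
  rw [← Nat.card_eq_fintype_card, card_quot hp.ne_zero] at h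
  rw [← Ideal.mem_span_singleton, ← Ideal.Quotient.eq, map_pow, map_one]
  exact h


/-! ### cubic symbol -/
theorem s1_nm_assoc {m n : O} (h : Associated m n) : nm m = nm n := by
  have := Nr_eq_of_associated h
  unfold Nr at this
  exact_mod_cast this

theorem s1_kapP_assoc {p q : O} (h : Associated p q) (x : O) : kapP p x = kapP q x := by
  classical
  unfold kapP
  rw [s1_nm_assoc h]
  exact Finset.sum_congr rfl fun j _ => if_congr h.dvd_iff_dvd_left rfl rfl

theorem s1_prod_rel {s t : Multiset O} (h : Multiset.Rel Associated s t) (x : O) :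
    (s.map fun p => kapP p x).prod = (t.map fun p => kapP p x).prod := by
  induction h with
  | zero => rfl
  | cons h _ ih => simp only [Multiset.map_cons, Multiset.prod_cons, s1_kapP_assoc h, ih]

theorem s1_nm_mod {n : O} (hn : ¬ lam ∣ n) : nm n % 3 = 1 := by
  obtain ⟨u, hu, h⟩ := exists_prim hn
  rw [s1_nm_assoc (associated_unit_mul_right n u hu)]
  exact h.nm_mod_three

theorem s1_omC_cube : omC ^ 3 = 1 := by rw [← emb_om, ← map_pow, om_cube, map_one]

theorem s1_omC_sum : 1 + omC + omC ^ 2 = 0 := by linear_combination omC_sq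

theorem s1_star_om : star om = om ^ 2 := by
  ext <;> simp [om, sq]

theorem s1_conj_omC : conj omC = omC ^ 2 := by
  rw [← emb_om, ← emb_star, s1_star_om, map_pow]

theorem s1_not_three {p : O} (hp : Prime p) (h3 : ¬ lam ∣ p) : ¬ p ∣ 3 := fun h =>
  h3 ((hp.associated_of_dvd prime_lam
    (hp.dvd_of_dvd_pow (associated_lam_sq.dvd_iff_dvd_right.2 h))).symm.dvd)

theorem s1_distinct {p : O} (hp : Prime p) (h3 : ¬ lam ∣ p) {i j : ℕ} (hi : i < 3) (hj : j < 3)
    (h : p ∣ om ^ i - om ^ j) : i = j := by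
  by_contra hne
  refine s1_not_three hp h3 (h.trans ?_)
  refine ⟨star (om ^ i - om ^ j), ?_⟩
  interval_cases i <;> interval_cases j <;> first | exact absurd rfl hne | decide

theorem s1_kapP_eq {p x : O} (hp : Prime p) (h3 : ¬ lam ∣ p) {j : ℕ}
    (h : p ∣ x ^ ((nm p - 1) / 3) - om ^ j) : kapP p x = omC ^ j := by
  have hj : j % 3 < 3 := Nat.mod_lt _ (by norm_num)
  rw [pow_eq_pow_mod j om_cube] at h
  rw [pow_eq_pow_mod j s1_omC_cube, kapP, Finset.sum_eq_single (j % 3), if_pos h, map_pow, emb_om]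
  · intro i hi hne
    refine if_neg fun h' => hne (s1_distinct hp h3 (Finset.mem_range.1 hi) hj ?_)
    simpa using dvd_sub h h'
  · exact fun h => absurd (Finset.mem_range.2 hj) h

theorem s1_kapP_spec {p x : O} (hp : Prime p) (h3 : ¬ lam ∣ p) (hx : ¬ p ∣ x) :
    ∃ j : ℕ, j < 3 ∧ p ∣ x ^ ((nm p - 1) / 3) - om ^ j ∧ kapP p x = omC ^ j := by
  have h := fermat hp hx
  have h1 := s1_nm_mod h3
  have h2 : nm p - 1 = (nm p - 1) / 3 * 3 := by omega
  rw [h2, pow_mul] at h
  set y := x ^ ((nm p - 1) / 3)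
  have h4 : y ^ 3 - 1 = (y - om ^ 0) * ((y - om ^ 1) * (y - om ^ 2)) := by
    linear_combination (y ^ 2 - y) * om_sq + (1 - y) * om_cube
  rw [h4] at h
  rcases hp.dvd_or_dvd h with h | h
  · exact ⟨0, by norm_num, h, s1_kapP_eq hp h3 h⟩
  · rcases hp.dvd_or_dvd h with h | h
    · exact ⟨1, by norm_num, h, s1_kapP_eq hp h3 h⟩
    · exact ⟨2, by norm_num, h, s1_kapP_eq hp h3 h⟩

theorem s1_kapP_lam {p : O} (hp : Prime p) (h3 : lam ∣ p) (x : O) : kapP p x = 0 := by
  rw [← s1_kapP_assoc (prime_lam.associated_of_dvd hp h3)]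
  have h0 : (nm lam - 1) / 3 = 0 := by decide
  have h1 : lam ∣ 1 - om ^ 1 := ⟨1, by decide⟩
  have h2 : lam ∣ 1 - om ^ 2 := ⟨1 + om, by decide⟩
  simp only [kapP, h0, Finset.sum_range_succ, Finset.sum_range_zero, pow_zero, sub_self, dvd_zero,
    if_true, h1, h2, map_pow, emb_om]
  linear_combination s1_omC_sum

theorem s1_kapP_dvd {p x : O} (hp : Prime p) (hx : p ∣ x) : kapP p x = 0 := by
  by_cases h3 : lam ∣ p
  · exact s1_kapP_lam hp h3 x
  refine Finset.sum_eq_zero fun j _ => if_neg fun h => ?_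
  have h4 : 4 ≤ nm p := by
    have := four_le_Nr_prime hp h3
    unfold Nr at this
    exact_mod_cast this
  have h5 : p ∣ om ^ j := by
    simpa using dvd_sub (dvd_pow hx (show (nm p - 1) / 3 ≠ 0 by omega)) h
  exact hp.not_isUnit (isUnit_of_dvd_unit h5 ((IsUnit.of_pow_eq_one om_cube (by norm_num)).pow j))

theorem s1_omC_ne : omC ≠ 0 := fun h => by simpa [h] using s1_omC_cube

theorem s1_kapP_zero {p x : O} (hp : Prime p) : kapP p x = 0 ↔ lam ∣ p ∨ p ∣ x := by
  refine ⟨fun h => ?_, fun h => h.elim (fun h => s1_kapP_lam hp h x) (s1_kapP_dvd hp)⟩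
  by_contra h'
  rw [not_or] at h'
  obtain ⟨j, -, -, hj⟩ := s1_kapP_spec hp h'.1 h'.2
  exact pow_ne_zero j s1_omC_ne (hj.symm.trans h)

theorem s1_kapP_mul {p : O} (hp : Prime p) (x y : O) : kapP p (x * y) = kapP p x * kapP p y := by
  by_cases h3 : lam ∣ p
  · simp only [s1_kapP_lam hp h3, mul_zero]
  by_cases hx : p ∣ x
  · rw [s1_kapP_dvd hp hx, s1_kapP_dvd hp (hx.mul_right y), zero_mul]
  by_cases hy : p ∣ y
  · rw [s1_kapP_dvd hp hy, s1_kapP_dvd hp (hy.mul_left x), mul_zero]
  obtain ⟨i, -, hi, ei⟩ := s1_kapP_spec hp h3 hx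
  obtain ⟨j, -, hj, ej⟩ := s1_kapP_spec hp h3 hy
  rw [ei, ej, ← pow_add]
  refine s1_kapP_eq hp h3 ?_
  convert dvd_add (hi.mul_right (y ^ ((nm p - 1) / 3))) (hj.mul_left (om ^ i)) using 1
  rw [mul_pow, pow_add]
  ring

theorem s1_kapP_cube {p x : O} (hp : Prime p) (h : kapP p x ≠ 0) : kapP p x ^ 3 = 1 := by
  rw [Ne, s1_kapP_zero hp, not_or] at h
  obtain ⟨j, -, -, hj⟩ := s1_kapP_spec hp h.1 h.2
  rw [hj, ← pow_mul, mul_comm, pow_mul, s1_omC_cube, one_pow]

theorem s1_kapP_congr {p x y : O} (h : p ∣ x - y) : kapP p x = kapP p y := by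
  classical
  unfold kapP
  refine Finset.sum_congr rfl fun j _ => if_congr ?_ rfl rfl
  refine dvd_iff_dvd_of_dvd_sub ?_
  simpa using h.trans (sub_dvd_pow_sub_pow x y _)

theorem s1_kap_congr {n x y : O}
    (h : ∀ p, Prime p → p ∣ n → kapP p x = kapP p y) : kap n x = kap n y :=
  congrArg Multiset.prod (Multiset.map_congr rfl fun p hp =>
    h p (UniqueFactorizationMonoid.prime_of_factor p hp)
      (UniqueFactorizationMonoid.dvd_of_mem_factors hp))

theorem s1_kap_zero (x : O) : kap 0 x = 1 := by simp [kap]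

theorem kap_prime {p : O} (hp : Prime p) (x : O) : kap p x = kapP p x := by
  have h : Multiset.Rel Associated (UniqueFactorizationMonoid.factors p) {p} :=
    UniqueFactorizationMonoid.factors_unique UniqueFactorizationMonoid.irreducible_of_factor
      (by simpa using hp.irreducible) (by simpa using UniqueFactorizationMonoid.factors_prod hp.ne_zero)
  rw [kap, s1_prod_rel h]
  simp

theorem kap_prime_spec {p x : O} (hp : Prime p) (h3 : ¬ lam ∣ p) (hx : ¬ p ∣ x) :
    ∃ j : ℕ, j < 3 ∧ p ∣ x ^ ((nm p - 1) / 3) - om ^ j ∧ kap p x = omC ^ j := by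
  rw [kap_prime hp]
  exact s1_kapP_spec hp h3 hx

theorem kap_prime_eq {p x : O} (hp : Prime p) (h3 : ¬ lam ∣ p) {j : ℕ}
    (h : p ∣ x ^ ((nm p - 1) / 3) - om ^ j) : kap p x = omC ^ j := by
  rw [kap_prime hp]
  exact s1_kapP_eq hp h3 h

theorem kap_mul_left {m n : O} (hm : m ≠ 0) (hn : n ≠ 0) (x : O) :
    kap (m * n) x = kap m x * kap n x := by
  rw [kap, s1_prod_rel (UniqueFactorizationMonoid.factors_mul hm hn), Multiset.map_add,
    Multiset.prod_add]
  rfl

theorem kap_pow_left {n : O} (hn : n ≠ 0) (k : ℕ) (x : O) : kap (n ^ k) x = kap n x ^ k := by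
  induction k with
  | zero => simp [kap]
  | succ k ih => rw [pow_succ, kap_mul_left (pow_ne_zero _ hn) hn, ih, pow_succ]

theorem kap_unit_left {u : O} (hu : IsUnit u) (x : O) : kap u x = 1 := by
  simp [kap, UniqueFactorizationMonoid.factors_of_isUnit hu]

theorem kap_associated {m n : O} (h : Associated m n) (x : O) : kap m x = kap n x := by
  by_cases hm : m = 0
  · subst hm
    rw [(associated_zero_iff_eq_zero n).1 h.symm]
  obtain ⟨u, rfl⟩ := h
  rw [kap_mul_left hm u.ne_zero, kap_unit_left u.isUnit, mul_one]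

theorem kap_mul_right (n x y : O) : kap n (x * y) = kap n x * kap n y := by
  unfold kap
  rw [← Multiset.prod_map_mul]
  exact congrArg Multiset.prod (Multiset.map_congr rfl fun p hp =>
    s1_kapP_mul (UniqueFactorizationMonoid.prime_of_factor p hp) x y)

theorem kap_pow_right (n x : O) {k : ℕ} (hk : k ≠ 0) : kap n (x ^ k) = kap n x ^ k := by
  induction k, Nat.one_le_iff_ne_zero.2 hk using Nat.le_induction with
  | base => simp
  | succ k h ih => rw [pow_succ, kap_mul_right, ih (by omega), pow_succ]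

theorem kap_one_right {n : O} (hn : ¬ lam ∣ n) : kap n 1 = 1 := by
  refine Multiset.prod_eq_one fun z hz => ?_
  obtain ⟨p, hp, rfl⟩ := Multiset.mem_map.1 hz
  exact (s1_kapP_eq (j := 0) (UniqueFactorizationMonoid.prime_of_factor p hp)
    (fun h => hn (h.trans (UniqueFactorizationMonoid.dvd_of_mem_factors hp))) (by simp)).trans
    (pow_zero _)

theorem kap_neg_right (n x : O) : kap n (-x) = kap n x := by
  refine s1_kap_congr fun p hp _ => ?_
  by_cases h3 : lam ∣ p
  · rw [s1_kapP_lam hp h3, s1_kapP_lam hp h3]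
  have h1 : kapP p (-1) ≠ 0 := by
    rw [Ne, s1_kapP_zero hp, not_or, dvd_neg]
    exact ⟨h3, hp.not_dvd_one⟩
  have h2 : kapP p (-1) = 1 := by
    have h := s1_kapP_cube hp h1
    rw [pow_three, ← s1_kapP_mul hp, ← s1_kapP_mul hp] at h
    simpa using h
  rw [← neg_one_mul x, s1_kapP_mul hp, h2, one_mul]

theorem kap_congr {n x y : O} (hn : n ≠ 0) (h : rad n ∣ x - y) : kap n x = kap n y :=   s1_kap_congr fun _ hp hd => s1_kapP_congr (((prime_dvd_rad hn hp).2 hd).trans h)

theorem kap_congr' {n x y : O} (hn : n ≠ 0) (h : n ∣ x - y) : kap n x = kap n y :=   kap_congr hn ((rad_dvd hn).trans h)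

theorem kap_eq_zero {n x : O} (hn : n ≠ 0) : kap n x = 0 ↔ lam ∣ n ∨ ¬ IsCoprime n x := by
  rw [kap, Multiset.prod_eq_zero_iff, Multiset.mem_map]
  constructor
  · rintro ⟨p, hp, h⟩
    have hp' := UniqueFactorizationMonoid.prime_of_factor p hp
    have hd := UniqueFactorizationMonoid.dvd_of_mem_factors hp
    rcases (s1_kapP_zero hp').1 h with h | h
    · exact Or.inl (h.trans hd)
    · exact Or.inr fun hc => hp'.not_isUnit (hc.isUnit_of_dvd' hd h)
  · have key : ∀ q, Prime q → q ∣ n → (lam ∣ q ∨ q ∣ x) →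
        ∃ p ∈ UniqueFactorizationMonoid.factors n, kapP p x = 0 := by
      intro q hq hd h
      obtain ⟨p, hp, ha⟩ := UniqueFactorizationMonoid.exists_mem_factors_of_dvd hn hq.irreducible hd
      exact ⟨p, hp, by rw [← s1_kapP_assoc ha, s1_kapP_zero hq]; exact h⟩
    rintro (h | h)
    · exact key lam prime_lam h (Or.inl dvd_rfl)
    · by_contra h'
      exact h (isCoprime_of_prime_dvd (fun h0 => hn h0.1) fun q hq hd hx => h' (key q hq hd (Or.inr hx)))

theorem kap_cube {n x : O} (h : kap n x ≠ 0) : kap n x ^ 3 = 1 := by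
  unfold kap at h ⊢
  rw [← Multiset.prod_map_pow]
  refine Multiset.prod_eq_one fun z hz => ?_
  obtain ⟨p, hp, rfl⟩ := Multiset.mem_map.1 hz
  exact s1_kapP_cube (UniqueFactorizationMonoid.prime_of_factor p hp) fun h0 =>
    h (Multiset.prod_eq_zero (Multiset.mem_map.2 ⟨p, hp, h0⟩))

theorem s1_norm {n x : O} (h : kap n x ≠ 0) : ‖kap n x‖ = 1 := by
  have := congrArg norm (kap_cube h)
  rw [norm_pow, norm_one] at this
  exact (pow_eq_one_iff_of_nonneg (norm_nonneg _) (by norm_num)).1 this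

theorem norm_kap_le (n x : O) : ‖kap n x‖ ≤ 1 := by
  by_cases h : kap n x = 0
  · simp [h]
  · exact (s1_norm h).le

theorem norm_kap {n x : O} (h : kap n x ≠ 0) : ‖kap n x‖ = 1 := s1_norm h

theorem conj_kap (n x : O) : conj (kap n x) = kap n x ^ 2 := by
  by_cases h : kap n x = 0
  · simp [h]
  have h1 := Complex.mul_conj' (kap n x)
  rw [norm_kap h] at h1
  refine mul_left_cancel₀ h ?_
  rw [h1, ← pow_succ', kap_cube h]
  simp

theorem kap_star (n x : O) : kap (star n) (star x) = conj (kap n x) := by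
  have sd : ∀ a b : O, a ∣ b → star a ∣ star b := fun a b h => map_dvd (starRingEnd O) h
  have sl : lam ∣ star lam := ⟨1 + om, by decide⟩
  induction n using UniqueFactorizationMonoid.induction_on_prime with
  | h₁ => simp [s1_kap_zero]
  | h₂ u hu => rw [kap_unit_left hu, kap_unit_left hu.star, map_one]
  | h₃ a p ha hp ih =>
    have hp' : Prime (star p) := (MulEquiv.prime_iff (starRingAut : RingAut O)).2 hp
    rw [star_mul', kap_mul_left hp'.ne_zero (star_ne_zero.2 ha), kap_mul_left hp.ne_zero ha, ih,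
      map_mul, kap_prime hp, kap_prime hp']
    congr 1
    by_cases h3 : lam ∣ p
    · rw [s1_kapP_lam hp h3, s1_kapP_lam hp' (sl.trans (sd _ _ h3)), map_zero]
    by_cases hx : p ∣ x
    · rw [s1_kapP_dvd hp hx, s1_kapP_dvd hp' (sd _ _ hx), map_zero]
    obtain ⟨j, -, hj, e⟩ := s1_kapP_spec hp h3 hx
    rw [e, map_pow, s1_conj_omC, ← pow_mul]
    refine s1_kapP_eq hp' (fun h => h3 (sl.trans (by simpa using sd _ _ h))) ?_
    have := sd _ _ hj
    rw [star_sub, star_pow, star_pow, s1_star_om, ← pow_mul] at this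
    rwa [nm, nz_star]

theorem kap_om {n : O} (hn : ¬ lam ∣ n) : kap n om = omC ^ ((nm n - 1) / 3) := by
  induction n using UniqueFactorizationMonoid.induction_on_prime with
  | h₁ => exact absurd (dvd_zero _) hn
  | h₂ u hu =>
    have h1 : nm u = 1 := by
      have := isUnit_iff_Nr.1 hu
      unfold Nr at this
      exact_mod_cast this
    rw [kap_unit_left hu, h1]
    simp
  | h₃ a p ha hp ih =>
    have h3 : ¬ lam ∣ p := fun h => hn (h.mul_right a)
    have h4 : ¬ lam ∣ a := fun h => hn (h.mul_left p)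
    rw [kap_mul_left hp.ne_zero ha, ih h4, kap_prime_eq (j := (nm p - 1) / 3) hp h3 (by simp),
      nm_mul, ← pow_add]
    obtain ⟨s, hs⟩ : ∃ s, nm p = 3 * s + 1 := ⟨nm p / 3, by have := s1_nm_mod h3; omega⟩
    obtain ⟨t, ht⟩ : ∃ t, nm a = 3 * t + 1 := ⟨nm a / 3, by have := s1_nm_mod h4; omega⟩
    have e1 : (3 * s + 1) * (3 * t + 1) = 3 * (3 * (s * t) + (s + t)) + 1 := by ring
    rw [hs, ht, e1]
    simp only [Nat.add_sub_cancel, Nat.mul_div_cancel_left _ (show 0 < 3 by norm_num)]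
    rw [pow_add omC (3 * (s * t)), pow_mul, s1_omC_cube, one_pow, one_mul]

theorem kap_nontrivial {p : O} (hp : Prime p) (h3 : ¬ lam ∣ p) : ∃ x, kap p x = omC := by
  obtain ⟨x, hx, h1⟩ : ∃ x, ¬ p ∣ x ∧ ¬ p ∣ x ^ ((nm p - 1) / 3) - om ^ 0 := by
    have := s1_finite hp.ne_zero
    have := s1_max hp
    let := Ideal.Quotient.field (Ideal.span {p})
    let := Fintype.ofFinite (O ⧸ Ideal.span {p})
    by_contra h
    push Not at h
    have h2 : Fintype.card (O ⧸ Ideal.span {p}) - 1 ∣ (nm p - 1) / 3 := by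
      refine (FiniteField.forall_pow_eq_one_iff _ _).1 fun u => Units.ext ?_
      obtain ⟨y, hy⟩ := Ideal.Quotient.mk_surjective (u : O ⧸ Ideal.span {p})
      have := h y fun hd => u.ne_zero
        (hy.symm.trans (Ideal.Quotient.eq_zero_iff_mem.2 (Ideal.mem_span_singleton.2 hd)))
      rw [← Ideal.mem_span_singleton, ← Ideal.Quotient.eq, map_pow, hy, pow_zero, map_one] at this
      exact this
    rw [← Nat.card_eq_fintype_card, card_quot hp.ne_zero] at h2
    have h4 : 4 ≤ nm p := by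
      have := four_le_Nr_prime hp h3
      unfold Nr at this
      exact_mod_cast this
    have := Nat.le_of_dvd (by omega) h2
    omega
  obtain ⟨j, hj, h2, e⟩ := kap_prime_spec hp h3 hx
  interval_cases j
  · exact absurd h2 h1
  · exact ⟨x, by simpa using e⟩
  · exact ⟨x * x, by rw [kap_mul_right, e]; linear_combination omC * s1_omC_cube⟩


end Crest.Agent.R017

end
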