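import Crest.Agent.R017.T2Step

/-! # Row 17: second moments of inverse sums -/

set_option autoImplicit false

noncomputable section

open scoped BigOperators ComplexConjugate
open Complex MeasureTheory

namespace Crest.Agent.R017

theorem t2_mono {P : O → Prop} {Q : O} {A D₀ D₀' x x' Ξ Ξ' C₀ C₀' : ℝ} (h : TwoB P Q A D₀ x Ξ C₀)
    (hD : D₀' ≤ D₀) (hx : x' ≤ x) (h0 : 0 ≤ Ξ') (hΞ : Ξ ≤ Ξ') (hC : C₀ ≤ C₀') :
    TwoB P Q A D₀' x' Ξ' C₀' := by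
  intro R D L τ ψ a t k h1 h2 h3 h4 h5 h6 h7 h8 h9 h10 h11 h12 h13
  refine (h R D L τ ψ a t k h1 h2 h3 h4 h5 (h6.trans hx) h7 (h8.trans hD) h9 (h10.trans hx)
    (h11.trans hx) (h12.trans hx) h13).trans ?_
  have a1 : 0 ≤ Nr (rad t) := Nr_nonneg _
  have a2 : (1 + |τ|) ^ C₀ ≤ (1 + |τ|) ^ C₀' :=
    Real.rpow_le_rpow_of_exponent_le (by linarith [abs_nonneg τ]) hC
  have a3 : 0 < L := by linarith
  gcongr

theorem t2_ind {Q : O} (hQ : Q ≠ 0) (h72 : (72 : O) ∣ Q) {A : ℝ} (hA : 0 < A) (k : ℕ) :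
    ∀ e : ℝ, 0 < e → ∃ C : ℝ, 0 ≤ C ∧ ∀ x y D₀ : ℝ, 2 ≤ x → Real.exp (3 + 4 * A) ≤ y → y ≤ x →
      D₀ ≤ x → D₀ ≤ y ^ k → TwoB (fun _ => True) Q A D₀ x (C * x ^ e * y ^ 3) C := by
  have hK : 1 ≤ Real.exp (3 + 4 * A) := Real.one_le_exp (by linarith)
  induction k with
  | zero =>
    intro e he
    obtain ⟨C, hC, h⟩ := two_base Q hA he
    refine ⟨C, hC, fun x y D₀ hx hy _ _ hD => ?_⟩
    have y1 : 1 ≤ y := hK.trans hy
    exact t2_mono (h x (by linarith)) (by simpa using hD) le_rfl (by positivity)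
      (le_mul_of_one_le_right (by positivity) (one_le_pow₀ y1)) hC
  | succ k ih =>
    intro e he
    obtain ⟨C₁, hC₁, h₁⟩ := ih (e / 300) (by positivity)
    obtain ⟨C₂, hC₂, h₂⟩ := two_step hQ h72 hA (show 0 < e / 3 by positivity) hC₁
    obtain ⟨C₃, hC₃, h₃⟩ := two_cop Q hA (show 0 < e / 3 by positivity)
    refine ⟨C₃ * C₂ * (1 + C₁) + C₂, by positivity, fun x y D₀ hx hy hyx hDx hD => ?_⟩
    have y1 : 1 ≤ y := hK.trans hy
    have x1 : 1 ≤ x := by linarith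
    have x2 : x ≤ x ^ (100 : ℕ) := le_self_pow₀ x1 (by norm_num)
    have a1 := h₁ (x ^ (100 : ℕ)) y (D₀ / y) (hx.trans x2) hy (hyx.trans x2)
      ((div_le_iff₀ (by linarith)).2 ((hDx.trans x2).trans
        (le_mul_of_one_le_right (by positivity) y1)))
      ((div_le_iff₀ (by linarith)).2 (by rwa [← pow_succ]))
    have e1 : (x ^ (100 : ℕ)) ^ (e / 300) = x ^ (e / 3) := by
      rw [← Real.rpow_natCast, ← Real.rpow_mul (by linarith)]
      congr 1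
      push_cast
      ring
    rw [e1] at a1
    have a2 := h₃ D₀ x _ C₂ x1 (by positivity) (h₂ x y D₀ _ hx hy hyx hDx (by positivity) a1)
    refine t2_mono a2 le_rfl le_rfl (by positivity) ?_ (le_add_of_nonneg_left (by positivity))
    have e2 : x ^ e = x ^ (e / 3) * x ^ (e / 3) * x ^ (e / 3) := by
      rw [← Real.rpow_add (by linarith), ← Real.rpow_add (by linarith)]
      congr 1
      ring
    have e3 : 1 ≤ x ^ (e / 3) := Real.one_le_rpow x1 (by positivity)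
    rw [e2]
    generalize x ^ (e / 3) = u at e3
    calc C₃ * u * (C₂ * u * (y ^ 3 + C₁ * u * y ^ 3))
        ≤ C₃ * u * (C₂ * u * (u * y ^ 3 + C₁ * u * y ^ 3)) := by
          gcongr
          exact le_mul_of_one_le_left (by positivity) e3
      _ = (C₃ * C₂ * (1 + C₁) + 0) * (u * u * u) * y ^ 3 := by ring
      _ ≤ _ := by gcongr

theorem two {Q : O} (hQ : Q ≠ 0) (h72 : (72 : O) ∣ Q) {A ε : ℝ} (hA : 0 < A) (hε : 0 < ε) :
    ∃ C : ℝ, 0 ≤ C ∧ ∀ (x R D L τ : ℝ) (ψ a : O → ℂ) (t k : O), 1 ≤ x → IsCh Q ψ → t ≠ 0 → k ≠ 0 →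
      0 < R → R ≤ x → 0 < D → D ≤ x → 1 ≤ L → L ≤ x → Nr (rad t) ≤ x → Nr (rad k) ≤ x → Dy Q L a →
      NS R (SF A ψ a L D τ t k) ≤ C * x ^ ε * (1 + |τ|) ^ C * D * (∑ b ∈ box L, ‖a b‖ ^ 2) *
        (R + D * L ^ 2 * Nr (rad t) + L ^ 3 * D ^ (2 / 3 : ℝ) * Nr (rad t)) := by
  obtain ⟨k, hk⟩ := exists_nat_ge (6 / ε)
  obtain ⟨C, hC, h⟩ := t2_ind hQ h72 hA (k + 1) (ε / 2) (by positivity)
  have hK : 2 ≤ Real.exp (3 + 4 * A) := by linarith [Real.add_one_le_exp (3 + 4 * A)]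
  generalize Real.exp (3 + 4 * A) = K at h hK
  have K1 : 1 ≤ K ^ (ε / 2) * K ^ 3 :=
    one_le_mul_of_one_le_of_one_le (Real.one_le_rpow (by linarith) (by positivity))
      (one_le_pow₀ (by linarith))
  refine ⟨C * (K ^ (ε / 2) * K ^ 3), by positivity,
    fun x R D L τ ψ a t j x1 h1 h2 h3 h4 h5 h6 h7 h8 h9 h10 h11 h12 => ?_⟩
  have k0 : (0 : ℝ) ≤ k := Nat.cast_nonneg k
  have u1 : 1 ≤ x ^ (((k + 1 : ℕ) : ℝ)⁻¹) := Real.one_le_rpow x1 (by positivity)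
  have u2 : x ^ (((k + 1 : ℕ) : ℝ)⁻¹) ≤ x := Real.rpow_le_self_of_one_le x1
    (inv_le_one_of_one_le₀ (by push_cast; linarith))
  have u3 : (x ^ (((k + 1 : ℕ) : ℝ)⁻¹)) ^ (k + 1) = x :=
    Real.rpow_inv_natCast_pow (by linarith) (by omega)
  have u4 : (x ^ (((k + 1 : ℕ) : ℝ)⁻¹)) ^ 3 ≤ x ^ (ε / 2) := by
    rw [← Real.rpow_natCast, ← Real.rpow_mul (by linarith)]
    refine Real.rpow_le_rpow_of_exponent_le x1 ?_
    rw [div_le_iff₀ hε] at hk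
    rw [inv_mul_le_iff₀ (by positivity)]
    push_cast
    nlinarith
  have e1 : x ^ ε = x ^ (ε / 2) * x ^ (ε / 2) := by
    rw [← Real.rpow_add (by linarith), add_halves]
  generalize x ^ (((k + 1 : ℕ) : ℝ)⁻¹) = u at u1 u2 u3 u4
  have x2 : x ≤ K * x := le_mul_of_one_le_left (by linarith) (by linarith)
  have a1 := h (K * x) (K * u) x (by nlinarith) (le_mul_of_one_le_right (by linarith) u1)
    (by gcongr) x2 (by
      rw [mul_pow, u3]
      exact le_mul_of_one_le_left (by linarith) (one_le_pow₀ (by linarith)))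
  refine t2_mono a1 le_rfl x2 (by positivity) ?_ (le_mul_of_one_le_right hC K1)
    R D L τ ψ a t j h1 h2 h3 trivial h4 h5 h6 h7 h8 h9 h10 h11 h12
  rw [Real.mul_rpow (by linarith) (by linarith), mul_pow, e1]
  calc C * (K ^ (ε / 2) * x ^ (ε / 2)) * (K ^ 3 * u ^ 3)
      ≤ C * (K ^ (ε / 2) * x ^ (ε / 2)) * (K ^ 3 * x ^ (ε / 2)) := by gcongr
    _ = _ := by ring

end Crest.Agent.R017

end
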