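import Crest.Agent.R017.CF
import Crest.Agent.R017.Slots
import Crest.Agent.R017.Sieve
import Crest.Agent.R017.Kernel
import Crest.Agent.R017.T4StepAux0

/-! # Row 17: second moments: definitions, base case, coprimality -/

set_option autoImplicit false

noncomputable section

open scoped BigOperators ComplexConjugate
open Complex MeasureTheory

namespace Crest.Agent.R017

open Classical in
/-- `∑_{(n, b k) = 1} a_b μ(n) ψ(n) χ_{n b}(r t) W(N n / D)`. -/
def SF (A : ℝ) (ψ a : O → ℂ) (L D τ : ℝ) (t k r : O) : ℂ :=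
  ∑ b ∈ box L, a b * chi b (r * t) *
    sm A (fun n => if IsCoprime n (b * k) then mu n * (ψ n * chi n (r * t)) else 0) D τ

/-- The second moment bound for all lengths `D ≤ D₀`, with constant `Ξ`; `P k` restricts the
coprimality parameter. -/
def TwoB (P : O → Prop) (Q : O) (A D₀ x Ξ C₀ : ℝ) : Prop :=
  ∀ (R D L τ : ℝ) (ψ a : O → ℂ) (t k : O), IsCh Q ψ → t ≠ 0 → k ≠ 0 → P k → 0 < R → R ≤ x → 0 < D → D ≤ D₀ →
    1 ≤ L → L ≤ x → Nr (rad t) ≤ x → Nr (rad k) ≤ x → Dy Q L a →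
    NS R (SF A ψ a L D τ t k) ≤ Ξ * (1 + |τ|) ^ C₀ * D * (∑ b ∈ box L, ‖a b‖ ^ 2) *
      (R + D * L ^ 2 * Nr (rad t) + L ^ 3 * D ^ (2 / 3 : ℝ) * Nr (rad t))

theorem ta_box_sbox {Q : O} {L : ℝ} {a : O → ℂ} (ha : Dy Q L a) {E : Type} [AddCommMonoid E]
    (g : O → E) (hg : ∀ b, a b = 0 → g b = 0) : ∑ b ∈ box L, g b = ∑ b ∈ sbox L, g b := by
  classical
  refine (Finset.sum_subset (Finset.filter_subset _ _) fun b hb hb' => hg b ?_).symm
  by_contra h
  exact hb' (Finset.mem_filter.2 ⟨hb, (ha b h).1.1, (ha b h).1.2.1⟩)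

theorem ta_eta_le {Q : O} {ψ : O → ℂ} (hψ : IsCh Q ψ) (u n : O) : ‖ψ n * chi n u‖ ≤ 1 := by
  rw [norm_mul]
  exact mul_le_one₀ (hψ.norm_le n) (norm_nonneg _) (norm_chi_le n u)

open Classical in
theorem ta_coef_le {Q : O} {ψ : O → ℂ} (hψ : IsCh Q ψ) (u e n : O) :
    ‖if IsCoprime n e then mu n * (ψ n * chi n u) else 0‖ ≤ 1 := by
  split_ifs
  · rw [norm_mul]
    exact mul_le_one₀ (norm_mu_le n) (norm_nonneg _) (ta_eta_le hψ u n)
  · simp

theorem ta_NS_le {R : ℝ} {f g : O → ℂ} {w : ℝ} (h : ∀ r, ‖f r‖ ≤ w * ‖g r‖) :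
    NS R f ≤ w ^ 2 * NS R g := by
  rw [NS, NS, Finset.mul_sum]
  refine Finset.sum_le_sum fun r _ => ?_
  rw [← mul_pow]
  exact pow_le_pow_left₀ (norm_nonneg _) (h r) 2

theorem two_base (Q : O) {A ε : ℝ} (hA : 0 < A) (hε : 0 < ε) : ∃ C : ℝ, 0 ≤ C ∧ ∀ x : ℝ, 1 ≤ x →
    TwoB (fun _ => True) Q A 1 x (C * x ^ ε) 0 := by
  classical
  obtain ⟨C₁, hC₁, h₁⟩ := ls_chi hε
  obtain ⟨C₂, h₂⟩ := tsum_W_le_small hA 0 1
  refine ⟨C₂ ^ 2 * C₁, by positivity, fun x hx R D L τ ψ a t k hψ ht hk _ hR hRx hD hD1 hL hLx htx hkx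
    ha => ?_⟩
  have hq : 1 ≤ Nr (rad t) := one_le_Nr (rad_ne_zero t)
  set S := ∑ b ∈ box L, ‖a b‖ ^ 2 with hS
  have hS0 : 0 ≤ S := Finset.sum_nonneg fun _ _ => by positivity
  have hx0 : 0 < x := lt_of_lt_of_le one_pos hx
  have hL0 : 0 < L := lt_of_lt_of_le one_pos hL
  rcases lt_or_ge R 1 with hR1 | hR1
  · rw [NS, box_eq_empty hR1, Finset.sum_empty]
    positivity
  set M := C₁ * L ^ ε * (R + L ^ 2) * S with hM
  have hM0 : 0 ≤ M := by positivity
  set w : O → ℝ := fun n => if n = 0 then 0 else Nr n ^ (0 : ℝ) * W A (Nr n / D) with hw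
  have hw0 : ∀ n, 0 ≤ w n := fun n => w1_nonneg A D 0 n
  have hws : Summable w := summable_W hA hD 0
  set f : O → O → ℂ := fun n r => ∑ b ∈ box L, a b * chi b (r * t) *
    (if Prim n then (if IsCoprime n (b * k) then mu n * (ψ n * chi n (r * t)) else 0) *
      (Nr n : ℂ) ^ (-(τ * I)) * (W A (Nr n / D) : ℂ) else 0) with hf
  have hs : ∀ r ∈ box R, HasSum (fun n => f n r) (SF A ψ a L D τ t k r) := fun r _ =>
    hasSum_sum fun b _ => ((summable_sm (K := 1) (A := 0) hA hD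
      (fun n _ => by simpa using ta_coef_le hψ (r * t) (b * k) n) τ).hasSum).mul_left _
  have hb : ∀ n, NS R (f n) ≤ (w n * Real.sqrt M) ^ 2 := by
    intro n
    rw [mul_pow, Real.sq_sqrt hM0]
    by_cases hn : Prim n
    swap
    · have : f n = fun _ => 0 := by
        funext r
        simp [hf, hn]
      rw [this, NS]
      simp only [norm_zero, ne_eq, OfNat.ofNat_ne_zero, not_false_eq_true, zero_pow,
        Finset.sum_const_zero]
      positivity
    set a' : O → ℂ := fun b => if IsCoprime n (b * k) then a b * chi b t else 0 with ha'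
    have ha'le : ∀ b, ‖a' b‖ ≤ ‖a b‖ := fun b => by
      simp only [ha']
      split_ifs
      · rw [norm_mul]
        exact mul_le_of_le_one_right (norm_nonneg _) (norm_chi_le b t)
      · simp
    have e : ∀ r, f n r = (mu n * (ψ n * chi n (r * t)) * (Nr n : ℂ) ^ (-(τ * I)) *
        (W A (Nr n / D) : ℂ)) * ∑ b ∈ sbox L, a' b * chi b r := by
      intro r
      rw [← ta_box_sbox ha (fun b => a' b * chi b r) (fun b hb => by simp [ha', hb]), Finset.mul_sum]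
      refine Finset.sum_congr rfl fun b _ => ?_
      simp only [ha', if_pos hn]
      rw [chi_mul_right b r t]
      split_ifs <;> ring
    have h3 : NS R (f n) ≤ w n ^ 2 * NS R (fun r => ∑ b ∈ sbox L, a' b * chi b r) := by
      refine ta_NS_le fun r => ?_
      rw [e, norm_mul]
      refine mul_le_mul_of_nonneg_right ?_ (norm_nonneg _)
      rw [w2_norm_term (c := fun n => mu n * (ψ n * chi n (r * t))) hn τ]
      simp only [hw, if_neg hn.ne_zero, Real.rpow_zero]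
      refine mul_le_mul_of_nonneg_right ?_ (W_pos _ _).le
      rw [norm_mul]
      exact mul_le_one₀ (norm_mu_le n) (norm_nonneg _) (ta_eta_le hψ _ n)
    refine h3.trans (mul_le_mul_of_nonneg_left ((h₁ R L a' hR1 hL).trans ?_) (by positivity))
    refine mul_le_mul_of_nonneg_left ?_ (by positivity)
    rw [hS, ta_box_sbox ha (fun b => ‖a b‖ ^ 2) (fun b hb => by simp [hb])]
    exact Finset.sum_le_sum fun b _ => pow_le_pow_left₀ (norm_nonneg _) (ha'le b) 2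
  have h4 := s4_mink hs (hws.mul_right _) (fun n => mul_nonneg (hw0 n) (Real.sqrt_nonneg _)) hb
  rw [tsum_mul_right, mul_pow, Real.sq_sqrt hM0] at h4
  have h5 : ∑' n, w n ≤ C₂ * D := by
    have := h₂ D hD hD1
    rwa [Real.rpow_one] at this
  have h6 : (∑' n, w n) ^ 2 ≤ (C₂ * D) ^ 2 := pow_le_pow_left₀ (tsum_nonneg hw0) h5 2
  refine h4.trans ((mul_le_mul_of_nonneg_right h6 hM0).trans ?_)
  have h7 : L ^ ε ≤ x ^ ε := Real.rpow_le_rpow hL0.le hLx hε.le
  have h8 : D * (R + L ^ 2) ≤ R + D * L ^ 2 * Nr (rad t) + L ^ 3 * D ^ (2 / 3 : ℝ) * Nr (rad t) := by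
    have h9 : 0 ≤ L ^ 3 * D ^ (2 / 3 : ℝ) * Nr (rad t) := by positivity
    have h10 : D * L ^ 2 ≤ D * L ^ 2 * Nr (rad t) := le_mul_of_one_le_right (by positivity) hq
    have h11 : D * R ≤ R := mul_le_of_le_one_left hR.le hD1
    nlinarith
  rw [Real.rpow_zero]
  calc (C₂ * D) ^ 2 * M = C₂ ^ 2 * C₁ * L ^ ε * D * S * (D * (R + L ^ 2)) := by rw [hM]; ring
    _ ≤ C₂ ^ 2 * C₁ * x ^ ε * D * S *
        (R + D * L ^ 2 * Nr (rad t) + L ^ 3 * D ^ (2 / 3 : ℝ) * Nr (rad t)) := by gcongr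
    _ = _ := by ring

theorem two_cop (Q : O) {A ε : ℝ} (hA : 0 < A) (hε : 0 < ε) : ∃ C : ℝ, 0 ≤ C ∧ ∀ D₀ x Ξ C₀ : ℝ, 1 ≤ x →
    0 ≤ Ξ → TwoB (fun k => k = 1) Q A D₀ x Ξ C₀ → TwoB (fun _ => True) Q A D₀ x (C * x ^ ε * Ξ) C₀ := by
  classical
  obtain ⟨C₁, h₁⟩ := smooth_sum_le (ε := ε / 2) (σ := 1 / 2) (by positivity) (by norm_num)
  refine ⟨C₁ ^ 2, by positivity, fun D₀ x Ξ C₀ hx hΞ H R D L τ ψ a t k hψ ht hk _ hR hRx hD hD0 hL hLx
    htx hkx ha => ?_⟩
  have hq : 1 ≤ Nr (rad t) := one_le_Nr (rad_ne_zero t)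
  set S := ∑ b ∈ box L, ‖a b‖ ^ 2 with hS
  have hS0 : 0 ≤ S := Finset.sum_nonneg fun _ _ => by positivity
  have hx0 : 0 < x := lt_of_lt_of_le one_pos hx
  have hL0 : 0 < L := lt_of_lt_of_le one_pos hL
  set M := Ξ * (1 + |τ|) ^ C₀ * D * S *
    (R + D * L ^ 2 * Nr (rad t) + L ^ 3 * D ^ (2 / 3 : ℝ) * Nr (rad t)) with hM
  have hM0 : 0 ≤ M := by positivity
  set w : O → ℝ := fun f => if Prim f ∧ rad f ∣ k then Nr f ^ (-(1 / 2 : ℝ)) else 0 with hw
  have hw0 : ∀ f, 0 ≤ w f := fun f => by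
    simp only [hw]
    split_ifs
    · exact Real.rpow_nonneg (Nr_nonneg f) _
    · exact le_rfl
  have hwb : ∀ s : Finset O, ∑ f ∈ s, w f ≤ C₁ * Nr (rad k) ^ (ε / 2) := fun s => by
    simp only [hw]
    rw [← Finset.sum_filter]
    refine h₁ (rad k) (rad_ne_zero k) _ fun f hf => ?_
    obtain ⟨hf1, hf2⟩ := (Finset.mem_filter.1 hf).2
    refine ⟨hf1.ne_zero, ?_⟩
    have := rad_dvd_rad hk hf2
    rwa [rad_eq_self hf1.rad (squarefree_rad f)] at this
  have hws : Summable w := summable_of_sum_le hw0 hwb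
  set F : O → O → ℂ := fun f r => ∑ b ∈ box L, a b * chi b (r * t) *
    (if Prim f ∧ rad f ∣ k ∧ IsCoprime f b then (ψ f * chi f (r * t)) * (Nr f : ℂ) ^ (-(τ * I)) *
      sm A (fun n => if IsCoprime n b then mu n * (ψ n * chi n (r * t)) else 0) (D / Nr f) τ
      else 0) with hF
  have hs : ∀ r ∈ box R, HasSum (fun f => F f r) (SF A ψ a L D τ t k r) := fun r _ =>
    hasSum_sum fun b _ => (sm_mu_coprime (η := fun n => ψ n * chi n (r * t)) hA hD
      (ta_eta_le hψ (r * t)) (fun u v hu hv => by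
        rw [hψ.mul, chi_mul_left hu.ne_zero hv.ne_zero]; ring) b hk τ).mul_left _
  have hb : ∀ f, NS R (F f) ≤ (w f * Real.sqrt M) ^ 2 := by
    intro f
    rw [mul_pow, Real.sq_sqrt hM0]
    by_cases hf : Prim f ∧ rad f ∣ k
    swap
    · have : F f = fun _ => 0 := by
        funext r
        refine Finset.sum_eq_zero fun b _ => ?_
        rw [if_neg fun h => hf ⟨h.1, h.2.1⟩, mul_zero]
      rw [this, NS]
      simp only [norm_zero, ne_eq, OfNat.ofNat_ne_zero, not_false_eq_true, zero_pow,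
        Finset.sum_const_zero]
      positivity
    have hf1 : 1 ≤ Nr f := one_le_Nr hf.1.ne_zero
    have hf0 : 0 < Nr f := lt_of_lt_of_le one_pos hf1
    set a' : O → ℂ := fun b => if IsCoprime f b then a b else 0 with ha'
    have ha'le : ∀ b, ‖a' b‖ ≤ ‖a b‖ := fun b => by
      simp only [ha']
      split_ifs
      · exact le_rfl
      · simp
    have hDy : Dy Q L a' := fun b hb => ha b fun h0 => hb (by simp [ha', h0])
    have e : ∀ r, F f r = ((ψ f * chi f (r * t)) * (Nr f : ℂ) ^ (-(τ * I))) *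
        SF A ψ a' L (D / Nr f) τ t 1 r := by
      intro r
      rw [SF, Finset.mul_sum]
      refine Finset.sum_congr rfl fun b _ => ?_
      simp only [ha', mul_one]
      by_cases hc : IsCoprime f b
      · rw [if_pos ⟨hf.1, hf.2, hc⟩, if_pos hc]
        ring
      · rw [if_neg fun h => hc h.2.2, if_neg hc]
        ring
    have h3 : NS R (F f) ≤ 1 ^ 2 * NS R (SF A ψ a' L (D / Nr f) τ t 1) := by
      refine ta_NS_le fun r => ?_
      rw [e, norm_mul]
      refine mul_le_mul_of_nonneg_right ?_ (norm_nonneg _)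
      rw [norm_mul, sv_norm_cpow hf.1.ne_zero, mul_one]
      exact ta_eta_le hψ _ f
    have hDf : D / Nr f ≤ D := div_le_self hD.le hf1
    have hDf0 : 0 < D / Nr f := div_pos hD hf0
    have h1x : Nr (rad 1) ≤ x :=
      (Nr_le_of_dvd one_ne_zero (rad_dvd one_ne_zero)).trans (Nr_one.le.trans hx)
    have h4 := H R (D / Nr f) L τ ψ a' t 1 hψ ht one_ne_zero rfl hR hRx hDf0 (hDf.trans hD0) hL hLx htx
      h1x hDy
    have h5 : ∑ b ∈ box L, ‖a' b‖ ^ 2 ≤ S :=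
      Finset.sum_le_sum fun b _ => pow_le_pow_left₀ (norm_nonneg _) (ha'le b) 2
    have h6 : w f ^ 2 = (Nr f)⁻¹ := by
      simp only [hw, if_pos hf]
      rw [← Real.rpow_natCast, ← Real.rpow_mul hf0.le, ← Real.rpow_neg_one]
      norm_num
    rw [one_pow, one_mul] at h3
    refine h3.trans (h4.trans ?_)
    rw [h6]
    calc _ ≤ Ξ * (1 + |τ|) ^ C₀ * (D / Nr f) * S *
          (R + D * L ^ 2 * Nr (rad t) + L ^ 3 * D ^ (2 / 3 : ℝ) * Nr (rad t)) := by gcongr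
      _ = _ := by rw [hM]; field_simp
  have h4 := s4_mink hs (hws.mul_right _) (fun n => mul_nonneg (hw0 n) (Real.sqrt_nonneg _)) hb
  rw [tsum_mul_right, mul_pow, Real.sq_sqrt hM0] at h4
  have h5 : ∑' f, w f ≤ C₁ * Nr (rad k) ^ (ε / 2) := hws.tsum_le_of_sum_le hwb
  have h6 : (∑' f, w f) ^ 2 ≤ (C₁ * Nr (rad k) ^ (ε / 2)) ^ 2 :=
    pow_le_pow_left₀ (tsum_nonneg hw0) h5 2
  refine h4.trans ((mul_le_mul_of_nonneg_right h6 hM0).trans ?_)
  have h7 : (Nr (rad k) ^ (ε / 2)) ^ 2 ≤ x ^ ε := by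
    rw [← Real.rpow_natCast, ← Real.rpow_mul (Nr_nonneg _)]
    have : ε / 2 * ((2 : ℕ) : ℝ) = ε := by push_cast; ring
    rw [this]
    exact Real.rpow_le_rpow (Nr_nonneg _) hkx hε.le
  calc (C₁ * Nr (rad k) ^ (ε / 2)) ^ 2 * M = C₁ ^ 2 * (Nr (rad k) ^ (ε / 2)) ^ 2 * M := by ring
    _ ≤ C₁ ^ 2 * x ^ ε * M := by gcongr
    _ = _ := by rw [hM]; ring

open Classical in
/-- `∑_{m³ ∣ N, N m > y} μ(m)`. -/
def cy (y : ℝ) (N : O) : ℂ := ∑ m ∈ pdiv N, if m ^ 3 ∣ N ∧ y < Nr m then mu m else 0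

open Classical in
/-- The dual sum restricted to squarefree `N`. -/
def CSf (A : ℝ) (ψ a : O → ℂ) (B X τ : ℝ) (t h : O) : ℂ :=
  ∑ b ∈ box B, a b *
    sm A (fun N => if b ∣ N ∧ Squarefree N then vth N * ψ N * conj (chi N (h * t)) else 0) (Nr b * X) τ

open Classical in
/-- The part of the dual sum with a large cube. -/
def CLarge (A : ℝ) (ψ a : O → ℂ) (B X τ y : ℝ) (t h : O) : ℂ :=
  ∑ b ∈ box B, a b *
    sm A (fun N => if b ∣ N then cy y N * (vth N * ψ N * conj (chi N (h * t))) else 0) (Nr b * X) τ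

end Crest.Agent.R017

end
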