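import Crest.Agent.R017.T2LargeAux5

/-! # Row 17: large cubes, the sum over the rows -/

set_option autoImplicit false

noncomputable section

open scoped BigOperators ComplexConjugate
open Complex MeasureTheory Filter Topology

namespace Crest.Agent.R017

theorem tl_point {A : ℝ} (hA : 0 < A) : ∃ C : ℝ, 0 ≤ C ∧
    ∀ (ψ a : O → ℂ) (B X R τ y : ℝ) (t k r N d g : O) (Lm : ℕ), (∀ n, ‖ψ n‖ ≤ 1) → 0 < X → 0 ≤ y →
      r ∈ box R → N ∈ pdiv (r * rad r) → cy y N ≠ 0 → Real.log (Nr N) < Lm → d ≠ 0 → Prim g →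
      Squarefree g → g ∣ N * d →
      Nr (tl_ww r N) * ‖SF A ψ (tl_co ψ a τ (d * k) g) (B / Nr g) (X * Nr g / Nr (N * d)) τ (t ^ 5)
        (d * k) r‖ ^ 2 ≤ C * ∑ i ∈ pdiv g ×ˢ pdiv g ×ˢ box R ×ˢ Finset.range Lm,
          tl_Th A ψ a B X τ y t k d g i r := by
  classical
  obtain ⟨C, hC0, hC⟩ := tl_circle hA
  refine ⟨C, hC0, ?_⟩
  intro ψ a B X R τ y t k r N d g Lm hψ hX hy hr hN hcy hL d0 pg sg hg
  obtain ⟨r0, hrR⟩ := mem_box.1 hr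
  obtain ⟨pN, hN1, -⟩ := tl_mem r0 hN
  obtain ⟨⟨b₁, b₂⟩, ⟨p1, p2, a3, a4, a5⟩, -⟩ := exists_part pg pN.ne_zero
  simp only at p1 p2 a3 a4 a5
  subst a5
  have s1 := sg.of_mul_left
  rw [rad_eq_self p1 s1] at a3
  obtain ⟨N', rfl⟩ := a3
  have pN' := p1.of_mul pN
  have h2 : b₂ ∣ d := a4.dvd_of_dvd_mul_left ((dvd_mul_left _ _).trans hg)
  obtain ⟨β, κ, pβ, pκ, c1, c2, c3, c4⟩ := tl_local r0 p1 s1 pN' hN1
  have Y1 := one_le_Nr pN'.ne_zero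
  have Y0 := Nr_pos pN'.ne_zero
  have B1 := one_le_Nr p1.ne_zero
  have B2 := one_le_Nr p2.ne_zero
  have D0 := Nr_pos d0
  have β0 := Nr_pos pβ.ne_zero
  have κ0 := Nr_pos pκ.ne_zero
  have L0 := Real.log_nonneg Y1
  set l := ⌊Real.log (Nr N')⌋₊ with hl
  have l1 : (l : ℝ) ≤ Real.log (Nr N') := Nat.floor_le L0
  have l2 : Real.log (Nr N') < l + 1 := Nat.lt_floor_add_one _
  have l3 : Nr N' < Real.exp (l + 1) := by rwa [Real.log_lt_iff_lt_exp Y0] at l2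
  have l4 : l < Lm := by
    have : Real.log (Nr N') ≤ Real.log (Nr (b₁ * N')) :=
      Real.log_le_log Y0 (Nr_le_of_dvd pN.ne_zero (dvd_mul_left _ _))
    exact_mod_cast l1.trans_lt (this.trans_lt hL)
  have hi : (b₂, β, κ, l) ∈ pdiv (b₁ * b₂) ×ˢ pdiv (b₁ * b₂) ×ˢ box R ×ˢ Finset.range Lm := by
    simp only [Finset.mem_product, mem_pdiv pg.ne_zero, mem_box, Finset.mem_range]
    exact ⟨⟨p2, dvd_mul_left _ _⟩, ⟨pβ, c1.mul_right _⟩, ⟨pκ.ne_zero, (Nr_le_of_dvd r0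
      (((dvd_pow_self κ (by norm_num)).mul_left _).trans c2)).trans hrR⟩, l4⟩
  refine le_trans ?_ (mul_le_mul_of_nonneg_left (Finset.single_le_sum
    (f := fun i => tl_Th A ψ a B X τ y t k d (b₁ * b₂) i r)
    (fun i _ => tl_Th_nonneg _ _ _ _ _ _ _ _ _ _ _ _ _) hi) hC0)
  rw [tl_Th, if_pos ⟨⟨h2, (tl_cy_large hy s1 pN'.ne_zero hcy).trans l3⟩, c2⟩, mul_left_comm]
  have X1 : 0 < X * Nr b₂ / Nr d := by positivity
  have e : X * Nr (b₁ * b₂) / Nr (b₁ * N' * d) =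
      Real.exp (Real.log (X * Nr b₂ / Nr d) - Real.log (Nr N')) := by
    rw [Real.exp_sub, Real.exp_log X1, Real.exp_log Y0]
    simp only [Nr_mul]
    field_simp
  refine mul_le_mul (le_min ?_ ?_) ?_ (sq_nonneg _) (tl_Om_nonneg _ _ _ _)
  · have := Nr_le_of_dvd (mul_ne_zero (mul_ne_zero pN'.ne_zero pβ.ne_zero)
      (pow_ne_zero 5 pκ.ne_zero)) c3
    rw [Nr_mul, Nr_mul, Nr_pow] at this
    refine this.trans ?_
    gcongr
  · have := Nr_le_of_dvd (mul_ne_zero (pow_ne_zero 5 pN'.ne_zero) (pow_ne_zero 6 p1.ne_zero)) c4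
    rw [Nr_pow, Nr_mul, Nr_mul, Nr_mul, Nr_pow, Nr_pow] at this
    rw [le_div_iff₀ (by positivity), ← mul_assoc]
    refine le_of_pow_le_pow_left₀ (n := 3) (by norm_num) (by positivity) (this.trans ?_)
    rw [mul_pow, ← Real.exp_nat_mul, ← pow_mul,
      show ((3 : ℕ) : ℝ) * (5 * (l + 1) / 3) = (5 : ℕ) * (l + 1) by push_cast; ring,
      Real.exp_nat_mul, Nr_mul]
    have : Nr b₁ ≤ Nr b₁ * Nr b₂ := le_mul_of_one_le_right (by linarith) B2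
    gcongr
  · rw [e, tl_SF_eq hA hψ _ _ (Real.exp_pos _)]
    refine hC _ _ _ _ _ (tl_c_le hψ _ _ _ _ _) ?_
    rw [abs_le]
    constructor <;> linarith

open Classical in
theorem tl_split_d {J : ℝ} (hJ : 1 ≤ J) : ∃ C : ℝ, 0 ≤ C ∧ ∀ (u : O → ℂ) (Z : ℝ),
    (∀ n, u n ≠ 0 → Prim n) → Rap u → 0 < Z →
    ∑' d, (if Prim d then ‖tl_V u d‖ ^ 2 else 0) ≤ ∑ d ∈ (box Z).filter Prim, ‖tl_V u d‖ ^ 2 +
      C * Z ^ (1 - 2 * J) * (∑' n, ‖u n‖ * Nr n ^ J) ^ 2 := by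
  obtain ⟨C, hC⟩ := tsum_tail_rpow_le (σ := 2 * J) (by linarith)
  refine ⟨|C|, abs_nonneg _, fun u Z hu ru hZ => ?_⟩
  have hNA : ∀ n : O, 0 ≤ Nr n ^ (-(2 * J)) := fun n => Real.rpow_nonneg (Nr_nonneg _) _
  have st : Summable fun h : O => if Z < Nr h then Nr h ^ (-(2 * J)) else 0 :=
    Summable.of_nonneg_of_le (fun h => by split_ifs; exacts [hNA h, le_rfl])
      (fun h => by split_ifs; exacts [le_rfl, hNA h]) (summable_Nr_rpow (by linarith))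
  have f1 : HasSum (fun d => if d ∈ (box Z).filter Prim then ‖tl_V u d‖ ^ 2 else 0)
      (∑ d ∈ (box Z).filter Prim, ‖tl_V u d‖ ^ 2) := by
    have := hasSum_sum_of_ne_finset_zero (L := SummationFilter.unconditional O)
      (f := fun d => if d ∈ (box Z).filter Prim then ‖tl_V u d‖ ^ 2 else 0)
      (s := (box Z).filter Prim) fun b hb => if_neg hb
    rwa [Finset.sum_congr rfl fun x hx => if_pos hx] at this
  set S := ∑' n, ‖u n‖ * Nr n ^ J with hS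
  refine (hasSum_le (fun d => ?_) (tl_V_summable hu ru).hasSum
    (f1.add (st.hasSum.mul_left (S ^ 2)))).trans ?_
  · have p1 : 0 ≤ if d ∈ (box Z).filter Prim then ‖tl_V u d‖ ^ 2 else 0 := by
      split_ifs; exacts [sq_nonneg _, le_rfl]
    have p2 : 0 ≤ S ^ 2 * if Z < Nr d then Nr d ^ (-(2 * J)) else 0 :=
      mul_nonneg (sq_nonneg _) (by split_ifs; exacts [hNA d, le_rfl])
    by_cases hd : Prim d
    swap
    · rw [if_neg hd]; linarith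
    rw [if_pos hd]
    by_cases hZd : Z < Nr d
    · have h1 := pow_le_pow_left₀ (norm_nonneg _) (tl_V_le hu ru (A := J) (by linarith) hd.ne_zero) 2
      rw [mul_pow, ← Real.rpow_natCast (Nr d ^ _), ← Real.rpow_mul (Nr_nonneg _), ← hS,
        show -J * (2 : ℕ) = -(2 * J) by push_cast; ring] at h1
      rw [if_pos hZd]
      linarith
    · rw [if_pos (Finset.mem_filter.2 ⟨mem_box.2 ⟨hd.ne_zero, not_lt.1 hZd⟩, hd⟩)]
      linarith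
  · have := mul_le_mul_of_nonneg_left ((hC Z hZ).trans
      (mul_le_mul_of_nonneg_right (le_abs_self _) (by positivity))) (sq_nonneg S)
    linarith

open Classical in
theorem tl_alpha (a : O → ℂ) {B P : ℝ} (hP : ∀ n ∈ box B, ((pdiv n).card : ℝ) ≤ P) :
    ∑ g ∈ (box B).filter Prim, ∑ b ∈ box (B / Nr g), ‖a (g * b)‖ ^ 2 ≤
      P * ∑ b ∈ box B, ‖a b‖ ^ 2 := by
  rw [Finset.sum_congr rfl fun g hg =>
    (tl_mult_sum (Finset.mem_filter.1 hg).2.ne_zero B fun n => ‖a n‖ ^ 2).symm]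
  simp only [Finset.sum_filter (s := box B) (p := fun r => _ ∣ r)]
  rw [Finset.sum_comm, Finset.mul_sum]
  refine Finset.sum_le_sum fun n hn => ?_
  rw [← Finset.sum_filter, Finset.sum_const, nsmul_eq_mul]
  refine mul_le_mul_of_nonneg_right (le_trans ?_ (hP n hn)) (sq_nonneg _)
  exact_mod_cast Finset.card_le_card fun g hg => (mem_pdiv (mem_box.1 hn).1).2
    ⟨(Finset.mem_filter.1 (Finset.mem_filter.1 hg).1).2, (Finset.mem_filter.1 hg).2⟩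

open Classical in
theorem tl_dsum {b : O} (hb : b ≠ 0) {Z Z' : ℝ} (hZ : 0 ≤ Z) (h : Z ≤ Z') :
    ∑ d ∈ (box Z).filter Prim, (if b ∣ d then Nr b / Nr d else 0) ≤ ∑ d ∈ box Z', (Nr d)⁻¹ := by
  have b0 := Nr_pos hb
  refine (Finset.sum_le_sum_of_subset_of_nonneg (Finset.filter_subset _ _) fun d _ _ => by
    split_ifs; exacts [div_nonneg b0.le (Nr_nonneg _), le_rfl]).trans ?_
  rw [← Finset.sum_filter, tl_mult_sum hb]
  refine (le_of_eq (Finset.sum_congr rfl fun d _ => ?_)).trans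
    (Finset.sum_le_sum_of_subset_of_nonneg (box_mono ((div_le_self hZ (one_le_Nr hb)).trans h))
      fun d _ _ => inv_nonneg.2 (Nr_nonneg _))
  rw [Nr_mul, div_mul_cancel_left₀ b0.ne']

theorem tl_P {η : ℝ} (hη : 0 < η) : ∃ C : ℝ, 1 ≤ C ∧ ∀ x : ℝ, 1 ≤ x →
    (∀ t : O, t ≠ 0 → Nr t ≤ x ^ 14 → ((pdiv t).card : ℝ) ≤ C * x ^ η) ∧
    ∑ d ∈ box (x ^ 5), (Nr d)⁻¹ ≤ C * x ^ η ∧
    ∃ Lm : ℕ, 10 * Real.log x < Lm ∧ (Lm : ℝ) ≤ C * x ^ η := by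
  obtain ⟨C₁, h₁⟩ := card_pdiv_le (ε := η / 14) (by positivity)
  obtain ⟨C₂, h₂⟩ := sum_box_inv_le
  have hη' : 0 < η⁻¹ := inv_pos.2 hη
  refine ⟨|C₁| + (1 + |C₂|) * (1 + 10 * η⁻¹), by
    nlinarith [abs_nonneg C₁, mul_nonneg (abs_nonneg C₂) hη'.le, abs_nonneg C₂], fun x hx => ?_⟩
  have x1 : 1 ≤ x ^ η := Real.one_le_rpow hx hη.le
  have l0 := Real.log_nonneg hx
  have l1 : Real.log x ≤ η⁻¹ * x ^ η := by
    rw [← div_eq_inv_mul]; exact Real.log_le_rpow_div (by linarith) hη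
  have l2 : 1 + 10 * Real.log x ≤ (1 + 10 * η⁻¹) * x ^ η := by linarith
  have c1 := mul_nonneg (abs_nonneg C₁) (by linarith : 0 ≤ x ^ η)
  have c2 := mul_le_mul_of_nonneg_left l2 (abs_nonneg C₂)
  have c3 := mul_nonneg (abs_nonneg C₂) l0
  have c4 := abs_nonneg C₂
  refine ⟨fun t ht h => (h₁ t ht).trans ?_, (h₂ _ (one_le_pow₀ hx)).trans ?_,
    ⌊10 * Real.log x⌋₊ + 1, by exact_mod_cast Nat.lt_floor_add_one _, ?_⟩
  · have : Nr t ^ (η / 14) ≤ x ^ η := by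
      refine (Real.rpow_le_rpow (Nr_nonneg _) h (by positivity)).trans (le_of_eq ?_)
      rw [← Real.rpow_natCast, ← Real.rpow_mul (by linarith)]
      congr 1
      push_cast
      ring
    have := mul_le_mul (le_abs_self C₁) this (Real.rpow_nonneg (Nr_nonneg _) _) (abs_nonneg _)
    linarith
  · rw [Real.log_pow]
    have := mul_le_mul_of_nonneg_right (le_abs_self C₂)
      (by positivity : 0 ≤ 1 + ((5 : ℕ) : ℝ) * Real.log x)
    push_cast at this ⊢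
    linarith
  · have := Nat.floor_le (by positivity : 0 ≤ 10 * Real.log x)
    push_cast
    linarith

open Classical in
theorem tl_row_main {A : ℝ} (hA : 0 < A) : ∃ C : ℝ, 0 ≤ C ∧
    ∀ (Q : O) (ψ a : O → ℂ) (x B X R τ y P : ℝ) (t k r N : O) (Lm : ℕ), IsCh Q ψ → Dy Q B a →
      1 ≤ x → 0 < X → 0 ≤ y → R ≤ x ^ 5 → r ∈ box R → N ∈ pdiv (r * rad r) →
      10 * Real.log x < Lm → (∀ t : O, t ≠ 0 → Nr t ≤ x ^ 14 → ((pdiv t).card : ℝ) ≤ P) →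
      Nr (tl_ww r N) * ∑ d ∈ (box (x ^ 4)).filter Prim,
        ‖tl_V (tl_un (tl_lam A ψ a B X τ y (t * k ^ 6)) N r) d‖ ^ 2 ≤
      C * P ^ 3 * ∑ d ∈ (box (x ^ 4)).filter Prim, ∑ g ∈ (box B).filter Prim,
        ∑ i ∈ pdiv g ×ˢ pdiv g ×ˢ box R ×ˢ Finset.range Lm, tl_Th A ψ a B X τ y t k d g i r := by
  obtain ⟨C, hC0, hC⟩ := tl_point hA
  refine ⟨C, hC0, ?_⟩
  intro Q ψ a x B X R τ y P t k r N Lm hψ ha hx hX hy hR hr hN hL hP
  obtain ⟨r0, hrR⟩ := mem_box.1 hr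
  obtain ⟨pN, hN1, hN2⟩ := tl_mem r0 hN
  have hNx : Nr N ≤ x ^ 10 := by
    refine (Nr_le_of_dvd (mul_ne_zero r0 (rad_ne_zero r)) hN1).trans ?_
    rw [Nr_mul, show x ^ 10 = x ^ 5 * x ^ 5 by ring]
    exact mul_le_mul (hrR.trans hR) ((tl_rad_le r0).trans (hrR.trans hR)) (Nr_nonneg _)
      (by positivity)
  have P0 : 0 ≤ P := (Nat.cast_nonneg _).trans
    (hP 1 one_ne_zero (by rw [Nr_one]; exact one_le_pow₀ hx))
  rw [Finset.mul_sum, Finset.mul_sum]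
  refine Finset.sum_le_sum fun d hd => ?_
  obtain ⟨hd1, pd⟩ := Finset.mem_filter.1 hd
  have T0 : ∀ g, 0 ≤ ∑ i ∈ pdiv g ×ˢ pdiv g ×ˢ box R ×ˢ Finset.range Lm,
      tl_Th A ψ a B X τ y t k d g i r := fun g =>
    Finset.sum_nonneg fun i _ => tl_Th_nonneg _ _ _ _ _ _ _ _ _ _ _ _ _
  have h1 := tl_V_SF hA hψ ha hX τ y t k pN (a1_rad_dvd_of hN2) pd
  by_cases hcy : cy y N = 0
  · rw [hcy, norm_zero, zero_mul] at h1
    rw [le_antisymm h1 (norm_nonneg _), sq, mul_zero, mul_zero]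
    exact mul_nonneg (by positivity) (Finset.sum_nonneg fun g _ => T0 g)
  set G := (box B).filter (fun g => Prim g ∧ Squarefree g ∧ g ∣ N * d) with hG
  have c1 : ‖cy y N‖ ≤ P := (tl_cy_le y N).trans
    (hP N pN.ne_zero (hNx.trans (pow_le_pow_right₀ hx (by norm_num))))
  have c2 : (G.card : ℝ) ≤ P := by
    refine le_trans ?_ (hP (N * d) (pN.mul pd).ne_zero ?_)
    · have : G ⊆ pdiv (N * d) := fun g hg => by
        obtain ⟨-, g1, -, g3⟩ := Finset.mem_filter.1 hg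
        exact (mem_pdiv (pN.mul pd).ne_zero).2 ⟨g1, g3⟩
      exact_mod_cast Finset.card_le_card this
    · rw [Nr_mul, show x ^ 14 = x ^ 10 * x ^ 4 by ring]
      exact mul_le_mul hNx (mem_box.1 hd1).2 (Nr_nonneg _) (by positivity)
  have hL' : Real.log (Nr N) < Lm := by
    refine lt_of_le_of_lt ((Real.log_le_log (Nr_pos pN.ne_zero) hNx).trans ?_) hL
    rw [Real.log_pow]; norm_num
  have h2 := pow_le_pow_left₀ (norm_nonneg _) h1 2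
  rw [mul_pow] at h2
  have h3 := h2.trans (mul_le_mul (pow_le_pow_left₀ (norm_nonneg _) c1 2)
    (sq_sum_le_card_mul_sum_sq.trans (mul_le_mul_of_nonneg_right c2
      (Finset.sum_nonneg fun _ _ => sq_nonneg _))) (sq_nonneg _) (sq_nonneg _))
  have h4 : Nr (tl_ww r N) * ∑ g ∈ G, ‖SF A ψ (tl_co ψ a τ (d * k) g) (B / Nr g)
      (X * Nr g / Nr (N * d)) τ (t ^ 5) (d * k) r‖ ^ 2 ≤ C * ∑ g ∈ (box B).filter Prim,
        ∑ i ∈ pdiv g ×ˢ pdiv g ×ˢ box R ×ˢ Finset.range Lm, tl_Th A ψ a B X τ y t k d g i r := by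
    rw [Finset.mul_sum, Finset.mul_sum]
    refine (Finset.sum_le_sum fun g hg => ?_).trans (Finset.sum_le_sum_of_subset_of_nonneg
      (fun g hg => Finset.mem_filter.2 ⟨(Finset.mem_filter.1 hg).1, (Finset.mem_filter.1 hg).2.1⟩)
      fun g _ _ => mul_nonneg hC0 (T0 g))
    obtain ⟨-, g1, g2, g3⟩ := Finset.mem_filter.1 hg
    exact hC ψ a B X R τ y t k r N d g Lm hψ.norm_le hX hy hr hN hcy hL' pd.ne_zero g1 g2 g3
  have h5 := mul_le_mul_of_nonneg_left h3 (Nr_nonneg (tl_ww r N))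
  have h6 := mul_le_mul_of_nonneg_left h4 (pow_nonneg P0 3)
  linarith

open Classical in
theorem tl_sum_M {A C₀ : ℝ} (hA : 0 < A) (hC₀ : 0 ≤ C₀) : ∃ C : ℝ, 0 ≤ C ∧
    ∀ (Q : O) (x y X B R τ Ξ D₀ P : ℝ) (ψ a : O → ℂ) (t k : O) (Lm : ℕ), 1 ≤ x →
      Real.exp (3 + 4 * A) ≤ y → IsCh Q ψ → t ≠ 0 → k ≠ 0 → 0 < X → X / y ≤ D₀ → 1 ≤ B → B ≤ x →
      0 < R → R ≤ x ^ 5 → Nr (rad t) ≤ x → Nr (rad k) ≤ x → Dy Q B a → 0 ≤ Ξ →
      TwoB (fun _ => True) Q A D₀ (x ^ 10) Ξ C₀ →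
      (∀ t : O, t ≠ 0 → Nr t ≤ x ^ 14 → ((pdiv t).card : ℝ) ≤ P) →
      ∑ d ∈ box (x ^ 5), (Nr d)⁻¹ ≤ P → (Lm : ℝ) ≤ P →
      ∑ r ∈ box R, ∑ d ∈ (box (x ^ 4)).filter Prim, ∑ g ∈ (box B).filter Prim,
        ∑ i ∈ pdiv g ×ˢ pdiv g ×ˢ box R ×ˢ Finset.range Lm, tl_Th A ψ a B X τ y t k d g i r ≤
      C * P ^ 6 * (Ξ * (1 + |τ|) ^ C₀ * X *
        (R + X * B ^ 2 * Nr (rad t) + B ^ 3 * X ^ (2 / 3 : ℝ) * Nr (rad t))) *
        ∑ b ∈ box B, ‖a b‖ ^ 2 := by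
  obtain ⟨C, hC0, hC⟩ := tl_Th_sum hA hC₀
  refine ⟨C, hC0, ?_⟩
  intro Q x y X B R τ Ξ D₀ P ψ a t k Lm hx hy hψ ht hk hX hD hB hBx hR hRx htx hkx ha hΞ hT hP hS hL
  have P0 : 0 ≤ P := (Nat.cast_nonneg _).trans hL
  have hP' : ∀ n ∈ box B, ((pdiv n).card : ℝ) ≤ P := fun n hn => hP n (mem_box.1 hn).1
    ((mem_box.1 hn).2.trans (hBx.trans (le_self_pow₀ hx (by norm_num))))
  obtain ⟨Λ, hΛ⟩ : ∃ Λ, Λ = C * (Ξ * (1 + |τ|) ^ C₀ * X *
    (R + X * B ^ 2 * Nr (rad t) + B ^ 3 * X ^ (2 / 3 : ℝ) * Nr (rad t))) := ⟨_, rfl⟩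
  have Λ0 : 0 ≤ Λ := by have := Nr_nonneg (rad t); rw [hΛ]; positivity
  set α : O → ℝ := fun g => ∑ b ∈ box (B / Nr g), ‖a (g * b)‖ ^ 2 with hα
  have α0 : ∀ g, 0 ≤ α g := fun g => Finset.sum_nonneg fun _ _ => sq_nonneg _
  rw [Finset.sum_comm, Finset.sum_congr rfl fun d _ => Finset.sum_comm, Finset.sum_comm]
  have key : ∀ g ∈ (box B).filter Prim, ∑ d ∈ (box (x ^ 4)).filter Prim, ∑ r ∈ box R,
      ∑ i ∈ pdiv g ×ˢ pdiv g ×ˢ box R ×ˢ Finset.range Lm, tl_Th A ψ a B X τ y t k d g i r ≤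
      Λ * P ^ 5 * α g := by
    intro g hg
    obtain ⟨g1, pg⟩ := Finset.mem_filter.1 hg
    rw [Finset.sum_congr rfl fun d _ => Finset.sum_comm, Finset.sum_comm]
    have k1 : ∀ i ∈ pdiv g ×ˢ pdiv g ×ˢ box R ×ˢ Finset.range Lm,
        ∑ d ∈ (box (x ^ 4)).filter Prim, ∑ r ∈ box R, tl_Th A ψ a B X τ y t k d g i r ≤
        Λ * α g * P * (Nr i.2.2.1)⁻¹ := by
      intro i hi
      simp only [Finset.mem_product] at hi
      refine (Finset.sum_le_sum fun d hd => hC Q x y X B R τ Ξ D₀ ψ a t k d g i hx hy hψ ht hk hX hD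
        hBx hR hRx htx hkx ha hΞ hT (Finset.mem_filter.1 hd).1 pg g1 hi.1 hi.2.1 hi.2.2.1).trans ?_
      rw [← Finset.mul_sum, ← Finset.sum_mul, ← hΛ, ← mul_assoc]
      refine mul_le_mul_of_nonneg_right (mul_le_mul_of_nonneg_left ?_ (mul_nonneg Λ0 (α0 g)))
        (inv_nonneg.2 (Nr_nonneg _))
      exact (tl_dsum ((mem_pdiv pg.ne_zero).1 hi.1).1.ne_zero (by positivity)
        (pow_le_pow_right₀ hx (by norm_num))).trans hS
    refine (Finset.sum_le_sum k1).trans ?_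
    rw [← Finset.mul_sum]
    simp only [Finset.sum_product, Finset.sum_const, nsmul_eq_mul, Finset.card_range,
      ← Finset.mul_sum]
    have k2 : ∑ κ ∈ box R, (Nr κ)⁻¹ ≤ P := (Finset.sum_le_sum_of_subset_of_nonneg (box_mono hRx)
      fun _ _ _ => inv_nonneg.2 (Nr_nonneg _)).trans hS
    have k3 := hP' g g1
    have k4 : 0 ≤ ∑ κ ∈ box R, (Nr κ)⁻¹ := Finset.sum_nonneg fun _ _ => inv_nonneg.2 (Nr_nonneg _)
    have := α0 g
    calc _ ≤ Λ * α g * P * (P * (P * (P * P))) := by gcongr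
      _ = _ := by ring
  refine (Finset.sum_le_sum key).trans ?_
  rw [← Finset.mul_sum]
  refine (mul_le_mul_of_nonneg_left (tl_alpha a hP') (by positivity)).trans (le_of_eq ?_)
  rw [hΛ]
  ring

set_option maxHeartbeats 1000000 in
theorem tl_main {A η C₀ : ℝ} (hA : 0 < A) (hη : 0 < η) (hC₀ : 0 ≤ C₀) : ∃ C : ℝ, 0 ≤ C ∧
    ∀ (Q : O) (x y X B R τ Ξ D₀ : ℝ) (ψ a : O → ℂ) (t k : O), 1 ≤ x →
      Real.exp (3 + 4 * A) ≤ y → IsCh Q ψ → t ≠ 0 → k ≠ 0 → 0 < X → X ≤ x → X / y ≤ D₀ → 1 ≤ B →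
      B ≤ x → 0 < R → R ≤ x ^ 5 → Nr (rad t) ≤ x → Nr (rad k) ≤ x → Dy Q B a → 0 ≤ Ξ →
      TwoB (fun _ => True) Q A D₀ (x ^ 10) Ξ C₀ →
      ∑ r ∈ box R, (pdiv (r * rad r)).card * tl_E (tl_lam A ψ a B X τ y (t * k ^ 6)) r ≤
      C * x ^ η * (1 + |τ|) ^ C₀ * (∑ b ∈ box B, ‖a b‖ ^ 2) * (Ξ * X *
        (R + X * B ^ 2 * Nr (rad t) + B ^ 3 * X ^ (2 / 3 : ℝ) * Nr (rad t)) + (x ^ 2)⁻¹) := by
  classical
  obtain ⟨C₁, hC₁, h₁⟩ := tl_row_main hA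
  obtain ⟨C₂, hC₂, h₂⟩ := tl_sum_M hA hC₀
  obtain ⟨C₃, hC₃, h₃⟩ := tl_split_d (J := 11) (by norm_num)
  obtain ⟨C₄, hC₄, h₄⟩ := tl_lam_mom (J := 11) hA (by norm_num)
  obtain ⟨C₅, hC₅, h₅⟩ := tl_P (η := η / 11) (by positivity)
  refine ⟨C₅ ^ 11 * (C₁ * C₂ + 25 * (C₃ * C₄ ^ 2)), by positivity, ?_⟩
  intro Q x y X B R τ Ξ D₀ ψ a t k hx hy hψ ht hk hX hXx hD hB hBx hR hRx htx hkx ha hΞ hT
  obtain ⟨p1, p2, Lm, p3, p4⟩ := h₅ x hx
  have x0 : 0 < x := by linarith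
  have eP : (C₅ * x ^ (η / 11)) ^ 11 = C₅ ^ 11 * x ^ η := by
    rw [mul_pow, ← Real.rpow_natCast (x ^ _), ← Real.rpow_mul x0.le]
    congr 2
    push_cast
    ring
  have P1 : 1 ≤ C₅ * x ^ (η / 11) :=
    one_le_mul_of_one_le_of_one_le hC₅ (Real.one_le_rpow hx (by positivity))
  generalize C₅ * x ^ (η / 11) = P at *
  have k2 := h₂ Q x y X B R τ Ξ D₀ P ψ a t k Lm hx hy hψ ht hk hX hD hB hBx hR hRx htx hkx ha hΞ hT
    p1 p2 p4
  have k4 := h₄ ψ a B X τ y (t * k ^ 6) hψ.norm_le hB hX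
  have y0 : 0 ≤ y := (Real.exp_pos _).le.trans hy
  have rl := tl_lam_rap hA hψ.norm_le a B hX τ y (t * k ^ 6)
  set S := ∑ b ∈ box B, ‖a b‖ ^ 2 with hS
  have S0 : 0 ≤ S := Finset.sum_nonneg fun _ _ => sq_nonneg _
  set M : O → ℝ := fun r => ∑ d ∈ (box (x ^ 4)).filter Prim, ∑ g ∈ (box B).filter Prim,
    ∑ i ∈ pdiv g ×ˢ pdiv g ×ˢ box R ×ˢ Finset.range Lm, tl_Th A ψ a B X τ y t k d g i r with hM
  have M0 : ∀ r, 0 ≤ M r := fun r => Finset.sum_nonneg fun _ _ => Finset.sum_nonneg fun _ _ =>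
    Finset.sum_nonneg fun _ _ => tl_Th_nonneg _ _ _ _ _ _ _ _ _ _ _ _ _
  have k5 : ∑' N, ‖tl_lam A ψ a B X τ y (t * k ^ 6) N‖ * Nr N ^ (11 : ℝ) ≤
      C₄ * x ^ 27 * Real.sqrt S := by
    refine k4.trans (mul_le_mul_of_nonneg_right (mul_le_mul_of_nonneg_left ?_ hC₄)
      (Real.sqrt_nonneg _))
    rw [show (2 + 11 : ℝ) = (13 : ℕ) by norm_num, Real.rpow_natCast,
      show x ^ 27 = x * (x * x) ^ 13 by ring]
    gcongr
  have key : ∀ r ∈ box R, (pdiv (r * rad r)).card * tl_E (tl_lam A ψ a B X τ y (t * k ^ 6)) r ≤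
      P ^ 2 * (C₁ * P ^ 3 * M r + C₃ * C₄ ^ 2 * S * (x ^ 10)⁻¹) := by
    intro r hr
    obtain ⟨r0, hrR⟩ := mem_box.1 hr
    have hNx : Nr (r * rad r) ≤ x ^ 10 := by
      rw [Nr_mul, show x ^ 10 = x ^ 5 * x ^ 5 by ring]
      exact mul_le_mul (hrR.trans hRx) ((tl_rad_le r0).trans (hrR.trans hRx)) (Nr_nonneg _)
        (by positivity)
    have c1 := p1 _ (mul_ne_zero r0 (rad_ne_zero r))
      (hNx.trans (pow_le_pow_right₀ hx (by norm_num)))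
    have c0 : 0 ≤ C₁ * P ^ 3 * M r + C₃ * C₄ ^ 2 * S * (x ^ 10)⁻¹ :=
      add_nonneg (mul_nonneg (mul_nonneg hC₁ (pow_nonneg (zero_le_one.trans P1) _)) (M0 r))
        (mul_nonneg (mul_nonneg (mul_nonneg hC₃ (sq_nonneg _)) S0)
          (inv_nonneg.2 (pow_nonneg x0.le _)))
    have c2 : tl_E (tl_lam A ψ a B X τ y (t * k ^ 6)) r ≤
        (pdiv (r * rad r)).card * (C₁ * P ^ 3 * M r + C₃ * C₄ ^ 2 * S * (x ^ 10)⁻¹) := by
      rw [← nsmul_eq_mul, ← Finset.sum_const]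
      refine Finset.sum_le_sum fun N hN => ?_
      obtain ⟨pN, hN1, -⟩ := tl_mem r0 hN
      have N1 := one_le_Nr pN.ne_zero
      have d1 := h₁ Q ψ a x B X R τ y P t k r N Lm hψ ha hx hX y0 hRx hr hN p3 p1
      have ru := tl_un_rap rl pN.ne_zero r
      have d2 := h₃ _ (x ^ 4) (tl_un_prim _ N r) ru (by positivity)
      have d3 : ∑' n, ‖tl_un (tl_lam A ψ a B X τ y (t * k ^ 6)) N r n‖ * Nr n ^ (11 : ℝ) ≤
          C₄ * x ^ 27 * Real.sqrt S := by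
        obtain ⟨e1, e2⟩ := tl_shift rl pN.ne_zero 11
        refine ((ru 11).tsum_le_tsum (fun n => mul_le_mul_of_nonneg_right (tl_un_le _ N r n)
          (Real.rpow_nonneg (Nr_nonneg _) _)) e1).trans (e2.trans (le_trans ?_ k5))
        exact mul_le_of_le_one_left (tsum_nonneg fun n => mul_nonneg (norm_nonneg _)
          (Real.rpow_nonneg (Nr_nonneg _) _))
          (Real.rpow_le_one_of_one_le_of_nonpos N1 (by norm_num))
      have d4 := pow_le_pow_left₀ (tsum_nonneg fun n => mul_nonneg (norm_nonneg _)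
        (Real.rpow_nonneg (Nr_nonneg _) _)) d3 2
      rw [mul_pow, mul_pow, Real.sq_sqrt S0] at d4
      have d5 : Nr (tl_ww r N) ≤ x ^ 20 := by
        refine (tl_ww_le r0 pN.ne_zero).trans ?_
        rw [show x ^ 20 = (x ^ 10) ^ 2 by ring]
        exact pow_le_pow_left₀ (Nr_nonneg _)
          ((Nr_le_of_dvd (mul_ne_zero r0 (rad_ne_zero r)) hN1).trans hNx) 2
      have d6 : (x ^ 4) ^ (1 - 2 * 11 : ℝ) = (x ^ 84)⁻¹ := by
        rw [show (1 - 2 * 11 : ℝ) = -(21 : ℕ) by norm_num, Real.rpow_neg (by positivity),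
          Real.rpow_natCast, ← pow_mul]
      rw [d6] at d2
      have d7 := mul_le_mul d5 (mul_le_mul_of_nonneg_left d4
        (mul_nonneg hC₃ (inv_nonneg.2 (pow_nonneg x0.le 84))))
        (mul_nonneg (mul_nonneg hC₃ (inv_nonneg.2 (pow_nonneg x0.le _))) (sq_nonneg _))
        (pow_nonneg x0.le _)
      have d8 : x ^ 20 * (C₃ * (x ^ 84)⁻¹ * (C₄ ^ 2 * (x ^ 27) ^ 2 * S)) =
          C₃ * C₄ ^ 2 * S * (x ^ 10)⁻¹ := by field_simp
      have d9 := mul_le_mul_of_nonneg_left d2 (Nr_nonneg (tl_ww r N))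
      rw [d8] at d7
      rw [mul_add] at d9
      exact d9.trans (add_le_add d1 d7)
    refine (mul_le_mul_of_nonneg_left c2 (Nat.cast_nonneg _)).trans ?_
    rw [← mul_assoc, ← sq]
    exact mul_le_mul_of_nonneg_right (pow_le_pow_left₀ (Nat.cast_nonneg _) c1 2) c0
  refine (Finset.sum_le_sum key).trans ?_
  rw [← Finset.mul_sum, Finset.sum_add_distrib, ← Finset.mul_sum, Finset.sum_const, nsmul_eq_mul]
  have k6 : ((box R).card : ℝ) ≤ 25 * x ^ 5 := (card_box_le hR.le).trans (by linarith)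
  have k7 : x ^ 5 * (x ^ 10)⁻¹ ≤ (x ^ 2)⁻¹ := by
    rw [show x ^ 5 * (x ^ 10)⁻¹ = (x ^ 5)⁻¹ by field_simp]
    exact inv_anti₀ (by positivity) (pow_le_pow_right₀ hx (by norm_num))
  have k8 : 1 ≤ (1 + |τ|) ^ C₀ := Real.one_le_rpow (le_add_of_nonneg_right (abs_nonneg _)) hC₀
  have k9 : P ^ 2 ≤ P ^ 11 := pow_le_pow_right₀ P1 (by norm_num)
  have q0 := Nr_nonneg (rad t)
  clear key hM k4 k5 rl hT h₁ h₂ h₃ h₄ h₅ p1 p2 hS
  clear_value M S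
  generalize ∑ r ∈ box R, M r = m at *
  generalize ((box R).card : ℝ) = c at *
  obtain ⟨Λ, hΛ⟩ : ∃ Λ, Λ = R + X * B ^ 2 * Nr (rad t) + B ^ 3 * X ^ (2 / 3 : ℝ) * Nr (rad t) :=
    ⟨_, rfl⟩
  have Λ0 : 0 ≤ Λ := by rw [hΛ]; positivity
  rw [← hΛ] at k2 ⊢
  rw [mul_right_comm (C₅ ^ 11), ← eP]
  generalize (1 + |τ|) ^ C₀ = w at *
  have a1 := mul_le_mul_of_nonneg_left k2 (by positivity : 0 ≤ P ^ 2 * (C₁ * P ^ 3))
  have a2 : P ^ 2 * (c * (C₃ * C₄ ^ 2 * S * (x ^ 10)⁻¹)) ≤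
      P ^ 11 * (25 * (C₃ * C₄ ^ 2)) * w * S * (x ^ 2)⁻¹ := by
    calc _ ≤ P ^ 2 * (25 * x ^ 5 * (C₃ * C₄ ^ 2 * S * (x ^ 10)⁻¹)) := by gcongr
      _ = P ^ 2 * (25 * (C₃ * C₄ ^ 2)) * 1 * S * (x ^ 5 * (x ^ 10)⁻¹) := by ring
      _ ≤ _ := by gcongr
  have a3 : 0 ≤ P ^ 11 * (C₁ * C₂) * w * S * (x ^ 2)⁻¹ := by positivity
  have a4 : 0 ≤ P ^ 11 * (25 * (C₃ * C₄ ^ 2)) * w * S * (Ξ * X * Λ) := by positivity
  linarith

end Crest.Agent.R017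

end
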