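import Crest.Agent.R017.T2A
import Crest.Agent.R017.T2LargeAux6

/-! # Row 17: second moments: large cubes -/

set_option autoImplicit false

noncomputable section

open scoped BigOperators ComplexConjugate
open Complex MeasureTheory

namespace Crest.Agent.R017

theorem tl_shift_lam {A : ℝ} (hA : 0 < A) (ψ ξ a : O → ℂ) (B : ℝ) {X : ℝ} (hX : 0 < X)
    (τ y σ s : ℝ) (T N : O) :
    tl_lam A ψ a B X τ y T N * ξ N * ((Nr N ^ (-(1 / 2) : ℝ) : ℝ) : ℂ) *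
      (Nr N : ℂ) ^ ((σ : ℂ) + s * I) =
    ((X ^ (σ - 1 / 2) * Real.exp (A * (σ - 1 / 2) ^ 2) : ℝ) : ℂ) *
      tl_lam A (fun n => ψ n * ξ n) (fun b => a b * ((Nr b ^ (σ - 1 / 2) : ℝ) : ℂ)) B
        (X * Real.exp (2 * A * (σ - 1 / 2))) (τ - s) y T N := by
  by_cases hN : Prim N
  swap
  · simp [tl_lam, hN]
  have N0 := Nr_pos hN.ne_zero
  have hN' : (Nr N : ℂ) ≠ 0 := by exact_mod_cast N0.ne'
  have e1 : (Nr N : ℂ) ^ (-(τ * I)) * ((Nr N ^ (-(1 / 2) : ℝ) : ℝ) : ℂ) *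
      (Nr N : ℂ) ^ ((σ : ℂ) + s * I) =
      ((Nr N ^ (σ - 1 / 2) : ℝ) : ℂ) * (Nr N : ℂ) ^ (-(((τ - s : ℝ) : ℂ) * I)) := by
    rw [Complex.ofReal_cpow N0.le, Complex.ofReal_cpow N0.le, ← Complex.cpow_add _ _ hN',
      ← Complex.cpow_add _ _ hN', ← Complex.cpow_add _ _ hN']
    congr 1
    push_cast
    ring
  simp only [tl_lam, if_pos hN, Finset.mul_sum, Finset.sum_mul]
  refine Finset.sum_congr rfl fun b hb => ?_
  split_ifs
  swap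
  · simp
  have b0 := Nr_pos (mem_box.1 hb).1
  have h1 := W_mul_rpow hA (div_pos N0 (mul_pos b0 hX)) (σ - 1 / 2)
  rw [Real.div_rpow N0.le (mul_pos b0 hX).le, Real.mul_rpow b0.le hX.le, div_div, mul_assoc (Nr b)]
    at h1
  have h2 : Nr N ^ (σ - 1 / 2) * W A (Nr N / (Nr b * X)) =
      X ^ (σ - 1 / 2) * Nr b ^ (σ - 1 / 2) * (Real.exp (A * (σ - 1 / 2) ^ 2) *
        W A (Nr N / (Nr b * (X * Real.exp (2 * A * (σ - 1 / 2)))))) := by
    rw [← h1]; field_simp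
  have h4 := congrArg (fun x : ℝ => (x : ℂ)) h2
  simp only [Complex.ofReal_mul] at h4 ⊢
  linear_combination (cy y N * ψ N * conj (chi N T) * ξ N * a b * (W A (Nr N / (Nr b * X)) : ℂ)) * e1
    + (cy y N * ψ N * conj (chi N T) * ξ N * a b * (Nr N : ℂ) ^ (-(((τ - s : ℝ) : ℂ) * I))) * h4

theorem tl_l2_shift {Q : O} {B σ : ℝ} {a : O → ℂ} (ha : Dy Q B a) (hB : 0 < B) (h0 : 0 ≤ σ)
    (h1 : σ ≤ 1 / 2) : ∑ x ∈ box B, ‖a x * ((Nr x ^ (σ - 1 / 2) : ℝ) : ℂ)‖ ^ 2 ≤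
      2 * B ^ (2 * σ - 1) * ∑ x ∈ box B, ‖a x‖ ^ 2 := by
  rw [Finset.mul_sum]
  refine Finset.sum_le_sum fun x hx => ?_
  by_cases h : a x = 0
  · simp [h]
  have x0 := Nr_pos (mem_box.1 hx).1
  rw [norm_mul, mul_pow, mul_comm, norm_real, Real.norm_of_nonneg (by positivity)]
  refine mul_le_mul_of_nonneg_right ?_ (sq_nonneg _)
  rw [← Real.rpow_natCast, ← Real.rpow_mul x0.le,
    show (σ - 1 / 2) * (2 : ℕ) = 2 * σ - 1 by push_cast; ring]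
  refine (Real.rpow_le_rpow_of_nonpos (by positivity) (ha x h).2.1.le (by linarith)).trans ?_
  rw [Real.div_rpow hB.le two_pos.le, div_eq_mul_inv, ← Real.rpow_neg two_pos.le, mul_comm]
  refine mul_le_mul_of_nonneg_right ?_ (by positivity)
  conv_rhs => rw [← Real.rpow_one 2]
  exact Real.rpow_le_rpow_of_exponent_le one_le_two (by linarith)

set_option maxHeartbeats 1000000 in
theorem tl_Y_le {A e C₀ : ℝ} (hA : 0 < A) (he : 0 < e) (he1 : e ≤ 1 / 2) (hC₀ : 0 ≤ C₀) :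
    ∃ C : ℝ, 0 ≤ C ∧ ∀ (Q : O) (x y X B R τ Ξ : ℝ) (ψ ξ a : O → ℂ) (t k : O), 1 ≤ x →
      Real.exp (3 + 4 * A) ≤ y → IsCh Q ψ → IsCh Q ξ → t ≠ 0 → k ≠ 0 → 0 < X → X ≤ x → 1 ≤ B →
      B ≤ x → 0 < R → R ≤ x ^ 5 → Nr (rad t) ≤ x → Nr (rad k) ≤ x → Dy Q B a → 0 ≤ Ξ →
      TwoB (fun _ => True) Q A (X / y) (x ^ 10) Ξ C₀ → ∀ s : ℝ,
      ∑ r ∈ box R, ‖tl_Y (tl_u fun n => tl_lam A ψ a B X τ y (t * k ^ 6) n * ξ n *
        ((Nr n ^ (-(1 / 2) : ℝ) : ℝ) : ℂ)) e r s‖ ≤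
      C * x ^ e * (1 + |τ|) ^ C₀ * (∑ b ∈ box B, ‖a b‖ ^ 2) * (X * B) ^ (2 * e - 1) * (Ξ * X *
        (R + X * B ^ 2 * Nr (rad t) + B ^ 3 * X ^ (2 / 3 : ℝ) * Nr (rad t)) + (x ^ 2)⁻¹) *
        (1 + |s|) ^ C₀ := by
  obtain ⟨C, hC0, hC⟩ := tl_main hA he hC₀
  refine ⟨2 * Real.exp A * C, by positivity, ?_⟩
  intro Q x y X B R τ Ξ ψ ξ a t k hx hy hψ hξ ht hk hX hXx hB hBx hR hRx htx hkx ha hΞ hT s
  have hψ' := hψ.mul_same hξ
  have y0 : 0 < y := (Real.exp_pos _).trans_le hy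
  set X' := X * Real.exp (2 * A * (e - 1 / 2)) with hX'
  have X0 : 0 < X' := by positivity
  have X1 : X' ≤ X := mul_le_of_le_one_right hX.le
    (Real.exp_le_one_iff.2 (mul_nonpos_of_nonneg_of_nonpos (by positivity) (by linarith)))
  set a' : O → ℂ := fun b => a b * ((Nr b ^ (e - 1 / 2) : ℝ) : ℂ) with ha'
  have da : Dy Q B a' := fun x hx => ha x (left_ne_zero_of_mul hx)
  set κ := X ^ (e - 1 / 2) * Real.exp (A * (e - 1 / 2) ^ 2) with hκ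
  set lam : ℝ → O → ℂ := fun τ' => tl_lam A (fun n => ψ n * ξ n) a' B X' τ' y (t * k ^ 6) with hlam
  have e1 : ∀ r, tl_Y (tl_u fun n => tl_lam A ψ a B X τ y (t * k ^ 6) n * ξ n *
      ((Nr n ^ (-(1 / 2) : ℝ) : ℝ) : ℂ)) e r s = ((κ ^ 2 : ℝ) : ℂ) *
      ∑' p : O × O, lam (τ - s) p.1 * conj (lam (τ - -s) p.2) * KT p.1 p.2 r := by
    intro r
    rw [tl_Y, ← tsum_mul_left]
    refine tsum_congr fun p => ?_
    have h1 := tl_shift_lam hA ψ ξ a B hX τ y e s (t * k ^ 6) p.1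
    have h2 := congrArg conj (tl_shift_lam hA ψ ξ a B hX τ y e (-s) (t * k ^ 6) p.2)
    rw [map_mul, l3_conj_cpow (Nr_nonneg _), map_mul _ (((_ : ℝ) : ℂ)), Complex.conj_ofReal] at h2
    rw [tl_u, mul_right_comm, mul_mul_mul_comm, h1, h2, Complex.ofReal_pow]
    simp only [hlam, hκ, hX', ha']
    ring
  have q0 := Nr_nonneg (rad t)
  obtain ⟨Λ, hΛ⟩ : ∃ Λ, Λ = Ξ * X *
    (R + X * B ^ 2 * Nr (rad t) + B ^ 3 * X ^ (2 / 3 : ℝ) * Nr (rad t)) + (x ^ 2)⁻¹ := ⟨_, rfl⟩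
  set S := ∑ b ∈ box B, ‖a b‖ ^ 2 with hS
  have S0 : 0 ≤ S := Finset.sum_nonneg fun _ _ => sq_nonneg _
  have e2 : ∀ s' : ℝ, |s'| = |s| →
      ∑ r ∈ box R, (pdiv (r * rad r)).card * tl_E (lam (τ - s')) r ≤
        C * x ^ e * ((1 + |τ|) ^ C₀ * (1 + |s|) ^ C₀) * (2 * B ^ (2 * e - 1) * S) * Λ := by
    intro s' hs'
    refine (hC Q x y X' B R (τ - s') Ξ (X / y) _ a' t k hx hy hψ' ht hk X0 (X1.trans hXx)
      (div_le_div_of_nonneg_right X1 y0.le) hB hBx hR hRx htx hkx da hΞ hT).trans ?_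
    have k1 : (1 + |τ - s'|) ^ C₀ ≤ (1 + |τ|) ^ C₀ * (1 + |s|) ^ C₀ := by
      rw [← Real.mul_rpow (by positivity) (by positivity)]
      refine Real.rpow_le_rpow (by positivity) ?_ hC₀
      have := abs_sub τ s'
      nlinarith [mul_nonneg (abs_nonneg τ) (abs_nonneg s)]
    have k2 := tl_l2_shift ha (by linarith) he.le he1
    have k3 : Ξ * X' * (R + X' * B ^ 2 * Nr (rad t) + B ^ 3 * X' ^ (2 / 3 : ℝ) * Nr (rad t)) +
        (x ^ 2)⁻¹ ≤ Λ := by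
      rw [hΛ]
      gcongr
    have p1 : 0 ≤ C * x ^ e := by positivity
    have p2 : 0 ≤ C * x ^ e * ((1 + |τ|) ^ C₀ * (1 + |s|) ^ C₀) := by positivity
    have p3 : 0 ≤ 2 * B ^ (2 * e - 1) * S := by positivity
    exact mul_le_mul (mul_le_mul (mul_le_mul_of_nonneg_left k1 p1) k2
      (Finset.sum_nonneg fun _ _ => sq_nonneg _) p2) k3 (by positivity) (mul_nonneg p2 p3)
  have pl : ∀ τ' n, lam τ' n ≠ 0 → Prim n := fun τ' n hn => (tl_lam_supp hψ' hn).1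
  have rl : ∀ τ', Rap (lam τ') := fun τ' => tl_lam_rap hA hψ'.norm_le a' B X0 τ' y _
  have e3 : ∑ r ∈ box R, ‖∑' p : O × O, lam (τ - s) p.1 * conj (lam (τ - -s) p.2) * KT p.1 p.2 r‖ ≤
      C * x ^ e * ((1 + |τ|) ^ C₀ * (1 + |s|) ^ C₀) * (2 * B ^ (2 * e - 1) * S) * Λ := by
    refine (Finset.sum_le_sum fun r hr =>
      tl_F_le (pl _) (pl _) (rl _) (rl _) (mem_box.1 hr).1).trans ?_
    have h1 := e2 s rfl
    have h2 := e2 (-s) (abs_neg s)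
    simp only [← mul_div_assoc, mul_add, ← Finset.sum_div, Finset.sum_add_distrib]
    linarith
  have e4 : κ ^ 2 ≤ X ^ (2 * e - 1) * Real.exp A := by
    rw [hκ, mul_pow, ← Real.rpow_natCast (X ^ _), ← Real.rpow_mul hX.le, ← Real.exp_nat_mul,
      show (e - 1 / 2) * (2 : ℕ) = 2 * e - 1 by push_cast; ring]
    refine mul_le_mul_of_nonneg_left (Real.exp_le_exp.2 ?_) (by positivity)
    have : (e - 1 / 2) ^ 2 ≤ 1 / 2 := by nlinarith
    push_cast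
    nlinarith
  simp only [e1, norm_mul, norm_real, Real.norm_of_nonneg (sq_nonneg κ), ← Finset.mul_sum]
  refine (mul_le_mul e4 e3 (Finset.sum_nonneg fun _ _ => norm_nonneg _) (by positivity)).trans
    (le_of_eq ?_)
  rw [← hΛ, Real.mul_rpow hX.le (by linarith)]
  ring

theorem tl_fin {e A lx L b h Ξ q w S Z C C₁ C₂ C₃ : ℝ} (he : 0 < e) (hA : e * A = 19)
    (hL : -lx ≤ L) (hL' : L ≤ lx) (hb : 0 ≤ b) (hb' : b ≤ lx) (hh : 0 ≤ h) (hΞ : 0 ≤ Ξ) (hq : 0 ≤ q)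
    (hw : 1 ≤ w) (hS : 0 ≤ S) (hC : 0 ≤ C) (hC₁ : 0 ≤ C₁) (hC₂ : 0 ≤ C₂) (hZ0 : 0 ≤ Z)
    (hZ : Z ≤ C₃ * (Real.exp b * (Real.exp b * Real.exp L) ^ (2 + (1 + (2 + A)))) * Real.sqrt S) :
    Real.exp h * (C₁ * Real.exp b ^ (3 * e) * Real.exp L ^ (1 + 4 * e) * S +
      C * (Real.exp h ^ (-e) * (C₂ * Real.exp lx ^ e * w * S * (Real.exp L * Real.exp b) ^ (2 * e - 1) *
        (Ξ * Real.exp L * (Real.exp (2 * L + 2 * b + e * lx - h) + Real.exp L * Real.exp b ^ 2 * q +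
          Real.exp b ^ 3 * Real.exp L ^ (2 / 3 : ℝ) * q) + (Real.exp lx ^ 2)⁻¹)) +
        Real.exp h ^ (-(2 + A)) * Real.exp (2 * L + 2 * b + e * lx - h) ^ (1 - (2 + A)) * Z ^ 2)) ≤
      (C₁ + C * (C₂ + C₃ ^ 2)) * Real.exp lx ^ (7 * e) * w * S * (Real.exp L * Real.exp h +
        Ξ * (Real.exp L ^ 2 * Real.exp b + Real.exp h * Real.exp L * Real.exp b * q +
          Real.exp h * Real.exp b ^ 2 * Real.exp L ^ (2 / 3 : ℝ) * q)) := by
  have l0 : 0 ≤ lx := hb.trans hb'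
  have m1 : e * L ≤ e * lx := mul_le_mul_of_nonneg_left hL' he.le
  have m2 : e * b ≤ e * lx := mul_le_mul_of_nonneg_left hb' he.le
  have m3 : 0 ≤ e * lx := mul_nonneg he.le l0
  have m4 : 0 ≤ e * h := mul_nonneg he.le hh
  have m5 : e * lx * A = 19 * lx := by rw [← hA]; ring
  have hZ2 := pow_le_pow_left₀ hZ0 hZ 2
  rw [mul_pow, mul_pow, Real.sq_sqrt hS] at hZ2
  simp only [← Real.exp_mul, ← Real.exp_nat_mul, ← Real.exp_add, ← Real.exp_neg] at hZ2 ⊢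
  set E := Real.exp (lx * (7 * e)) with hE
  have t0 : Real.exp h * (Real.exp (b * (3 * e)) * Real.exp (L * (1 + 4 * e))) ≤
      E * Real.exp (L + h) := by
    simp only [hE, ← Real.exp_add]; exact Real.exp_le_exp.2 (by linarith)
  set F := Real.exp h * Real.exp (h * -e) * Real.exp (lx * e) * Real.exp ((L + b) * (2 * e - 1))
    with hF
  have t1 : F * (Real.exp L * Real.exp (2 * L + 2 * b + e * lx - h)) ≤
      E * Real.exp ((2 : ℕ) * L + b) := by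
    simp only [hE, hF, ← Real.exp_add]; exact Real.exp_le_exp.2 (by push_cast; linarith)
  have t2 : F * (Real.exp L * Real.exp (L + (2 : ℕ) * b)) ≤ E * Real.exp (h + L + b) := by
    simp only [hE, hF, ← Real.exp_add]; exact Real.exp_le_exp.2 (by push_cast; linarith)
  have t3 : F * (Real.exp L * Real.exp ((3 : ℕ) * b + L * (2 / 3))) ≤
      E * Real.exp (h + (2 : ℕ) * b + L * (2 / 3)) := by
    simp only [hE, hF, ← Real.exp_add]; exact Real.exp_le_exp.2 (by push_cast; linarith)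
  have t4 : F * Real.exp (-((2 : ℕ) * lx)) ≤ E * Real.exp (L + h) := by
    simp only [hE, hF, ← Real.exp_add]; exact Real.exp_le_exp.2 (by push_cast; linarith)
  have t5 : Real.exp h * Real.exp (h * -(2 + A) + (2 * L + 2 * b + e * lx - h) * (1 - (2 + A))) *
      Real.exp ((2 : ℕ) * (b + (b + L) * (2 + (1 + (2 + A))))) ≤ E * Real.exp (L + h) := by
    simp only [hE, ← Real.exp_add]; exact Real.exp_le_exp.2 (by push_cast; linarith)
  have E0 : 0 < E := Real.exp_pos _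
  have w0 : 0 ≤ w := by linarith
  have u0 := mul_le_mul_of_nonneg_left t0 (mul_nonneg hC₁ hS)
  have u1 := mul_le_mul_of_nonneg_left t1 (by positivity : 0 ≤ C * C₂ * w * S * Ξ)
  have u2 := mul_le_mul_of_nonneg_left t2 (by positivity : 0 ≤ C * C₂ * w * S * Ξ * q)
  have u3 := mul_le_mul_of_nonneg_left t3 (by positivity : 0 ≤ C * C₂ * w * S * Ξ * q)
  have u4 := mul_le_mul_of_nonneg_left t4 (by positivity : 0 ≤ C * C₂ * w * S)
  have u5 := mul_le_mul_of_nonneg_left t5 (by positivity : 0 ≤ C * C₃ ^ 2 * S)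
  have u6 := mul_le_mul_of_nonneg_left hZ2 (by positivity : 0 ≤ C * Real.exp h *
    Real.exp (h * -(2 + A) + (2 * L + 2 * b + e * lx - h) * (1 - (2 + A))))
  have u7 := mul_le_mul_of_nonneg_left hw
    (by positivity : 0 ≤ (C₁ + C * C₃ ^ 2) * E * S * Real.exp (L + h))
  have u8 : 0 ≤ (C₁ + C * C₃ ^ 2) * E * w * S * (Ξ * (Real.exp ((2 : ℕ) * L + b) +
      Real.exp (h + L + b) * q + Real.exp (h + (2 : ℕ) * b + L * (2 / 3)) * q)) := by positivity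
  rw [hF] at u1 u2 u3 u4
  linear_combination u0 + u1 + u2 + u3 + u4 + u5 + u6 + u7 + u8

theorem two_large {Q : O} (hQ : Q ≠ 0) (h72 : (72 : O) ∣ Q) {A ε C₀ : ℝ} (hA : 0 < A) (hε : 0 < ε)
    (hC₀ : 0 ≤ C₀) : ∃ C : ℝ, 0 ≤ C ∧ ∀ (x y H X B τ Ξ : ℝ) (ψ a : O → ℂ) (t k : O), 2 ≤ x →
      Real.exp (3 + 4 * A) ≤ y → IsCh Q ψ → t ≠ 0 → k ≠ 0 → 0 < H → H ≤ x → x⁻¹ ≤ X → X ≤ x →
      1 ≤ B → B ≤ x → Nr (rad t) ≤ x → Nr (rad k) ≤ x → Dy Q B a → 0 ≤ Ξ →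
      TwoB (fun _ => True) Q A (X / y) (x ^ (10 : ℕ)) Ξ C₀ →
      NS H (CLarge A ψ a B X τ y (t * k ^ 6)) ≤
        C * x ^ ε * (1 + |τ|) ^ C * (∑ b ∈ box B, ‖a b‖ ^ 2) *
          (X * H + Ξ * (X ^ 2 * B + H * X * B * Nr (rad t) + H * B ^ 2 * X ^ (2 / 3 : ℝ) * Nr (rad t))) := by
  have he : 0 < min ε 1 / 7 := by positivity
  have he1 : min ε 1 / 7 ≤ 1 / 2 := by linarith [min_le_right ε 1]
  have he2 : 7 * (min ε 1 / 7) ≤ ε := by linarith [min_le_left ε 1]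
  generalize min ε 1 / 7 = e at he he1 he2
  have hA' : 2 ≤ 2 + 19 / e := le_add_of_nonneg_right (by positivity)
  have hAe : e * (19 / e) = 19 := by field_simp
  generalize 19 / e = A' at hA' hAe
  obtain ⟨S, hS, hS1, hS2⟩ := tl_NS_le hQ ((show (12 : O) ∣ 72 from ⟨6, by norm_num⟩).trans h72)
  obtain ⟨C, hC0, hC⟩ := tl_dual C₀ he hA'
  obtain ⟨C₁, hC₁, h₁⟩ := tl_zero hA he
  obtain ⟨C₂, hC₂, h₂⟩ := tl_Y_le hA he he1 hC₀
  obtain ⟨C₃, hC₃, h₃⟩ := tl_lam_mom (J := 1 + (2 + A')) hA (by linarith)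
  obtain ⟨K, hK⟩ : ∃ K, K = Real.exp c0 * 12 * (C₁ + C * (C₂ + C₃ ^ 2)) := ⟨_, rfl⟩
  have K0 : 0 ≤ K := by rw [hK]; positivity
  refine ⟨K + C₀, by positivity, ?_⟩
  intro x y H X B τ Ξ ψ a t k hx hy hψ ht hk hH hHx hX hXx hB hBx htx hkx ha hΞ hT
  have x1 : 1 ≤ x := by linarith
  have X0 : 0 < X := (inv_pos.2 (by linarith)).trans_le hX
  have q0 := Nr_nonneg (rad t)
  have S0 : 0 ≤ ∑ b ∈ box B, ‖a b‖ ^ 2 := Finset.sum_nonneg fun _ _ => sq_nonneg _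
  rcases lt_or_ge H 1 with H1 | H1
  · rw [NS, box_eq_empty H1, Finset.sum_empty]
    positivity
  have τ1 : 1 ≤ 1 + |τ| := le_add_of_nonneg_right (abs_nonneg _)
  refine le_trans ?_ (mul_le_mul_of_nonneg_right (mul_le_mul_of_nonneg_right (mul_le_mul
    (mul_le_mul (le_add_of_nonneg_right hC₀) (Real.rpow_le_rpow_of_exponent_le x1 he2)
      (by positivity) (by positivity))
    (Real.rpow_le_rpow_of_exponent_le τ1 (le_add_of_nonneg_left K0)) (by positivity)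
      (by positivity)) S0) (by positivity))
  have rl := tl_lam_rap hA hψ.norm_le a B X0 τ y (t * k ^ 6)
  rw [tl_CLarge hA hψ.norm_le a B X0]
  refine (hS2 _ H (fun n hn => tl_lam_supp hψ hn) rl hH).trans ?_
  obtain ⟨lx, rfl⟩ : ∃ l, x = Real.exp l := ⟨_, (Real.exp_log (by linarith)).symm⟩
  obtain ⟨L, rfl⟩ : ∃ l, X = Real.exp l := ⟨_, (Real.exp_log X0).symm⟩
  obtain ⟨b, rfl⟩ : ∃ l, B = Real.exp l := ⟨_, (Real.exp_log (by linarith)).symm⟩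
  obtain ⟨h, rfl⟩ : ∃ l, H = Real.exp l := ⟨_, (Real.exp_log hH).symm⟩
  have i1 : -lx ≤ L := by rwa [← Real.exp_neg, Real.exp_le_exp] at hX
  have i2 := Real.exp_le_exp.1 hXx
  have i3 := Real.one_le_exp_iff.1 hB
  have i4 := Real.exp_le_exp.1 hBx
  have i5 := Real.one_le_exp_iff.1 H1
  have hR : Real.exp (2 * L + 2 * b + e * lx - h) ≤ Real.exp lx ^ 5 := by
    rw [← Real.exp_nat_mul]
    have := mul_le_mul_of_nonneg_right he1 (i3.trans i4)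
    exact Real.exp_le_exp.2 (by push_cast; linarith)
  rw [hK, mul_assoc (Real.exp c0), Finset.mul_sum]
  simp only [mul_assoc (Real.exp c0), mul_assoc (12 : ℝ)]
  refine mul_le_mul_of_nonneg_left ?_ (Real.exp_pos _).le
  rw [show (12 : ℝ) = S.card by rw [hS]; norm_num, ← nsmul_eq_mul, ← Finset.sum_const]
  refine Finset.sum_le_sum fun ξ hξ => ?_
  have hξ' := hS1 ξ hξ
  set γ : O → ℂ := fun n => tl_lam A ψ a (Real.exp b) (Real.exp L) τ y (t * k ^ 6) n * ξ n *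
    ((Nr n ^ (-(1 / 2) : ℝ) : ℝ) : ℂ) with hγ
  have pγ : ∀ n, γ n ≠ 0 → Prim n := fun n hn =>
    (tl_lam_supp hψ (left_ne_zero_of_mul (left_ne_zero_of_mul hn))).1
  have lγ : ∀ n, ‖γ n‖ ≤ ‖tl_lam A ψ a (Real.exp b) (Real.exp L) τ y (t * k ^ 6) n‖ := fun n => by
    by_cases h : γ n = 0
    · rw [h, norm_zero]; exact norm_nonneg _
    simp only [hγ, norm_mul, mul_assoc]
    refine mul_le_of_le_one_right (norm_nonneg _) (mul_le_one₀ (hξ'.norm_le n) (norm_nonneg _) ?_)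
    rw [norm_real, Real.norm_of_nonneg (Real.rpow_nonneg (Nr_nonneg _) _)]
    exact Real.rpow_le_one_of_one_le_of_nonpos (one_le_Nr (pγ n h).ne_zero) (by norm_num)
  have rγ : Rap γ := fun J => Summable.of_nonneg_of_le
    (fun _ => mul_nonneg (norm_nonneg _) (Real.rpow_nonneg (Nr_nonneg _) _))
    (fun n => mul_le_mul_of_nonneg_right (lγ n) (Real.rpow_nonneg (Nr_nonneg _) _)) (rl J)
  have kγ := tl_ker pγ rγ
  have k1 := hC _ _ _ _ _ kγ hH (Real.exp_pos _) (by positivity)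
    (h₂ Q _ y _ _ _ τ Ξ ψ ξ a t k x1 hy hψ hξ' ht hk X0 hXx hB hBx (Real.exp_pos _) hR htx hkx ha
      hΞ hT)
  have k2 := h₁ Q ψ a ξ _ _ τ y (t * k ^ 6) hψ hξ'.norm_le ha hB X0
  have k3 : ∑' n, ‖γ n‖ * Nr n ^ (2 / 3 : ℝ) * Nr n ^ (2 + A') ≤ _ :=
    ((kγ.summ _).tsum_le_tsum (fun n => ?_) (rl (1 + (2 + A')))).trans
      (h₃ ψ a _ _ τ y (t * k ^ 6) hψ.norm_le hB X0)
  · refine (mul_le_mul_of_nonneg_left (k1.trans (add_le_add k2 le_rfl)) hH.le).trans ?_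
    exact tl_fin he hAe i1 i2 i3 i4 i5 hΞ q0 (Real.one_le_rpow τ1 hC₀) S0 hC0 hC₁ hC₂
      (tsum_nonneg (kγ.nn _)) k3
  · by_cases h : γ n = 0
    · rw [h, norm_zero, zero_mul, zero_mul]
      exact mul_nonneg (norm_nonneg _) (Real.rpow_nonneg (Nr_nonneg _) _)
    have n1 := one_le_Nr (pγ n h).ne_zero
    rw [mul_assoc, ← Real.rpow_add (by linarith)]
    exact mul_le_mul (lγ n) (Real.rpow_le_rpow_of_exponent_le n1 (by linarith))
      (Real.rpow_nonneg (Nr_nonneg _) _) (norm_nonneg _)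

end Crest.Agent.R017

end
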