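import Crest.Agent.R017.T2A

/-! # Row 17: large cubes, positivity, Poisson summation and separation of variables -/

set_option autoImplicit false

noncomputable section

open scoped BigOperators ComplexConjugate
open Complex MeasureTheory Filter Topology

namespace Crest.Agent.R017

/-- hypotheses on an abstract kernel -/
structure tl_Ker (u : O → O × O → ℂ) (g : O → ℝ) : Prop where
  le : ∀ r p, ‖u r p‖ ≤ g p.1 * g p.2
  nonneg : ∀ n, 0 ≤ g n
  zero : g 0 = 0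
  summ : ∀ A : ℝ, Summable fun n => g n * Nr n ^ A

theorem tl_Ker.nn {u : O → O × O → ℂ} {g : O → ℝ} (K : tl_Ker u g) (A : ℝ) (n : O) :
    0 ≤ g n * Nr n ^ A := mul_nonneg (K.nonneg n) (Real.rpow_nonneg (Nr_nonneg _) _)

theorem tl_Ker.ne {u : O → O × O → ℂ} {g : O → ℝ} (K : tl_Ker u g) {r : O} {p : O × O}
    (h : u r p ≠ 0) : p.1 ≠ 0 ∧ p.2 ≠ 0 := by
  constructor <;> intro h0 <;> apply h <;> refine norm_le_zero_iff.1 ((K.le r p).trans ?_) <;>
    simp [h0, K.zero]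

theorem tl_Ker.tail {u : O → O × O → ℂ} {g : O → ℝ} (K : tl_Ker u g) {H A C : ℝ} (hH : 0 < H)
    (hC0 : 0 ≤ C) (hC : ∀ y : ℝ, 0 < y → Phi y ≤ C * y ^ (-A)) (p : O × O) {r : O} (hr : r ≠ 0) :
    ‖u r p * (Phi (H * Nr r / (Nr p.1 * Nr p.2)) : ℂ)‖ ≤
      C * H ^ (-A) * Nr r ^ (-A) * (g p.1 * Nr p.1 ^ A * (g p.2 * Nr p.2 ^ A)) := by
  have b0 := Nr_pos hr
  by_cases h : u r p = 0
  · rw [h, zero_mul, norm_zero]
    exact mul_nonneg (by positivity) (mul_nonneg (K.nn _ _) (K.nn _ _))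
  have b1 := Nr_pos (K.ne h).1
  have b2 := Nr_pos (K.ne h).2
  rw [norm_mul, norm_real, Real.norm_of_nonneg (Phi_pos _).le]
  refine (mul_le_mul (K.le r p) (hC _ (by positivity)) (Phi_pos _).le
    (mul_nonneg (K.nonneg _) (K.nonneg _))).trans (le_of_eq ?_)
  rw [Real.div_rpow (by positivity) (by positivity), Real.mul_rpow hH.le b0.le,
    Real.mul_rpow b1.le b2.le, Real.rpow_neg b1.le, Real.rpow_neg b2.le]
  field_simp

theorem tl_Ker.summable {u : O → O × O → ℂ} {g : O → ℝ} (K : tl_Ker u g) {H : ℝ} (hH : 0 < H) :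
    Summable (Function.uncurry fun (p : O × O) (r : O) =>
      u r p * (Phi (H * Nr r / (Nr p.1 * Nr p.2)) : ℂ)) := by
  classical
  obtain ⟨C₁, hC₁⟩ := Phi_le_rpow (A := 2) (by linarith)
  have hC₁0 : 0 ≤ C₁ := by simpa using (Phi_pos 1).le.trans (hC₁ 1 one_pos)
  have hNA : ∀ n : O, 0 ≤ Nr n ^ (-2 : ℝ) := fun n => Real.rpow_nonneg (Nr_nonneg _) _
  have sA : Summable fun h : O => Nr h ^ (-2 : ℝ) := summable_Nr_rpow (by linarith)
  have s2 := (K.summ 2).mul_of_nonneg (K.summ 2) (K.nn 2) (K.nn 2)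
  have hle : ∀ n, g n ≤ g n * Nr n ^ (2 : ℝ) := fun n => by
    by_cases h : n = 0
    · simp [h, K.zero]
    · exact le_mul_of_one_le_right (K.nonneg _) (Real.one_le_rpow (one_le_Nr h) (by linarith))
  have sβ : Summable fun h : O => (if h = 0 then 1 else 0) + C₁ * H ^ (-2 : ℝ) * Nr h ^ (-2 : ℝ) :=
    (hasSum_ite_eq (0 : O) (1 : ℝ)).summable.add (sA.mul_left _)
  refine Summable.of_norm_bounded (s2.mul_of_nonneg sβ (fun p => mul_nonneg (K.nn _ _) (K.nn _ _))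
    fun h => add_nonneg (by split_ifs <;> norm_num) (mul_nonneg (by positivity) (hNA _)))
    fun ⟨p, h⟩ => ?_
  simp only [Function.uncurry_apply_pair]
  by_cases hh : h = 0
  · subst hh
    rw [if_pos rfl, norm_mul, norm_real, Real.norm_of_nonneg (Phi_pos _).le]
    refine mul_le_mul ((K.le _ _).trans (mul_le_mul (hle _) (hle _) (K.nonneg _) (K.nn _ _))) ?_
      (Phi_pos _).le (mul_nonneg (K.nn _ _) (K.nn _ _))
    refine (Phi_le_one (by simp [Nr_zero])).trans (le_add_of_nonneg_right ?_)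
    exact mul_nonneg (by positivity) (hNA _)
  · rw [if_neg hh, zero_add, mul_comm (g p.1 * _ * _)]
    exact K.tail hH hC₁0 hC₁ p hh

/-- the separated sum -/
def tl_Y (u : O → O × O → ℂ) (σ : ℝ) (r : O) (s : ℝ) : ℂ :=
  ∑' p : O × O, u r p * ((Nr p.1 : ℂ) ^ ((σ : ℂ) + s * I) * (Nr p.2 : ℂ) ^ ((σ : ℂ) + s * I))

theorem tl_Ker.Y_term {u : O → O × O → ℂ} {g : O → ℝ} (K : tl_Ker u g) {σ : ℝ} (hσ : 0 < σ)
    (r : O) (p : O × O) (s : ℝ) :
    ‖u r p * ((Nr p.1 : ℂ) ^ ((σ : ℂ) + s * I) * (Nr p.2 : ℂ) ^ ((σ : ℂ) + s * I))‖ ≤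
      g p.1 * Nr p.1 ^ σ * (g p.2 * Nr p.2 ^ σ) := by
  rw [norm_mul, norm_mul, l3_norm_cpow hσ (Nr_nonneg _), l3_norm_cpow hσ (Nr_nonneg _),
    mul_mul_mul_comm]
  exact mul_le_mul_of_nonneg_right (K.le r p)
    (mul_nonneg (Real.rpow_nonneg (Nr_nonneg _) _) (Real.rpow_nonneg (Nr_nonneg _) _))

theorem tl_Ker.Y_int {u : O → O × O → ℂ} {g : O → ℝ} (K : tl_Ker u g) {σ : ℝ} (hσ : 0 < σ)
    (r : O) : Integrable fun s : ℝ => ‖Complex.Gamma (σ + s * I)‖ * ‖tl_Y u σ r s‖ := by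
  have s2 := (K.summ σ).mul_of_nonneg (K.summ σ) (K.nn σ) (K.nn σ)
  have hc : Continuous (tl_Y u σ r) :=
    continuous_tsum (fun p => continuous_const.mul ((l3_cont_cpow hσ _).mul (l3_cont_cpow hσ _)))
      s2 fun p s => K.Y_term hσ r p s
  refine (l3_int_Gamma hσ).mul_bdd hc.norm.aestronglyMeasurable (Eventually.of_forall fun s => ?_)
    (c := ∑' p : O × O, g p.1 * Nr p.1 ^ σ * (g p.2 * Nr p.2 ^ σ))
  rw [Real.norm_of_nonneg (norm_nonneg _)]
  exact tsum_of_norm_bounded s2.hasSum fun p => K.Y_term hσ r p s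

theorem tl_Ker.mid {u : O → O × O → ℂ} {g : O → ℝ} (K : tl_Ker u g) {σ : ℝ} (hσ : 0 < σ)
    {H : ℝ} (hH : 0 < H) {r : O} (hr : r ≠ 0) :
    ‖∑' p : O × O, u r p * (Phi (H * Nr r / (Nr p.1 * Nr p.2)) : ℂ)‖ ≤ (c0 ^ (-σ) * H ^ (-σ)) *
      ∫ s : ℝ, ‖Complex.Gamma (σ + s * I)‖ * ‖tl_Y u σ r s‖ := by
  have b0 := Nr_pos hr
  have hc := c0_pos
  have h1 := l3_sep hσ (mul_pos hH b0) (u r) (fun p hp => K.ne hp)
    (Summable.of_nonneg_of_le
      (fun p => mul_nonneg (norm_nonneg _)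
        (Real.rpow_nonneg (mul_nonneg (Nr_nonneg _) (Nr_nonneg _)) _))
      (fun p => by
        rw [Real.mul_rpow (Nr_nonneg _) (Nr_nonneg _), mul_mul_mul_comm]
        exact mul_le_mul_of_nonneg_right (K.le r p)
          (mul_nonneg (Real.rpow_nonneg (Nr_nonneg _) _) (Real.rpow_nonneg (Nr_nonneg _) _)))
      ((K.summ σ).mul_of_nonneg (K.summ σ) (K.nn σ) (K.nn σ)))
  have h3 : ‖∫ s : ℝ, Complex.Gamma (σ + s * I) * ((c0 * (H * Nr r) : ℝ) : ℂ) ^ (-(σ + s * I)) *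
      tl_Y u σ r s‖ ≤
      ∫ s : ℝ, (c0 ^ (-σ) * H ^ (-σ)) * (‖Complex.Gamma (σ + s * I)‖ * ‖tl_Y u σ r s‖) := by
    refine norm_integral_le_of_norm_le ((K.Y_int hσ r).const_mul _)
      (Eventually.of_forall fun s => ?_)
    rw [norm_mul, norm_mul, Complex.norm_cpow_eq_rpow_re_of_pos (by positivity), neg_re, l3_re,
      Real.mul_rpow hc.le (by positivity), Real.mul_rpow hH.le b0.le]
    have e1 : Nr r ^ (-σ) ≤ 1 :=
      Real.rpow_le_one_of_one_le_of_nonpos (one_le_Nr hr) (by linarith)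
    calc _ ≤ ‖Complex.Gamma (σ + s * I)‖ * (c0 ^ (-σ) * (H ^ (-σ) * 1)) * ‖tl_Y u σ r s‖ := by
          gcongr
      _ = _ := by ring
  rw [integral_const_mul] at h3
  have h4 : ‖(1 / (2 * Real.pi) : ℂ)‖ ≤ 1 := by
    rw [norm_div, norm_one, norm_mul, norm_real, Real.norm_of_nonneg Real.pi_pos.le,
      Complex.norm_two, div_le_one (by positivity)]
    linarith [Real.two_le_pi]
  rw [h1, norm_mul]
  exact (mul_le_of_le_one_left (norm_nonneg _) h4).trans h3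

theorem tl_dual {σ A : ℝ} (D : ℝ) (hσ : 0 < σ) (hA : 2 ≤ A) : ∃ C : ℝ, 0 ≤ C ∧
    ∀ (u : O → O × O → ℂ) (g : O → ℝ) (H R V : ℝ), tl_Ker u g → 0 < H → 0 < R → 0 ≤ V →
      (∀ s : ℝ, ∑ r ∈ box R, ‖tl_Y u σ r s‖ ≤ V * (1 + |s|) ^ D) →
      ‖∑' p : O × O, ∑' r, u r p * (Phi (H * Nr r / (Nr p.1 * Nr p.2)) : ℂ)‖ ≤
        ‖∑' p, u 0 p‖ + C * (H ^ (-σ) * V +
          H ^ (-A) * R ^ (1 - A) * (∑' n : O, g n * Nr n ^ A) ^ 2) := by
  classical
  obtain ⟨C₁, hC₁⟩ := Phi_le_rpow (A := A) (by linarith)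
  have hC₁0 : 0 ≤ C₁ := by simpa using (Phi_pos 1).le.trans (hC₁ 1 one_pos)
  obtain ⟨C₂, hC₂⟩ := tsum_tail_rpow_le (σ := A) (by linarith)
  have hc := c0_pos
  set I₀ := ∫ τ : ℝ, ‖Complex.Gamma (σ + τ * I)‖ * (1 + |τ|) ^ D with hI₀
  have hI0 : 0 ≤ I₀ := integral_nonneg fun τ => by positivity
  refine ⟨c0 ^ (-σ) * I₀ + C₁ * |C₂|, by positivity, fun u g H R V K hH hR hV hb => ?_⟩
  have hNA : ∀ n : O, 0 ≤ Nr n ^ (-A) := fun n => Real.rpow_nonneg (Nr_nonneg _) _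
  have sA : Summable fun h : O => Nr h ^ (-A) := summable_Nr_rpow (by linarith)
  have s2 := (K.summ A).mul_of_nonneg (K.summ A) (K.nn A) (K.nn A)
  rw [← (K.summable hH).tsum_comm]
  set S := ∑' n : O, g n * Nr n ^ A with hS
  set J : O → ℝ := fun r => ∫ s : ℝ, ‖Complex.Gamma (σ + s * I)‖ * ‖tl_Y u σ r s‖ with hJ
  have hJ0 : ∀ h, 0 ≤ J h := fun h => integral_nonneg fun t => by positivity
  have f0 := hasSum_ite_eq (0 : O) ‖∑' p, u 0 p‖
  have f1 : HasSum (fun h => if h ∈ box R then c0 ^ (-σ) * H ^ (-σ) * J h else 0)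
      (∑ h ∈ box R, c0 ^ (-σ) * H ^ (-σ) * J h) := by
    have := hasSum_sum_of_ne_finset_zero (L := SummationFilter.unconditional O)
      (f := fun h => if h ∈ box R then c0 ^ (-σ) * H ^ (-σ) * J h else 0) (s := box R)
      fun b hb => if_neg hb
    rwa [Finset.sum_congr rfl fun x hx => if_pos hx] at this
  have st : Summable fun h : O => if R < Nr h then Nr h ^ (-A) else 0 :=
    Summable.of_nonneg_of_le (fun h => by split_ifs; exacts [hNA h, le_rfl])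
      (fun h => by split_ifs; exacts [le_rfl, hNA h]) sA
  have f2 := st.hasSum.mul_left (C₁ * H ^ (-A) * S ^ 2)
  refine (tsum_of_norm_bounded ((f0.add f1).add f2) fun h => ?_).trans ?_
  · have p1 : 0 ≤ if h = 0 then ‖∑' p, u 0 p‖ else 0 := by
      split_ifs; exacts [norm_nonneg _, le_rfl]
    have p2 : 0 ≤ if h ∈ box R then c0 ^ (-σ) * H ^ (-σ) * J h else 0 := by
      split_ifs; exacts [mul_nonneg (by positivity) (hJ0 h), le_rfl]
    have p3 : 0 ≤ C₁ * H ^ (-A) * S ^ 2 * if R < Nr h then Nr h ^ (-A) else 0 :=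
      mul_nonneg (by positivity) (by split_ifs; exacts [hNA h, le_rfl])
    by_cases hh : h = 0
    · subst hh
      rw [if_pos rfl]
      simp only [Nr_zero, mul_zero, zero_div, Phi, neg_zero, Real.exp_zero, ofReal_one, mul_one]
        at p2 p3 ⊢
      linarith
    by_cases hb : h ∈ box R
    · have := K.mid hσ hH hh
      rw [if_pos hb]
      linarith
    · have hlt : R < Nr h := by
        by_contra hle
        exact hb (mem_box.2 ⟨hh, not_lt.1 hle⟩)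
      have h1 := tsum_of_norm_bounded (s2.hasSum.mul_left (C₁ * H ^ (-A) * Nr h ^ (-A)))
        fun p => K.tail hH hC₁0 hC₁ p hh
      rw [← (K.summ A).tsum_mul_tsum (K.summ A) s2, ← hS] at h1
      rw [if_pos hlt]
      calc _ ≤ _ := h1
        _ = C₁ * H ^ (-A) * S ^ 2 * Nr h ^ (-A) := by ring
        _ ≤ _ := by linarith
  · have e : ∑ h ∈ box R, J h ≤ V * I₀ := by
      rw [hJ, ← integral_finsetSum _ fun h _ => K.Y_int hσ h, hI₀, ← integral_const_mul]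
      refine integral_mono (integrable_finsetSum _ fun h _ => K.Y_int hσ h)
        ((integrable_Gamma_mul hσ D).const_mul _) fun τ => ?_
      simp only
      rw [← Finset.mul_sum, mul_left_comm]
      exact mul_le_mul_of_nonneg_left (hb τ) (norm_nonneg _)
    rw [← Finset.mul_sum]
    have h0 := mul_le_mul_of_nonneg_left e (by positivity : 0 ≤ c0 ^ (-σ) * H ^ (-σ))
    have h1 : ∑' h : O, (if R < Nr h then Nr h ^ (-A) else 0) ≤ |C₂| * R ^ (1 - A) :=
      (hC₂ R hR).trans (mul_le_mul_of_nonneg_right (le_abs_self _) (by positivity))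
    have h2 := mul_le_mul_of_nonneg_left h1 (by positivity : 0 ≤ C₁ * H ^ (-A) * S ^ 2)
    have q1 : 0 ≤ C₁ * |C₂| * (H ^ (-σ) * V) := by positivity
    have q2 : 0 ≤ c0 ^ (-σ) * I₀ * (H ^ (-A) * R ^ (1 - A) * S ^ 2) := by positivity
    nlinarith

/-- the kernel of the primal side -/
def tl_u (γ : O → ℂ) (r : O) (p : O × O) : ℂ := γ p.1 * conj (γ p.2) * KT p.1 p.2 r

theorem tl_ker {γ : O → ℂ} (hp : ∀ n, γ n ≠ 0 → Prim n) (hr : Rap γ) :
    tl_Ker (tl_u γ) (fun n => ‖γ n‖ * Nr n ^ (2 / 3 : ℝ)) where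
  le r p := by
    by_cases h1 : γ p.1 = 0
    · simp [tl_u, h1]
    by_cases h2 : γ p.2 = 0
    · simp [tl_u, h2]
    rw [tl_u, norm_mul, norm_mul, Complex.norm_conj, mul_mul_mul_comm,
      ← Real.mul_rpow (Nr_nonneg _) (Nr_nonneg _), ← Nr_mul]
    exact mul_le_mul_of_nonneg_left (norm_KT_le (hp _ h1) (hp _ h2) r) (by positivity)
  nonneg n := mul_nonneg (norm_nonneg _) (Real.rpow_nonneg (Nr_nonneg _) _)
  zero := by simp [Nr_zero]
  summ A := by
    refine (hr (2 / 3 + A)).congr fun n => ?_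
    by_cases h : γ n = 0
    · simp [h]
    · rw [Real.rpow_add (Nr_pos (hp n h).ne_zero), mul_assoc]

open Classical in
theorem tl_pos {Q : O} (hQ : Q ≠ 0) (h12 : (12 : O) ∣ Q) {z : O → ℂ}
    (hz : ∀ n, z n ≠ 0 → IsCoprime n Q) (hs : Summable fun n => ‖z n‖) :
    ‖∑' n, z n‖ ^ 2 ≤ (∑' p : O × O,
      if (4 : O) ∣ p.1 - p.2 then 12 * (z p.1 * conj (z p.2)) else 0).re := by
  obtain ⟨S, hc, h1, h2, h3⟩ := class_four hQ h12
  obtain ⟨ξ₁, hξ₁⟩ : S.Nonempty := Finset.card_pos.1 (by omega)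
  set w : (O → ℂ) → O → ℂ := fun ξ n => ξ n * conj (ξ₁ n) * z n with hw
  have sw : ∀ ξ ∈ S, Summable fun n => ‖w ξ n‖ := fun ξ hξ =>
    Summable.of_nonneg_of_le (fun _ => norm_nonneg _) (fun n => by
      simp only [hw, norm_mul, Complex.norm_conj]
      exact mul_le_of_le_one_left (norm_nonneg _)
        (mul_le_one₀ ((h1 ξ hξ).norm_le n) (norm_nonneg _) ((h1 ξ₁ hξ₁).norm_le n))) hs
  have sw' : ∀ ξ ∈ S, Summable fun n => ‖conj (w ξ n)‖ := fun ξ hξ => by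
    simpa only [Complex.norm_conj] using sw ξ hξ
  have hu : ∀ n, IsCoprime n Q → ξ₁ n * conj (ξ₁ n) = 1 := fun n hn => by
    rw [mul_comm]
    exact g1_conj_mul ((h1 ξ₁ hξ₁).norm_eq fun h => ((h1 ξ₁ hξ₁).zero n).1 h hn)
  have e1 : ∀ p : O × O, (if (4 : O) ∣ p.1 - p.2 then 12 * (z p.1 * conj (z p.2)) else 0) =
      ∑ ξ ∈ S, w ξ p.1 * conj (w ξ p.2) := by
    intro p
    by_cases a1 : z p.1 = 0
    · simp [hw, a1]
    by_cases a2 : z p.2 = 0
    · simp [hw, a2]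
    have : ∑ ξ ∈ S, w ξ p.1 * conj (w ξ p.2) = (∑ ξ ∈ S, ξ p.1 * conj (ξ p.2)) *
        (conj (ξ₁ p.1) * ξ₁ p.2 * (z p.1 * conj (z p.2))) := by
      rw [Finset.sum_mul]
      refine Finset.sum_congr rfl fun ξ _ => ?_
      simp only [hw, map_mul, Complex.conj_conj]
      ring
    rw [this, h3 _ _ (hz _ a1) (hz _ a2)]
    split_ifs with h
    · rw [h2 ξ₁ hξ₁ _ _ (hz _ a1) (hz _ a2) h, mul_comm (conj (ξ₁ p.2)), hu _ (hz _ a2), one_mul]
    · rw [zero_mul]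
  simp only [e1]
  rw [Summable.tsum_finsetSum fun ξ hξ =>
    (summable_mul_of_summable_norm (sw ξ hξ) (sw' ξ hξ)), re_sum]
  have e2 : ∀ ξ ∈ S, (∑' p : O × O, w ξ p.1 * conj (w ξ p.2)).re = ‖∑' n, w ξ n‖ ^ 2 := by
    intro ξ hξ
    rw [← tsum_mul_tsum_of_summable_norm (sw ξ hξ) (sw' ξ hξ), ← Complex.conj_tsum,
      Complex.mul_conj, ofReal_re, Complex.normSq_eq_norm_sq]
  rw [Finset.sum_congr rfl e2]
  refine le_trans (le_of_eq ?_)
    (Finset.single_le_sum (f := fun ξ => ‖∑' n, w ξ n‖ ^ 2) (fun _ _ => sq_nonneg _) hξ₁)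
  congr 2
  refine tsum_congr fun n => ?_
  by_cases h : z n = 0
  · simp [hw, h]
  · simp only [hw]; rw [hu n (hz n h), one_mul]

theorem tl_poisson {N M : O} (hN : IsCoprime N 6) (hM : IsCoprime M 6) (h4 : (4 : O) ∣ N - M)
    {H : ℝ} (hH : 0 < H) :
    vth N * conj (vth M) * ∑' h : O, (Phi (Nr h / H) : ℂ) * (conj (chi N h) * chi M h) =
      H * (((Nr N ^ (-(1 / 2) : ℝ) : ℝ) : ℂ) * ((Nr M ^ (-(1 / 2) : ℝ) : ℝ) : ℂ)) *
        ∑' r : O, KT N M r * (Phi (H * Nr r / (Nr N * Nr M)) : ℂ) := by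
  have hP := poisson_KG hN hM hH
  rw [ks_eq_one (coprime_six_iff.1 hN).2 h4, one_mul] at hP
  rw [hP, ← Nr_mul]
  have e : H / Real.sqrt (Nr (N * M)) = H * (Nr N ^ (-(1 / 2) : ℝ) * Nr M ^ (-(1 / 2) : ℝ)) := by
    rw [← Real.mul_rpow (Nr_nonneg _) (Nr_nonneg _), ← Nr_mul, Real.rpow_neg (Nr_nonneg _),
      ← Real.sqrt_eq_rpow, div_eq_mul_inv]
  have e2 : ∑' r : O, KT N M r * (Phi (H * Nr r / Nr (N * M)) : ℂ) =
      vth N * conj (vth M) * ∑' r : O, KG N M r * (Phi (H * Nr r / Nr (N * M)) : ℂ) := by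
    rw [← tsum_mul_left]
    exact tsum_congr fun r => by rw [KT]; ring
  rw [e, e2]
  push_cast
  ring

/-- From the dual mean square to the primal side. -/
theorem tl_NS_le {Q : O} (hQ : Q ≠ 0) (h12 : (12 : O) ∣ Q) : ∃ S : Finset (O → ℂ), S.card = 12 ∧
    (∀ ξ ∈ S, IsCh Q ξ) ∧ ∀ (lam : O → ℂ) (H : ℝ), (∀ n, lam n ≠ 0 → Prim n ∧ IsCoprime n Q) →
      Rap lam → 0 < H → NS H (colF fun n => lam n * vth n) ≤ Real.exp c0 * H * ∑ ξ ∈ S,
        ‖∑' p : O × O, ∑' r, tl_u (fun n => lam n * ξ n * ((Nr n ^ (-(1 / 2) : ℝ) : ℝ) : ℂ)) r p *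
          (Phi (H * Nr r / (Nr p.1 * Nr p.2)) : ℂ)‖ := by
  classical
  obtain ⟨S, hc, h1, -, h3⟩ := class_four hQ h12
  refine ⟨S, hc, h1, fun lam H hl hr hH => ?_⟩
  have h6 : (6 : O) ∣ Q := (show (6 : O) ∣ 12 from ⟨2, by norm_num⟩).trans h12
  set f : O → ℂ := fun n => lam n * vth n with hf
  have sf : Summable fun n => ‖f n‖ := Summable.of_nonneg_of_le (fun _ => norm_nonneg _) (fun n => by
    by_cases h : lam n = 0
    · simp [hf, h]
    · simp only [hf, norm_mul]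
      exact mul_le_mul_of_nonneg_left (norm_vth_le (hl n h).1) (norm_nonneg _)) (hr (1 / 6))
  set G : O → O × O → ℂ := fun h p => if (4 : O) ∣ p.1 - p.2 then
    12 * (f p.1 * conj (chi p.1 h) * conj (f p.2 * conj (chi p.2 h))) else 0 with hG
  have hpos : ∀ h, ‖colF f h‖ ^ 2 ≤ (∑' p, G h p).re := fun h =>
    tl_pos hQ h12 (z := fun n => f n * conj (chi n h))
      (fun n hn => (hl n (left_ne_zero_of_mul (left_ne_zero_of_mul hn))).2)
      (Summable.of_nonneg_of_le (fun _ => norm_nonneg _) (fun n => l3_norm_b f n h) sf)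
  have sP := p1_summable0 hH
  have hsum : Summable (Function.uncurry fun (h : O) (p : O × O) =>
      (Phi (Nr h / H) : ℂ) * G h p) := by
    refine Summable.of_norm_bounded (sP.mul_of_nonneg
      ((sf.mul_of_nonneg sf (fun _ => norm_nonneg _) fun _ => norm_nonneg _).mul_left 12)
      (fun _ => (Phi_pos _).le) fun x => by positivity) fun ⟨h, p⟩ => ?_
    simp only [Function.uncurry_apply_pair]
    rw [norm_mul, norm_real, Real.norm_of_nonneg (Phi_pos _).le]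
    refine mul_le_mul_of_nonneg_left ?_ (Phi_pos _).le
    simp only [hG]
    split_ifs
    · rw [norm_mul, norm_mul, Complex.norm_conj]
      exact mul_le_mul (by simp) (mul_le_mul (l3_norm_b f _ _) (l3_norm_b f _ _) (norm_nonneg _)
        (norm_nonneg _)) (by positivity) (by norm_num)
    · rw [norm_zero]; positivity
  have s1 : Summable fun h : O => ∑' p, (Phi (Nr h / H) : ℂ) * G h p := hsum.prod
  set γ : (O → ℂ) → O → ℂ := fun ξ n => lam n * ξ n * ((Nr n ^ (-(1 / 2) : ℝ) : ℝ) : ℂ) with hγ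
  have e1 : ∀ p : O × O, ∑' h, (Phi (Nr h / H) : ℂ) * G h p =
      H * ∑ ξ ∈ S, ∑' r, tl_u (γ ξ) r p * (Phi (H * Nr r / (Nr p.1 * Nr p.2)) : ℂ) := by
    intro p
    by_cases a1 : lam p.1 = 0
    · simp [hG, hf, hγ, tl_u, a1]
    by_cases a2 : lam p.2 = 0
    · simp [hG, hf, hγ, tl_u, a2]
    have c1 := (hl _ a1).2
    have c2 := (hl _ a2).2
    have e2 : ∑ ξ ∈ S, ∑' r, tl_u (γ ξ) r p * (Phi (H * Nr r / (Nr p.1 * Nr p.2)) : ℂ) =
        (∑ ξ ∈ S, ξ p.1 * conj (ξ p.2)) * (lam p.1 * conj (lam p.2) *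
          ((((Nr p.1 ^ (-(1 / 2) : ℝ) : ℝ) : ℂ) * ((Nr p.2 ^ (-(1 / 2) : ℝ) : ℝ) : ℂ)) *
          ∑' r : O, KT p.1 p.2 r * (Phi (H * Nr r / (Nr p.1 * Nr p.2)) : ℂ))) := by
      rw [Finset.sum_mul]
      refine Finset.sum_congr rfl fun ξ _ => ?_
      rw [← tsum_mul_left, ← tsum_mul_left, ← tsum_mul_left]
      refine tsum_congr fun r => ?_
      simp only [tl_u, hγ, map_mul, Complex.conj_ofReal]
      ring
    rw [e2, h3 _ _ c1 c2]
    simp only [hG]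
    split_ifs with h4
    · have := tl_poisson (c1.of_isCoprime_of_dvd_right h6) (c2.of_isCoprime_of_dvd_right h6) h4 hH
      have e3 : ∑' h, (Phi (Nr h / H) : ℂ) *
          (12 * (f p.1 * conj (chi p.1 h) * conj (f p.2 * conj (chi p.2 h)))) =
          12 * (lam p.1 * conj (lam p.2)) * (vth p.1 * conj (vth p.2) *
            ∑' h : O, (Phi (Nr h / H) : ℂ) * (conj (chi p.1 h) * chi p.2 h)) := by
        rw [← tsum_mul_left, ← tsum_mul_left]
        refine tsum_congr fun h => ?_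
        simp only [hf, map_mul, Complex.conj_conj]
        ring
      rw [e3, this]
      ring
    · simp
  have kγ : ∀ ξ ∈ S, Summable fun p : O × O =>
      ∑' r, tl_u (γ ξ) r p * (Phi (H * Nr r / (Nr p.1 * Nr p.2)) : ℂ) := by
    intro ξ hξ
    refine ((tl_ker (fun n hn => (hl n (left_ne_zero_of_mul (left_ne_zero_of_mul hn))).1)
      fun A => Summable.of_nonneg_of_le
        (fun _ => mul_nonneg (norm_nonneg _) (Real.rpow_nonneg (Nr_nonneg _) _))
        (fun n => mul_le_mul_of_nonneg_right ?_ (Real.rpow_nonneg (Nr_nonneg _) _))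
        (hr A)).summable hH).prod
    by_cases h : lam n = 0
    · simp [h]
    simp only [norm_mul, mul_assoc]
    refine mul_le_of_le_one_right (norm_nonneg _) (mul_le_one₀ ((h1 ξ hξ).norm_le n)
      (norm_nonneg _) ?_)
    rw [norm_real, Real.norm_of_nonneg (Real.rpow_nonneg (Nr_nonneg _) _)]
    exact Real.rpow_le_one_of_one_le_of_nonpos (one_le_Nr (hl n h).1.ne_zero) (by norm_num)
  have e4 : ‖∑' h : O, ∑' p, (Phi (Nr h / H) : ℂ) * G h p‖ ≤ H * ∑ ξ ∈ S,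
      ‖∑' p : O × O, ∑' r, tl_u (γ ξ) r p * (Phi (H * Nr r / (Nr p.1 * Nr p.2)) : ℂ)‖ := by
    rw [← hsum.tsum_comm]
    simp only [e1]
    rw [tsum_mul_left, Summable.tsum_finsetSum kγ, norm_mul, norm_real,
      Real.norm_of_nonneg hH.le]
    exact mul_le_mul_of_nonneg_left (norm_sum_le _ _) hH.le
  rw [mul_assoc]
  refine le_trans ?_ (mul_le_mul_of_nonneg_left ((re_le_norm _).trans e4) (Real.exp_pos _).le)
  have hre := (Complex.hasSum_re s1.hasSum)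
  simp only [tsum_mul_left, re_ofReal_mul] at hre ⊢
  rw [← hre.tsum_eq, ← tsum_mul_left]
  have hP : ∀ r, 0 ≤ (∑' x, G r x).re := fun r => (sq_nonneg _).trans (hpos r)
  refine le_trans (Finset.sum_le_sum fun r hr' => ?_) ((hre.summable.mul_left _).sum_le_tsum (box H)
    fun r _ => mul_nonneg (Real.exp_pos _).le (mul_nonneg (Phi_pos _).le (hP r)))
  refine (hpos r).trans ?_
  rw [← mul_assoc]
  refine le_mul_of_one_le_left (hP r) ?_
  rw [Phi, ← Real.exp_add]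
  refine Real.one_le_exp ?_
  have h1 : Nr r / H ≤ 1 := (div_le_one hH).2 (mem_box.1 hr').2
  nlinarith [c0_pos]

end Crest.Agent.R017

end
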