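import Crest.Agent.R017.T2LargeAux1

/-! # Row 17: large cubes, splitting off the part of the variables dividing the row -/

set_option autoImplicit false

noncomputable section

open scoped BigOperators ComplexConjugate
open Complex MeasureTheory Filter Topology

namespace Crest.Agent.R017

open Classical in
/-- the square of the weight in `norm_KT_le_fine` is the norm of this element -/
def tl_ww (r N : O) : O := ∏ p ∈ pf r,
  p ^ ((if p ^ 2 ∣ r then multiplicity p N else 0) + (if p ^ 6 ∣ r then multiplicity p N / 3 else 0))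

open Classical in
theorem tl_ww_eq (r : O) {n j : O} (hn : Prim n) (hs : Squarefree n) (hj : Prim j) :
    Real.sqrt (∏ p ∈ (pf r).filter (fun p => p ^ 2 ∣ r), Nr p ^ multiplicity p (n * j ^ 3)) *
      Real.sqrt (∏ p ∈ (pf r).filter (fun p => p ^ 6 ∣ r), Nr p ^ multiplicity p j) =
      Real.sqrt (Nr (tl_ww r (n * j ^ 3))) := by
  rw [← Real.sqrt_mul (Finset.prod_nonneg fun p _ => pow_nonneg (Nr_nonneg _) _), tl_ww, Nr_prod,
    Finset.prod_filter, Finset.prod_filter, ← Finset.prod_mul_distrib]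
  congr 1
  refine Finset.prod_congr rfl fun p hp => ?_
  have hp' := (a1_of_mem_pf hp).1.1
  have e : multiplicity p (n * j ^ 3) / 3 = multiplicity p j := by
    rw [a3_mul hp' hn.ne_zero (pow_ne_zero _ hj.ne_zero), a3_pow hp' hj.ne_zero]
    have := (a3_sqf hn.ne_zero).1 hs p hp'
    omega
  rw [Nr_pow, pow_add, e]
  congr 1 <;> split_ifs <;> simp

theorem tl_KT_le {N M r : O} (hN : Prim N) (hM : Prim M) (hr : r ≠ 0) (hrad : rad (N * M) ∣ r) :
    ‖KT N M r‖ ≤ Real.sqrt (Nr (tl_ww r N)) * Real.sqrt (Nr (tl_ww r M)) := by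
  by_cases h : KT N M r = 0
  · rw [h, norm_zero]; positivity
  have h1 : vth N ≠ 0 := left_ne_zero_of_mul (left_ne_zero_of_mul h)
  have h2 : vth M ≠ 0 := fun h0 => h (by simp [KT, h0])
  obtain ⟨n, j, hn, hs, hj, rfl⟩ : ∃ n j : O, Prim n ∧ Squarefree n ∧ Prim j ∧ N = n * j ^ 3 := by
    by_contra hc; exact h1 (vth_eq_zero hN (Or.inr hc))
  obtain ⟨m, i, hm, hs', hi, rfl⟩ : ∃ n j : O, Prim n ∧ Squarefree n ∧ Prim j ∧ M = n * j ^ 3 := by
    by_contra hc; exact h2 (vth_eq_zero hM (Or.inr hc))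
  rw [← tl_ww_eq r hn hs hj, ← tl_ww_eq r hm hs' hi]
  refine norm_KT_le_fine hn hj hm hi hs hs' hr (a1_rad_dvd_of fun p hp h => ?_)
  refine ((prime_dvd_rad (mul_ne_zero hN.ne_zero hM.ne_zero) hp).2 (h.trans ?_)).trans hrad
  exact ⟨j ^ 2 * i ^ 2, by ring⟩

open Classical in
/-- sum over the multiples of `d` -/
def tl_V (u : O → ℂ) (d : O) : ℂ := ∑' n, if d ∣ n then u n else 0

theorem tl_V_term {u : O → ℂ} (hu : ∀ n, u n ≠ 0 → Prim n) {A : ℝ} (hA : 0 ≤ A) {d : O}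
    (hd : d ≠ 0) (n : O) [Decidable (d ∣ n)] :
    ‖if d ∣ n then u n else 0‖ ≤ Nr d ^ (-A) * (‖u n‖ * Nr n ^ A) := by
  have d0 := Nr_pos hd
  split_ifs with h
  · by_cases h0 : u n = 0
    · simp [h0]
    rw [mul_left_comm]
    refine le_mul_of_one_le_right (norm_nonneg _) ?_
    rw [Real.rpow_neg d0.le, ← div_eq_inv_mul, one_le_div (by positivity)]
    exact Real.rpow_le_rpow d0.le (Nr_le_of_dvd (hu n h0).ne_zero h) hA
  · rw [norm_zero]
    exact mul_nonneg (by positivity)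
      (mul_nonneg (norm_nonneg _) (Real.rpow_nonneg (Nr_nonneg _) _))

theorem tl_V_le {u : O → ℂ} (hu : ∀ n, u n ≠ 0 → Prim n) (ru : Rap u) {A : ℝ} (hA : 0 ≤ A) {d : O}
    (hd : d ≠ 0) : ‖tl_V u d‖ ≤ Nr d ^ (-A) * ∑' n, ‖u n‖ * Nr n ^ A := by
  classical
  exact tsum_of_norm_bounded ((ru A).hasSum.mul_left _) fun n => tl_V_term hu hA hd n

theorem tl_V_summable {u : O → ℂ} (hu : ∀ n, u n ≠ 0 → Prim n) (ru : Rap u) :
    Summable fun d => if Prim d then ‖tl_V u d‖ ^ 2 else 0 := by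
  refine Summable.of_nonneg_of_le (fun d => by split_ifs; exacts [sq_nonneg _, le_rfl]) (fun d => ?_)
    (l3_summable_two.mul_left ((∑' n, ‖u n‖ * Nr n ^ (1 : ℝ)) ^ 2))
  split_ifs with h
  · refine (pow_le_pow_left₀ (norm_nonneg _) (tl_V_le hu ru zero_le_one h.ne_zero) 2).trans
      (le_of_eq ?_)
    rw [mul_pow, ← Real.rpow_natCast, ← Real.rpow_mul (Nr_nonneg _), mul_comm]
    norm_num
  · exact mul_nonneg (sq_nonneg _) (Real.rpow_nonneg (Nr_nonneg _) _)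

open Classical in
theorem tl_moeb {u v : O → ℂ} (hu : ∀ n, u n ≠ 0 → Prim n) (hv : ∀ n, v n ≠ 0 → Prim n)
    (ru : Rap u) (rv : Rap v) {a b : ℝ} (ha : 0 ≤ a) (hb : 0 ≤ b) :
    a * b * ‖∑' p : O × O, if IsCoprime p.1 p.2 then u p.1 * conj (v p.2) else 0‖ ≤
      (a ^ 2 * (∑' d, if Prim d then ‖tl_V u d‖ ^ 2 else 0) +
        b ^ 2 * ∑' d, if Prim d then ‖tl_V v d‖ ^ 2 else 0) / 2 := by
  set T : O → O × O → ℂ := fun d p => if Prim d then
    mu d * ((if d ∣ p.1 then u p.1 else 0) * conj (if d ∣ p.2 then v p.2 else 0)) else 0 with hT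
  have hnn : ∀ (a : O → ℂ) (A : ℝ) (n : O), 0 ≤ ‖a n‖ * Nr n ^ A := fun a A n =>
    mul_nonneg (norm_nonneg _) (Real.rpow_nonneg (Nr_nonneg _) _)
  have hs : Summable (Function.uncurry T) := by
    refine Summable.of_norm_bounded (l3_summable_two.mul_of_nonneg
      ((ru 2).mul_of_nonneg (rv 0) (hnn _ _) (hnn _ _)) (fun _ => Real.rpow_nonneg (Nr_nonneg _) _)
      fun p => mul_nonneg (hnn _ _ _) (hnn _ _ _)) fun ⟨d, p⟩ => ?_
    simp only [Function.uncurry_apply_pair, hT]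
    split_ifs with h
    all_goals try
      simp only [map_zero, mul_zero, zero_mul, norm_zero]
      exact mul_nonneg (Real.rpow_nonneg (Nr_nonneg _) _) (mul_nonneg (hnn _ _ _) (hnn _ _ _))
    rename_i h1 h2
    have b1 := tl_V_term hu (A := 2) zero_le_two h.ne_zero p.1
    rw [if_pos h1] at b1
    rw [norm_mul, norm_mul, Complex.norm_conj, Real.rpow_zero, mul_one, ← mul_assoc (Nr d ^ _)]
    exact (mul_le_of_le_one_left (by positivity) (norm_mu_le d)).trans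
      (mul_le_mul_of_nonneg_right b1 (norm_nonneg _))
  have e1 : ∀ p : O × O, (if IsCoprime p.1 p.2 then u p.1 * conj (v p.2) else 0) = ∑' d, T d p := by
    intro p
    by_cases h0 : u p.1 = 0
    · simp [hT, h0]
    have hp := hu _ h0
    rw [tsum_eq_sum (s := pdiv p.1)]
    · have := sum_pdiv_mu_dvd hp p.2
      rw [show (if IsCoprime p.1 p.2 then u p.1 * conj (v p.2) else 0) =
        (if IsCoprime p.1 p.2 then 1 else 0) * (u p.1 * conj (v p.2)) by split_ifs <;> simp,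
        ← this, Finset.sum_mul]
      refine Finset.sum_congr rfl fun d hd => ?_
      obtain ⟨a1, a2⟩ := (mem_pdiv hp.ne_zero).1 hd
      simp only [hT, if_pos a1, if_pos a2]
      split_ifs <;> simp
    · intro d hd
      rw [mem_pdiv hp.ne_zero, not_and_or] at hd
      rcases hd with hd | hd <;> simp [hT, hd]
  have e2 : ∀ d, ∑' p, T d p = if Prim d then mu d * (tl_V u d * conj (tl_V v d)) else 0 := by
    intro d
    simp only [hT]
    split_ifs with h
    · have s1 : ∀ w : O → ℂ, (∀ n, w n ≠ 0 → Prim n) → Rap w →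
          Summable fun n => ‖if d ∣ n then w n else 0‖ := fun w hw rw' =>
        Summable.of_nonneg_of_le (fun _ => norm_nonneg _) (fun n => tl_V_term hw le_rfl h.ne_zero n)
          ((rw' 0).mul_left _)
      rw [tsum_mul_left, tl_V, tl_V, Complex.conj_tsum, tsum_mul_tsum_of_summable_norm (s1 u hu ru)
        (by simpa only [Complex.norm_conj] using s1 v hv rv)]
    · exact tsum_zero
  simp only [e1]
  rw [hs.tsum_comm]
  simp only [e2]
  rw [← norm_real (a * b) |>.trans (Real.norm_of_nonneg (mul_nonneg ha hb)), ← norm_mul,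
    ← tsum_mul_left]
  refine tsum_of_norm_bounded ((((tl_V_summable hu ru).hasSum.mul_left (a ^ 2)).add
    ((tl_V_summable hv rv).hasSum.mul_left (b ^ 2))).div_const 2) fun d => ?_
  split_ifs
  · rw [norm_mul, norm_mul, norm_mul, Complex.norm_conj, norm_real,
      Real.norm_of_nonneg (mul_nonneg ha hb)]
    have h1 := mul_le_mul_of_nonneg_left (mul_le_of_le_one_left
      (mul_nonneg (norm_nonneg (tl_V u d)) (norm_nonneg (tl_V v d))) (norm_mu_le d))
      (mul_nonneg ha hb)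
    nlinarith [sq_nonneg (a * ‖tl_V u d‖ - b * ‖tl_V v d‖)]
  · simp

/-- the coefficient of the part prime to the row -/
def tl_un (γ : O → ℂ) (N r n : O) : ℂ := if Prim n then γ (N * n) * mu n * chi n r else 0

theorem tl_un_prim (γ : O → ℂ) (N r n : O) (h : tl_un γ N r n ≠ 0) : Prim n := by
  by_contra hn; exact h (if_neg hn)

theorem tl_un_le (γ : O → ℂ) (N r n : O) : ‖tl_un γ N r n‖ ≤ ‖γ (N * n)‖ := by
  unfold tl_un
  split_ifs
  · rw [norm_mul, norm_mul, mul_assoc]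
    exact mul_le_of_le_one_right (norm_nonneg _)
      (mul_le_one₀ (norm_mu_le _) (norm_nonneg _) (norm_chi_le _ _))
  · simp

theorem tl_shift {γ : O → ℂ} (hr : Rap γ) {N : O} (hN : N ≠ 0) (A : ℝ) :
    Summable (fun n => ‖γ (N * n)‖ * Nr n ^ A) ∧
      ∑' n, ‖γ (N * n)‖ * Nr n ^ A ≤ Nr N ^ (-A) * ∑' n, ‖γ n‖ * Nr n ^ A := by
  have N0 := Nr_pos hN
  have hi : Function.Injective fun n : O => N * n := mul_right_injective₀ hN
  have e : ∀ n, ‖γ (N * n)‖ * Nr n ^ A = Nr N ^ (-A) * (‖γ (N * n)‖ * Nr (N * n) ^ A) := fun n => by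
    rw [Nr_mul, Real.mul_rpow N0.le (Nr_nonneg _), Real.rpow_neg N0.le]
    field_simp
  simp only [e]
  refine ⟨((hr A).comp_injective hi).mul_left _, ?_⟩
  rw [tsum_mul_left]
  refine mul_le_mul_of_nonneg_left ?_ (by positivity)
  exact ((hr A).comp_injective hi).tsum_le_tsum_of_inj _ hi
    (fun _ _ => mul_nonneg (norm_nonneg _) (Real.rpow_nonneg (Nr_nonneg _) _)) (fun _ => le_rfl)
    (hr A)

theorem tl_un_rap {γ : O → ℂ} (hr : Rap γ) {N : O} (hN : N ≠ 0) (r : O) : Rap (tl_un γ N r) :=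
  fun A => Summable.of_nonneg_of_le
    (fun _ => mul_nonneg (norm_nonneg _) (Real.rpow_nonneg (Nr_nonneg _) _))
    (fun n => mul_le_mul_of_nonneg_right (tl_un_le γ N r n) (Real.rpow_nonneg (Nr_nonneg _) _))
    (tl_shift hr hN A).1

/-- the energy of a row -/
def tl_E (γ : O → ℂ) (r : O) : ℝ := ∑ N ∈ pdiv (r * rad r),
  Nr (tl_ww r N) * ∑' d, if Prim d then ‖tl_V (tl_un γ N r) d‖ ^ 2 else 0

theorem tl_mem {r N : O} (hr : r ≠ 0) (h : N ∈ pdiv (r * rad r)) :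
    Prim N ∧ N ∣ r * rad r ∧ ∀ p, Prime p → p ∣ N → p ∣ r := by
  obtain ⟨h1, h2⟩ := (mem_pdiv (mul_ne_zero hr (rad_ne_zero r))).1 h
  refine ⟨h1, h2, fun p hp h => ?_⟩
  rcases hp.dvd_or_dvd (h.trans h2) with h | h
  · exact h
  · exact h.trans (rad_dvd hr)

theorem tl_cop {r N n : O} (hN : N ≠ 0) (h : rad N ∣ r) (hn : IsCoprime n r) : IsCoprime N n :=
  ((coprime_rad_iff hN).1 (hn.of_isCoprime_of_dvd_right h)).symm

theorem tl_F_le {γ γ' : O → ℂ} (hp : ∀ n, γ n ≠ 0 → Prim n) (hp' : ∀ n, γ' n ≠ 0 → Prim n)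
    (hr : Rap γ) (hr' : Rap γ') {r : O} (h0 : r ≠ 0) :
    ‖∑' p : O × O, γ p.1 * conj (γ' p.2) * KT p.1 p.2 r‖ ≤
      (pdiv (r * rad r)).card * ((tl_E γ r + tl_E γ' r) / 2) := by
  classical
  set S := pdiv (r * rad r) with hS
  set f : O × O → ℂ := fun p => γ p.1 * conj (γ' p.2) * KT p.1 p.2 r with hf
  have hnn : ∀ (a : O → ℂ) (A : ℝ) (n : O), 0 ≤ ‖a n‖ * Nr n ^ A := fun a A n =>
    mul_nonneg (norm_nonneg _) (Real.rpow_nonneg (Nr_nonneg _) _)
  have sf : Summable f := by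
    refine Summable.of_norm_bounded ((hr (2 / 3)).mul_of_nonneg (hr' (2 / 3)) (hnn _ _) (hnn _ _))
      fun p => ?_
    by_cases h1 : γ p.1 = 0
    · simp [hf, h1]
    by_cases h2 : γ' p.2 = 0
    · simp [hf, h2]
    simp only [hf]
    rw [norm_mul, norm_mul, Complex.norm_conj, mul_mul_mul_comm,
      ← Real.mul_rpow (Nr_nonneg _) (Nr_nonneg _), ← Nr_mul]
    exact mul_le_mul_of_nonneg_left (norm_KT_le (hp _ h1) (hp' _ h2) r) (by positivity)
  have hrad : ∀ N ∈ S, rad N ∣ r := fun N hN => a1_rad_dvd_of (tl_mem h0 hN).2.2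
  have hrad2 : ∀ {N M : O}, Prim N → Prim M → rad N ∣ r → rad M ∣ r → rad (N * M) ∣ r :=
    fun {N M} hN hM a b => a1_rad_dvd_of fun p hp h => by
      rcases hp.dvd_or_dvd h with h | h
      · exact ((prime_dvd_rad hN.ne_zero hp).2 h).trans a
      · exact ((prime_dvd_rad hM.ne_zero hp).2 h).trans b
  have hcop : ∀ {N M n m : O}, Prim N → Prim M → rad N ∣ r → rad M ∣ r → IsCoprime n r →
      IsCoprime m r → IsCoprime (N * M) (n * m) := fun {N M n m} hN hM a b c d =>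
    tl_cop (mul_ne_zero hN.ne_zero hM.ne_zero) (hrad2 hN hM a b) (c.mul_left d)
  have hs : HasSum (fun x : (O × O) × O × O => if x.1 ∈ S ×ˢ S ∧ Prim x.2.1 ∧ Prim x.2.2 ∧
      IsCoprime x.2.1 r ∧ IsCoprime x.2.2 r then f (x.1.1 * x.2.1, x.1.2 * x.2.2) else 0)
      (∑' q, f q) := by
    refine (hasSum_iff_hasSum_of_ne_zero_bij
      (fun x => (x.1.1.1 * x.1.2.1, x.1.1.2 * x.1.2.2)) ?_ ?_ ?_).1 sf.hasSum
    · rintro ⟨⟨⟨N, M⟩, n, m⟩, hx⟩ ⟨⟨⟨N', M'⟩, n', m'⟩, hy⟩ h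
      have a := (ite_ne_right_iff.1 hx).1
      have b := (ite_ne_right_iff.1 hy).1
      simp only [Prod.mk.injEq, Finset.mem_product] at h a b
      have k1 := (exists_part ((tl_mem h0 a.1.1).1.mul a.2.1) h0).unique (y₁ := (N, n))
        (y₂ := (N', n')) ⟨(tl_mem h0 a.1.1).1, a.2.1, hrad _ a.1.1, a.2.2.2.1, rfl⟩
        ⟨(tl_mem h0 b.1.1).1, b.2.1, hrad _ b.1.1, b.2.2.2.1, h.1⟩
      have k2 := (exists_part ((tl_mem h0 a.1.2).1.mul a.2.2.1) h0).unique (y₁ := (M, m))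
        (y₂ := (M', m')) ⟨(tl_mem h0 a.1.2).1, a.2.2.1, hrad _ a.1.2, a.2.2.2.2, rfl⟩
        ⟨(tl_mem h0 b.1.2).1, b.2.2.1, hrad _ b.1.2, b.2.2.2.2, h.2⟩
      simp only [Prod.mk.injEq] at k1 k2
      simp [k1.1, k1.2, k2.1, k2.2]
    · rintro ⟨N, M⟩ hq
      have q1 := hp _ (left_ne_zero_of_mul (left_ne_zero_of_mul hq))
      have q2 : Prim M := hp' _ fun h => hq (by simp [hf, h])
      obtain ⟨⟨N₁, n⟩, ⟨a1, a2, a3, a4, a5⟩, -⟩ := exists_part q1 h0
      obtain ⟨⟨M₁, m⟩, ⟨b1, b2, b3, b4, b5⟩, -⟩ := exists_part q2 h0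
      simp only at a1 a2 a3 a4 a5 b1 b2 b3 b4 b5
      subst a5 b5
      have k : KT (N₁ * n) (M₁ * m) r ≠ 0 := right_ne_zero_of_mul hq
      rw [KT_mul a1 a2 b1 b2 (hcop a1 b1 a3 b3 a4 b4)] at k
      have k2 := (KT_dvd a1 b1 h0 (left_ne_zero_of_mul k)).trans (mul_dvd_mul_left r
        (a1_rad_dvd_of (t := N₁ * M₁) (z := rad r) fun p hp h => (prime_dvd_rad h0 hp).2
          (((prime_dvd_rad (mul_ne_zero a1.ne_zero b1.ne_zero) hp).2 h).trans (hrad2 a1 b1 a3 b3))))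
      have r0 := mul_ne_zero h0 (rad_ne_zero r)
      exact ⟨⟨((N₁, M₁), n, m), ite_ne_right_iff.2 ⟨⟨Finset.mem_product.2
        ⟨(mem_pdiv r0).2 ⟨a1, (dvd_mul_right _ _).trans k2⟩,
          (mem_pdiv r0).2 ⟨b1, (dvd_mul_left _ _).trans k2⟩⟩, a2, b2, a4, b4⟩, hq⟩⟩, rfl⟩
    · rintro ⟨x, hx⟩
      exact (if_pos (ite_ne_right_iff.1 hx).1).symm
  rw [← hs.tsum_eq, hs.summable.tsum_prod, tsum_eq_sum (s := S ×ˢ S) fun x hx => by simp [hx]]
  set e : (O → ℂ) → O → ℝ := fun γ N =>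
    Nr (tl_ww r N) * ∑' d, if Prim d then ‖tl_V (tl_un γ N r) d‖ ^ 2 else 0 with he
  refine (norm_sum_le_of_le _ (n := fun x => (e γ x.1 + e γ' x.2) / 2) fun x hx => ?_).trans
    (le_of_eq ?_)
  · obtain ⟨x1, x2⟩ := Finset.mem_product.1 hx
    have a1 := (tl_mem h0 x1).1
    have b1 := (tl_mem h0 x2).1
    have e1 : ∀ p : O × O, (if x ∈ S ×ˢ S ∧ Prim p.1 ∧ Prim p.2 ∧ IsCoprime p.1 r ∧
        IsCoprime p.2 r then f (x.1 * p.1, x.2 * p.2) else 0) = KT x.1 x.2 r *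
        if IsCoprime p.1 p.2 then tl_un γ x.1 r p.1 * conj (tl_un γ' x.2 r p.2) else 0 := by
      intro p
      by_cases c1 : Prim p.1
      swap
      · simp [tl_un, c1]
      by_cases c2 : Prim p.2
      swap
      · simp [tl_un, c2]
      by_cases c3 : IsCoprime p.1 r
      swap
      · simp [tl_un, c3, (chi_eq_zero c1.ne_zero).2 fun h => c3 h.of_mul_right_right]
      by_cases c4 : IsCoprime p.2 r
      swap
      · simp [tl_un, c4, (chi_eq_zero c2.ne_zero).2 fun h => c4 h.of_mul_right_right]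
      rw [if_pos ⟨hx, c1, c2, c3, c4⟩]
      simp only [hf, tl_un, if_pos c1, if_pos c2]
      rw [KT_mul a1 c1 b1 c2 (hcop a1 b1 (hrad _ x1) (hrad _ x2) c3 c4),
        KT_coprime c1 c2 (c3.mul_left c4)]
      split_ifs
      · simp only [map_mul, conj_mu]; ring
      · simp
    simp only [e1]
    rw [tsum_mul_left, norm_mul]
    refine (mul_le_mul_of_nonneg_right (tl_KT_le a1 b1 h0 (hrad2 a1 b1 (hrad _ x1) (hrad _ x2)))
      (norm_nonneg _)).trans ((tl_moeb (tl_un_prim γ x.1 r) (tl_un_prim γ' x.2 r)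
      (tl_un_rap hr a1.ne_zero r) (tl_un_rap hr' b1.ne_zero r) (Real.sqrt_nonneg _)
      (Real.sqrt_nonneg _)).trans (le_of_eq ?_))
    rw [Real.sq_sqrt (Nr_nonneg _), Real.sq_sqrt (Nr_nonneg _)]
  · rw [← Finset.sum_div, Finset.sum_add_distrib, Finset.sum_product, Finset.sum_product_right]
    simp only [Finset.sum_const, nsmul_eq_mul, ← Finset.mul_sum]
    rw [tl_E, tl_E]
    ring

end Crest.Agent.R017

end
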