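import Crest.Agent.R017.T2LargeAux2

/-! # Row 17: large cubes, the coefficients and the zero frequency -/

set_option autoImplicit false

noncomputable section

open scoped BigOperators ComplexConjugate
open Complex MeasureTheory Filter Topology

namespace Crest.Agent.R017

theorem tl_pi {ι κ : Type} [Nonempty κ] {f : ι → ℝ} {g : κ → ℝ} (hf : ∀ x, 0 ≤ f x)
    (hg0 : ∀ y, 0 ≤ g y) (hg : Summable g) (π : κ → ι)
    (h : ∀ x, f x ≠ 0 → ∃ y, π y = x ∧ f x ≤ g y) : Summable f ∧ ∑' x, f x ≤ ∑' y, g y := by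
  classical
  choose! i h1 h2 using h
  have key : ∀ S : Finset ι, ∑ x ∈ S, f x ≤ ∑' y, g y := fun S => by
    rw [← Finset.sum_filter_ne_zero]
    refine (Finset.sum_le_sum fun x hx => h2 x (Finset.mem_filter.1 hx).2).trans ?_
    rw [← Finset.sum_image (f := g) fun x hx y hy hxy => by
      rw [← h1 x (Finset.mem_filter.1 hx).2, hxy, h1 y (Finset.mem_filter.1 hy).2]]
    exact hg.sum_le_tsum _ fun y _ => hg0 y
  exact ⟨summable_of_sum_le hf key, Real.tsum_le_of_sum_le hf key⟩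

/-- the weight without the origin -/
def tl_w (A Y : ℝ) (n : O) : ℝ := if n = 0 then 0 else W A (Nr n / Y)

theorem tl_w_nonneg (A Y : ℝ) (n : O) : 0 ≤ tl_w A Y n := by
  unfold tl_w; split_ifs; exacts [le_rfl, (W_pos _ _).le]

theorem tl_w_eq (A Y J : ℝ) (n : O) :
    tl_w A Y n * Nr n ^ J = if n = 0 then 0 else Nr n ^ J * W A (Nr n / Y) := by
  unfold tl_w; split_ifs; exacts [zero_mul _, mul_comm _ _]

theorem tl_w_summable {A Y : ℝ} (hA : 0 < A) (hY : 0 < Y) (J : ℝ) :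
    Summable fun n => tl_w A Y n * Nr n ^ J := by
  simp only [tl_w_eq]; exact summable_W hA hY J

theorem tl_w_tsum {A J : ℝ} (hA : 0 < A) (hJ : 0 ≤ J) : ∃ C : ℝ, 0 ≤ C ∧ ∀ Y : ℝ, 0 < Y →
    ∑' n, tl_w A Y n * Nr n ^ J ≤ C * Y ^ (1 + J) := by
  obtain ⟨C, hC⟩ := tsum_W_le hA J (by linarith)
  refine ⟨|C|, abs_nonneg _, fun Y hY => ?_⟩
  simp only [tl_w_eq]
  exact (hC Y hY).trans (mul_le_mul_of_nonneg_right (le_abs_self _) (by positivity))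

open Classical in
/-- the coefficient of the dual sum -/
def tl_lam (A : ℝ) (ψ a : O → ℂ) (B X τ y : ℝ) (T N : O) : ℂ :=
  if Prim N then cy y N * ψ N * conj (chi N T) * (Nr N : ℂ) ^ (-(τ * I)) *
    ∑ b ∈ box B, (if b ∣ N then a b * (W A (Nr N / (Nr b * X)) : ℂ) else 0) else 0

theorem tl_cy_le (y : ℝ) (N : O) : ‖cy y N‖ ≤ (pdiv N).card := by
  unfold cy
  refine (norm_sum_le_of_le _ (n := fun _ => (1 : ℝ)) fun m _ => ?_).trans (by simp)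
  split_ifs
  · exact norm_mu_le m
  · simp

theorem tl_card_pdiv (N : O) : ((pdiv N).card : ℝ) ≤ 25 * Nr N := by
  classical
  refine le_trans ?_ (card_box_le (Nr_nonneg N))
  exact_mod_cast Finset.card_filter_le _ _

theorem tl_norm_cpow {N : O} (hN : N ≠ 0) (τ : ℝ) : ‖(Nr N : ℂ) ^ (-(τ * I))‖ = 1 := by
  rw [Complex.norm_cpow_eq_rpow_re_of_pos (Nr_pos hN)]
  simp

theorem tl_lam_supp {Q : O} {A : ℝ} {ψ a : O → ℂ} (hψ : IsCh Q ψ) {B X τ y : ℝ} {T N : O}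
    (h : tl_lam A ψ a B X τ y T N ≠ 0) : Prim N ∧ IsCoprime N Q := by
  unfold tl_lam at h
  obtain ⟨h1, h2⟩ := ite_ne_right_iff.1 h
  exact ⟨h1, ch_cop hψ fun h0 => h2 (by simp [h0])⟩

open Classical in
theorem tl_lam_le' {A : ℝ} {ψ : O → ℂ} (hψ : ∀ n, ‖ψ n‖ ≤ 1) (a : O → ℂ) (B X τ y : ℝ) (T : O)
    {N : O} (hN : Prim N) : ‖tl_lam A ψ a B X τ y T N‖ ≤ (pdiv N).card *
      ∑ b ∈ box B, if b ∣ N then ‖a b‖ * W A (Nr N / (Nr b * X)) else 0 := by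
  rw [tl_lam, if_pos hN, norm_mul, norm_mul, tl_norm_cpow hN.ne_zero, mul_one, norm_mul, norm_mul,
    Complex.norm_conj]
  refine mul_le_mul ?_ (norm_sum_le_of_le _ fun b _ => ?_) (norm_nonneg _) (Nat.cast_nonneg _)
  · rw [mul_assoc]
    exact (mul_le_of_le_one_right (norm_nonneg _)
      (mul_le_one₀ (hψ N) (norm_nonneg _) (norm_chi_le _ _))).trans (tl_cy_le y N)
  · split_ifs
    · rw [norm_mul, norm_real, Real.norm_of_nonneg (W_pos _ _).le]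
    · simp

theorem tl_lam_le {A : ℝ} {ψ : O → ℂ} (hψ : ∀ n, ‖ψ n‖ ≤ 1) (a : O → ℂ) (B X τ y : ℝ) (T N : O)
    (J : ℝ) : ‖tl_lam A ψ a B X τ y T N‖ * Nr N ^ J ≤
      25 * ∑ b ∈ box B, ‖a b‖ * (tl_w A (Nr b * X) N * Nr N ^ (1 + J)) := by
  classical
  have h0 : ∀ b, 0 ≤ ‖a b‖ * (tl_w A (Nr b * X) N * Nr N ^ (1 + J)) := fun b =>
    mul_nonneg (norm_nonneg _) (mul_nonneg (tl_w_nonneg _ _ _) (Real.rpow_nonneg (Nr_nonneg _) _))
  by_cases hN : Prim N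
  swap
  · rw [tl_lam, if_neg hN, norm_zero, zero_mul]
    exact mul_nonneg (by norm_num) (Finset.sum_nonneg fun b _ => h0 b)
  have N0 := Nr_pos hN.ne_zero
  have h1 : ∑ b ∈ box B, (if b ∣ N then ‖a b‖ * W A (Nr N / (Nr b * X)) else 0) ≤
      ∑ b ∈ box B, ‖a b‖ * tl_w A (Nr b * X) N := Finset.sum_le_sum fun b _ => by
    rw [tl_w, if_neg hN.ne_zero]
    split_ifs
    · exact le_rfl
    · exact mul_nonneg (norm_nonneg _) (W_pos _ _).le
  have h2 := (tl_lam_le' hψ a B X τ y T hN).trans (mul_le_mul (tl_card_pdiv N) h1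
    (Finset.sum_nonneg fun b _ => by
      split_ifs; exacts [mul_nonneg (norm_nonneg _) (W_pos _ _).le, le_rfl]) (by positivity))
  refine (mul_le_mul_of_nonneg_right h2 (by positivity)).trans (le_of_eq ?_)
  rw [Real.rpow_add N0, Real.rpow_one, mul_assoc, mul_assoc, Finset.sum_mul, Finset.mul_sum]
  congr 1
  exact Finset.sum_congr rfl fun b _ => by ring

theorem tl_lam_rap {A : ℝ} (hA : 0 < A) {ψ : O → ℂ} (hψ : ∀ n, ‖ψ n‖ ≤ 1) (a : O → ℂ) (B : ℝ)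
    {X : ℝ} (hX : 0 < X) (τ y : ℝ) (T : O) : Rap (tl_lam A ψ a B X τ y T) := fun J =>
  Summable.of_nonneg_of_le (fun _ => mul_nonneg (norm_nonneg _) (Real.rpow_nonneg (Nr_nonneg _) _))
    (fun N => tl_lam_le hψ a B X τ y T N J) ((summable_sum fun _ hb =>
      (tl_w_summable hA (mul_pos (Nr_pos (mem_box.1 hb).1) hX) _).mul_left _).mul_left _)

theorem tl_l1 (a : O → ℂ) {B : ℝ} (hB : 1 ≤ B) :
    ∑ b ∈ box B, ‖a b‖ ≤ 5 * B * Real.sqrt (∑ b ∈ box B, ‖a b‖ ^ 2) := by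
  have h := Real.sum_mul_le_sqrt_mul_sqrt (box B) (fun _ => (1 : ℝ)) fun b => ‖a b‖
  simp only [one_mul, one_pow, Finset.sum_const, nsmul_eq_mul, mul_one] at h
  refine h.trans (mul_le_mul_of_nonneg_right ?_ (Real.sqrt_nonneg _))
  rw [Real.sqrt_le_left (by positivity)]
  have := card_box_le (Y := B) (by linarith)
  nlinarith

theorem tl_lam_mom {A J : ℝ} (hA : 0 < A) (hJ : 0 ≤ J) : ∃ C : ℝ, 0 ≤ C ∧
    ∀ (ψ a : O → ℂ) (B X τ y : ℝ) (T : O), (∀ n, ‖ψ n‖ ≤ 1) → 1 ≤ B → 0 < X →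
    ∑' N, ‖tl_lam A ψ a B X τ y T N‖ * Nr N ^ J ≤
      C * (B * (B * X) ^ (2 + J)) * Real.sqrt (∑ b ∈ box B, ‖a b‖ ^ 2) := by
  obtain ⟨C, hC0, hC⟩ := tl_w_tsum (J := 1 + J) hA (by linarith)
  refine ⟨125 * C, by positivity, fun ψ a B X τ y T hψ hB hX => ?_⟩
  have s1 : ∀ b ∈ box B, Summable fun N => ‖a b‖ * (tl_w A (Nr b * X) N * Nr N ^ (1 + J)) :=
    fun b hb => (tl_w_summable hA (mul_pos (Nr_pos (mem_box.1 hb).1) hX) _).mul_left _
  refine ((tl_lam_rap hA hψ a B hX τ y T J).tsum_le_tsum (fun N => tl_lam_le hψ a B X τ y T N J)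
    ((summable_sum s1).mul_left _)).trans ?_
  rw [tsum_mul_left, Summable.tsum_finsetSum s1]
  have h1 : ∀ b ∈ box B, ∑' n, ‖a b‖ * (tl_w A (Nr b * X) n * Nr n ^ (1 + J)) ≤
      ‖a b‖ * (C * (B * X) ^ (2 + J)) := fun b hb => by
    have b0 := Nr_pos (mem_box.1 hb).1
    rw [tsum_mul_left]
    refine mul_le_mul_of_nonneg_left ((hC _ (mul_pos b0 hX)).trans ?_) (norm_nonneg _)
    have := (mem_box.1 hb).2
    rw [show 1 + (1 + J) = 2 + J by ring]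
    gcongr
  have h2 := Finset.sum_le_sum h1
  rw [← Finset.sum_mul] at h2
  have h3 := mul_le_mul_of_nonneg_right (tl_l1 a hB) (by positivity : 0 ≤ C * (B * X) ^ (2 + J))
  linarith

theorem tl_CLarge {A : ℝ} (hA : 0 < A) {ψ : O → ℂ} (hψ : ∀ n, ‖ψ n‖ ≤ 1) (a : O → ℂ) (B : ℝ)
    {X : ℝ} (hX : 0 < X) (τ y : ℝ) (T : O) :
    CLarge A ψ a B X τ y T = colF fun N => tl_lam A ψ a B X τ y T N * vth N := by
  classical
  funext h
  have hb : ∀ b n, Prim n → ‖if b ∣ n then cy y n * (vth n * ψ n * conj (chi n (h * T))) else 0‖ ≤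
      25 * Nr n ^ (1 + 1 / 6 : ℝ) := by
    intro b n hn
    have n0 := Nr_pos hn.ne_zero
    split_ifs
    · rw [norm_mul, Real.rpow_add n0, Real.rpow_one, ← mul_assoc]
      refine mul_le_mul ((tl_cy_le y n).trans (tl_card_pdiv n)) ?_ (norm_nonneg _) (by positivity)
      rw [norm_mul, norm_mul, Complex.norm_conj, mul_assoc]
      exact (mul_le_of_le_one_right (norm_nonneg _)
        (mul_le_one₀ (hψ _) (norm_nonneg _) (norm_chi_le _ _))).trans (norm_vth_le hn)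
    · rw [norm_zero]; positivity
  unfold CLarge sm colF
  simp only [← tsum_mul_left]
  rw [← Summable.tsum_finsetSum fun b hb' => (summable_sm hA
    (mul_pos (Nr_pos (mem_box.1 hb').1) hX) (hb b) τ).mul_left _]
  refine tsum_congr fun N => ?_
  by_cases hN : Prim N
  swap
  · simp [tl_lam, hN]
  simp only [tl_lam, if_pos hN, Finset.mul_sum, Finset.sum_mul]
  refine Finset.sum_congr rfl fun b _ => ?_
  split_ifs
  · rw [chi_mul_right, map_mul]; ring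
  · simp

/-- the summand of the zero frequency -/
def tl_l (γ : O → ℂ) (x : O × O × O) : ℝ :=
  if Prim x.1 ∧ Prim x.2.1 ∧ Prim x.2.2 then ‖γ (x.1 * (x.2.1 * x.2.2 ^ 2) ^ 3)‖ ^ 2 *
    Nr (x.1 * (x.2.1 * x.2.2 ^ 2) ^ 3) * (Nr x.2.1 * Nr x.2.2 ^ (7 / 2 : ℝ)) else 0

theorem tl_l_nonneg (γ : O → ℂ) (x : O × O × O) : 0 ≤ tl_l γ x := by
  unfold tl_l
  split_ifs
  · exact mul_nonneg (mul_nonneg (sq_nonneg _) (Nr_nonneg _))
      (mul_nonneg (Nr_nonneg _) (Real.rpow_nonneg (Nr_nonneg _) _))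
  · exact le_rfl

theorem tl_amgm {c d G u v k α β : ℝ} (hc : 0 ≤ c) (hd : 0 ≤ d) (hG : 0 < G) (hu : 0 < u)
    (hv : 0 < v) (hk : k ≤ α * β) :
    c * d * (Real.sqrt G * u * (Real.sqrt G * v) * k) ≤
      (c ^ 2 * α ^ 2 * (G * u ^ (7 / 2 : ℝ)) * v ^ (-(3 / 2) : ℝ) +
        d ^ 2 * β ^ 2 * (G * v ^ (7 / 2 : ℝ)) * u ^ (-(3 / 2) : ℝ)) / 2 := by
  obtain ⟨a, rfl⟩ : ∃ a, u = Real.exp a := ⟨_, (Real.exp_log hu).symm⟩
  obtain ⟨b, rfl⟩ : ∃ a, v = Real.exp a := ⟨_, (Real.exp_log hv).symm⟩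
  have h1 : Real.exp a ^ (7 / 2 : ℝ) * Real.exp b ^ (-(3 / 2) : ℝ) =
      Real.exp (7 * a / 4 - 3 * b / 4) ^ 2 := by
    rw [← Real.exp_mul, ← Real.exp_mul, ← Real.exp_add, sq, ← Real.exp_add]; congr 1; ring
  have h2 : Real.exp b ^ (7 / 2 : ℝ) * Real.exp a ^ (-(3 / 2) : ℝ) =
      Real.exp (7 * b / 4 - 3 * a / 4) ^ 2 := by
    rw [← Real.exp_mul, ← Real.exp_mul, ← Real.exp_add, sq, ← Real.exp_add]; congr 1; ring
  have h3 : Real.exp a * Real.exp b =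
      Real.exp (7 * a / 4 - 3 * b / 4) * Real.exp (7 * b / 4 - 3 * a / 4) := by
    rw [← Real.exp_add, ← Real.exp_add]; congr 1; ring
  have h4 := Real.mul_self_sqrt hG.le
  have h5 := mul_le_mul_of_nonneg_left hk
    (by positivity : 0 ≤ c * d * G * (Real.exp a * Real.exp b))
  have h6 := mul_nonneg hG.le (sq_nonneg (c * α * Real.exp (7 * a / 4 - 3 * b / 4) -
    d * β * Real.exp (7 * b / 4 - 3 * a / 4)))
  have e1 : c * d * (Real.sqrt G * Real.exp a * (Real.sqrt G * Real.exp b) * k) =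
      c * d * G * (Real.exp a * Real.exp b) * k := by
    linear_combination c * d * Real.exp a * Real.exp b * k * h4
  have e2 : c ^ 2 * α ^ 2 * (G * Real.exp a ^ (7 / 2 : ℝ)) * Real.exp b ^ (-(3 / 2) : ℝ) =
      c ^ 2 * α ^ 2 * G * Real.exp (7 * a / 4 - 3 * b / 4) ^ 2 := by rw [← h1]; ring
  have e3 : d ^ 2 * β ^ 2 * (G * Real.exp b ^ (7 / 2 : ℝ)) * Real.exp a ^ (-(3 / 2) : ℝ) =
      d ^ 2 * β ^ 2 * G * Real.exp (7 * b / 4 - 3 * a / 4) ^ 2 := by rw [← h2]; ring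
  rw [e1, e2, e3]
  rw [h3] at h5 ⊢
  linarith

theorem tl_zero_abs {γ : O → ℂ} (hs : Summable (tl_l γ)) (hp : ∀ n, γ n ≠ 0 → Prim n) :
    ‖∑' p, tl_u γ 0 p‖ ≤ (∑' v : O, Nr v ^ (-(3 / 2) : ℝ)) * ∑' x, tl_l γ x := by
  have hz : Summable fun v : O => Nr v ^ (-(3 / 2) : ℝ) := summable_Nr_rpow (by norm_num)
  have z0 : ∀ v : O, 0 ≤ Nr v ^ (-(3 / 2) : ℝ) := fun v => Real.rpow_nonneg (Nr_nonneg _) _
  have s1 := hs.mul_of_nonneg hz (tl_l_nonneg γ) z0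
  let sw : (O × O × O) × O ≃ (O × O × O) × O :=
    ⟨fun x => ((x.1.1, x.1.2.1, x.2), x.1.2.2), fun x => ((x.1.1, x.1.2.1, x.2), x.1.2.2),
      fun _ => rfl, fun _ => rfl⟩
  set g : (O × O × O) × O → ℝ := fun x => tl_l γ x.1 * Nr x.2 ^ (-(3 / 2) : ℝ) with hg
  have s2 : Summable (fun x => g (sw x)) := (Equiv.summable_iff sw).2 s1
  have g0 : ∀ x, 0 ≤ g x := fun x => mul_nonneg (tl_l_nonneg γ _) (z0 _)
  obtain ⟨k1, k2⟩ := tl_pi (f := fun p => ‖tl_u γ 0 p‖) (g := fun x => (g x + g (sw x)) / 2)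
    (fun _ => norm_nonneg _) (fun x => div_nonneg (add_nonneg (g0 _) (g0 _)) zero_le_two)
    ((s1.add s2).div_const 2)
    (fun x => (x.1.1 * (x.1.2.1 * x.1.2.2 ^ 2) ^ 3, x.1.1 * (x.1.2.1 * x.2 ^ 2) ^ 3)) (by
      rintro ⟨N, M⟩ h
      rw [norm_ne_zero_iff] at h
      have hN := hp _ (left_ne_zero_of_mul (left_ne_zero_of_mul h))
      have hM : Prim M := hp _ fun h0 => h (by simp [tl_u, h0])
      have hK : KT N M 0 ≠ 0 := right_ne_zero_of_mul h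
      have N2 : ¬ (2 : O) ∣ N := fun h2 => hK (k1_KT_even hN hM (Or.inl h2) 0)
      have M2 : ¬ (2 : O) ∣ M := fun h2 => hK (k1_KT_even hN hM (Or.inr h2) 0)
      have b1 := k1_norm_KG N2 M2 0
      obtain ⟨n, g', u, v, hn, hg', hu, hv, sn, -, rfl, rfl⟩ := KT_zero hN hM hK
      refine ⟨((n, g', u), v), rfl, ?_⟩
      have v1 := norm_vth hn sn (hg'.mul (hu.pow 2))
        fun h2 => N2 (h2.trans (mul_dvd_mul_left n (dvd_pow_self _ (by norm_num))))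
      have v2 := norm_vth hn sn (hg'.mul (hv.pow 2))
        fun h2 => M2 (h2.trans (mul_dvd_mul_left n (dvd_pow_self _ (by norm_num))))
      simp only [hg, sw, tl_l, Equiv.coe_fn_mk, hn, hg', hu, hv, and_self, if_true, tl_u, KT,
        norm_mul, Complex.norm_conj, v1, v2]
      rw [Nr_mul, Real.mul_rpow (Nr_nonneg _) (Nr_nonneg _), ← Real.sqrt_eq_rpow,
        ← Real.sqrt_eq_rpow] at b1
      have u0 := Nr_pos hu.ne_zero
      have v0 := Nr_pos hv.ne_zero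
      have g0 := Nr_pos hg'.ne_zero
      rw [Nr_mul g', Nr_mul g', Nr_pow, Nr_pow, Real.sqrt_mul g0.le, Real.sqrt_mul g0.le,
        Real.sqrt_sq u0.le, Real.sqrt_sq v0.le]
      rw [← Real.sq_sqrt (Nr_nonneg (n * (g' * u ^ 2) ^ 3)),
        ← Real.sq_sqrt (Nr_nonneg (n * (g' * v ^ 2) ^ 3))]
      exact tl_amgm (norm_nonneg _) (norm_nonneg _) g0 u0 v0 b1)
  refine (norm_tsum_le_tsum_norm k1).trans (k2.trans (le_of_eq ?_))
  rw [tsum_div_const, s1.tsum_add s2, sw.tsum_eq g, hg, ← hs.tsum_mul_tsum hz s1]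
  ring

theorem tl_m_sum {A η : ℝ} (hA : 0 < A) (hη : 0 < η) : ∃ C : ℝ, 0 ≤ C ∧ ∀ X : ℝ, 0 < X →
    Summable (fun x : (O × O) × O => Nr x.1.1 ^ (1 - η) * Nr x.1.2 ^ (7 / 2 : ℝ) *
      (tl_w A X (x.1.1 ^ 2 * x.1.2 ^ 5 * x.2) * Nr (x.1.1 ^ 2 * x.1.2 ^ 5 * x.2) ^ (4 * η))) ∧
    ∑' x : (O × O) × O, Nr x.1.1 ^ (1 - η) * Nr x.1.2 ^ (7 / 2 : ℝ) *
      (tl_w A X (x.1.1 ^ 2 * x.1.2 ^ 5 * x.2) * Nr (x.1.1 ^ 2 * x.1.2 ^ 5 * x.2) ^ (4 * η)) ≤
      C * X ^ (1 + 4 * η) := by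
  obtain ⟨C, hC0, hC⟩ := tl_w_tsum (J := 4 * η) hA (by linarith)
  have z1 : Summable fun v : O => Nr v ^ (-(1 + η)) := summable_Nr_rpow (by linarith)
  have z2 : Summable fun v : O => Nr v ^ (-(3 / 2) : ℝ) := summable_Nr_rpow (by norm_num)
  have z0 : ∀ (σ : ℝ) (v : O), 0 ≤ Nr v ^ σ := fun σ v => Real.rpow_nonneg (Nr_nonneg _) _
  have z3 := z1.mul_of_nonneg z2 (z0 _) (z0 _)
  refine ⟨C * ∑' p : O × O, Nr p.1 ^ (-(1 + η)) * Nr p.2 ^ (-(3 / 2) : ℝ),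
    mul_nonneg hC0 (tsum_nonneg fun p => mul_nonneg (z0 _ _) (z0 _ _)), fun X hX => ?_⟩
  set m : (O × O) × O → ℝ := fun x => Nr x.1.1 ^ (1 - η) * Nr x.1.2 ^ (7 / 2 : ℝ) *
    (tl_w A X (x.1.1 ^ 2 * x.1.2 ^ 5 * x.2) * Nr (x.1.1 ^ 2 * x.1.2 ^ 5 * x.2) ^ (4 * η)) with hm
  have m0 : ∀ x, 0 ≤ m x := fun x =>
    mul_nonneg (mul_nonneg (z0 _ _) (z0 _ _)) (mul_nonneg (tl_w_nonneg _ _ _) (z0 _ _))
  have key : ∀ p : O × O, (Summable fun n => m (p, n)) ∧ ∑' n, m (p, n) ≤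
      C * X ^ (1 + 4 * η) * (Nr p.1 ^ (-(1 + η)) * Nr p.2 ^ (-(3 / 2) : ℝ)) := by
    intro p
    by_cases hs : p.1 ^ 2 * p.2 ^ 5 = 0
    · simp only [hm, hs, zero_mul, tl_w, if_true, mul_zero, summable_zero, tsum_zero, true_and]
      exact mul_nonneg (by positivity) (mul_nonneg (z0 _ _) (z0 _ _))
    have s0 := Nr_pos hs
    have g0 := Nr_pos (pow_ne_zero_iff two_ne_zero |>.1 (left_ne_zero_of_mul hs))
    have u0 := Nr_pos (pow_ne_zero_iff (by norm_num) |>.1 (right_ne_zero_of_mul hs))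
    have e : ∀ n, m (p, n) = Nr p.1 ^ (1 - η) * Nr p.2 ^ (7 / 2 : ℝ) *
        Nr (p.1 ^ 2 * p.2 ^ 5) ^ (4 * η) *
        (tl_w A (X / Nr (p.1 ^ 2 * p.2 ^ 5)) n * Nr n ^ (4 * η)) := fun n => by
      simp only [hm]
      rw [Nr_mul _ n, Real.mul_rpow s0.le (Nr_nonneg _)]
      have : tl_w A X (p.1 ^ 2 * p.2 ^ 5 * n) = tl_w A (X / Nr (p.1 ^ 2 * p.2 ^ 5)) n := by
        unfold tl_w
        by_cases hn : n = 0
        · simp [hn]
        · rw [if_neg hn, if_neg (mul_ne_zero hs hn), Nr_mul _ n, div_div_eq_mul_div, mul_comm (Nr n)]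
      rw [this]
      ring
    simp only [e]
    refine ⟨(tl_w_summable hA (div_pos hX s0) _).mul_left _, ?_⟩
    rw [tsum_mul_left]
    refine (mul_le_mul_of_nonneg_left (hC _ (div_pos hX s0)) (by positivity)).trans (le_of_eq ?_)
    rw [Real.div_rpow hX.le s0.le, Real.rpow_add s0, Real.rpow_one, Nr_mul, Nr_pow, Nr_pow,
      show 1 - η = -(1 + η) + (2 : ℕ) by push_cast; ring,
      show (7 / 2 : ℝ) = -(3 / 2) + (5 : ℕ) by norm_num, Real.rpow_add g0, Real.rpow_add u0,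
      Real.rpow_natCast, Real.rpow_natCast]
    have : 0 < (Nr p.1 ^ 2 * Nr p.2 ^ 5) ^ (4 * η) := by positivity
    field_simp
  have s1 : Summable fun p : O × O => ∑' n, m (p, n) :=
    Summable.of_nonneg_of_le (fun p => tsum_nonneg fun n => m0 _) (fun p => (key p).2)
      (z3.mul_left _)
  have s2 : Summable m := (summable_prod_of_nonneg m0).2 ⟨fun p => (key p).1, s1⟩
  refine ⟨s2, ?_⟩
  rw [s2.tsum_prod]
  refine (s1.tsum_le_tsum (fun p => (key p).2) (z3.mul_left _)).trans (le_of_eq ?_)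
  rw [tsum_mul_left]
  ring

open Classical in
theorem tl_lam_sq {Q : O} {A : ℝ} (hA : 0 < A) {ψ : O → ℂ} (hψ : ∀ n, ‖ψ n‖ ≤ 1) {a : O → ℂ}
    {B : ℝ} (ha : Dy Q B a) (X τ y : ℝ) (T : O) {N : O} (hN : Prim N) :
    ‖tl_lam A ψ a B X τ y T N‖ ^ 2 ≤ ((pdiv N).card : ℝ) ^ 3 *
      ∑ b ∈ box B, if b ∣ N then ‖a b‖ ^ 2 * W A (Nr N / (Nr b * X)) else 0 := by
  refine (pow_le_pow_left₀ (norm_nonneg _) (tl_lam_le' hψ a B X τ y T hN) 2).trans ?_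
  rw [mul_pow, pow_succ _ 2, mul_assoc]
  refine mul_le_mul_of_nonneg_left ?_ (by positivity)
  have e : ∑ b ∈ box B, (if b ∣ N then ‖a b‖ * W A (Nr N / (Nr b * X)) else 0) =
      ∑ b ∈ (box B).filter (· ∈ pdiv N), ‖a b‖ * W A (Nr N / (Nr b * X)) := by
    rw [Finset.sum_filter]
    refine Finset.sum_congr rfl fun b _ => ?_
    by_cases h : a b = 0
    · simp [h]
    · simp only [mem_pdiv hN.ne_zero, (ha b h).1.1, true_and]
  rw [e]
  refine sq_sum_le_card_mul_sum_sq.trans (mul_le_mul ?_ ?_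
    (Finset.sum_nonneg fun _ _ => sq_nonneg _) (Nat.cast_nonneg _))
  · exact_mod_cast Finset.card_le_card fun b hb => (Finset.mem_filter.1 hb).2
  · rw [Finset.sum_filter]
    refine Finset.sum_le_sum fun b _ => ?_
    have w0 := W_pos A (Nr N / (Nr b * X))
    split_ifs with h1 h2
    · rw [mul_pow, sq (W _ _)]
      exact mul_le_mul_of_nonneg_left (mul_le_of_le_one_right w0.le (W_le_one hA _)) (sq_nonneg _)
    · exact absurd ((mem_pdiv hN.ne_zero).1 h1).2 h2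
    · positivity
    · exact le_rfl

theorem tl_zero {A η : ℝ} (hA : 0 < A) (hη : 0 < η) : ∃ C : ℝ, 0 ≤ C ∧
    ∀ (Q : O) (ψ a ξ : O → ℂ) (B X τ y : ℝ) (T : O), IsCh Q ψ → (∀ n, ‖ξ n‖ ≤ 1) → Dy Q B a →
      1 ≤ B → 0 < X →
      ‖∑' p, tl_u (fun n => tl_lam A ψ a B X τ y T n * ξ n *
        ((Nr n ^ (-(1 / 2) : ℝ) : ℝ) : ℂ)) 0 p‖ ≤
        C * B ^ (3 * η) * X ^ (1 + 4 * η) * ∑ b ∈ box B, ‖a b‖ ^ 2 := by
  classical
  obtain ⟨C₁, hC₁, h₁⟩ := tl_m_sum hA hη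
  obtain ⟨C₂, h₂⟩ := card_pdiv_le hη
  have z0 : ∀ (σ : ℝ) (v : O), 0 ≤ Nr v ^ σ := fun σ v => Real.rpow_nonneg (Nr_nonneg _) _
  have hζ : 0 ≤ ∑' v : O, Nr v ^ (-(3 / 2) : ℝ) := tsum_nonneg (z0 _)
  refine ⟨(∑' v : O, Nr v ^ (-(3 / 2) : ℝ)) * (|C₂| ^ 3 * C₁), by positivity, ?_⟩
  intro Q ψ a ξ B X τ y T hψ hξ ha hB hX
  set γ : O → ℂ := fun n => tl_lam A ψ a B X τ y T n * ξ n * ((Nr n ^ (-(1 / 2) : ℝ) : ℝ) : ℂ)
    with hγ
  set lb : O → O × O × O → ℝ := fun b x => if (Prim x.1 ∧ Prim x.2.1 ∧ Prim x.2.2) ∧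
      b ∣ x.1 * (x.2.1 * x.2.2 ^ 2) ^ 3 then Nr (x.1 * (x.2.1 * x.2.2 ^ 2) ^ 3) ^ (3 * η) *
      W A (Nr (x.1 * (x.2.1 * x.2.2 ^ 2) ^ 3) / (Nr b * X)) * (Nr x.2.1 * Nr x.2.2 ^ (7 / 2 : ℝ))
    else 0 with hlb
  have lb0 : ∀ b x, 0 ≤ lb b x := fun b x => by
    simp only [hlb]
    split_ifs
    · exact mul_nonneg (mul_nonneg (z0 _ _) (W_pos _ _).le) (mul_nonneg (Nr_nonneg _) (z0 _ _))
    · exact le_rfl
  have k1 : ∀ b ∈ box B, (Summable fun x => ‖a b‖ ^ 2 * lb b x) ∧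
      ∑' x, ‖a b‖ ^ 2 * lb b x ≤ ‖a b‖ ^ 2 * (B ^ (3 * η) * (C₁ * X ^ (1 + 4 * η))) := by
    intro b hb
    by_cases h0 : a b = 0
    · simp [h0, summable_zero]
    obtain ⟨⟨pb, sb, -⟩, -, hbB⟩ := ha b h0
    have b0 := Nr_pos pb.ne_zero
    obtain ⟨s1, s2⟩ := h₁ X hX
    obtain ⟨k1, k2⟩ := tl_pi (lb0 b) (fun x => mul_nonneg (z0 (3 * η) b) (mul_nonneg
      (mul_nonneg (z0 _ _) (z0 _ _)) (mul_nonneg (tl_w_nonneg _ _ _) (z0 _ _))))
      (s1.mul_left (Nr b ^ (3 * η)))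
      (fun x => (b * x.2 / (x.1.1 * x.1.2), x.1.1, x.1.2)) (by
        rintro ⟨n, g, u⟩ h
        simp only [hlb] at h ⊢
        obtain ⟨⟨⟨hn, hg, hu⟩, hd⟩, -⟩ := ite_ne_right_iff.1 h
        have hd2 : b ∣ n * (g * u) := (sb.dvd_pow_iff_dvd (n := 6) (by norm_num)).1
          (hd.trans ⟨n ^ 5 * g ^ 3, by ring⟩)
        obtain ⟨k, hk⟩ := hd2
        have gu : g * u ≠ 0 := mul_ne_zero hg.ne_zero hu.ne_zero
        have e : n * (g * u ^ 2) ^ 3 = b * (g ^ 2 * u ^ 5 * k) := by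
          linear_combination (g ^ 2 * u ^ 5) * hk
        have s0 : g ^ 2 * u ^ 5 * k ≠ 0 := by
          intro h0
          rw [h0, mul_zero] at e
          exact (hn.mul ((hg.mul (hu.pow 2)).pow 3)).ne_zero e
        refine ⟨((g, u), k), by simp only [← hk, mul_div_cancel_right₀ _ gu], ?_⟩
        rw [if_pos ⟨⟨hn, hg, hu⟩, hd⟩, e, tl_w, if_neg s0, Nr_mul b, Real.mul_rpow b0.le (Nr_nonneg _),
          mul_div_mul_left _ _ b0.ne']
        have g0 := Nr_pos hg.ne_zero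
        have s1 := Nr_pos s0
        have q1 : Nr g ^ η ≤ Nr (g ^ 2 * u ^ 5 * k) ^ η :=
          Real.rpow_le_rpow g0.le (Nr_le_of_dvd s0 ⟨g * u ^ 5 * k, by ring⟩) hη.le
        have q2 : Nr g = Nr g ^ (1 - η) * Nr g ^ η := by
          rw [← Real.rpow_add g0]; simp
        have q3 := mul_le_mul_of_nonneg_left q1 (mul_nonneg (mul_nonneg (mul_nonneg
          (z0 (3 * η) b) (z0 (3 * η) (g ^ 2 * u ^ 5 * k)))
          (W_pos A (Nr (g ^ 2 * u ^ 5 * k) / X)).le) (mul_nonneg (z0 (1 - η) g) (z0 (7 / 2) u)))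
        rw [show 4 * η = 3 * η + η by ring, Real.rpow_add s1]
        nth_rewrite 1 [q2]
        linarith)
    rw [tsum_mul_left] at k2 ⊢
    refine ⟨k1.mul_left _, mul_le_mul_of_nonneg_left (k2.trans ?_) (sq_nonneg _)⟩
    exact mul_le_mul (Real.rpow_le_rpow b0.le hbB (by linarith)) s2
      (tsum_nonneg fun x => mul_nonneg (mul_nonneg (z0 _ _) (z0 _ _))
        (mul_nonneg (tl_w_nonneg _ _ _) (z0 _ _))) (by positivity)
  have k2 : ∀ x, tl_l γ x ≤ |C₂| ^ 3 * ∑ b ∈ box B, ‖a b‖ ^ 2 * lb b x := by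
    intro x
    unfold tl_l
    split_ifs with h
    swap
    · exact mul_nonneg (by positivity)
        (Finset.sum_nonneg fun b _ => mul_nonneg (sq_nonneg _) (lb0 b x))
    have hN := h.1.mul ((h.2.1.mul (h.2.2.pow 2)).pow 3)
    simp only [hlb, h, and_self, true_and]
    generalize x.1 * (x.2.1 * x.2.2 ^ 2) ^ 3 = N at *
    have N0 := Nr_pos hN.ne_zero
    have q1 : ‖γ N‖ ^ 2 * Nr N ≤ ‖tl_lam A ψ a B X τ y T N‖ ^ 2 := by
      simp only [hγ, norm_mul, norm_real, Real.norm_of_nonneg (z0 _ _), mul_pow]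
      rw [← Real.rpow_natCast (Nr N ^ _), ← Real.rpow_mul N0.le, mul_assoc,
        ← Real.rpow_add_one N0.ne']
      norm_num
      exact mul_le_of_le_one_right (sq_nonneg _) (pow_le_one₀ (norm_nonneg _) (hξ N))
    have q2 : ((pdiv N).card : ℝ) ^ 3 ≤ |C₂| ^ 3 * Nr N ^ (3 * η) := by
      rw [mul_comm 3, Real.rpow_mul N0.le, show (3 : ℝ) = (3 : ℕ) by norm_num, Real.rpow_natCast,
        ← mul_pow]
      exact pow_le_pow_left₀ (Nat.cast_nonneg _) ((h₂ N hN.ne_zero).trans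
        (mul_le_mul_of_nonneg_right (le_abs_self _) (z0 _ _))) 3
    have q3 := q1.trans ((tl_lam_sq hA hψ.norm_le ha X τ y T hN).trans
      (mul_le_mul_of_nonneg_right q2 (Finset.sum_nonneg fun b _ => by
        split_ifs; exacts [mul_nonneg (sq_nonneg _) (W_pos _ _).le, le_rfl])))
    refine (mul_le_mul_of_nonneg_right q3 (mul_nonneg (Nr_nonneg _) (z0 _ _))).trans (le_of_eq ?_)
    rw [mul_assoc, mul_assoc, Finset.sum_mul, Finset.mul_sum]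
    congr 1
    refine Finset.sum_congr rfl fun b _ => ?_
    split_ifs
    · ring
    · simp
  have s3 := (summable_sum fun b hb => (k1 b hb).1).mul_left (|C₂| ^ 3)
  have s4 := Summable.of_nonneg_of_le (tl_l_nonneg γ) k2 s3
  refine (tl_zero_abs s4 fun n hn =>
    (tl_lam_supp hψ (left_ne_zero_of_mul (left_ne_zero_of_mul hn))).1).trans ?_
  have k3 := s4.tsum_le_tsum k2 s3
  rw [tsum_mul_left, Summable.tsum_finsetSum fun b hb => (k1 b hb).1] at k3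
  have k4 := Finset.sum_le_sum fun b hb => (k1 b hb).2
  rw [← Finset.sum_mul] at k4
  have k5 := mul_le_mul_of_nonneg_left
    (k3.trans (mul_le_mul_of_nonneg_left k4 (by positivity))) hζ
  linarith

end Crest.Agent.R017

end
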