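import Crest.Agent.R017.T2LargeAux3

/-! # Row 17: large cubes, local data and the reduction to inverse sums -/

set_option autoImplicit false

noncomputable section

open scoped BigOperators ComplexConjugate
open Complex MeasureTheory Filter Topology

namespace Crest.Agent.R017

theorem tl_ww_ne (r N : O) : tl_ww r N ≠ 0 :=
  Finset.prod_ne_zero_iff.2 fun _ hp => pow_ne_zero _ (a1_of_mem_pf hp).1.1.ne_zero

theorem tl_ww_mult {r q : O} (hr : r ≠ 0) (N : O) (hq : Prime q) :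
    multiplicity q (tl_ww r N) = (if 2 ≤ multiplicity q r then multiplicity q N else 0) +
      (if 6 ≤ multiplicity q r then multiplicity q N / 3 else 0) := by
  classical
  obtain ⟨q', hq', hqq⟩ := exists_PP hq
  rw [tl_ww, a3_prod hq _ _ fun p hp => pow_ne_zero _ (a1_of_mem_pf hp).1.1.ne_zero,
    ← multiplicity_eq_of_associated_left (c := r) hqq,
    ← multiplicity_eq_of_associated_left (c := N) hqq, Finset.sum_eq_single q']
  · rw [← multiplicity_eq_of_associated_left hqq, multiplicity_pow_self_of_prime hq'.1]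
    simp only [a3_pow_dvd hq'.1 hr]
  · intro p hp hpq
    have hp' := (a1_of_mem_pf hp).1
    rw [multiplicity_eq_zero]
    intro h
    exact hpq (hp'.eq_of_associated hq'
      (((hq.associated_of_dvd hp'.1 (hq.dvd_of_dvd_pow h)).symm).trans hqq))
  · intro h
    have h1 : multiplicity q' r = 0 :=
      multiplicity_eq_zero.mpr fun h2 => h ((mem_pf hr).mpr ⟨hq', h2⟩)
    have h2 : ∀ k, k ≠ 0 → ¬ q' ^ k ∣ r := fun k hk h3 => by
      have := (a3_pow_dvd hq'.1 hr k).1 h3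
      omega
    rw [if_neg (h2 2 (by norm_num)), if_neg (h2 6 (by norm_num))]
    simp [multiplicity_eq_zero.2 hq.not_dvd_one]

theorem tl_ww_le {r N : O} (hr : r ≠ 0) (hN : N ≠ 0) : Nr (tl_ww r N) ≤ Nr N ^ 2 := by
  rw [← Nr_pow]
  refine Nr_le_of_dvd (pow_ne_zero _ hN)
    ((a3_dvd_iff (tl_ww_ne r N) (pow_ne_zero _ hN)).2 fun p hp => ?_)
  rw [tl_ww_mult hr N hp, a3_pow hp hN]
  split_ifs <;> omega

theorem tl_local {r b N : O} (hr : r ≠ 0) (hb : Prim b) (hs : Squarefree b) (hN : Prim N)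
    (hd : b * N ∣ r * rad r) : ∃ β κ : O, Prim β ∧ Prim κ ∧ β ∣ b ∧ β ^ 2 * κ ^ 6 ∣ r ∧
      tl_ww r (b * N) ∣ N * β * κ ^ 5 ∧ (tl_ww r (b * N) * β * κ) ^ 3 ∣ N ^ 5 * b ^ 6 := by
  have h0 := (hb.mul hN).ne_zero
  obtain ⟨κ, κ0, κp, hκ⟩ := a3_build h0 r (fun a v => min (a / 3) (v / 6)) (by simp)
  obtain ⟨β', β0', βp', hβ'⟩ := a3_build hb.ne_zero r (fun a v => if 2 ≤ v then a else 0) (by simp)
  obtain ⟨β, β0, βp, hβ⟩ := a3_build β0' κ (fun a v => if v = 0 then a else 0) (by simp)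
  have w0 := tl_ww_ne r (b * N)
  have key : ∀ p, Prime p → multiplicity p b ≤ 1 ∧
      multiplicity p b + multiplicity p N ≤ multiplicity p r + 1 ∧
      multiplicity p (b * N) = multiplicity p b + multiplicity p N := fun p hp => by
    have h1 := (a3_dvd_iff h0 (mul_ne_zero hr (rad_ne_zero r))).1 hd p hp
    have h2 := (a3_sqf (rad_ne_zero r)).1 (squarefree_rad r) p hp
    have h3 := a3_mul hp hb.ne_zero hN.ne_zero
    rw [a3_mul hp hr (rad_ne_zero r)] at h1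
    exact ⟨(a3_sqf hb.ne_zero).1 hs p hp, by omega, h3⟩
  refine ⟨β, κ, βp (βp' hb), κp (hb.mul hN), (a3_dvd_iff β0 hb.ne_zero).2 fun p hp => ?_,
    (a3_dvd_iff (mul_ne_zero (pow_ne_zero _ β0) (pow_ne_zero _ κ0)) hr).2 fun p hp => ?_,
    (a3_dvd_iff w0 (mul_ne_zero (mul_ne_zero hN.ne_zero β0) (pow_ne_zero _ κ0))).2 fun p hp => ?_,
    (a3_dvd_iff (pow_ne_zero _ (mul_ne_zero (mul_ne_zero w0 β0) κ0))
      (mul_ne_zero (pow_ne_zero _ hN.ne_zero) (pow_ne_zero _ hb.ne_zero))).2 fun p hp => ?_⟩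
  · rw [hβ p hp, hβ' p hp]
    split_ifs <;> omega
  · obtain ⟨k1, k2, k3⟩ := key p hp
    rw [a3_mul hp (pow_ne_zero _ β0) (pow_ne_zero _ κ0), a3_pow hp β0, a3_pow hp κ0, hβ p hp,
      hβ' p hp, hκ p hp, k3]
    split_ifs <;> omega
  · obtain ⟨k1, k2, k3⟩ := key p hp
    rw [a3_mul hp (mul_ne_zero hN.ne_zero β0) (pow_ne_zero _ κ0), a3_mul hp hN.ne_zero β0,
      a3_pow hp κ0, tl_ww_mult hr _ hp, hβ p hp, hβ' p hp, hκ p hp, k3]
    split_ifs <;> omega
  · obtain ⟨k1, k2, k3⟩ := key p hp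
    rw [a3_pow hp (mul_ne_zero (mul_ne_zero w0 β0) κ0), a3_mul hp (mul_ne_zero w0 β0) κ0,
      a3_mul hp w0 β0, a3_mul hp (pow_ne_zero _ hN.ne_zero) (pow_ne_zero _ hb.ne_zero),
      a3_pow hp hN.ne_zero, a3_pow hp hb.ne_zero, tl_ww_mult hr _ hp, hβ p hp, hβ' p hp, hκ p hp,
      k3]
    split_ifs <;> omega

theorem tl_cy_mul (y : ℝ) {N m : O} (hN : N ≠ 0) (hs : Squarefree m) (hc : IsCoprime N m) :
    cy y (N * m) = cy y N := by
  classical
  have m0 := hs.ne_zero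
  have key : ∀ x : O, x ≠ 0 → x ^ 3 ∣ N * m → x ^ 3 ∣ N := fun x hx h => by
    refine (a3_dvd_iff (pow_ne_zero _ hx) hN).2 fun p hp => ?_
    have h1 := (a3_dvd_iff (pow_ne_zero _ hx) (mul_ne_zero hN m0)).1 h p hp
    have h2 := (a3_sqf m0).1 hs p hp
    have h3 := (a3_coprime hN).1 hc p hp
    rw [a3_mul hp hN m0] at h1
    rw [a3_pow hp hx] at h1 ⊢
    omega
  unfold cy
  rw [← Finset.sum_filter, ← Finset.sum_filter]
  congr 1
  ext x
  simp only [Finset.mem_filter, mem_pdiv hN, mem_pdiv (mul_ne_zero hN m0)]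
  constructor
  · rintro ⟨⟨h1, -⟩, h2, h3⟩
    have := key x h1.ne_zero h2
    exact ⟨⟨h1, (dvd_pow_self x (by norm_num)).trans this⟩, this, h3⟩
  · rintro ⟨⟨h1, h2⟩, h3, h4⟩
    exact ⟨⟨h1, h2.mul_right _⟩, h3.mul_right _, h4⟩

theorem tl_cy_large {y : ℝ} (hy : 0 ≤ y) {b N : O} (hs : Squarefree b) (hN : N ≠ 0)
    (h : cy y (b * N) ≠ 0) : y ^ 2 < Nr N := by
  classical
  obtain ⟨m, hm, h1⟩ := Finset.exists_ne_zero_of_sum_ne_zero h
  obtain ⟨⟨h2, h3⟩, -⟩ := ite_ne_right_iff.1 h1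
  have b0 := hs.ne_zero
  have m0 := ((mem_pdiv (mul_ne_zero b0 hN)).1 hm).1.ne_zero
  have : m ^ 2 ∣ N := (a3_dvd_iff (pow_ne_zero _ m0) hN).2 fun p hp => by
    have k1 := (a3_dvd_iff (pow_ne_zero _ m0) (mul_ne_zero b0 hN)).1 h2 p hp
    have k2 := (a3_sqf b0).1 hs p hp
    rw [a3_mul hp b0 hN] at k1
    rw [a3_pow hp m0] at k1 ⊢
    omega
  have := Nr_le_of_dvd hN this
  rw [Nr_pow] at this
  nlinarith

open Classical in
theorem tl_mu_mul (x y : O) :
    mu (x * y) = if IsCoprime x y then mu x * mu y else 0 := by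
  split_ifs with h
  · exact mu_mul h
  · refine mu_eq_zero.2 fun hs => h ?_
    exact isRelPrime_iff_isCoprime.1 (IsRelPrime.of_squarefree_mul hs)

open Classical in
theorem tl_chi_six {x : O} (hx : x ≠ 0) (k z : O) :
    chi x (k ^ 6 * z) = if IsCoprime x k then chi x z else 0 := by
  rw [chi_mul_right, chi_pow_right _ _ (by norm_num), chi_pow_six hx]
  by_cases h : IsCoprime x k
  · rw [if_pos h]
    split_ifs with h'
    · rw [one_mul]
    · rw [zero_mul, eq_comm, chi_eq_zero hx]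
      exact fun h2 => h' (h2.of_mul_right_left.mul_right h)
  · rw [if_neg h, if_neg fun h' => h h'.of_mul_right_right, zero_mul]

open Classical in
theorem tl_conj_chi {x : O} (hx : x ≠ 0) (t k : O) :
    conj (chi x (t * k ^ 6)) = if IsCoprime x k then chi x (t ^ 5) else 0 := by
  rw [mul_comm, tl_chi_six hx]
  split_ifs
  · rw [conj_chi, chi_pow_right _ _ (by norm_num)]
  · simp

theorem tl_cpow_mul (x y : O) (s : ℂ) : (Nr (x * y) : ℂ) ^ s = (Nr x : ℂ) ^ s * (Nr y : ℂ) ^ s := by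
  rw [Nr_mul, ofReal_mul, mul_cpow_ofReal_nonneg (Nr_nonneg _) (Nr_nonneg _)]

open Classical in
/-- the coefficients of the child sums -/
def tl_co (ψ a : O → ℂ) (τ : ℝ) (e g b : O) : ℂ :=
  if IsCoprime b e then a (g * b) * mu b * ψ b * (Nr b : ℂ) ^ (-(τ * I)) else 0

open Classical in
theorem tl_reindex {Q : O} {B : ℝ} {a : O → ℂ} (ha : Dy Q B a) {e : O} (he : e ≠ 0) (F : O → ℂ) :
    ∑ b ∈ box B, a b * F b =
      ∑ g ∈ (box B).filter (fun g => Prim g ∧ Squarefree g ∧ g ∣ e), ∑ b ∈ box (B / Nr g),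
        if IsCoprime b e then a (g * b) * F (g * b) else 0 := by
  rw [Finset.sum_sigma']
  symm
  refine Finset.sum_bij_ne_zero (fun x _ _ => x.1 * x.2) ?_ ?_ ?_ ?_
  · rintro ⟨g, b⟩ h1 -
    simp only [Finset.mem_sigma, Finset.mem_filter, mem_box] at h1 ⊢
    have g0 := Nr_pos h1.1.1.1
    refine ⟨mul_ne_zero h1.1.1.1 h1.2.1, ?_⟩
    rw [Nr_mul, mul_comm]
    exact (le_div_iff₀ g0).1 h1.2.2
  · rintro ⟨g, b⟩ h1 h2 ⟨g', b'⟩ h3 h4 h
    simp only [Finset.mem_sigma, Finset.mem_filter] at h1 h3 h h2 h4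
    obtain ⟨c1, c2⟩ := ite_ne_right_iff.1 h2
    obtain ⟨c3, -⟩ := ite_ne_right_iff.1 h4
    have p1 := (ha _ (left_ne_zero_of_mul c2)).1.1
    have := (exists_part p1 he).unique (y₁ := (g, b)) (y₂ := (g', b'))
      ⟨h1.1.2.1, h1.1.2.1.of_mul p1, (rad_dvd h1.1.2.1.ne_zero).trans h1.1.2.2.2, c1, rfl⟩
      ⟨h3.1.2.1, h3.1.2.1.of_mul (h ▸ p1), (rad_dvd h3.1.2.1.ne_zero).trans h3.1.2.2.2, c3, h⟩
    simp only [Prod.mk.injEq] at this
    simp [this.1, this.2]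
  · intro b hb h
    obtain ⟨⟨p1, p2, -⟩, -, p3⟩ := ha _ (left_ne_zero_of_mul h)
    obtain ⟨⟨g, b'⟩, ⟨a1, a2, a3, a4, a5⟩, -⟩ := exists_part p1 he
    simp only at a1 a2 a3 a4 a5
    subst a5
    have sg := p2.of_mul_left
    rw [rad_eq_self a1 sg] at a3
    have g0 := Nr_pos a1.ne_zero
    refine ⟨⟨g, b'⟩, ?_, ite_ne_right_iff.2 ⟨a4, h⟩, rfl⟩
    simp only [Finset.mem_sigma, Finset.mem_filter, mem_box]
    refine ⟨⟨⟨a1.ne_zero, (Nr_le_of_dvd p1.ne_zero (dvd_mul_right _ _)).trans p3⟩, a1, sg, a3⟩,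
      a2.ne_zero, (le_div_iff₀ g0).2 ?_⟩
    rwa [mul_comm, ← Nr_mul]
  · rintro ⟨g, b⟩ - h2
    exact if_pos (ite_ne_right_iff.1 h2).1

open Classical in
theorem tl_V_eq {Q : O} {A : ℝ} (hA : 0 < A) {ψ : O → ℂ} (hψ : IsCh Q ψ) (a : O → ℂ) (B : ℝ)
    {X : ℝ} (hX : 0 < X) (τ y : ℝ) (T : O) {r N : O} (hN : Prim N) (hr : rad N ∣ r) (d : O) :
    tl_V (tl_un (tl_lam A ψ a B X τ y T) N r) d =
      ∑ b ∈ box B, a b * (cy y N * (Nr N : ℂ) ^ (-(τ * I)) * sm A (fun n => if d ∣ n ∧ b ∣ N * n then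
        ψ (N * n) * conj (chi (N * n) T) * mu n * chi n r else 0) (Nr b * X / Nr N) τ) := by
  have N0 := Nr_pos hN.ne_zero
  have hb : ∀ b n, Prim n → ‖if d ∣ n ∧ b ∣ N * n then
      ψ (N * n) * conj (chi (N * n) T) * mu n * chi n r else 0‖ ≤ 1 * Nr n ^ (0 : ℝ) := by
    intro b n _
    rw [Real.rpow_zero, mul_one]
    split_ifs
    · rw [norm_mul, norm_mul, norm_mul, Complex.norm_conj]
      exact mul_le_one₀ (mul_le_one₀ (mul_le_one₀ (hψ.norm_le _) (norm_nonneg _) (norm_chi_le _ _))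
        (norm_nonneg _) (norm_mu_le _)) (norm_nonneg _) (norm_chi_le _ _)
    · simp
  unfold sm tl_V
  simp only [← tsum_mul_left]
  rw [← Summable.tsum_finsetSum fun b hb' => ((summable_sm hA
    (div_pos (mul_pos (Nr_pos (mem_box.1 hb').1) hX) N0) (hb b) τ).mul_left _).mul_left _]
  refine tsum_congr fun n => ?_
  by_cases hn : Prim n
  swap
  · simp [tl_un, hn]
  by_cases hd : d ∣ n
  swap
  · simp [hd]
  by_cases h0 : mu n * chi n r = 0
  · simp [tl_un, mul_assoc, h0]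
  have sn : Squarefree n := by
    by_contra h; exact h0 (by rw [mu_eq_zero.2 h, zero_mul])
  have cn : IsCoprime n r := by
    by_contra h
    exact h0 (by rw [(chi_eq_zero hn.ne_zero).2 fun h' => h h'.of_mul_right_right, mul_zero])
  simp only [tl_un, tl_lam, hn, hd, hN.mul hn, if_true, true_and, Finset.mul_sum, Finset.sum_mul,
    tl_cy_mul y hN.ne_zero sn (tl_cop hN.ne_zero hr cn), tl_cpow_mul]
  refine Finset.sum_congr rfl fun b _ => ?_
  rw [Nr_mul, div_div_eq_mul_div, mul_comm (Nr n) (Nr N)]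
  split_ifs
  · ring
  · simp

open Classical in
theorem tl_sm_eq {Q : O} (A : ℝ) {ψ : O → ℂ} (hψ : IsCh Q ψ) (X τ : ℝ) (t k r : O) {N d g b : O}
    (hN : Prim N) (hd : Prim d) (hb : Prim b) (hg : g ∣ N * d) (hc : IsCoprime b (N * d)) :
    sm A (fun n => if d ∣ n ∧ g * b ∣ N * n then
        ψ (N * n) * conj (chi (N * n) (t * k ^ 6)) * mu n * chi n r else 0) (Nr (g * b) * X / Nr N) τ =
      (ψ (N * d) * conj (chi (N * d) (t * k ^ 6)) * mu d * chi d r * (Nr d : ℂ) ^ (-(τ * I))) *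
        ((if IsCoprime b (d * k) then mu b * ψ b * (Nr b : ℂ) ^ (-(τ * I)) else 0) *
          chi b (r * t ^ 5) * sm A (fun n => if IsCoprime n (b * (d * k)) then
            mu n * (ψ n * chi n (r * t ^ 5)) else 0) (X * Nr g / Nr (N * d)) τ) := by
  have e1 : ∀ n, (d ∣ n ∧ g * b ∣ N * n) ↔ d * b ∣ n := fun n => by
    constructor
    · rintro ⟨h1, h2⟩
      exact hc.of_mul_right_right.symm.mul_dvd h1
        (hc.of_mul_right_left.dvd_of_dvd_mul_left ((dvd_mul_left _ _).trans h2))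
    · rintro ⟨m, rfl⟩
      exact ⟨⟨b * m, by ring⟩, (mul_dvd_mul_right hg b).trans ⟨m, by ring⟩⟩
  simp only [e1]
  rw [sm_dvd (hd.mul hb)]
  have e2 : Nr (g * b) * X / Nr N / Nr (d * b) = X * Nr g / Nr (N * d) := by
    have := Nr_pos hb.ne_zero
    have := Nr_pos hN.ne_zero
    have := Nr_pos hd.ne_zero
    simp only [Nr_mul]
    field_simp
  rw [e2, tl_cpow_mul]
  unfold sm
  simp only [← tsum_mul_left]
  refine tsum_congr fun n => ?_
  by_cases hn : Prim n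
  swap
  · simp [hn]
  have db := hc.of_mul_right_right
  rw [if_pos hn, if_pos hn, show N * (d * b * n) = N * d * b * n by ring, hψ.mul, hψ.mul,
    chi_mul_left ((hN.mul hd).mul hb).ne_zero hn.ne_zero,
    chi_mul_left (hN.mul hd).ne_zero hb.ne_zero, map_mul, map_mul, tl_conj_chi hb.ne_zero,
    tl_conj_chi hn.ne_zero, chi_mul_left (hd.mul hb).ne_zero hn.ne_zero,
    chi_mul_left hd.ne_zero hb.ne_zero, mul_comm (d * b) n, tl_mu_mul n, mu_mul db.symm,
    chi_mul_right b, chi_mul_right n]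
  simp only [IsCoprime.mul_right_iff, db, true_and]
  by_cases c1 : IsCoprime b k <;> by_cases c2 : IsCoprime n k <;> by_cases c3 : IsCoprime n d <;>
    by_cases c4 : IsCoprime n b <;> simp [c1, c2, c3, c4]
  ring

open Classical in
theorem tl_V_SF {Q : O} {A : ℝ} (hA : 0 < A) {ψ a : O → ℂ} (hψ : IsCh Q ψ) {B : ℝ} (ha : Dy Q B a)
    {X : ℝ} (hX : 0 < X) (τ y : ℝ) (t k : O) {r N d : O} (hN : Prim N) (hr : rad N ∣ r)
    (hd : Prim d) :
    ‖tl_V (tl_un (tl_lam A ψ a B X τ y (t * k ^ 6)) N r) d‖ ≤ ‖cy y N‖ *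
      ∑ g ∈ (box B).filter (fun g => Prim g ∧ Squarefree g ∧ g ∣ N * d),
        ‖SF A ψ (tl_co ψ a τ (d * k) g) (B / Nr g) (X * Nr g / Nr (N * d)) τ (t ^ 5) (d * k) r‖ := by
  rw [tl_V_eq hA hψ a B hX τ y _ hN hr, tl_reindex ha (hN.mul hd).ne_zero, Finset.mul_sum]
  refine norm_sum_le_of_le _ fun g hg => ?_
  obtain ⟨-, g1, -, g2⟩ := Finset.mem_filter.1 hg
  set K := (Nr N : ℂ) ^ (-(τ * I)) *
    (ψ (N * d) * conj (chi (N * d) (t * k ^ 6)) * mu d * chi d r * (Nr d : ℂ) ^ (-(τ * I))) with hK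
  have hK1 : ‖K‖ ≤ 1 := by
    rw [hK, norm_mul, norm_mul, norm_mul, norm_mul, norm_mul, tl_norm_cpow hN.ne_zero,
      tl_norm_cpow hd.ne_zero, one_mul, mul_one, Complex.norm_conj]
    exact mul_le_one₀ (mul_le_one₀ (mul_le_one₀ (hψ.norm_le _) (norm_nonneg _) (norm_chi_le _ _))
      (norm_nonneg _) (norm_mu_le _)) (norm_nonneg _) (norm_chi_le _ _)
  have e : ∑ b ∈ box (B / Nr g), (if IsCoprime b (N * d) then a (g * b) *
      (cy y N * (Nr N : ℂ) ^ (-(τ * I)) * sm A (fun n => if d ∣ n ∧ g * b ∣ N * n then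
        ψ (N * n) * conj (chi (N * n) (t * k ^ 6)) * mu n * chi n r else 0)
        (Nr (g * b) * X / Nr N) τ) else 0) = K * (cy y N *
      SF A ψ (tl_co ψ a τ (d * k) g) (B / Nr g) (X * Nr g / Nr (N * d)) τ (t ^ 5) (d * k) r) := by
    rw [SF, Finset.mul_sum, Finset.mul_sum]
    refine Finset.sum_congr rfl fun b hb => ?_
    by_cases h0 : a (g * b) = 0
    · simp [tl_co, h0]
    have pb := g1.of_mul (ha _ h0).1.1
    split_ifs with h
    · rw [tl_sm_eq A hψ X τ t k r hN hd pb g2 h, hK, tl_co]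
      split_ifs
      · ring
      · simp
    · rw [IsCoprime.mul_right_iff, not_and_or] at h
      rcases h with h | h
      · rw [(chi_eq_zero pb.ne_zero).2 fun h' =>
          h (tl_cop hN.ne_zero hr h'.of_mul_right_right.of_mul_right_left).symm]
        simp
      · rw [tl_co, if_neg fun h' => h h'.of_mul_right_left]
        simp
  rw [e, norm_mul K, norm_mul (cy y N)]
  exact mul_le_of_le_one_left (by positivity) hK1

end Crest.Agent.R017

end
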