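import Crest.Agent.R017.T2LargeAux4

/-! # Row 17: large cubes, applying the inductive hypothesis -/

set_option autoImplicit false

noncomputable section

open scoped BigOperators ComplexConjugate
open Complex MeasureTheory Filter Topology

namespace Crest.Agent.R017

/-- mean square over a circle of lengths and heights -/
def tl_J (A : ℝ) (c : O → ℂ) (U τ : ℝ) : ℝ := ∫ θ in (0 : ℝ)..(2 * Real.pi),
  ‖sm A c (Real.exp (U + (2 + 4 * A) * Real.cos θ)) (τ - (2 + 4 * A) * Real.sin θ / (2 * A))‖ ^ 2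

theorem tl_J_nonneg (A : ℝ) (c : O → ℂ) (U τ : ℝ) : 0 ≤ tl_J A c U τ :=
  intervalIntegral.integral_nonneg (by positivity) fun _ _ => sq_nonneg _

theorem tl_J_cont {A : ℝ} (hA : 0 < A) {c : O → ℂ} {K : ℝ}
    (hc : ∀ n, Prim n → ‖c n‖ ≤ K * Nr n ^ (0 : ℝ)) (U τ : ℝ) : Continuous fun θ : ℝ =>
    ‖sm A c (Real.exp (U + (2 + 4 * A) * Real.cos θ)) (τ - (2 + 4 * A) * Real.sin θ / (2 * A))‖ :=
  ((continuous_sm hA hc).comp (f := fun θ : ℝ =>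
    (U + (2 + 4 * A) * Real.cos θ, τ - (2 + 4 * A) * Real.sin θ / (2 * A))) (by fun_prop)).norm

theorem tl_cs {f : ℝ → ℝ} (hf : Continuous f) :
    (∫ θ in (0 : ℝ)..(2 * Real.pi), f θ) ^ 2 ≤
      2 * Real.pi * ∫ θ in (0 : ℝ)..(2 * Real.pi), f θ ^ 2 := by
  have hpi := Real.pi_pos
  set S := ∫ θ in (0 : ℝ)..(2 * Real.pi), f θ with hS
  have h1 : ∫ θ in (0 : ℝ)..(2 * Real.pi), (2 * (S / (2 * Real.pi)) * f θ - (S / (2 * Real.pi)) ^ 2) ≤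
      ∫ θ in (0 : ℝ)..(2 * Real.pi), f θ ^ 2 :=
    intervalIntegral.integral_mono_on (by positivity)
      (Continuous.intervalIntegrable (by fun_prop) _ _)
      (Continuous.intervalIntegrable (by fun_prop) _ _)
      fun θ _ => by nlinarith [sq_nonneg (f θ - S / (2 * Real.pi))]
  rw [intervalIntegral.integral_sub (Continuous.intervalIntegrable (by fun_prop) _ _)
    (Continuous.intervalIntegrable (by fun_prop) _ _), intervalIntegral.integral_const_mul,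
    intervalIntegral.integral_const, ← hS] at h1
  refine le_trans (le_of_eq ?_) (mul_le_mul_of_nonneg_left h1 (by positivity))
  simp only [sub_zero, smul_eq_mul]
  field_simp
  ring

theorem tl_circle {A : ℝ} (hA : 0 < A) : ∃ C : ℝ, 0 ≤ C ∧ ∀ (c : O → ℂ) (K U u τ : ℝ),
    (∀ n, Prim n → ‖c n‖ ≤ K * Nr n ^ (0 : ℝ)) → |u - U| ≤ 1 →
    ‖sm A c (Real.exp u) τ‖ ^ 2 ≤ C * tl_J A c U τ := by
  obtain ⟨C, hC⟩ := norm_sm_le_circle hA
  refine ⟨C ^ 2 * (2 * Real.pi), by positivity, fun c K U u τ hc hu => ?_⟩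
  refine (pow_le_pow_left₀ (norm_nonneg _) (hC c K 0 U τ u τ hc hu (by simp)) 2).trans ?_
  rw [mul_pow, mul_assoc]
  exact mul_le_mul_of_nonneg_left (tl_cs (tl_J_cont hA hc U τ)) (sq_nonneg _)

theorem tl_J_sum {A : ℝ} (hA : 0 < A) (S : Finset O) {c : O → O → ℂ} {K : ℝ}
    (hc : ∀ r n, Prim n → ‖c r n‖ ≤ K * Nr n ^ (0 : ℝ)) {U τ M : ℝ}
    (h : ∀ θ : ℝ, ∑ r ∈ S, ‖sm A (c r) (Real.exp (U + (2 + 4 * A) * Real.cos θ))
      (τ - (2 + 4 * A) * Real.sin θ / (2 * A))‖ ^ 2 ≤ M) :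
    ∑ r ∈ S, tl_J A (c r) U τ ≤ 2 * Real.pi * M := by
  unfold tl_J
  rw [← intervalIntegral.integral_finsetSum fun r _ =>
    ((tl_J_cont hA (hc r) U τ).fun_pow 2).intervalIntegrable _ _]
  refine (intervalIntegral.integral_mono_on (g := fun _ => M) (by positivity)
    (Continuous.intervalIntegrable (continuous_finsetSum _ fun r _ =>
      (tl_J_cont hA (hc r) U τ).fun_pow 2) _ _) (continuous_const.intervalIntegrable _ _)
    fun θ _ => h θ).trans (le_of_eq ?_)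
  simp

open Classical in
/-- the coefficient of `SF` as a single smooth sum -/
def tl_c (ψ a : O → ℂ) (L : ℝ) (t k r n : O) : ℂ :=
  ∑ b ∈ box L, a b * chi b (r * t) *
    (if IsCoprime n (b * k) then mu n * (ψ n * chi n (r * t)) else 0)

theorem tl_c_aux {ψ : O → ℂ} (hψ : ∀ n, ‖ψ n‖ ≤ 1) (z e n : O) [Decidable (IsCoprime n e)] :
    ‖if IsCoprime n e then mu n * (ψ n * chi n z) else 0‖ ≤ 1 := by
  split_ifs
  · rw [norm_mul, norm_mul]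
    exact mul_le_one₀ (norm_mu_le _) (by positivity)
      (mul_le_one₀ (hψ _) (norm_nonneg _) (norm_chi_le _ _))
  · simp

theorem tl_c_le {ψ : O → ℂ} (hψ : ∀ n, ‖ψ n‖ ≤ 1) (a : O → ℂ) (L : ℝ) (t k r n : O) (_ : Prim n) :
    ‖tl_c ψ a L t k r n‖ ≤ (∑ b ∈ box L, ‖a b‖) * Nr n ^ (0 : ℝ) := by
  classical
  rw [Real.rpow_zero, mul_one]
  refine norm_sum_le_of_le _ fun b _ => ?_
  rw [norm_mul, norm_mul, mul_assoc]
  exact mul_le_of_le_one_right (norm_nonneg _)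
    (mul_le_one₀ (norm_chi_le _ _) (norm_nonneg _) (tl_c_aux hψ _ _ _))

theorem tl_SF_eq {A : ℝ} (hA : 0 < A) {ψ : O → ℂ} (hψ : ∀ n, ‖ψ n‖ ≤ 1) (a : O → ℂ) (L : ℝ)
    {D : ℝ} (hD : 0 < D) (τ : ℝ) (t k r : O) :
    SF A ψ a L D τ t k r = sm A (tl_c ψ a L t k r) D τ := by
  classical
  unfold SF sm tl_c
  simp only [← tsum_mul_left]
  rw [← Summable.tsum_finsetSum fun b _ => (summable_sm hA hD (K := 1) (A := 0)
    (fun n _ => by rw [Real.rpow_zero, mul_one]; exact tl_c_aux hψ _ _ _) τ).mul_left _]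
  refine tsum_congr fun n => ?_
  by_cases hn : Prim n
  · simp only [if_pos hn, Finset.sum_mul]
    exact Finset.sum_congr rfl fun b _ => by ring
  · simp [hn]

open Classical in
theorem tl_mult_sum {s : O} (hs : s ≠ 0) (R : ℝ) (f : O → ℝ) :
    ∑ r ∈ (box R).filter (s ∣ ·), f r = ∑ r ∈ box (R / Nr s), f (s * r) := by
  have s0 := Nr_pos hs
  symm
  refine Finset.sum_bij (fun r _ => s * r) (fun r hr => ?_) (fun r _ r' _ h => ?_)
    (fun r hr => ?_) fun _ _ => rfl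
  · obtain ⟨h1, h2⟩ := mem_box.1 hr
    refine Finset.mem_filter.2 ⟨mem_box.2 ⟨mul_ne_zero hs h1, ?_⟩, dvd_mul_right _ _⟩
    rw [Nr_mul, mul_comm]
    exact (le_div_iff₀ s0).1 h2
  · exact mul_left_cancel₀ hs h
  · obtain ⟨h1, r', rfl⟩ := Finset.mem_filter.1 hr
    obtain ⟨h2, h3⟩ := mem_box.1 h1
    refine ⟨r', mem_box.2 ⟨right_ne_zero_of_mul h2, (le_div_iff₀ s0).2 ?_⟩, rfl⟩
    rwa [mul_comm, ← Nr_mul]

open Classical in
theorem tl_SF_shift (A : ℝ) (ψ a : O → ℂ) (L D τ : ℝ) (t k β κ r : O) :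
    SF A ψ a L D τ t k (β ^ 2 * κ ^ 6 * r) =
      SF A ψ (fun b => if IsCoprime b κ then a b else 0) L D τ (t * β ^ 2) (k * κ) r := by
  unfold SF
  refine Finset.sum_congr rfl fun b hb => ?_
  have e : β ^ 2 * κ ^ 6 * r * t = κ ^ 6 * (r * (t * β ^ 2)) := by ring
  rw [e, tl_chi_six (mem_box.1 hb).1]
  by_cases h : IsCoprime b κ
  swap
  · simp [h]
  simp only [if_pos h]
  congr 1
  unfold sm
  refine tsum_congr fun n => ?_
  by_cases hn : Prim n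
  swap
  · simp [hn]
  simp only [if_pos hn, tl_chi_six hn.ne_zero, ← mul_assoc b k κ,
    IsCoprime.mul_right_iff (x := n) (y := b * k)]
  by_cases c1 : IsCoprime n (b * k) <;> by_cases c2 : IsCoprime n κ <;> simp [c1, c2]

open Classical in
theorem tl_rows {Q : O} {A D₀ x Ξ C₀ : ℝ} (hT : TwoB (fun _ => True) Q A D₀ x Ξ C₀) (hΞ : 0 ≤ Ξ)
    {R D L q : ℝ} (τ : ℝ) {ψ a : O → ℂ} {t k β κ : O} (hψ : IsCh Q ψ) (ht : t ≠ 0) (hk : k ≠ 0)
    (hβ : β ≠ 0) (hκ : κ ≠ 0) (hR : 0 < R) (hRx : R ≤ x) (hD : 0 < D) (hD₀ : D ≤ D₀) (hL : 1 ≤ L)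
    (hLx : L ≤ x) (hq : Nr (rad (t * β ^ 2)) ≤ q) (hqx : q ≤ x) (hkx : Nr (rad (k * κ)) ≤ x)
    (ha : Dy Q L a) :
    ∑ r ∈ (box R).filter (β ^ 2 * κ ^ 6 ∣ ·), ‖SF A ψ a L D τ t k r‖ ^ 2 ≤
      Ξ * (1 + |τ|) ^ C₀ * D * (∑ b ∈ box L, ‖a b‖ ^ 2) *
        (R / (Nr β ^ 2 * Nr κ ^ 6) + D * L ^ 2 * q + L ^ 3 * D ^ (2 / 3 : ℝ) * q) := by
  have s0 : β ^ 2 * κ ^ 6 ≠ 0 := mul_ne_zero (pow_ne_zero _ hβ) (pow_ne_zero _ hκ)
  rw [tl_mult_sum s0]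
  simp only [tl_SF_shift]
  have h1 := one_le_Nr s0
  have key := hT (R / Nr (β ^ 2 * κ ^ 6)) D L τ ψ (fun b => if IsCoprime b κ then a b else 0)
    (t * β ^ 2) (k * κ) hψ (mul_ne_zero ht (pow_ne_zero _ hβ)) (mul_ne_zero hk hκ) trivial
    (by positivity) ((div_le_self hR.le h1).trans hRx) hD hD₀ hL hLx (hq.trans hqx) hkx
    (fun b hb => ha b (ite_ne_right_iff.1 hb).2)
  refine key.trans ?_
  rw [Nr_mul, Nr_pow, Nr_pow]
  have h2 : ∑ b ∈ box L, ‖if IsCoprime b κ then a b else 0‖ ^ 2 ≤ ∑ b ∈ box L, ‖a b‖ ^ 2 :=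
    Finset.sum_le_sum fun b _ => by split_ifs <;> simp
  have h3 := Nr_nonneg (rad (t * β ^ 2))
  have h4 := Nr_pos hβ
  have h5 := Nr_pos hκ
  have h6 : 0 ≤ ∑ b ∈ box L, ‖a b‖ ^ 2 := Finset.sum_nonneg fun _ _ => sq_nonneg _
  gcongr

/-- the weight attached to the data -/
def tl_Om (g β κ : O) (l : ℕ) : ℝ :=
  min (Real.exp (l + 1) * Nr β * Nr κ ^ 5) (Real.exp (5 * (l + 1) / 3) * Nr g ^ 2 / (Nr β * Nr κ))

theorem tl_Om_nonneg (g β κ : O) (l : ℕ) : 0 ≤ tl_Om g β κ l := by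
  have := Nr_nonneg β
  have := Nr_nonneg κ
  exact le_min (by positivity) (by positivity)

theorem tl_num {Ω l ρ g β κ X X' B R q D : ℝ} (hl : 0 ≤ l) (hρ : 0 ≤ ρ) (hg : 1 ≤ g) (hβ : 1 ≤ β)
    (hκ : 1 ≤ κ) (hX' : 0 < X') (hX : X' ≤ X) (hB : 0 < B) (hR : 0 < R) (hq : 0 ≤ q) (hD : 0 < D)
    (hD' : D ≤ X' * Real.exp (ρ - l)) (h1 : Ω ≤ Real.exp (l + 1) * β * κ ^ 5)
    (h2 : Ω ≤ Real.exp (5 * (l + 1) / 3) * g ^ 2 / (β * κ)) :
    Ω * (D * (R / (β ^ 2 * κ ^ 6) + D * (B / g) ^ 2 * (q * β) +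
      (B / g) ^ 3 * D ^ (2 / 3 : ℝ) * (q * β))) ≤
      Real.exp (2 + 2 * ρ) * (X' / κ) * (R + X * B ^ 2 * q + B ^ 3 * X ^ (2 / 3 : ℝ) * q) := by
  have X0 : 0 < X := hX'.trans_le hX
  have hD2 : D ≤ X * Real.exp (ρ - l) := hD'.trans (by gcongr)
  have hD3 : D ^ (2 / 3 : ℝ) ≤ X ^ (2 / 3 : ℝ) * Real.exp ((ρ - l) * (2 / 3)) := by
    rw [Real.exp_mul, ← Real.mul_rpow X0.le (Real.exp_pos _).le]
    exact Real.rpow_le_rpow hD.le hD2 (by norm_num)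
  have t1 : Ω * (D * (R / (β ^ 2 * κ ^ 6))) ≤ Real.exp (2 + 2 * ρ) * (X' / κ) * R := by
    calc _ ≤ Real.exp (l + 1) * β * κ ^ 5 * (X' * Real.exp (ρ - l) * (R / (β ^ 2 * κ ^ 6))) := by
          gcongr
      _ = Real.exp (l + 1) * Real.exp (ρ - l) * (X' / κ) * R / β := by field_simp
      _ ≤ Real.exp (l + 1) * Real.exp (ρ - l) * (X' / κ) * R := div_le_self (by positivity) hβ
      _ ≤ _ := by
          rw [← Real.exp_add]
          exact mul_le_mul_of_nonneg_right (mul_le_mul_of_nonneg_right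
            (Real.exp_le_exp.2 (by linarith)) (by positivity)) (by positivity)
  have t2 : Ω * (D * (D * (B / g) ^ 2 * (q * β))) ≤
      Real.exp (2 + 2 * ρ) * (X' / κ) * (X * B ^ 2 * q) := by
    calc _ ≤ Real.exp (5 * (l + 1) / 3) * g ^ 2 / (β * κ) * (X' * Real.exp (ρ - l) *
          (X * Real.exp (ρ - l) * (B / g) ^ 2 * (q * β))) := by gcongr
      _ = Real.exp (5 * (l + 1) / 3) * Real.exp (ρ - l) * Real.exp (ρ - l) * (X' / κ) *
          (X * B ^ 2 * q) := by field_simp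
      _ ≤ _ := by
          rw [← Real.exp_add, ← Real.exp_add]
          exact mul_le_mul_of_nonneg_right (mul_le_mul_of_nonneg_right
            (Real.exp_le_exp.2 (by linarith)) (by positivity)) (by positivity)
  have t3 : Ω * (D * ((B / g) ^ 3 * D ^ (2 / 3 : ℝ) * (q * β))) ≤
      Real.exp (2 + 2 * ρ) * (X' / κ) * (B ^ 3 * X ^ (2 / 3 : ℝ) * q) := by
    calc _ ≤ Real.exp (5 * (l + 1) / 3) * g ^ 2 / (β * κ) * (X' * Real.exp (ρ - l) *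
          ((B / g) ^ 3 * (X ^ (2 / 3 : ℝ) * Real.exp ((ρ - l) * (2 / 3))) * (q * β))) := by gcongr
      _ = Real.exp (5 * (l + 1) / 3) * Real.exp (ρ - l) * Real.exp ((ρ - l) * (2 / 3)) * (X' / κ) *
          (B ^ 3 * X ^ (2 / 3 : ℝ) * q) / g := by field_simp
      _ ≤ Real.exp (5 * (l + 1) / 3) * Real.exp (ρ - l) * Real.exp ((ρ - l) * (2 / 3)) * (X' / κ) *
          (B ^ 3 * X ^ (2 / 3 : ℝ) * q) := div_le_self (by positivity) hg
      _ ≤ _ := by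
          rw [← Real.exp_add, ← Real.exp_add]
          exact mul_le_mul_of_nonneg_right (mul_le_mul_of_nonneg_right
            (Real.exp_le_exp.2 (by linarith)) (by positivity)) (by positivity)
  linarith

open Classical in
/-- the majorant attached to the data `(d, g, b₂, β, κ, l)` -/
def tl_Th (A : ℝ) (ψ a : O → ℂ) (B X τ y : ℝ) (t k d g : O) (i : O × O × O × ℕ) (r : O) : ℝ :=
  if (i.1 ∣ d ∧ y ^ 2 < Real.exp (i.2.2.2 + 1)) ∧ i.2.1 ^ 2 * i.2.2.1 ^ 6 ∣ r then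
    tl_Om g i.2.1 i.2.2.1 i.2.2.2 * tl_J A (tl_c ψ (tl_co ψ a τ (d * k) g) (B / Nr g) (t ^ 5) (d * k) r)
      (Real.log (X * Nr i.1 / Nr d) - i.2.2.2) τ else 0

theorem tl_Th_nonneg (A : ℝ) (ψ a : O → ℂ) (B X τ y : ℝ) (t k d g : O) (i : O × O × O × ℕ)
    (r : O) : 0 ≤ tl_Th A ψ a B X τ y t k d g i r := by
  unfold tl_Th
  split_ifs
  · exact mul_nonneg (tl_Om_nonneg _ _ _ _) (tl_J_nonneg _ _ _ _)
  · exact le_rfl

theorem tl_co_dy {Q : O} {B : ℝ} {a : O → ℂ} (ha : Dy Q B a) (ψ : O → ℂ) (τ : ℝ) (e : O) {g : O}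
    (hg : Prim g) : Dy Q (B / Nr g) (tl_co ψ a τ e g) := fun b hb => by
  have h : a (g * b) ≠ 0 := fun h0 => hb (by simp [tl_co, h0])
  obtain ⟨⟨h1, h2, h3⟩, h4, h5⟩ := ha _ h
  have g0 := Nr_pos hg.ne_zero
  rw [Nr_mul] at h4 h5
  refine ⟨⟨hg.of_mul h1, h2.of_mul_right, h3.of_mul_left_right⟩, ?_, ?_⟩
  · rw [div_right_comm, div_lt_iff₀ g0]; linarith
  · rw [le_div_iff₀ g0]; linarith

theorem tl_co_le {ψ : O → ℂ} (hψ : ∀ n, ‖ψ n‖ ≤ 1) (a : O → ℂ) (τ : ℝ) (e g : O) {b : O}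
    (hb : b ≠ 0) : ‖tl_co ψ a τ e g b‖ ≤ ‖a (g * b)‖ := by
  unfold tl_co
  split_ifs
  · rw [norm_mul, tl_norm_cpow hb, mul_one, norm_mul, norm_mul, mul_assoc]
    exact mul_le_of_le_one_right (norm_nonneg _)
      (mul_le_one₀ (norm_mu_le _) (norm_nonneg _) (hψ _))
  · simp

theorem tl_rad_mul_le {s t : O} (hs : s ≠ 0) (ht : t ≠ 0) :
    Nr (rad (s * t)) ≤ Nr (rad s) * Nr (rad t) := by
  rw [← Nr_mul]
  exact Nr_le_of_dvd (mul_ne_zero (rad_ne_zero _) (rad_ne_zero _)) (rad_mul_dvd hs ht)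

theorem tl_rad_le {s : O} (hs : s ≠ 0) : Nr (rad s) ≤ Nr s := Nr_le_of_dvd hs (rad_dvd hs)

set_option maxHeartbeats 1000000 in
open Classical in
theorem tl_Th_sum {A C₀ : ℝ} (hA : 0 < A) (hC₀ : 0 ≤ C₀) : ∃ C : ℝ, 0 ≤ C ∧
    ∀ (Q : O) (x y X B R τ Ξ D₀ : ℝ) (ψ a : O → ℂ) (t k d g : O) (i : O × O × O × ℕ), 1 ≤ x →
      Real.exp (3 + 4 * A) ≤ y → IsCh Q ψ → t ≠ 0 → k ≠ 0 → 0 < X → X / y ≤ D₀ → B ≤ x → 0 < R →
      R ≤ x ^ 5 → Nr (rad t) ≤ x → Nr (rad k) ≤ x → Dy Q B a → 0 ≤ Ξ →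
      TwoB (fun _ => True) Q A D₀ (x ^ 10) Ξ C₀ → d ∈ box (x ^ 4) → Prim g → g ∈ box B →
      i.1 ∈ pdiv g → i.2.1 ∈ pdiv g → i.2.2.1 ∈ box R →
      ∑ r ∈ box R, tl_Th A ψ a B X τ y t k d g i r ≤
        C * (Ξ * (1 + |τ|) ^ C₀ * X * (R + X * B ^ 2 * Nr (rad t) + B ^ 3 * X ^ (2 / 3 : ℝ) * Nr (rad t))) *
          (∑ b ∈ box (B / Nr g), ‖a (g * b)‖ ^ 2) *
          ((if i.1 ∣ d then Nr i.1 / Nr d else 0) * (Nr i.2.2.1)⁻¹) := by
  refine ⟨2 * Real.pi * (1 + (2 + 4 * A) / (2 * A)) ^ C₀ * Real.exp (2 + 2 * (2 + 4 * A)),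
    by positivity, ?_⟩
  rintro Q x y X B R τ Ξ D₀ ψ a t k d g ⟨b₂, β, κ, l⟩ hx hy hψ ht hk hX hD₀ hBx hR hRx htx hkx ha
    hΞ hT hd pg hg h2 hβ hκ
  simp only at h2 hβ hκ ⊢
  obtain ⟨d0, hdx⟩ := mem_box.1 hd
  obtain ⟨g0, hgB⟩ := mem_box.1 hg
  obtain ⟨κ0, hκR⟩ := mem_box.1 hκ
  obtain ⟨p2, -⟩ := (mem_pdiv g0).1 h2
  obtain ⟨pβ, βg⟩ := (mem_pdiv g0).1 hβ
  have d1 := one_le_Nr d0
  have g1 := one_le_Nr g0
  have κ1 := one_le_Nr κ0
  have β1 := one_le_Nr pβ.ne_zero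
  have b1 := one_le_Nr p2.ne_zero
  have q0 := Nr_nonneg (rad t)
  have B0 : 0 < B := by linarith
  have S0 : 0 ≤ ∑ b ∈ box (B / Nr g), ‖a (g * b)‖ ^ 2 := Finset.sum_nonneg fun _ _ => sq_nonneg _
  by_cases h : b₂ ∣ d ∧ y ^ 2 < Real.exp (l + 1)
  swap
  · simp only [tl_Th, h, false_and, if_false, Finset.sum_const_zero]
    have : 0 ≤ if b₂ ∣ d then Nr b₂ / Nr d else 0 := by split_ifs <;> positivity
    positivity
  simp only [tl_Th, h, and_self, true_and, if_true]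
  rw [← Finset.sum_filter, ← Finset.mul_sum]
  have hbd : Nr b₂ ≤ Nr d := Nr_le_of_dvd d0 h.1
  have X1 : 0 < X * Nr b₂ / Nr d := by positivity
  have X2 : X * Nr b₂ / Nr d ≤ X := by
    rw [mul_div_assoc]; exact mul_le_of_le_one_right hX.le ((div_le_one (by linarith)).2 hbd)
  have y0 : 0 < y := (Real.exp_pos _).trans_le hy
  have xx : ∀ {m n : ℕ}, m ≤ n → x ^ m ≤ x ^ n := fun h => pow_le_pow_right₀ hx h
  set ρ := 2 + 4 * A with hρ
  have ρ0 : 0 < ρ := by positivity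
  have key : ∀ θ : ℝ, tl_Om g β κ l * ∑ r ∈ (box R).filter (β ^ 2 * κ ^ 6 ∣ ·),
      ‖sm A (tl_c ψ (tl_co ψ a τ (d * k) g) (B / Nr g) (t ^ 5) (d * k) r)
        (Real.exp (Real.log (X * Nr b₂ / Nr d) - l + ρ * Real.cos θ))
        (τ - ρ * Real.sin θ / (2 * A))‖ ^ 2 ≤
      (1 + ρ / (2 * A)) ^ C₀ * Real.exp (2 + 2 * ρ) * (Ξ * (1 + |τ|) ^ C₀ * X *
        (R + X * B ^ 2 * Nr (rad t) + B ^ 3 * X ^ (2 / 3 : ℝ) * Nr (rad t))) *
        (∑ b ∈ box (B / Nr g), ‖a (g * b)‖ ^ 2) * (Nr b₂ / Nr d * (Nr κ)⁻¹) := by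
    intro θ
    obtain ⟨D, hD⟩ : ∃ D, D = Real.exp (Real.log (X * Nr b₂ / Nr d) - l + ρ * Real.cos θ) := ⟨_, rfl⟩
    obtain ⟨τ', hτ'⟩ : ∃ τ', τ' = τ - ρ * Real.sin θ / (2 * A) := ⟨_, rfl⟩
    rw [← hD, ← hτ']
    have D0 : 0 < D := hD ▸ Real.exp_pos _
    have D1 : D ≤ X * Nr b₂ / Nr d * Real.exp (ρ - l) := by
      rw [hD, sub_add, Real.exp_sub, Real.exp_log X1, div_eq_mul_inv, ← Real.exp_neg]
      refine mul_le_mul_of_nonneg_left (Real.exp_le_exp.2 ?_) X1.le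
      nlinarith [Real.cos_le_one θ]
    have D2 : D ≤ D₀ := by
      refine D1.trans (le_trans ?_ hD₀)
      rw [le_div_iff₀ y0, mul_assoc]
      refine (mul_le_mul_of_nonneg_right X2 (by positivity)).trans (mul_le_of_le_one_right hX.le ?_)
      have e1 : Real.exp (ρ - l) * Real.exp (l + 1) = Real.exp (3 + 4 * A) := by
        rw [← Real.exp_add]; congr 1; rw [hρ]; ring
      have e2 := mul_lt_mul_of_pos_left h.2 (Real.exp_pos (ρ - l))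
      nlinarith
    have T1 : (1 + |τ'|) ^ C₀ ≤ (1 + ρ / (2 * A)) ^ C₀ * (1 + |τ|) ^ C₀ := by
      rw [← Real.mul_rpow (by positivity) (by positivity)]
      refine Real.rpow_le_rpow (by positivity) ?_ hC₀
      have e1 : |ρ * Real.sin θ / (2 * A)| ≤ ρ / (2 * A) := by
        rw [abs_div, abs_mul, abs_of_pos ρ0, abs_of_pos (by positivity : 0 < 2 * A)]
        gcongr
        exact mul_le_of_le_one_right ρ0.le (Real.abs_sin_le_one θ)
      have e2 : |τ'| ≤ |τ| + ρ / (2 * A) := hτ' ▸ (abs_sub _ _).trans (by linarith)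
      have e3 : 0 ≤ ρ / (2 * A) * |τ| := by positivity
      linarith
    simp only [← tl_SF_eq hA hψ.norm_le _ _ D0]
    have r1 : Nr (rad (t ^ 5 * β ^ 2)) ≤ Nr (rad t) * Nr β := by
      refine (tl_rad_mul_le (pow_ne_zero _ ht) (pow_ne_zero _ pβ.ne_zero)).trans ?_
      rw [rad_pow (by norm_num), rad_pow (by norm_num)]
      exact mul_le_mul_of_nonneg_left (tl_rad_le pβ.ne_zero) q0
    have r2 : Nr (rad t) * Nr β ≤ x ^ 10 :=
      (mul_le_mul htx ((Nr_le_of_dvd g0 βg).trans (hgB.trans hBx)) (by linarith)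
        (by linarith)).trans (by rw [← sq]; exact xx (by norm_num))
    have r3 : Nr (rad (d * k * κ)) ≤ x ^ 10 := by
      refine (tl_rad_mul_le (mul_ne_zero d0 hk) κ0).trans ?_
      rw [show x ^ 10 = x ^ 4 * x * x ^ 5 by ring]
      exact mul_le_mul ((tl_rad_mul_le d0 hk).trans (mul_le_mul ((tl_rad_le d0).trans hdx) hkx
        (Nr_nonneg _) (by positivity))) ((tl_rad_le κ0).trans (hκR.trans hRx)) (Nr_nonneg _)
        (by positivity)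
    have k1 := tl_rows hT hΞ τ' hψ (pow_ne_zero 5 ht) (mul_ne_zero d0 hk) pβ.ne_zero κ0 hR
      (hRx.trans (xx (by norm_num))) D0 D2 ((one_le_div (by linarith)).2 hgB)
      ((div_le_self B0.le g1).trans (hBx.trans (by simpa using xx (m := 1) (by norm_num)))) r1 r2 r3
      (tl_co_dy ha ψ τ (d * k) pg)
    have k2 : ∑ b ∈ box (B / Nr g), ‖tl_co ψ a τ (d * k) g b‖ ^ 2 ≤
        ∑ b ∈ box (B / Nr g), ‖a (g * b)‖ ^ 2 := Finset.sum_le_sum fun b hb =>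
      pow_le_pow_left₀ (norm_nonneg _) (tl_co_le hψ.norm_le a τ _ g (mem_box.1 hb).1) 2
    have k3 := tl_num (Nat.cast_nonneg l) ρ0.le g1 β1 κ1 X1 X2 B0 hR q0 D0 D1 (Ω := tl_Om g β κ l)
      (min_le_left _ _) (min_le_right _ _)
    refine (mul_le_mul_of_nonneg_left k1 (tl_Om_nonneg g β κ l)).trans ?_
    have O0 := tl_Om_nonneg g β κ l
    have S1 : 0 ≤ ∑ b ∈ box (B / Nr g), ‖tl_co ψ a τ (d * k) g b‖ ^ 2 :=
      Finset.sum_nonneg fun _ _ => sq_nonneg _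
    clear k1 hT r1 r2 r3 hD hτ' ha hψ hκ hβ h2 hg hd xx h
    generalize tl_Om g β κ l = Ω at *
    generalize ∑ b ∈ box (B / Nr g), ‖tl_co ψ a τ (d * k) g b‖ ^ 2 = S' at *
    generalize ∑ b ∈ box (B / Nr g), ‖a (g * b)‖ ^ 2 = S at *
    generalize Nr (rad t) = q at *
    generalize Nr β = β' at *
    generalize Nr κ = κ' at *
    generalize Nr g = g' at *
    have k4 := mul_le_mul (mul_le_mul_of_nonneg_left T1 hΞ) k2 S1 (by positivity)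
    have k5 := mul_le_mul k4 k3 (mul_nonneg O0 (by positivity)) (by positivity)
    refine le_trans (le_of_eq (by ring)) (k5.trans (le_of_eq ?_))
    field_simp
  by_cases hO : tl_Om g β κ l = 0
  · rw [hO, zero_mul]
    positivity
  have O0 := lt_of_le_of_ne (tl_Om_nonneg g β κ l) (Ne.symm hO)
  have k6 := tl_J_sum hA _ (fun r => tl_c_le hψ.norm_le (tl_co ψ a τ (d * k) g) (B / Nr g) (t ^ 5)
    (d * k) r) fun θ => (le_div_iff₀' O0).2 (key θ)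
  refine (mul_le_mul_of_nonneg_left k6 O0.le).trans (le_of_eq ?_)
  field_simp

end Crest.Agent.R017

end
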