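import Crest.Agent.R017.T2PAux1

/-! # Row 17: auxiliary lemmas for `T2P`: long inverse sums -/

set_option autoImplicit false

noncomputable section

open scoped BigOperators ComplexConjugate
open Complex MeasureTheory

namespace Crest.Agent.R017

theorem tp_one {Q : O} (hQ : Q ≠ 0) (h72 : (72 : O) ∣ Q) {A ε : ℝ} (hA : 0 < A) (hε : 0 < ε) :
    ∃ C : ℝ, 0 ≤ C ∧ ∀ (x R D τ : ℝ) (ψ : O → ℂ) (k : O), 1 ≤ x → IsCh Q ψ → k ≠ 0 → 0 < R → R ≤ x →
      0 < D → D ≤ x → Nr k ≤ x →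
      NS R (tp_G A ψ τ k D) ≤ C * x ^ ε * (1 + |τ|) ^ C * D * (R + D + D ^ (2 / 3 : ℝ)) := by
  obtain ⟨C, hC, H⟩ := tp_block hQ h72 hA hε
  refine ⟨C, hC, fun x R D τ ψ k hx hψ hk hR hRx hD hDx hkx => ?_⟩
  have h1 := H x R D 1 τ ψ k Unit Finset.univ (fun _ => 1) (fun _ => 1) hx hψ hk hR hRx hD hDx
    le_rfl hx hkx (fun _ _ _ _ _ => rfl) (fun _ _ =>
      ⟨⟨prim_one, squarefree_one, isCoprime_one_left⟩, by rw [Nr_one]; norm_num, by rw [Nr_one]⟩)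
  have e : tp_T A ψ τ Finset.univ (fun _ : Unit => (1 : O)) (fun _ => 1) k D = tp_G A ψ τ k D := by
    funext r
    simp [tp_T, chi_unit_left isUnit_one]
  rw [e] at h1
  simpa using h1

theorem tp_rpow_le {D D' : ℝ} (h0 : 0 ≤ D') (h : D' ≤ D) (hD : 1 ≤ D) : D' ^ (2 / 3 : ℝ) ≤ D := by
  calc D' ^ (2 / 3 : ℝ) ≤ D ^ (2 / 3 : ℝ) := Real.rpow_le_rpow h0 h (by norm_num)
    _ ≤ D ^ (1 : ℝ) := Real.rpow_le_rpow_of_exponent_le hD (by norm_num)
    _ = D := Real.rpow_one D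

theorem tp_fin {n N M Z E F Y : ℝ} (hY : 0 < Y) (hZ : 0 < Z) (hM : 0 ≤ M) (hE : 0 ≤ E) (hF : 0 ≤ F)
    (h1 : n * N ≤ 2 * (M * (3 * E * F)) + n * (2 * (6 * E * F / Y))) (h2 : Y ≤ Z * n) :
    N ≤ (6 * M * Z + 12) * E * (F / Y) := by
  have hn : 0 < n := by
    by_contra h
    have := mul_nonpos_of_nonneg_of_nonpos hZ.le (not_lt.1 h)
    linarith
  have h3 : N ≤ 6 * M * E * F / n + 12 * E * (F / Y) := by
    have : N ≤ (2 * (M * (3 * E * F)) + n * (2 * (6 * E * F / Y))) / n := by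
      rw [le_div_iff₀ hn]; linarith
    refine this.trans (le_of_eq ?_)
    field_simp
    ring
  have h4 : 6 * M * E * F / n ≤ 6 * M * Z * E * (F / Y) := by
    rw [div_le_iff₀ hn]
    have : 6 * M * Z * E * (F / Y) * n = 6 * M * E * F * (Z * n / Y) := by field_simp
    rw [this]
    exact le_mul_of_one_le_right (by positivity) ((one_le_div hY).2 h2)
  linarith

theorem tp_two_long {Q : O} (hQ : Q ≠ 0) (h72 : (72 : O) ∣ Q) {A ε : ℝ} (hA : 0 < A) (hε : 0 < ε) :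
    ∃ C : ℝ, 0 ≤ C ∧ ∀ (x R D τ : ℝ) (ψ : O → ℂ), 1 ≤ x → IsCh Q ψ → 1 ≤ R → R ≤ D → D ≤ x →
      NS R (fun r => sm A (fun n => mu n * (ψ n * chi n r)) D τ) ≤
        C * x ^ ε * (1 + |τ|) ^ C * D ^ (11 / 6 : ℝ) * R ^ (1 / 6 : ℝ) := by
  classical
  obtain ⟨C₁, hC₁, H⟩ := tp_one hQ h72 hA (half_pos hε)
  have hε4 : 0 < ε / 4 := by positivity
  obtain ⟨Y₀, hY₀⟩ := card_primes_ge hQ hε4
  obtain ⟨C₂, hC₂⟩ := card_pdiv_le hε4
  set K₀ : ℝ := 6 * |C₂| + 12 + 3 * |Y₀| with hK₀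
  have hK₀0 : 0 ≤ K₀ := by positivity
  refine ⟨C₁ + K₀ * C₁, by positivity, fun x R D τ ψ hx hψ hR hRD hDx => ?_⟩
  have hR0 : 0 < R := by linarith
  have hD1 : 1 ≤ D := hR.trans hRD
  have hD0 : 0 < D := by linarith
  have hx0 : 0 < x := by linarith
  have e0 : (fun r => sm A (fun n => mu n * (ψ n * chi n r)) D τ) = tp_G A ψ τ 1 D :=
    funext fun r => (tp_G_one A ψ τ D r).symm
  rw [e0]
  obtain ⟨E, hE⟩ : ∃ E, E = C₁ * x ^ (ε / 2) * (1 + |τ|) ^ C₁ := ⟨_, rfl⟩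
  have hE0 : 0 ≤ E := by rw [hE]; positivity
  have hK1 : 1 ≤ D / R := (one_le_div hR0).2 hRD
  obtain ⟨Y, hY⟩ : ∃ Y, Y = (D / R) ^ (1 / 6 : ℝ) := ⟨_, rfl⟩
  have hY1 : 1 ≤ Y := hY ▸ Real.one_le_rpow hK1 (by norm_num)
  have hY0 : 0 < Y := by linarith
  have hY6 : Y ^ 6 = D / R := by
    rw [hY, ← Real.rpow_natCast, ← Real.rpow_mul (by linarith)]; norm_num
  have hYx : Y ≤ x := by
    have h1 : Y ≤ Y ^ 6 := le_self_pow₀ hY1 (by norm_num)
    have h2 : D / R ≤ D := div_le_self hD0.le hR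
    linarith
  have eY : D ^ (11 / 6 : ℝ) * R ^ (1 / 6 : ℝ) = D ^ 2 / Y := by
    rw [hY, Real.div_rpow hD0.le hR0.le, div_div_eq_mul_div, eq_div_iff (by positivity),
      mul_right_comm, ← Real.rpow_add hD0, ← Real.rpow_two]
    norm_num
  have hG : ∀ (R' D' : ℝ) (k : O), k ≠ 0 → Nr k ≤ x → 0 < R' → R' ≤ D → 0 < D' → D' ≤ D →
      NS R' (tp_G A ψ τ k D') ≤ 3 * E * (D' * D) := by
    intro R' D' k hk hkx h1 h2 h3 h4
    refine (H x R' D' τ ψ k hx hψ hk h1 (h2.trans hDx) h3 (h4.trans hDx) hkx).trans ?_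
    rw [← hE]
    have h5 := tp_rpow_le h3.le h4 hD1
    calc E * D' * (R' + D' + D' ^ (2 / 3 : ℝ)) ≤ E * D' * (3 * D) := by gcongr; linarith
      _ = _ := by ring
  have h0 : NS D (tp_G A ψ τ 1 D) ≤ 3 * E * D ^ 2 := by
    rw [sq]; exact hG D D 1 one_ne_zero (by rwa [Nr_one]) hD0 le_rfl hD0 le_rfl
  obtain ⟨Z, hZ⟩ : ∃ Z, Z = x ^ (ε / 4) := ⟨_, rfl⟩
  have hZ1 : 1 ≤ Z := hZ ▸ Real.one_le_rpow hx hε4.le
  have hZZ : x ^ (ε / 2) = Z * Z := by rw [hZ, ← Real.rpow_add hx0]; congr 1; ring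
  have main : NS R (tp_G A ψ τ 1 D) ≤ K₀ * (Z * Z) * E * (D ^ 2 / Y) := by
    have hZZ1 : 1 ≤ Z * Z := one_le_mul_of_one_le_of_one_le hZ1 hZ1
    rcases lt_or_ge Y Y₀ with hlt | hge
    · refine ((l4_mono hRD _).trans h0).trans ?_
      have h1 : 3 * Y ≤ K₀ * (Z * Z) := by
        have := le_abs_self Y₀
        have h2 : 3 * Y ≤ K₀ := by rw [hK₀]; have := abs_nonneg C₂; linarith
        exact h2.trans (le_mul_of_one_le_right hK₀0 hZZ1)
      calc 3 * E * D ^ 2 = 3 * Y * E * (D ^ 2 / Y) := by field_simp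
        _ ≤ _ := by gcongr
    have hcard := hY₀ Y hge
    obtain ⟨J, hJ⟩ : ∃ J, J = (box Y).filter
      (fun p => Prime p ∧ Prim p ∧ IsCoprime p Q ∧ Y / 2 < Nr p) := ⟨_, rfl⟩
    rw [← hJ] at hcard
    have hmem : ∀ j ∈ J, Prime j ∧ Prim j ∧ Y / 2 < Nr j ∧ Nr j ≤ Y := by
      intro j hj
      rw [hJ] at hj
      obtain ⟨h1, h2, h3, -, h4⟩ := Finset.mem_filter.1 hj
      exact ⟨h2, h3, h4, (mem_box.1 h1).2⟩
    clear hJ
    have eK : D / R * R = D := div_mul_cancel₀ D hR0.ne'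
    have hM : ∀ r ∈ box (D / R * R), ((pdiv r).card : ℝ) ≤ |C₂| * Z := by
      intro r hr
      rw [eK] at hr
      obtain ⟨h0, h1⟩ := mem_box.1 hr
      refine (hC₂ r h0).trans (mul_le_mul (le_abs_self _) ?_
        (Real.rpow_nonneg (Nr_nonneg _) _) (abs_nonneg _))
      rw [hZ]
      exact Real.rpow_le_rpow (Nr_nonneg _) (h1.trans hDx) hε4.le
    have h1 := l4_mult J (fun j hj => ⟨(hmem j hj).2.1, by
      rw [← hY6]; exact pow_le_pow_left₀ (Nr_nonneg _) (hmem j hj).2.2.2 6⟩) hM (tp_G A ψ τ 1 D)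
    rw [eK] at h1
    have h2 : ∀ j ∈ J, NS R (tp_G A ψ τ 1 D) ≤
        2 * NS R (fun h => tp_G A ψ τ 1 D (h * j ^ 6)) + 2 * (6 * E * D ^ 2 / Y) := by
      intro j hj
      obtain ⟨hp, hpp, hlo, hhi⟩ := hmem j hj
      have hj1 := one_le_Nr hp.ne_zero
      have hj0 : 0 < Nr j := by linarith
      have h3 : NS R (tp_G A ψ τ (1 * j) (D / Nr j)) ≤ 6 * E * D ^ 2 / Y := by
        refine (hG R (D / Nr j) (1 * j) (by simpa using hp.ne_zero) (by rw [one_mul]; linarith) hR0 hRD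
          (by positivity) (div_le_self hD0.le hj1)).trans ?_
        have h4 : D / Nr j ≤ 2 * D / Y := by
          rw [div_le_div_iff₀ hj0 hY0]; nlinarith
        calc 3 * E * (D / Nr j * D) ≤ 3 * E * (2 * D / Y * D) := by gcongr
          _ = _ := by field_simp; ring
      have h4 : NS R (tp_G A ψ τ 1 D) ≤ 2 * NS R (fun h => tp_G A ψ τ 1 D (h * j ^ 6)) +
          2 * NS R (tp_G A ψ τ (1 * j) (D / Nr j)) := by
        unfold NS
        rw [Finset.mul_sum, Finset.mul_sum, ← Finset.sum_add_distrib]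
        refine Finset.sum_le_sum fun r _ => ?_
        rw [tp_G_step hψ hA hD0 τ hp hpp isCoprime_one_right r, tp_G_six hψ h72, sub_eq_add_neg]
        refine (l4_sq _ _).trans ?_
        have h5 : ‖-((Nr j : ℂ) ^ (-(τ * I)) * (ψ j * chi j r) * tp_G A ψ τ (1 * j) (D / Nr j) r)‖ ≤
            ‖tp_G A ψ τ (1 * j) (D / Nr j) r‖ := by
          rw [norm_neg, norm_mul, norm_mul, tp_norm_cpow hp.ne_zero, one_mul, norm_mul]
          exact mul_le_of_le_one_left (norm_nonneg _)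
            (mul_le_one₀ (hψ.norm_le j) (norm_nonneg _) (norm_chi_le j r))
        have h6 := pow_le_pow_left₀ (norm_nonneg _) h5 2
        linarith
      linarith
    have h3 := Finset.sum_le_sum h2
    rw [Finset.sum_const, nsmul_eq_mul, Finset.sum_add_distrib, ← Finset.mul_sum, Finset.sum_const,
      nsmul_eq_mul] at h3
    have h4 : Y ≤ Z * J.card := by
      have h5 : Y ^ (ε / 4) ≤ Z := hZ ▸ Real.rpow_le_rpow hY0.le hYx hε4.le
      calc Y = Y ^ (ε / 4) * Y ^ (1 - ε / 4) := by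
            rw [← Real.rpow_add hY0, add_sub_cancel, Real.rpow_one]
        _ ≤ Z * J.card := mul_le_mul h5 hcard (Real.rpow_nonneg hY0.le _) (by linarith)
    have h5 : |C₂| * Z * NS D (tp_G A ψ τ 1 D) ≤ |C₂| * Z * (3 * E * D ^ 2) := by gcongr
    have h6 := tp_fin (n := J.card) (N := NS R (tp_G A ψ τ 1 D)) (M := |C₂| * Z) (Z := Z) (E := E)
      (F := D ^ 2) hY0 (by linarith) (by positivity) hE0 (by positivity) (by linarith) h4
    refine h6.trans ?_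
    have h7 : 6 * (|C₂| * Z) * Z + 12 ≤ K₀ * (Z * Z) := by
      have := abs_nonneg Y₀
      rw [hK₀]; nlinarith
    gcongr
  refine main.trans ?_
  rw [mul_assoc _ (D ^ (11 / 6 : ℝ)), eY, ← hZZ, hE]
  have h1 : 1 ≤ 1 + |τ| := by have := abs_nonneg τ; linarith
  have h2 : (1 + |τ|) ^ C₁ ≤ (1 + |τ|) ^ (C₁ + K₀ * C₁) :=
    Real.rpow_le_rpow_of_exponent_le h1 (by have := mul_nonneg hK₀0 hC₁; linarith)
  have h3 : x ^ ε = x ^ (ε / 2) * x ^ (ε / 2) := by rw [← Real.rpow_add hx0, add_halves]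
  rw [h3]
  calc K₀ * x ^ (ε / 2) * (C₁ * x ^ (ε / 2) * (1 + |τ|) ^ C₁) * (D ^ 2 / Y)
      = K₀ * C₁ * (x ^ (ε / 2) * x ^ (ε / 2)) * (1 + |τ|) ^ C₁ * (D ^ 2 / Y) := by ring
    _ ≤ _ := by gcongr; linarith

end Crest.Agent.R017

end
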