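import Crest.Agent.R017.T2PAux3

/-! # Row 17: auxiliary lemmas for `T2P`: inverse sums with prime factors -/

set_option autoImplicit false

noncomputable section

open scoped BigOperators ComplexConjugate
open Complex MeasureTheory

namespace Crest.Agent.R017

theorem tp_log_pow {ε : ℝ} (hε : 0 < ε) (m : ℕ) : ∃ C : ℝ, 0 ≤ C ∧ ∀ x : ℝ, 1 ≤ x →
    (1 + Real.log x) ^ (m + 1) ≤ C * x ^ ε := by
  set δ : ℝ := ε / (m + 1) with hδ
  have hδ0 : 0 < δ := by positivity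
  refine ⟨(1 + 1 / δ) ^ (m + 1), by positivity, fun x hx => ?_⟩
  have hx0 : 0 < x := by linarith
  have h1 := Real.log_le_rpow_div hx0.le hδ0
  have h2 : 1 ≤ x ^ δ := Real.one_le_rpow hx hδ0.le
  have h3 : 1 + Real.log x ≤ (1 + 1 / δ) * x ^ δ := by
    rw [add_mul, one_mul, one_div_mul_eq_div]; linarith
  have h4 : 0 ≤ Real.log x := Real.log_nonneg hx
  calc _ ≤ ((1 + 1 / δ) * x ^ δ) ^ (m + 1) := pow_le_pow_left₀ (by linarith) h3 _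
    _ = _ := by
      rw [mul_pow, ← Real.rpow_natCast (x ^ δ), ← Real.rpow_mul hx0.le, hδ]
      congr 2
      push_cast
      field_simp

theorem tp_one_le_prod {ι : Type*} (s : Finset ι) {Z : ι → ℝ} (hZ : ∀ i, 1 ≤ Z i) :
    1 ≤ ∏ i ∈ s, Z i := by
  have := Finset.prod_le_prod (s := s) (f := fun _ => (1 : ℝ)) (g := Z) (fun _ _ => zero_le_one)
    fun i _ => hZ i
  simpa using this

theorem tp_le_prod {j : ℕ} {Z : Fin j → ℝ} (hZ : ∀ i, 1 ≤ Z i) (i : Fin j) : Z i ≤ ∏ i, Z i := by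
  rw [← Finset.mul_prod_erase _ _ (Finset.mem_univ i)]
  exact le_mul_of_one_le_right (by linarith [hZ i]) (tp_one_le_prod _ hZ)

/-- The trivial range. -/
theorem tp_triv {Q : O} {A : ℝ} (hA : 0 < A) (j : ℕ) : ∃ C : ℝ, 0 ≤ C ∧
    ∀ (R D τ y : ℝ) (ψ : O → ℂ) (Z : Fin j → ℝ), IsCh Q ψ → 0 ≤ R → 0 < D → (∀ i, 1 ≤ Z i) →
      D * ∏ i, Z i ≤ 1 →
      ∑ r ∈ box R, ‖sm A (fun n => mu n * (ψ n * chi n r)) D τ‖ ^ 2 *
          ∏ i, ‖PS Q (Z i) y (fun p => chi p r)‖ ^ 2 ≤ C * (R * D * ∏ i, Z i) := by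
  obtain ⟨C₄, h₄⟩ := norm_sm_le hA 2
  obtain ⟨C₅, hC₅, h₅⟩ := norm_PS_le
  refine ⟨25 * (C₄ ^ 2 * (C₅ ^ 2) ^ j), by positivity, fun R D τ y ψ Z hψ hR hD hZ hDZ => ?_⟩
  have hP := tp_one_le_prod Finset.univ hZ
  set P := ∏ i, Z i with hPdef
  have h1 : ∀ r ∈ box R, ‖sm A (fun n => mu n * (ψ n * chi n r)) D τ‖ ^ 2 *
      ∏ i, ‖PS Q (Z i) y (fun p => chi p r)‖ ^ 2 ≤ C₄ ^ 2 * (C₅ ^ 2) ^ j * (D * P) := by
    intro r _
    have h2 := h₄ _ D τ hD (fun n _ => tp_c_le hψ n r) (Or.inl one_le_two)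
    rw [Real.rpow_two] at h2
    have h3 := pow_le_pow_left₀ (norm_nonneg _) h2 2
    have h4 : ∏ i, ‖PS Q (Z i) y (fun p => chi p r)‖ ^ 2 ≤ ∏ i, (C₅ ^ 2 * Z i ^ 4) := by
      refine Finset.prod_le_prod (fun _ _ => by positivity) fun i _ => ?_
      have h5 := h₅ Q (Z i) y _ (hZ i) (fun p => norm_chi_le p r)
      have hi : 0 < Z i := by linarith [hZ i]
      have h6 := Real.log_le_sub_one_of_pos hi
      have h7 : C₅ * Z i * (1 + Real.log (Z i)) ≤ C₅ * Z i * Z i := by gcongr; linarith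
      calc _ ≤ (C₅ * Z i * Z i) ^ 2 := pow_le_pow_left₀ (norm_nonneg _) (h5.trans h7) 2
        _ = _ := by ring
    rw [Finset.prod_mul_distrib, Finset.prod_const, Finset.card_univ, Fintype.card_fin,
      Finset.prod_pow _ 4 Z, ← hPdef] at h4
    have h5 : (D * P) ^ 4 ≤ D * P := pow_le_of_le_one (by positivity) hDZ (by norm_num)
    calc _ ≤ (C₄ * D ^ 2) ^ 2 * ((C₅ ^ 2) ^ j * P ^ 4) :=
          mul_le_mul h3 h4 (Finset.prod_nonneg fun _ _ => by positivity) (by positivity)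
      _ = C₄ ^ 2 * (C₅ ^ 2) ^ j * (D * P) ^ 4 := by ring
      _ ≤ _ := by gcongr
  refine (Finset.sum_le_sum h1).trans ?_
  rw [Finset.sum_const, nsmul_eq_mul]
  calc _ ≤ 25 * R * (C₄ ^ 2 * (C₅ ^ 2) ^ j * (D * P)) := by
        gcongr
        exact card_box_le hR
    _ = _ := by ring

theorem tp_w : ∃ c : ℝ, 0 ≤ c ∧ ∀ (Q : O) (y Z : ℝ), 1 ≤ Z →
    Real.sqrt (∑ p ∈ box (Z * y), ‖slot Q Z y p‖ ^ 2) +
      ∑ p ∈ box (Z * y), ‖slot Q Z y p‖ * Nr p ^ (-(1 / 2) : ℝ) ≤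
      c * (1 + Real.log Z) * Real.sqrt Z := by
  obtain ⟨Ca, hCa, ha⟩ := sum_slot_sq_le
  obtain ⟨Cb, hCb, hb⟩ := sum_slot_rpow_le (-(1 / 2) : ℝ)
  refine ⟨Real.sqrt Ca + Cb, by positivity, fun Q y Z hZ => ?_⟩
  have h0 : 0 ≤ 1 + Real.log Z := by have := Real.log_nonneg hZ; linarith
  have h1 := Real.sqrt_le_sqrt (ha Q Z y hZ)
  rw [Real.sqrt_mul (by positivity), Real.sqrt_mul hCa, Real.sqrt_sq h0] at h1
  have h2 := hb Q Z y hZ (by norm_num)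
  rw [show (1 + -(1 / 2) : ℝ) = 1 / 2 by norm_num, ← Real.sqrt_eq_rpow] at h2
  linarith

theorem tp_arith {j : ℕ} {l Λ B D w C₁ C₃ c t a b T R P : ℝ} (hl0 : 0 ≤ l) (hl : l ≤ 2 * Λ)
    (hB0 : 0 ≤ B) (hD : 0 ≤ D) (hw0 : 0 ≤ w) (hC₁ : 0 ≤ C₁) (ht : 0 ≤ t) (ha : 0 ≤ a) (hT : 0 ≤ T)
    (hR : 0 ≤ R) (hP : 0 ≤ P) (hB : B ≤ C₁ * (t * a) * T * (24 * R * a))
    (hw : w ≤ (c ^ 2) ^ j * (Λ ^ 2) ^ j * P) (hΛ : Λ ^ (2 * j + 1 + 1) ≤ C₃ * b) :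
    2 ^ 2 * l ^ 2 * B * D * w ≤ 384 * C₁ * t * (c ^ 2) ^ j * C₃ * (b * (a * a)) * T * R * D * P := by
  have hΛ0 : 0 ≤ Λ := by linarith
  calc _ ≤ 2 ^ 2 * (2 * Λ) ^ 2 * (C₁ * (t * a) * T * (24 * R * a)) * D *
          ((c ^ 2) ^ j * (Λ ^ 2) ^ j * P) := by gcongr
    _ = 384 * C₁ * t * (c ^ 2) ^ j * Λ ^ (2 * j + 1 + 1) * (a * a) * T * R * D * P := by ring
    _ ≤ 384 * C₁ * t * (c ^ 2) ^ j * (C₃ * b) * (a * a) * T * R * D * P := by gcongr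
    _ = _ := by ring

set_option maxHeartbeats 1000000 in
theorem tp_two_primes {Q : O} (hQ : Q ≠ 0) (h72 : (72 : O) ∣ Q) {A ε : ℝ} (hA : 0 < A) (hε : 0 < ε)
    (j : ℕ) :
    ∃ η₁ : ℝ, 0 < η₁ ∧ ∀ η₀ : ℝ, 0 < η₀ → η₀ ≤ η₁ → ∃ C : ℝ, 0 ≤ C ∧
      ∀ (x R D τ : ℝ) (ψ : O → ℂ) (Z : Fin j → ℝ), 1 ≤ x → IsCh Q ψ → 1 ≤ R → R ≤ x → 0 < D →
      (∀ i, 1 ≤ Z i) → Sep Z (x ^ η₀) →
      D * (∏ i, Z i) ^ 2 ≤ R → (∏ i, Z i) ^ 3 * D ^ (2 / 3 : ℝ) ≤ R →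
      ∑ r ∈ box R, ‖sm A (fun n => mu n * (ψ n * chi n r)) D τ‖ ^ 2 *
          ∏ i, ‖PS Q (Z i) (x ^ η₀) (fun p => chi p r)‖ ^ 2 ≤
        C * x ^ ε * (1 + |τ|) ^ C * R * D * ∏ i, Z i := by
  have hm : 0 < min ε 1 := lt_min hε one_pos
  refine ⟨min ε 1 / (12 * (j + 1)), by positivity, fun η₀ hη₀ hη₁ => ?_⟩
  have hη : η₀ * (12 * (j + 1)) ≤ min ε 1 := (le_div_iff₀ (by positivity)).1 hη₁
  have hηa : η₀ * j ≤ 1 := by have := min_le_right ε 1; nlinarith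
  have hηb : η₀ * (3 * j) ≤ ε / 4 := by have := min_le_left ε 1; nlinarith
  obtain ⟨C₁, hC₁, H₁⟩ := tp_base hQ h72 hA (show 0 < ε / 8 by positivity)
  obtain ⟨C₂, hC₂, H₂⟩ := tp_triv (Q := Q) hA j
  obtain ⟨C₃, hC₃, H₃⟩ := tp_log_pow (half_pos hε) (2 * j + 1)
  obtain ⟨c, hc, hw⟩ := tp_w
  set K : ℝ := 384 * C₁ * 2 ^ (ε / 8) * (c ^ 2) ^ j * C₃ with hK
  have hK0 : 0 ≤ K := by positivity
  refine ⟨C₁ + C₂ + K, by positivity, fun x R D τ ψ Z hx hψ hR hRx hD hZ hsep h1 h2 => ?_⟩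
  have hP := tp_one_le_prod Finset.univ hZ
  have hx0 : 0 < x := by linarith
  have hR0 : 0 < R := by linarith
  have hτ : 1 ≤ 1 + |τ| := by have := abs_nonneg τ; linarith
  have hτ1 : (1 + |τ|) ^ C₁ ≤ (1 + |τ|) ^ (C₁ + C₂ + K) :=
    Real.rpow_le_rpow_of_exponent_le hτ (by linarith)
  have hτ2 : 1 ≤ (1 + |τ|) ^ C₁ := Real.one_le_rpow hτ hC₁
  have hxε : 1 ≤ x ^ ε := Real.one_le_rpow hx hε.le
  rcases le_total x (∏ i, Z i) with hcase | hcase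
  · have h3 : D * ∏ i, Z i ≤ 1 := by
      by_contra hcon
      nlinarith
    refine (H₂ R D τ _ ψ Z hψ hR0.le hD hZ h3).trans ?_
    calc C₂ * (R * D * ∏ i, Z i) = C₂ * 1 * 1 * R * D * ∏ i, Z i := by ring
      _ ≤ _ := by gcongr <;> linarith
  obtain ⟨y, hy⟩ : ∃ y, y = x ^ η₀ := ⟨_, rfl⟩
  rw [← hy] at hsep ⊢
  have hy1 : 1 ≤ y := hy ▸ Real.one_le_rpow hx hη₀.le
  have hyj : y ^ j ≤ x := by
    rw [hy, ← Real.rpow_natCast, ← Real.rpow_mul hx0.le]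
    simpa using Real.rpow_le_rpow_of_exponent_le hx hηa
  have hy3 : (y ^ j) ^ 3 ≤ x ^ (ε / 4) := by
    rw [hy, ← pow_mul, ← Real.rpow_natCast, ← Real.rpow_mul hx0.le]
    refine Real.rpow_le_rpow_of_exponent_le hx ?_
    push_cast; linarith
  have hyj1 : 1 ≤ y ^ j := one_le_pow₀ hy1
  have eL : ∏ i, (Z i * y) = (∏ i, Z i) * y ^ j := by
    rw [Finset.prod_mul_distrib, Finset.prod_const, Finset.card_univ, Fintype.card_fin]
  have hZx : ∀ i, Z i ≤ x := fun i => (tp_le_prod hZ i).trans hcase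
  set P := ∏ i, Z i with hPdef
  set u := y ^ j with hu
  have hDx : D ≤ x := by
    have : D ≤ D * P ^ 2 := le_mul_of_one_le_right hD.le (one_le_pow₀ hP)
    linarith
  have hxx : x ≤ 2 * x ^ 2 := by nlinarith
  have hL1 : 1 ≤ P * u := one_le_mul_of_one_le_of_one_le hP hyj1
  have hL2 : 2 * (P * u) ≤ 2 * x ^ 2 := by
    have := mul_le_mul hcase hyj (by linarith) hx0.le
    nlinarith
  have hbase := H₁ (2 * x ^ 2) R D (P * u) τ ψ (hx.trans hxx) hψ hR0 (hRx.trans hxx) (hDx.trans hxx)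
    hL1 hL2
  have hΛ : 1 ≤ 1 + Real.log x := by have := Real.log_nonneg hx; linarith
  have hlog : 1 + Real.log (2 * x ^ 2) ≤ 2 * (1 + Real.log x) := by
    rw [Real.log_mul two_ne_zero (by positivity), Real.log_pow]
    have := Real.log_two_lt_d9
    push_cast; linarith
  have hlog0 : 0 ≤ 1 + Real.log (2 * x ^ 2) := by
    have := Real.log_nonneg (hx.trans hxx); linarith
  obtain ⟨B, hB⟩ : ∃ B, B = C₁ * (2 * x ^ 2) ^ (ε / 8) * (1 + |τ|) ^ C₁ *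
    (8 * (R + D * (P * u) ^ 2 + (P * u) ^ 3 * D ^ (2 / 3 : ℝ))) := ⟨_, rfl⟩
  have hB0 : 0 ≤ B := by rw [hB]; positivity
  rw [← hB] at hbase
  have hN := tp_ind hψ hA hy1 (by positivity) _ (hw Q y) hbase j Z hZ hsep Unit Finset.univ
    (fun _ => 1) (fun _ => 1) 1 D 1 one_ne_zero Nr_one.le hD le_rfl (fun _ _ _ _ _ => rfl)
    (fun _ _ => ⟨⟨prim_one, squarefree_one, isCoprime_one_left⟩, Nr_one.le⟩)
    (by rw [one_mul, eL]) (fun _ _ _ => ⟨isCoprime_one_right, fun _ _ => isCoprime_one_right⟩)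
  have hN2 := pow_le_pow_left₀ (tp_N_nonneg _ _) hN 2
  rw [tp_N_sq] at hN2
  have e1 : ∑ r ∈ box R, ‖sm A (fun n => mu n * (ψ n * chi n r)) D τ‖ ^ 2 *
      ∏ i, ‖PS Q (Z i) y (fun p => chi p r)‖ ^ 2 =
      NS R (fun r => tp_T A ψ τ Finset.univ (fun _ : Unit => (1 : O)) (fun _ => 1) 1 D r *
        ∏ i, PS Q (Z i) y (fun p => chi p r)) := by
    refine Finset.sum_congr rfl fun r _ => ?_
    rw [norm_mul, mul_pow, norm_prod, Finset.prod_pow, ← tp_G_one]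
    simp [tp_T, chi_unit_left isUnit_one]
  rw [e1]
  refine hN2.trans ?_
  have e2 : Real.sqrt (∑ _i : Unit, ‖(1 : ℂ)‖ ^ 2) = 1 := by simp
  have h3 : (∏ i, c * (1 + Real.log (Z i)) * Real.sqrt (Z i)) ^ 2 ≤
      (c ^ 2) ^ j * ((1 + Real.log x) ^ 2) ^ j * P := by
    have h4 : ∏ i, (c * (1 + Real.log (Z i)) * Real.sqrt (Z i)) ^ 2 ≤
        ∏ i, (c ^ 2 * (1 + Real.log x) ^ 2 * Z i) := by
      refine Finset.prod_le_prod (fun _ _ => by positivity) fun i _ => ?_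
      have hi : 0 < Z i := by linarith [hZ i]
      have h5 := Real.log_le_log hi (hZx i)
      have h6 := Real.log_nonneg (hZ i)
      rw [mul_pow, mul_pow, Real.sq_sqrt hi.le]
      gcongr
    rw [Finset.prod_pow, Finset.prod_mul_distrib (g := Z), Finset.prod_const, Finset.card_univ,
      Fintype.card_fin, mul_pow (c ^ 2)] at h4
    exact h4
  have h4 : B ≤ C₁ * (2 ^ (ε / 8) * x ^ (ε / 4)) * (1 + |τ|) ^ C₁ * (24 * R * x ^ (ε / 4)) := by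
    have e3 : (2 * x ^ 2) ^ (ε / 8) = 2 ^ (ε / 8) * x ^ (ε / 4) := by
      rw [Real.mul_rpow (by norm_num) (by positivity), ← Real.rpow_natCast, ← Real.rpow_mul hx0.le]
      congr 2; push_cast; ring
    rw [hB, e3]
    refine mul_le_mul_of_nonneg_left ?_ (by positivity)
    have a1 : 1 ≤ u ^ 3 := one_le_pow₀ hyj1
    have a2 : u ^ 2 ≤ u ^ 3 := pow_le_pow_right₀ hyj1 (by norm_num)
    have a3 : D * (P * u) ^ 2 ≤ R * u ^ 3 := by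
      rw [mul_pow, ← mul_assoc]; exact mul_le_mul h1 a2 (by positivity) hR0.le
    have a4 : (P * u) ^ 3 * D ^ (2 / 3 : ℝ) ≤ R * u ^ 3 := by
      rw [mul_pow, mul_right_comm]; exact mul_le_mul_of_nonneg_right h2 (by positivity)
    have a5 : R ≤ R * u ^ 3 := le_mul_of_one_le_right hR0.le a1
    have a6 : R * u ^ 3 ≤ R * x ^ (ε / 4) := mul_le_mul_of_nonneg_left hy3 hR0.le
    linarith
  have h5 := H₃ x hx
  have e4 : x ^ ε = x ^ (ε / 2) * (x ^ (ε / 4) * x ^ (ε / 4)) := by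
    rw [← Real.rpow_add hx0, ← Real.rpow_add hx0]; congr 1; ring
  rw [e2, mul_one, mul_pow, mul_pow, mul_pow, mul_pow, Real.sq_sqrt hB0, Real.sq_sqrt hD.le]
  refine (tp_arith hlog0 hlog hB0 hD.le (sq_nonneg _) hC₁ (by positivity) (by positivity)
    (by positivity) hR0.le (by linarith) h4 h3 h5).trans ?_
  rw [← e4, ← hK]
  have hKC : K ≤ C₁ + C₂ + K := by linarith
  have hP0 : 0 ≤ P := by linarith
  gcongr

end Crest.Agent.R017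

end
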