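import Crest.Agent.R017.T2
import Crest.Agent.R017.T2PAux2
import Crest.Agent.R017.T2PAux4

/-! # Row 17: second moments: long sums and prime factors -/

set_option autoImplicit false

noncomputable section

open scoped BigOperators ComplexConjugate
open Complex MeasureTheory

namespace Crest.Agent.R017

/-- Long inverse sums: the multiplicity of sixth powers. -/
theorem two_long {Q : O} (hQ : Q ≠ 0) (h72 : (72 : O) ∣ Q) {A ε : ℝ} (hA : 0 < A) (hε : 0 < ε) :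
    ∃ C : ℝ, 0 ≤ C ∧ ∀ (x R D τ : ℝ) (ψ : O → ℂ), 1 ≤ x → IsCh Q ψ → 1 ≤ R → R ≤ D → D ≤ x →
      NS R (fun r => sm A (fun n => mu n * (ψ n * chi n r)) D τ) ≤
        C * x ^ ε * (1 + |τ|) ^ C * D ^ (11 / 6 : ℝ) * R ^ (1 / 6 : ℝ) :=
  tp_two_long hQ h72 hA hε

/-- Inverse sums with prime factors. -/
theorem two_primes {Q : O} (hQ : Q ≠ 0) (h72 : (72 : O) ∣ Q) {A ε : ℝ} (hA : 0 < A) (hε : 0 < ε) (j : ℕ) :
    ∃ η₁ : ℝ, 0 < η₁ ∧ ∀ η₀ : ℝ, 0 < η₀ → η₀ ≤ η₁ → ∃ C : ℝ, 0 ≤ C ∧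
      ∀ (x R D τ : ℝ) (ψ : O → ℂ) (Z : Fin j → ℝ), 1 ≤ x → IsCh Q ψ → 1 ≤ R → R ≤ x → 0 < D →
      (∀ i, 1 ≤ Z i) → Sep Z (x ^ η₀) →
      D * (∏ i, Z i) ^ 2 ≤ R → (∏ i, Z i) ^ 3 * D ^ (2 / 3 : ℝ) ≤ R →
      ∑ r ∈ box R, ‖sm A (fun n => mu n * (ψ n * chi n r)) D τ‖ ^ 2 *
          ∏ i, ‖PS Q (Z i) (x ^ η₀) (fun p => chi p r)‖ ^ 2 ≤
        C * x ^ ε * (1 + |τ|) ^ C * R * D * ∏ i, Z i :=
  tp_two_primes hQ h72 hA hε j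

end Crest.Agent.R017

end
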