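import Crest.Agent.R017.T2

/-! # Row 17: auxiliary lemmas for `T2P`: the row norm and the sieved inverse sum -/

set_option autoImplicit false

noncomputable section

open scoped BigOperators ComplexConjugate
open Complex MeasureTheory

namespace Crest.Agent.R017

/-- The `ℓ²` norm over the rows. -/
def tp_N (R : ℝ) (f : O → ℂ) : ℝ :=
  ‖(WithLp.toLp 2 (fun r : box R => f r) : EuclideanSpace ℂ (box R))‖

theorem tp_N_nonneg (R : ℝ) (f : O → ℂ) : 0 ≤ tp_N R f := norm_nonneg _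

theorem tp_N_sq (R : ℝ) (f : O → ℂ) : tp_N R f ^ 2 = NS R f := by
  unfold tp_N NS
  rw [EuclideanSpace.norm_sq_eq]
  exact Finset.sum_coe_sort (box R) (fun r => ‖f r‖ ^ 2)

theorem tp_N_le_sqrt {R B : ℝ} {f : O → ℂ} (h : NS R f ≤ B) : tp_N R f ≤ Real.sqrt B :=
  Real.le_sqrt_of_sq_le (by rwa [tp_N_sq])

theorem tp_N_add (R : ℝ) (f g : O → ℂ) : tp_N R (fun r => f r + g r) ≤ tp_N R f + tp_N R g := by
  unfold tp_N
  refine le_trans (le_of_eq ?_) (norm_add_le _ _)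
  congr 1

theorem tp_N_zero (R : ℝ) : tp_N R (fun _ => 0) = 0 := by
  have h := tp_N_sq R (fun _ => 0)
  simp only [NS, norm_zero, ne_eq, OfNat.ofNat_ne_zero, not_false_eq_true, zero_pow,
    Finset.sum_const_zero] at h
  exact pow_eq_zero_iff (two_ne_zero) |>.1 h

theorem tp_N_sum {ι : Type*} (R : ℝ) (S : Finset ι) (f : ι → O → ℂ) :
    tp_N R (fun r => ∑ i ∈ S, f i r) ≤ ∑ i ∈ S, tp_N R (f i) := by
  classical
  induction S using Finset.induction_on with
  | empty => simp only [Finset.sum_empty]; exact (tp_N_zero R).le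
  | insert a S ha ih =>
    simp only [Finset.sum_insert ha]
    exact (tp_N_add R _ _).trans (by linarith)

theorem tp_N_mono {R c : ℝ} {f g : O → ℂ} (hc : 0 ≤ c) (h : ∀ r, ‖f r‖ ≤ c * ‖g r‖) :
    tp_N R f ≤ c * tp_N R g := by
  refine (abs_le_of_sq_le_sq' ?_ (mul_nonneg hc (tp_N_nonneg _ _))).2
  rw [mul_pow, tp_N_sq, tp_N_sq, NS, NS, Finset.mul_sum]
  refine Finset.sum_le_sum fun r _ => ?_
  rw [← mul_pow]
  exact pow_le_pow_left₀ (norm_nonneg _) (h r) 2

open Classical in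
/-- The inverse sum over the elements prime to `k`. -/
def tp_G (A : ℝ) (ψ : O → ℂ) (τ : ℝ) (k : O) (D : ℝ) (r : O) : ℂ :=
  sm A (fun n => if IsCoprime n k then mu n * (ψ n * chi n r) else 0) D τ

theorem tp_G_one (A : ℝ) (ψ : O → ℂ) (τ D : ℝ) (r : O) :
    tp_G A ψ τ 1 D r = sm A (fun n => mu n * (ψ n * chi n r)) D τ := by
  unfold tp_G
  simp only [isCoprime_one_right, if_true]

theorem tp_c_le {Q : O} {ψ : O → ℂ} (hψ : IsCh Q ψ) (n r : O) : ‖mu n * (ψ n * chi n r)‖ ≤ 1 := by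
  rw [norm_mul, norm_mul]
  exact mul_le_one₀ (norm_mu_le n) (by positivity)
    (mul_le_one₀ (hψ.norm_le n) (norm_nonneg _) (norm_chi_le n r))

theorem tp_sm_add {A D : ℝ} (hA : 0 < A) (hD : 0 < D) {c c' : O → ℂ} (hc : ∀ n, ‖c n‖ ≤ 1)
    (hc' : ∀ n, ‖c' n‖ ≤ 1) (τ : ℝ) :
    sm A (fun n => c n + c' n) D τ = sm A c D τ + sm A c' D τ := by
  have h1 := summable_sm hA hD (c := c) (K := 1) (A := 0) (fun n _ => by simpa using hc n) τ
  have h2 := summable_sm hA hD (c := c') (K := 1) (A := 0) (fun n _ => by simpa using hc' n) τ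
  unfold sm
  rw [← h1.tsum_add h2]
  refine tsum_congr fun n => ?_
  split_ifs
  · ring
  · simp

theorem tp_sm_mul (A D τ : ℝ) (z : ℂ) (c : O → ℂ) :
    sm A (fun n => z * c n) D τ = z * sm A c D τ := by
  unfold sm
  rw [← tsum_mul_left]
  refine tsum_congr fun n => ?_
  split_ifs
  · ring
  · simp

theorem tp_sm_congr {A D τ : ℝ} {c c' : O → ℂ} (h : ∀ n, Prim n → c n = c' n) :
    sm A c D τ = sm A c' D τ := by
  unfold sm
  refine tsum_congr fun n => ?_
  split_ifs with hn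
  · rw [h n hn]
  · rfl

theorem tp_norm_cpow {p : O} (hp : p ≠ 0) (τ : ℝ) : ‖(Nr p : ℂ) ^ (-(τ * I))‖ = 1 := by
  rw [Complex.norm_cpow_eq_rpow_re_of_pos (Nr_pos hp)]
  simp

/-- Sieving out one more prime. -/
theorem tp_G_step {Q : O} {ψ : O → ℂ} (hψ : IsCh Q ψ) {A D : ℝ} (hA : 0 < A) (hD : 0 < D) (τ : ℝ)
    {p k : O} (hp : Prime p) (hpp : Prim p) (hc : IsCoprime p k) (r : O) :
    tp_G A ψ τ k D r = tp_G A ψ τ (k * p) D r -
      (Nr p : ℂ) ^ (-(τ * I)) * (ψ p * chi p r) * tp_G A ψ τ (k * p) (D / Nr p) r := by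
  classical
  set c : O → ℂ := fun n => if IsCoprime n k then mu n * (ψ n * chi n r) else 0 with hcdef
  have hc1 : ∀ n, ‖c n‖ ≤ 1 := fun n => by
    simp only [hcdef]; split_ifs
    · exact tp_c_le hψ n r
    · simp
  have e1 : tp_G A ψ τ k D r = tp_G A ψ τ (k * p) D r +
      sm A (fun n => if p ∣ n then c n else 0) D τ := by
    unfold tp_G
    rw [← tp_sm_add hA hD]
    · refine tp_sm_congr fun n _ => ?_
      by_cases hd : p ∣ n
      · have : ¬ IsCoprime n (k * p) := fun h =>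
          hp.not_isUnit (h.of_mul_right_right.isUnit_of_dvd' hd dvd_rfl)
        rw [if_neg this, if_pos hd, zero_add]
      · have h1 : IsCoprime n p := ((hp.irreducible.coprime_iff_not_dvd).2 hd).symm
        rw [if_neg hd, add_zero]
        simp only [IsCoprime.mul_right_iff, h1, and_true]
    · intro n; split_ifs
      · exact tp_c_le hψ n r
      · simp
    · intro n; split_ifs
      · exact hc1 n
      · simp
  rw [e1, sm_dvd hpp, sub_eq_add_neg]
  congr 1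
  have e2 : sm A (fun n => c (p * n)) (D / Nr p) τ =
      -(ψ p * chi p r) * tp_G A ψ τ (k * p) (D / Nr p) r := by
    unfold tp_G
    rw [← tp_sm_mul]
    refine tp_sm_congr fun n hn => ?_
    simp only [hcdef]
    by_cases hd : p ∣ n
    · have h1 : ¬ IsCoprime n (k * p) := fun h =>
        hp.not_isUnit (h.of_mul_right_right.isUnit_of_dvd' hd dvd_rfl)
      have h2 : mu (p * n) = 0 := mu_eq_zero.2 fun hs => hp.not_isUnit (hs p (mul_dvd_mul_left p hd))
      rw [if_neg h1, h2]; simp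
    · have h1 : IsCoprime p n := (hp.irreducible.coprime_iff_not_dvd).2 hd
      simp only [IsCoprime.mul_right_iff, IsCoprime.mul_left_iff, h1.symm, hc, and_true, true_and]
      split_ifs
      · rw [mu_mul h1, mu_prime hp, hψ.mul, chi_mul_left hp.ne_zero hn.ne_zero]; ring
      · simp
  rw [e2]; ring

/-- The rows `r j⁶`. -/
theorem tp_G_six {Q : O} {ψ : O → ℂ} (hψ : IsCh Q ψ) (h72 : (72 : O) ∣ Q) (A D τ : ℝ) (j r : O) :
    tp_G A ψ τ (1 * j) D r = tp_G A ψ τ 1 D (r * j ^ 6) := by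
  unfold tp_G
  refine tp_sm_congr fun n hn => ?_
  rw [one_mul, if_pos isCoprime_one_right, chi_mul_right, chi_pow_right _ _ (by norm_num),
    chi_pow_six hn.ne_zero]
  by_cases h0 : ψ n = 0
  · simp [h0]
  have hc6 : IsCoprime n 6 := (ch_cop hψ h0).of_isCoprime_of_dvd_right
    ((show (6 : O) ∣ 72 from ⟨12, by norm_num⟩).trans h72)
  by_cases hj : IsCoprime n j
  · rw [if_pos hj, if_pos (hc6.mul_right hj), mul_one]
  · rw [if_neg hj, if_neg fun h => hj h.of_mul_right_right]; simp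

/-- The sum with coefficients indexed by an arbitrary finite set. -/
def tp_T {ι : Type} (A : ℝ) (ψ : O → ℂ) (τ : ℝ) (S : Finset ι) (β : ι → O) (a : ι → ℂ) (k : O)
    (D : ℝ) (r : O) : ℂ :=
  ∑ i ∈ S, a i * chi (β i) r * tp_G A ψ τ (β i * k) D r

theorem tp_rad_one : Nr (rad 1) = 1 := by rw [rad, k1_pf_one, Finset.prod_empty, Nr_one]

/-- One dyadic block. -/
theorem tp_block {Q : O} (hQ : Q ≠ 0) (h72 : (72 : O) ∣ Q) {A ε : ℝ} (hA : 0 < A) (hε : 0 < ε) :
    ∃ C : ℝ, 0 ≤ C ∧ ∀ (x R D L τ : ℝ) (ψ : O → ℂ) (k : O) (ι : Type) (S : Finset ι) (β : ι → O)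
      (a : ι → ℂ), 1 ≤ x → IsCh Q ψ → k ≠ 0 → 0 < R → R ≤ x → 0 < D → D ≤ x → 1 ≤ L → L ≤ x →
      Nr k ≤ x → Set.InjOn β S → (∀ i ∈ S, Adm Q (β i) ∧ L / 2 < Nr (β i) ∧ Nr (β i) ≤ L) →
      NS R (tp_T A ψ τ S β a k D) ≤ C * x ^ ε * (1 + |τ|) ^ C * D * (∑ i ∈ S, ‖a i‖ ^ 2) *
        (R + D * L ^ 2 + L ^ 3 * D ^ (2 / 3 : ℝ)) := by
  classical
  obtain ⟨C, hC, H⟩ := two hQ h72 hA hε
  refine ⟨C, hC, fun x R D L τ ψ k ι S β a hx hψ hk hR hRx hD hDx hL hLx hkx hinj hS => ?_⟩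
  set a' : O → ℂ := fun b => ∑ i ∈ S.filter (fun i => β i = b), a i with ha'
  have hmaps : ∀ i ∈ S, β i ∈ box L := fun i hi =>
    mem_box.2 ⟨(hS i hi).1.1.ne_zero, (hS i hi).2.2⟩
  have hDy : Dy Q L a' := by
    intro b hb
    obtain ⟨i, hi, -⟩ := Finset.exists_ne_zero_of_sum_ne_zero hb
    obtain ⟨h1, rfl⟩ := Finset.mem_filter.1 hi
    exact hS i h1
  have h1 := H x R D L τ ψ a' 1 k hx hψ one_ne_zero hk hR hRx hD hDx hL hLx
    (by rw [tp_rad_one]; exact hx) ((Nr_le_of_dvd hk (rad_dvd hk)).trans hkx) hDy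
  have e : SF A ψ a' L D τ 1 k = tp_T A ψ τ S β a k D := by
    funext r
    unfold SF tp_T
    rw [← Finset.sum_fiberwise_of_maps_to hmaps]
    refine Finset.sum_congr rfl fun b _ => ?_
    simp only [ha', Finset.sum_mul, mul_one]
    refine Finset.sum_congr rfl fun i hi => ?_
    rw [(Finset.mem_filter.1 hi).2]
    rfl
  have h2 : ∑ b ∈ box L, ‖a' b‖ ^ 2 ≤ ∑ i ∈ S, ‖a i‖ ^ 2 := by
    rw [← Finset.sum_fiberwise_of_maps_to hmaps]
    refine Finset.sum_le_sum fun b _ => ?_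
    have hcard : (S.filter (fun i => β i = b)).card ≤ 1 := by
      refine Finset.card_le_one.2 fun i hi i' hi' => ?_
      obtain ⟨h1, h2⟩ := Finset.mem_filter.1 hi
      obtain ⟨h3, h4⟩ := Finset.mem_filter.1 hi'
      exact hinj h1 h3 (h2.trans h4.symm)
    calc ‖a' b‖ ^ 2 ≤ (∑ i ∈ S.filter (fun i => β i = b), ‖a i‖) ^ 2 :=
          pow_le_pow_left₀ (norm_nonneg _) (norm_sum_le _ _) 2
      _ ≤ _ := sq_sum_le_card_mul_sum_sq
      _ ≤ _ := mul_le_of_le_one_left (Finset.sum_nonneg fun _ _ => by positivity)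
          (by exact_mod_cast hcard)
  rw [e, tp_rad_one, mul_one, mul_one] at h1
  refine h1.trans ?_
  have : 0 < x := by linarith
  gcongr

end Crest.Agent.R017

end
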