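import Crest.Agent.R017.T2PAux1

/-! # Row 17: auxiliary lemmas for `T2P`: the slot induction -/

set_option autoImplicit false

noncomputable section

open scoped BigOperators ComplexConjugate
open Complex MeasureTheory

namespace Crest.Agent.R017

theorem tp_clog {n : ℕ} (hn : 1 ≤ n) :
    (2 : ℝ) ^ Nat.clog 2 n / 2 < n ∧ (n : ℝ) ≤ 2 ^ Nat.clog 2 n := by
  refine ⟨?_, by exact_mod_cast Nat.le_pow_clog one_lt_two n⟩
  rcases hn.eq_or_lt with rfl | h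
  · simp; norm_num
  · have h1 := Nat.pow_pred_clog_lt_self one_lt_two h
    have h2 := Nat.clog_pos one_lt_two h
    obtain ⟨m, hm⟩ := Nat.exists_eq_succ_of_ne_zero h2.ne'
    rw [hm] at h1 ⊢
    rw [Nat.succ_eq_add_one, pow_succ, mul_div_cancel_right₀ _ (two_ne_zero)]
    exact_mod_cast h1

/-- All dyadic blocks. -/
theorem tp_base {Q : O} (hQ : Q ≠ 0) (h72 : (72 : O) ∣ Q) {A ε : ℝ} (hA : 0 < A) (hε : 0 < ε) :
    ∃ C : ℝ, 0 ≤ C ∧ ∀ (x R D L τ : ℝ) (ψ : O → ℂ), 1 ≤ x → IsCh Q ψ → 0 < R → R ≤ x → D ≤ x →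
      1 ≤ L → 2 * L ≤ x → ∀ (ι : Type) (S : Finset ι) (β : ι → O) (a : ι → ℂ) (k : O) (D' : ℝ),
      k ≠ 0 → Nr k ≤ L → 0 < D' → D' ≤ D → Set.InjOn β S → (∀ i ∈ S, Adm Q (β i) ∧ Nr (β i) ≤ L) →
      tp_N R (tp_T A ψ τ S β a k D') ≤ 2 * (1 + Real.log x) *
        Real.sqrt (C * x ^ ε * (1 + |τ|) ^ C * (8 * (R + D * L ^ 2 + L ^ 3 * D ^ (2 / 3 : ℝ)))) *
        Real.sqrt D' * Real.sqrt (∑ i ∈ S, ‖a i‖ ^ 2) := by
  classical
  obtain ⟨C, hC, H⟩ := tp_block hQ h72 hA hε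
  refine ⟨C, hC, fun x R D L τ ψ hx hψ hR hRx hDx hL hLx ι S β a k D' hk hkL hD' hDD hinj hS => ?_⟩
  have hx0 : 0 < x := by linarith
  have hD0 : 0 < D := hD'.trans_le hDD
  set M := Nat.clog 2 ⌊L⌋₊ with hM
  have hfl : 1 ≤ ⌊L⌋₊ := Nat.one_le_floor_iff L |>.2 hL
  have hM2 : (2 : ℝ) ^ M ≤ 2 * L := by
    have h1 := (tp_clog hfl).1
    have h2 := Nat.floor_le (show 0 ≤ L by linarith)
    linarith
  have hmaps : ∀ i ∈ S, Nat.clog 2 (nm (β i)) ∈ Finset.range (M + 1) := by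
    intro i hi
    refine Finset.mem_range.2 (Nat.lt_succ_of_le (Nat.clog_mono_right _ ?_))
    exact Nat.le_floor (hS i hi).2
  have e : tp_T A ψ τ S β a k D' = fun r => ∑ m ∈ Finset.range (M + 1),
      tp_T A ψ τ (S.filter (fun i => Nat.clog 2 (nm (β i)) = m)) β a k D' r := by
    funext r
    unfold tp_T
    rw [Finset.sum_fiberwise_of_maps_to hmaps]
  obtain ⟨B, hB⟩ : ∃ B, B = C * x ^ ε * (1 + |τ|) ^ C *
    (8 * (R + D * L ^ 2 + L ^ 3 * D ^ (2 / 3 : ℝ))) := ⟨_, rfl⟩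
  have hB0 : 0 ≤ B := by rw [hB]; positivity
  have h1 : ∀ m ∈ Finset.range (M + 1),
      tp_N R (tp_T A ψ τ (S.filter (fun i => Nat.clog 2 (nm (β i)) = m)) β a k D') ≤
        Real.sqrt B * Real.sqrt D' * Real.sqrt (∑ i ∈ S, ‖a i‖ ^ 2) := by
    intro m hm
    have hm' : (2 : ℝ) ^ m ≤ 2 * L :=
      (pow_le_pow_right₀ one_le_two (Nat.le_of_lt_succ (Finset.mem_range.1 hm))).trans hM2
    rw [← Real.sqrt_mul hB0, ← Real.sqrt_mul (by positivity)]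
    refine tp_N_le_sqrt ((H x R D' (2 ^ m) τ ψ k ι _ β a hx hψ hk hR hRx hD' (hDD.trans hDx)
      (one_le_pow₀ one_le_two) (hm'.trans hLx) (by linarith)
      (hinj.mono (Finset.coe_subset.2 (Finset.filter_subset _ _))) fun i hi => ?_).trans ?_)
    · obtain ⟨h1, h2⟩ := Finset.mem_filter.1 hi
      have h3 : 1 ≤ nm (β i) := Nat.one_le_iff_ne_zero.2 fun h =>
        (hS i h1).1.1.ne_zero (nm_eq_zero.1 h)
      have h4 := tp_clog h3
      rw [h2] at h4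
      exact ⟨(hS i h1).1, h4⟩
    · have h2 : ∑ i ∈ S.filter (fun i => Nat.clog 2 (nm (β i)) = m), ‖a i‖ ^ 2 ≤ ∑ i ∈ S, ‖a i‖ ^ 2 :=
        Finset.sum_le_sum_of_subset_of_nonneg (Finset.filter_subset _ _) fun _ _ _ => by positivity
      have h3 : R + D' * (2 ^ m) ^ 2 + (2 ^ m) ^ 3 * D' ^ (2 / 3 : ℝ) ≤
          8 * (R + D * L ^ 2 + L ^ 3 * D ^ (2 / 3 : ℝ)) := by
        have h4 : D' * (2 ^ m) ^ 2 ≤ D * (2 * L) ^ 2 := by gcongr
        have h5 : (2 ^ m) ^ 3 * D' ^ (2 / 3 : ℝ) ≤ (2 * L) ^ 3 * D ^ (2 / 3 : ℝ) := by gcongr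
        have h6 : 0 ≤ D * L ^ 2 := by positivity
        nlinarith
      calc _ ≤ C * x ^ ε * (1 + |τ|) ^ C * D' * (∑ i ∈ S, ‖a i‖ ^ 2) *
            (8 * (R + D * L ^ 2 + L ^ 3 * D ^ (2 / 3 : ℝ))) := by gcongr
        _ = _ := by rw [hB]; ring
  rw [e, ← hB]
  refine (tp_N_sum R _ _).trans ((Finset.sum_le_sum h1).trans ?_)
  rw [Finset.sum_const, Finset.card_range, nsmul_eq_mul, mul_assoc (2 * (1 + Real.log x)),
    mul_assoc (2 * (1 + Real.log x))]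
  refine mul_le_mul_of_nonneg_right ?_ (by positivity)
  have h2 : (M : ℝ) * Real.log 2 ≤ Real.log x := by
    rw [← Real.log_pow]
    exact Real.log_le_log (by positivity) (hM2.trans hLx)
  have h3 := Real.log_two_gt_d9
  have h4 : (0 : ℝ) ≤ M := Nat.cast_nonneg _
  push_cast
  nlinarith

theorem tp_slot_ne {Q : O} {Z y : ℝ} {p : O} (h : slot Q Z y p ≠ 0) :
    Prime p ∧ Prim p ∧ IsCoprime p Q ∧ Z / y < Nr p ∧ Nr p ≤ Z * y := by
  by_contra hc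
  exact h (by unfold slot; rw [if_neg hc])

theorem tp_cop {p q : O} (hp : Prime p) (hq : Prime q) (h : Nr q < Nr p) : IsCoprime p q := by
  refine (hp.irreducible.coprime_iff_not_dvd).2 fun hd => ?_
  exact absurd (Nr_le_of_dvd hq.ne_zero hd) (not_le.2 h)

/-- Multiplying by one prime sum. -/
theorem tp_T_mul {Q : O} {ψ : O → ℂ} (hψ : IsCh Q ψ) {A D : ℝ} (hA : 0 < A) (hD : 0 < D) (τ : ℝ)
    {ι : Type} (S : Finset ι) (β : ι → O) (a : ι → ℂ) (k : O) (P : Finset O) (s : O → ℂ)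
    (hβ : ∀ i ∈ S, β i ≠ 0)
    (hP : ∀ p ∈ P, Prime p ∧ Prim p ∧ IsCoprime p k ∧ ∀ i ∈ S, IsCoprime p (β i)) (r : O) :
    tp_T A ψ τ S β a k D r * ∑ p ∈ P, s p * chi p r =
      tp_T A ψ τ (S ×ˢ P) (fun q => β q.1 * q.2) (fun q => a q.1 * s q.2) k D r +
      ∑ p ∈ P, -(s p * chi p r * ((Nr p : ℂ) ^ (-(τ * I)) * (ψ p * chi p r))) *
        tp_T A ψ τ S β a (k * p) (D / Nr p) r := by
  unfold tp_T
  rw [Finset.sum_product_right, ← Finset.sum_add_distrib, Finset.mul_sum]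
  refine Finset.sum_congr rfl fun p hp => ?_
  obtain ⟨h1, h2, h3, h4⟩ := hP p hp
  rw [Finset.sum_mul, Finset.mul_sum, ← Finset.sum_add_distrib]
  refine Finset.sum_congr rfl fun i hi => ?_
  have e1 : β i * p * k = β i * k * p := by ring
  have e2 : β i * (k * p) = β i * k * p := by ring
  simp only
  rw [tp_G_step hψ hA hD τ h1 h2 ((h4 i hi).mul_right h3) r, e1, e2,
    chi_mul_left (hβ i hi) h1.ne_zero]
  ring

theorem tp_ind {Q : O} {ψ : O → ℂ} (hψ : IsCh Q ψ) {A τ R y D L₀ E : ℝ} (hA : 0 < A) (hy : 1 ≤ y)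
    (hE : 0 ≤ E) (w : ℝ → ℝ)
    (hw : ∀ Z, 1 ≤ Z → Real.sqrt (∑ p ∈ box (Z * y), ‖slot Q Z y p‖ ^ 2) +
      ∑ p ∈ box (Z * y), ‖slot Q Z y p‖ * Nr p ^ (-(1 / 2) : ℝ) ≤ w Z)
    (hbase : ∀ (ι : Type) (S : Finset ι) (β : ι → O) (a : ι → ℂ) (k : O) (D' : ℝ),
      k ≠ 0 → Nr k ≤ L₀ → 0 < D' → D' ≤ D → Set.InjOn β S → (∀ i ∈ S, Adm Q (β i) ∧ Nr (β i) ≤ L₀) →
      tp_N R (tp_T A ψ τ S β a k D') ≤ E * Real.sqrt D' * Real.sqrt (∑ i ∈ S, ‖a i‖ ^ 2)) (j : ℕ) :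
    ∀ (Z : Fin j → ℝ), (∀ i, 1 ≤ Z i) → Sep Z y →
      ∀ (ι : Type) (S : Finset ι) (β : ι → O) (a : ι → ℂ) (k : O) (D' L : ℝ),
      k ≠ 0 → Nr k ≤ L → 0 < D' → D' ≤ D → Set.InjOn β S → (∀ i ∈ S, Adm Q (β i) ∧ Nr (β i) ≤ L) →
      L * ∏ i, (Z i * y) ≤ L₀ →
      (∀ i' p, slot Q (Z i') y p ≠ 0 → IsCoprime p k ∧ ∀ i ∈ S, IsCoprime p (β i)) →
      tp_N R (fun r => tp_T A ψ τ S β a k D' r * ∏ i, PS Q (Z i) y (fun p => chi p r)) ≤
        E * Real.sqrt D' * Real.sqrt (∑ i ∈ S, ‖a i‖ ^ 2) * ∏ i, w (Z i) := by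
  classical
  have hw0 : ∀ Z, 1 ≤ Z → 0 ≤ w Z := fun Z hZ => le_trans (add_nonneg (Real.sqrt_nonneg _)
    (Finset.sum_nonneg fun p _ => mul_nonneg (norm_nonneg _) (Real.rpow_nonneg (Nr_nonneg _) _)))
    (hw Z hZ)
  induction j with
  | zero =>
    intro Z _ _ ι S β a k D' L hk hkL hD' hDD hinj hS hL _
    simp only [Finset.univ_eq_empty, Finset.prod_empty, mul_one] at hL ⊢
    exact hbase ι S β a k D' hk (hkL.trans hL) hD' hDD hinj fun i hi => ⟨(hS i hi).1, (hS i hi).2.trans hL⟩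
  | succ j ih =>
    intro Z hZ hsep ι S β a k D' L hk hkL hD' hDD hinj hS hL hcop
    have hL0 : 0 ≤ L := (Nr_nonneg k).trans hkL
    have hZy : 1 ≤ Z 0 * y := one_le_mul_of_one_le_of_one_le (hZ 0) hy
    have hLL : L ≤ L * (Z 0 * y) := le_mul_of_one_le_right hL0 hZy
    simp only [Fin.prod_univ_succ] at hL ⊢
    rw [← mul_assoc] at hL
    obtain ⟨P, hP⟩ : ∃ P, P = (box (Z 0 * y)).filter (fun p => slot Q (Z 0) y p ≠ 0) := ⟨_, rfl⟩
    have hPm : ∀ p ∈ P, slot Q (Z 0) y p ≠ 0 := fun p hp => by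
      rw [hP] at hp; exact (Finset.mem_filter.1 hp).2
    have hPs : P ⊆ box (Z 0 * y) := hP ▸ Finset.filter_subset _ _
    have ePS : ∀ r, PS Q (Z 0) y (fun p => chi p r) = ∑ p ∈ P, slot Q (Z 0) y p * chi p r := by
      intro r
      rw [hP, PS, Finset.sum_filter_of_ne fun p _ h => left_ne_zero_of_mul h]
    have hZ' : ∀ i : Fin j, 1 ≤ Z i.succ := fun i => hZ _
    have hsep' : Sep (fun i : Fin j => Z i.succ) y := fun i i' h => hsep _ _ (Fin.succ_lt_succ_iff.2 h)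
    have hnew : ∀ (i' : Fin j) (p q : O), slot Q (Z i'.succ) y p ≠ 0 → q ∈ P → IsCoprime p q := by
      intro i' p q hp hq
      obtain ⟨p1, -, -, p2, -⟩ := tp_slot_ne hp
      obtain ⟨q1, -, -, -, q2⟩ := tp_slot_ne (hPm q hq)
      exact tp_cop p1 q1 (q2.trans_lt ((hsep 0 i'.succ (Fin.succ_pos _)).trans_lt p2))
    set Pr : O → ℂ := fun r => ∏ i : Fin j, PS Q (Z i.succ) y (fun p => chi p r) with hPr
    set Wr : ℝ := ∏ i : Fin j, w (Z i.succ) with hWr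
    have hWr0 : 0 ≤ Wr := Finset.prod_nonneg fun i _ => hw0 _ (hZ' i)
    have e : (fun r => tp_T A ψ τ S β a k D' r * (PS Q (Z 0) y (fun p => chi p r) * Pr r)) =
        fun r => tp_T A ψ τ (S ×ˢ P) (fun q => β q.1 * q.2) (fun q => a q.1 * slot Q (Z 0) y q.2) k D' r *
            Pr r + ∑ p ∈ P, -(slot Q (Z 0) y p * chi p r * ((Nr p : ℂ) ^ (-(τ * I)) * (ψ p * chi p r))) *
          (tp_T A ψ τ S β a (k * p) (D' / Nr p) r * Pr r) := by
      funext r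
      rw [← mul_assoc, ePS, tp_T_mul hψ hA hD' τ S β a k P _ (fun i hi => (hS i hi).1.1.ne_zero)
        (fun p hp => ⟨(tp_slot_ne (hPm p hp)).1, (tp_slot_ne (hPm p hp)).2.1, hcop 0 p (hPm p hp)⟩) r,
        add_mul, Finset.sum_mul]
      simp only [mul_assoc]
    have h1 := ih (fun i => Z i.succ) hZ' hsep' (ι × O) (S ×ˢ P) (fun q => β q.1 * q.2)
      (fun q => a q.1 * slot Q (Z 0) y q.2) k D' (L * (Z 0 * y)) hk (hkL.trans hLL) hD' hDD ?_ ?_ hL ?_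
    rotate_left
    · rintro ⟨i, p⟩ hq ⟨i', p'⟩ hq' h
      obtain ⟨hi, hp⟩ := Finset.mem_product.1 (Finset.mem_coe.1 hq)
      obtain ⟨hi', hp'⟩ := Finset.mem_product.1 (Finset.mem_coe.1 hq')
      simp only at h hi hp hi' hp'
      obtain ⟨p1, p2, -⟩ := tp_slot_ne (hPm p hp)
      obtain ⟨q1, q2, -⟩ := tp_slot_ne (hPm p' hp')
      have hd : p ∣ p' := ((hcop 0 p (hPm p hp)).2 i' hi').dvd_of_dvd_mul_left (h ▸ dvd_mul_left p (β i))
      have hpp : p = p' := p2.eq_of_associated q2 (p1.associated_of_dvd q1 hd)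
      subst hpp
      rw [hinj hi hi' (mul_right_cancel₀ p1.ne_zero h)]
    · rintro ⟨i, p⟩ hq
      obtain ⟨hi, hp⟩ := Finset.mem_product.1 hq
      simp only at hi hp ⊢
      obtain ⟨p1, p2, p3, -, p4⟩ := tp_slot_ne (hPm p hp)
      obtain ⟨⟨b1, b2, b3⟩, b4⟩ := hS i hi
      refine ⟨⟨b1.mul p2, squarefree_mul_iff.2
        ⟨((hcop 0 p (hPm p hp)).2 i hi).symm.isRelPrime, b2, p1.squarefree⟩, b3.mul_left p3⟩, ?_⟩
      rw [Nr_mul]
      exact mul_le_mul b4 p4 (Nr_nonneg _) hL0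
    · intro i' p hp
      refine ⟨(hcop _ p hp).1, ?_⟩
      rintro ⟨i, q⟩ hq
      obtain ⟨hi, hq⟩ := Finset.mem_product.1 hq
      exact ((hcop _ p hp).2 i hi).mul_right (hnew i' p q hp hq)
    have h2 : ∀ p ∈ P, tp_N R (fun r =>
        -(slot Q (Z 0) y p * chi p r * ((Nr p : ℂ) ^ (-(τ * I)) * (ψ p * chi p r))) *
          (tp_T A ψ τ S β a (k * p) (D' / Nr p) r * Pr r)) ≤
        ‖slot Q (Z 0) y p‖ * Nr p ^ (-(1 / 2) : ℝ) *
          (E * Real.sqrt D' * Real.sqrt (∑ i ∈ S, ‖a i‖ ^ 2) * Wr) := by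
      intro p hp
      obtain ⟨p1, p2, p3, -, p4⟩ := tp_slot_ne (hPm p hp)
      have hp1 := one_le_Nr p1.ne_zero
      have hp0 : 0 < Nr p := by linarith
      have h3 := ih (fun i => Z i.succ) hZ' hsep' ι S β a (k * p) (D' / Nr p) (L * (Z 0 * y))
        (mul_ne_zero hk p1.ne_zero) (by rw [Nr_mul]; exact mul_le_mul hkL p4 (Nr_nonneg _) hL0)
        (by positivity) ((div_le_self hD'.le hp1).trans hDD) hinj
        (fun i hi => ⟨(hS i hi).1, (hS i hi).2.trans hLL⟩) hL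
        (fun i' q hq => ⟨(hcop _ q hq).1.mul_right (hnew i' q p hq hp), (hcop _ q hq).2⟩)
      refine (tp_N_mono (c := ‖slot Q (Z 0) y p‖)
        (g := fun r => tp_T A ψ τ S β a (k * p) (D' / Nr p) r * Pr r) (norm_nonneg _) fun r => ?_).trans ?_
      · rw [norm_mul]
        refine mul_le_mul_of_nonneg_right ?_ (norm_nonneg _)
        rw [norm_neg, norm_mul, norm_mul, norm_mul, tp_norm_cpow p1.ne_zero, one_mul, norm_mul, mul_assoc]
        exact mul_le_of_le_one_right (norm_nonneg _) (mul_le_one₀ (norm_chi_le p r) (by positivity)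
          (mul_le_one₀ (hψ.norm_le p) (norm_nonneg _) (norm_chi_le p r)))
      · rw [mul_assoc]
        refine mul_le_mul_of_nonneg_left (h3.trans (le_of_eq ?_)) (norm_nonneg _)
        rw [Real.sqrt_div' _ hp0.le, Real.rpow_neg hp0.le, ← Real.sqrt_eq_rpow]
        ring
    have h3 : ∑ q ∈ S ×ˢ P, ‖a q.1 * slot Q (Z 0) y q.2‖ ^ 2 ≤
        (∑ i ∈ S, ‖a i‖ ^ 2) * ∑ p ∈ box (Z 0 * y), ‖slot Q (Z 0) y p‖ ^ 2 := by
      have : ∑ q ∈ S ×ˢ P, ‖a q.1 * slot Q (Z 0) y q.2‖ ^ 2 =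
          (∑ i ∈ S, ‖a i‖ ^ 2) * ∑ p ∈ P, ‖slot Q (Z 0) y p‖ ^ 2 := by
        rw [Finset.sum_mul_sum, Finset.sum_product]
        simp only [norm_mul, mul_pow]
      rw [this]
      exact mul_le_mul_of_nonneg_left (Finset.sum_le_sum_of_subset_of_nonneg hPs
        fun _ _ _ => by positivity) (Finset.sum_nonneg fun _ _ => by positivity)
    have h4 := Real.sqrt_le_sqrt h3
    rw [Real.sqrt_mul (Finset.sum_nonneg fun _ _ => by positivity)] at h4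
    have h5 : ∑ p ∈ P, ‖slot Q (Z 0) y p‖ * Nr p ^ (-(1 / 2) : ℝ) ≤
        ∑ p ∈ box (Z 0 * y), ‖slot Q (Z 0) y p‖ * Nr p ^ (-(1 / 2) : ℝ) :=
      Finset.sum_le_sum_of_subset_of_nonneg hPs fun _ _ _ =>
        mul_nonneg (norm_nonneg _) (Real.rpow_nonneg (Nr_nonneg _) _)
    have h6 := (tp_N_sum R P _).trans (Finset.sum_le_sum h2)
    rw [← Finset.sum_mul] at h6
    rw [e]
    refine (tp_N_add R _ _).trans ?_
    have h7 := hw (Z 0) (hZ 0)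
    set U := Real.sqrt (∑ p ∈ box (Z 0 * y), ‖slot Q (Z 0) y p‖ ^ 2)
    set V := ∑ p ∈ box (Z 0 * y), ‖slot Q (Z 0) y p‖ * Nr p ^ (-(1 / 2) : ℝ)
    set T := Real.sqrt (∑ i ∈ S, ‖a i‖ ^ 2)
    have hT : 0 ≤ T := Real.sqrt_nonneg _
    have h8 : 0 ≤ E * Real.sqrt D' * T * Wr := by positivity
    calc _ ≤ E * Real.sqrt D' * (T * U) * Wr + V * (E * Real.sqrt D' * T * Wr) := by
          refine add_le_add (h1.trans ?_) (h6.trans ?_)
          · gcongr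
          · gcongr
      _ = (U + V) * (E * Real.sqrt D' * T * Wr) := by ring
      _ ≤ w (Z 0) * (E * Real.sqrt D' * T * Wr) := by gcongr
      _ = _ := by ring

end Crest.Agent.R017

end
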