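import Crest.Agent.R017.T2SmallAux

/-! # Row 17: second moments: small cubes -/

set_option autoImplicit false

noncomputable section

open scoped BigOperators ComplexConjugate
open Complex MeasureTheory

namespace Crest.Agent.R017

theorem two_small {Q : O} (hQ : Q ≠ 0) (h72 : (72 : O) ∣ Q) {A ε : ℝ} (hA : 0 < A) (hε : 0 < ε) :
    ∃ C : ℝ, 0 ≤ C ∧ ∀ (x y H X B τ : ℝ) (ψ a : O → ℂ) (t k : O), 1 ≤ x → 1 ≤ y → y ≤ x → IsCh Q ψ →
      t ≠ 0 → k ≠ 0 → 0 < H → H ≤ x → x⁻¹ ≤ X → X ≤ x → 1 ≤ B → B ≤ x → Nr (rad t) ≤ x →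
      Nr (rad k) ≤ x → Dy Q B a →
      NS H (fun h => CSf A ψ a B X τ (t * k ^ 6) h - CLarge A ψ a B X τ y (t * k ^ 6) h) ≤
        C * x ^ ε * y ^ 3 * (1 + |τ|) ^ C * (∑ b ∈ box B, ‖a b‖ ^ 2) *
          (X * H + H ^ 2 * Nr (rad t) ^ 2 * Nr (rad k) * B + X ^ (5 / 4 : ℝ) * H ^ (1 / 2 : ℝ) * B +
            X ^ (1 / 2 : ℝ) * B ^ 2 * H * Nr (rad t)) := by
  have h4 : (4 : O) ∣ Q := dvd_trans ⟨18, by norm_num⟩ h72
  obtain ⟨C₀, hC₀, hcf⟩ := cf hQ h72 hA (show 0 < ε / 8 by positivity)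
  obtain ⟨C₁, hC₁⟩ := card_pdiv_le (show 0 < ε / 4 by positivity)
  refine ⟨625 * C₁ ^ 2 * C₀ + C₀, by positivity, ?_⟩
  intro x y H X B τ ψ a t k hx hy hyx hψ ht hk hH hHx hX1 hX2 hB hBx hrt hrk ha
  have hx0 : 0 < x := by linarith
  have hX : 0 < X := lt_of_lt_of_le (inv_pos.2 hx0) hX1
  have hx4 : x ≤ x ^ 4 := le_self_pow₀ hx (by norm_num)
  have hrt0 := Nr_nonneg (rad t)
  have hrk0 := Nr_nonneg (rad k)
  set S := ∑ b ∈ box B, ‖a b‖ ^ 2 with hS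
  have hS0 : 0 ≤ S := Finset.sum_nonneg fun _ _ => sq_nonneg _
  set Br := X * H + H ^ 2 * Nr (rad t) ^ 2 * Nr (rad k) * B + X ^ (5 / 4 : ℝ) * H ^ (1 / 2 : ℝ) * B +
    X ^ (1 / 2 : ℝ) * B ^ 2 * H * Nr (rad t) with hBr
  have hBr0 : 0 ≤ Br := by positivity
  have hτ : 1 ≤ 1 + |τ| := by linarith [abs_nonneg τ]
  set M := C₀ * x ^ (ε / 2) * (1 + |τ|) ^ C₀ * S * Br with hM
  have hM0 : 0 ≤ M := by positivity
  set D := |C₁| * x ^ (ε / 4) with hD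
  have hD0 : 0 ≤ D := by positivity
  have key : ∀ m ∈ ts_M y, ¬ (2 : O) ∣ m → ∀ b₀ ∈ pdiv m,
      NS H (CFull A (fun n => ψ n * sig n m) (ts_a a m b₀) (B / Nr b₀)
        (Nr b₀ * X / Nr (m ^ 3)) τ (t * k ^ 6)) ≤ M := by
    intro m hm h2 b₀ hb₀
    obtain ⟨hm, hmy⟩ := ts_mem_M.1 hm
    obtain ⟨q1, q2⟩ := (mem_pdiv hm.ne_zero).1 hb₀
    have n1 := one_le_Nr q1.ne_zero
    have n2 := one_le_Nr hm.ne_zero
    have n3 : Nr b₀ ≤ Nr (m ^ 3) :=
      Nr_le_of_dvd (hm.pow 3).ne_zero (q2.trans (dvd_pow_self m (by norm_num)))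
    have n4 : Nr (m ^ 3) ≤ x ^ 3 := by
      rw [Nr_pow]; exact pow_le_pow_left₀ (by linarith) (hmy.trans hyx) 3
    have n5 : 0 < Nr (m ^ 3) := by linarith
    by_cases hB' : B / Nr b₀ < 1
    · have : NS H (CFull A (fun n => ψ n * sig n m) (ts_a a m b₀) (B / Nr b₀)
          (Nr b₀ * X / Nr (m ^ 3)) τ (t * k ^ 6)) = 0 := by
        unfold NS CFull
        rw [box_eq_empty hB']
        simp
      rw [this]; exact hM0
    rw [not_lt] at hB'
    have b1 : B / Nr b₀ ≤ B := div_le_self (by linarith) n1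
    have b2 : Nr b₀ * X / Nr (m ^ 3) ≤ X := by
      rw [div_le_iff₀ n5]; nlinarith
    have b3 : (x ^ 4)⁻¹ ≤ Nr b₀ * X / Nr (m ^ 3) := by
      rw [le_div_iff₀ n5]
      calc (x ^ 4)⁻¹ * Nr (m ^ 3) ≤ (x ^ 4)⁻¹ * x ^ 3 := by gcongr
        _ = 1 * x⁻¹ := by field_simp
        _ ≤ Nr b₀ * X := by gcongr
    have b4 : 0 < Nr b₀ * X / Nr (m ^ 3) := by positivity
    have h := hcf (x ^ 4) H (Nr b₀ * X / Nr (m ^ 3)) (B / Nr b₀) τ (fun n => ψ n * sig n m)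
      (ts_a a m b₀) t k (hx.trans hx4) (hψ.mul_sig h4 h2) ht hk hH (hHx.trans hx4) b3
      ((b2.trans hX2).trans hx4) hB' ((b1.trans hBx).trans hx4) (hrt.trans hx4) (hrk.trans hx4)
      (ts_dy ha m q1)
    refine h.trans ?_
    have e1 : (x ^ 4) ^ (ε / 8) = x ^ (ε / 2) := by
      rw [← Real.rpow_natCast, ← Real.rpow_mul hx0.le]
      congr 1
      push_cast
      ring
    rw [e1, hM, hBr]
    have b5 := ts_l2 a B m q1.ne_zero
    have b6 : 0 ≤ B / Nr b₀ := by linarith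
    gcongr
  have key2 : ∀ m ∈ ts_M y, NS H (fun h => ts_z ψ τ (t * k ^ 6) m h * ∑ b₀ ∈ pdiv m,
      CFull A (fun n => ψ n * sig n m) (ts_a a m b₀) (B / Nr b₀)
        (Nr b₀ * X / Nr (m ^ 3)) τ (t * k ^ 6) h) ≤ y * (D * (D * M)) := by
    intro m hm'
    obtain ⟨hm, hmy⟩ := ts_mem_M.1 hm'
    by_cases h2 : (2 : O) ∣ m
    · have hz : ∀ h, ts_z ψ τ (t * k ^ 6) m h = 0 := fun h => by unfold ts_z; rw [if_pos h2]
      simp only [hz, zero_mul, NS, norm_zero]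
      simp only [ne_eq, OfNat.ofNat_ne_zero, not_false_eq_true, zero_pow, Finset.sum_const_zero]
      positivity
    have hc : ((pdiv m).card : ℝ) ≤ D := by
      refine (hC₁ m hm.ne_zero).trans ?_
      have := Nr_nonneg m
      have := hmy.trans hyx
      rw [hD]
      gcongr
      exact le_abs_self _
    refine (ts_NS_mul H y _ _ fun h => (ts_norm_z hψ τ _ hm h).trans hmy).trans ?_
    refine mul_le_mul_of_nonneg_left ((ts_NS_sum H _ _).trans ?_) (by linarith)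
    refine mul_le_mul hc ?_ (Finset.sum_nonneg fun _ _ => l4_nonneg _ _) hD0
    refine (Finset.sum_le_card_nsmul _ _ _ (key m hm' h2)).trans ?_
    rw [nsmul_eq_mul]
    exact mul_le_mul_of_nonneg_right hc hM0
  have hc : ((ts_M y).card : ℝ) ≤ 25 * y := by
    refine le_trans ?_ (card_box_le (by linarith))
    exact_mod_cast Finset.card_le_card (Finset.filter_subset _ _)
  rw [funext fun h => ts_decomp hψ hA hX τ y (t * k ^ 6) h ha]
  refine (ts_NS_sum H _ _).trans ?_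
  have h1 := Finset.sum_le_card_nsmul _ _ _ key2
  rw [nsmul_eq_mul] at h1
  have h2 : 0 ≤ y * (D * (D * M)) := by positivity
  have e1 : x ^ ε = x ^ (ε / 4) * x ^ (ε / 4) * x ^ (ε / 2) := by
    rw [← Real.rpow_add hx0, ← Real.rpow_add hx0]
    congr 1
    ring
  have e2 : |C₁| * |C₁| = C₁ ^ 2 := by rw [abs_mul_abs_self, sq]
  calc _ ≤ (25 * y) * ((25 * y) * (y * (D * (D * M)))) := by
        refine mul_le_mul hc (h1.trans ?_) (Finset.sum_nonneg fun _ _ => l4_nonneg _ _)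
          (by linarith)
        exact mul_le_mul_of_nonneg_right hc h2
    _ = (625 * C₁ ^ 2 * C₀) * x ^ ε * y ^ 3 * (1 + |τ|) ^ C₀ * S * Br := by
        rw [hD, hM, e1, ← e2]; ring
    _ ≤ _ := by
        have : 0 ≤ 625 * C₁ ^ 2 * C₀ := by positivity
        gcongr <;> linarith

end Crest.Agent.R017

end
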