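import Crest.Agent.R017.T2A

/-! # Row 17: auxiliary lemmas for `T2Small` -/

set_option autoImplicit false

noncomputable section

open scoped BigOperators ComplexConjugate
open Complex MeasureTheory

namespace Crest.Agent.R017

theorem ts_norm_sum_sq {ι : Type*} (s : Finset ι) (f : ι → ℂ) :
    ‖∑ i ∈ s, f i‖ ^ 2 ≤ s.card * ∑ i ∈ s, ‖f i‖ ^ 2 := by
  refine le_trans ?_ (sq_sum_le_card_mul_sum_sq (s := s) (f := fun i => ‖f i‖))
  exact pow_le_pow_left₀ (norm_nonneg _) (norm_sum_le _ _) 2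

theorem ts_NS_sum {ι : Type*} (H : ℝ) (s : Finset ι) (f : ι → O → ℂ) :
    NS H (fun h => ∑ i ∈ s, f i h) ≤ s.card * ∑ i ∈ s, NS H (f i) := by
  unfold NS
  rw [Finset.sum_comm, Finset.mul_sum]
  exact Finset.sum_le_sum fun h _ => ts_norm_sum_sq s fun i => f i h

theorem ts_NS_mul (H M : ℝ) (z f : O → ℂ) (hz : ∀ h, ‖z h‖ ^ 2 ≤ M) :
    NS H (fun h => z h * f h) ≤ M * NS H f := by
  unfold NS
  rw [Finset.mul_sum]
  refine Finset.sum_le_sum fun h _ => ?_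
  rw [norm_mul, mul_pow]
  exact mul_le_mul_of_nonneg_right (hz h) (sq_nonneg _)

theorem ts_sm_lin {ι : Type*} {A X K σ : ℝ} (hA : 0 < A) (hX : 0 < X) (s : Finset ι) (f : O → ℂ)
    (g : ι → O → ℂ) (hf : ∀ n, Prim n → ‖f n‖ ≤ K * Nr n ^ σ)
    (hg : ∀ i n, Prim n → ‖g i n‖ ≤ K * Nr n ^ σ) (τ : ℝ) :
    sm A (fun n => f n - ∑ i ∈ s, g i n) X τ = sm A f X τ - ∑ i ∈ s, sm A (g i) X τ := by
  have h1 := (summable_sm hA hX hf τ).hasSum
  have h2 := hasSum_sum (s := s) fun i _ => (summable_sm hA hX (hg i) τ).hasSum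
  have h3 := h1.sub h2
  unfold sm
  rw [← h3.tsum_eq]
  refine tsum_congr fun n => ?_
  by_cases hn : Prim n
  · simp only [hn, if_true]
    rw [← Finset.sum_mul, ← Finset.sum_mul]
    ring
  · simp [hn]

open Classical in
/-- The primary elements of norm at most `y`. -/
def ts_M (y : ℝ) : Finset O := (box y).filter Prim

theorem ts_mem_M {y : ℝ} {m : O} : m ∈ ts_M y ↔ Prim m ∧ Nr m ≤ y := by
  unfold ts_M
  rw [Finset.mem_filter, mem_box]
  exact ⟨fun h => ⟨h.2, h.1.2⟩, fun h => ⟨⟨h.1.ne_zero, h.2⟩, h.1⟩⟩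

open Classical in
theorem ts_cy {y : ℝ} {N : O} (hN : Prim N) (hv : vth N ≠ 0) :
    cy y N = (if Squarefree N then 1 else 0) - ∑ m ∈ ts_M y, (if m ^ 3 ∣ N then mu m else 0) := by
  have hex : ∃ n j : O, Prim n ∧ Squarefree n ∧ Prim j ∧ N = n * j ^ 3 := by
    by_contra hne
    exact hv (vth_eq_zero hN (Or.inr hne))
  obtain ⟨n, j, hn, hs, hj, he⟩ := hex
  have hjN : j ∣ N := by
    rw [he]; exact Dvd.dvd.mul_left (dvd_pow_self j (by norm_num)) n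
  have h1 : ∑ m ∈ pdiv N, (if m ^ 3 ∣ N then mu m else 0) = ∑ m ∈ pdiv j, mu m := by
    rw [← Finset.sum_filter]
    refine Finset.sum_congr ?_ fun _ _ => rfl
    ext m
    rw [Finset.mem_filter, mem_pdiv hN.ne_zero, mem_pdiv hj.ne_zero]
    constructor
    · rintro ⟨⟨hm, _⟩, h3⟩
      exact ⟨hm, r3_dvd hs hm j (he ▸ h3)⟩
    · rintro ⟨hm, hd⟩
      refine ⟨⟨hm, hd.trans hjN⟩, ?_⟩
      rw [he]
      exact Dvd.dvd.mul_left (pow_dvd_pow_of_dvd hd 3) n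
  have h2 : (if j = 1 then (1 : ℂ) else 0) = if Squarefree N then 1 else 0 := by
    by_cases h : j = 1
    · rw [if_pos h, if_pos]
      rw [he, h]; simpa using hs
    · rw [if_neg h, if_neg]
      intro hsq
      apply h
      apply hj.eq_one_of_isUnit
      apply hsq
      rw [he]
      exact Dvd.dvd.mul_left ⟨j, by ring⟩ n
  have h3 : ∑ m ∈ ts_M y, (if m ^ 3 ∣ N then mu m else 0) =
      ∑ m ∈ pdiv N, (if m ^ 3 ∣ N ∧ ¬ y < Nr m then mu m else 0) := by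
    rw [← Finset.sum_filter, ← Finset.sum_filter]
    refine Finset.sum_congr ?_ fun _ _ => rfl
    ext m
    rw [Finset.mem_filter, Finset.mem_filter, mem_pdiv hN.ne_zero, ts_mem_M, not_lt]
    constructor
    · rintro ⟨⟨hm, hy⟩, h3⟩
      exact ⟨⟨hm, (dvd_pow_self m (by norm_num)).trans h3⟩, h3, hy⟩
    · rintro ⟨⟨hm, _⟩, h3, hy⟩
      exact ⟨⟨hm, hy⟩, h3⟩
  rw [← h2, ← sum_pdiv_mu hj, ← h1, h3, ← Finset.sum_sub_distrib]
  unfold cy
  refine Finset.sum_congr rfl fun m _ => ?_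
  by_cases a1 : m ^ 3 ∣ N <;> by_cases a2 : y < Nr m <;> simp [a1, a2]

open Classical in
theorem ts_reindex {b₀ : O} (h₀ : b₀ ≠ 0) {M : Type*} [AddCommMonoid M] (B : ℝ) (G : O → M) :
    ∑ b ∈ box (B / Nr b₀), G (b₀ * b) = ∑ b ∈ box B, if b₀ ∣ b then G b else 0 := by
  rw [← Finset.sum_filter]
  have hp := Nr_pos h₀
  refine Finset.sum_bij (fun b _ => b₀ * b) ?_ ?_ ?_ fun _ _ => rfl
  · intro b hb
    rw [mem_box] at hb
    rw [Finset.mem_filter, mem_box, Nr_mul]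
    refine ⟨⟨mul_ne_zero h₀ hb.1, ?_⟩, dvd_mul_right _ _⟩
    have := (le_div_iff₀ hp).1 hb.2
    linarith
  · intro b _ b' _ h
    exact mul_left_cancel₀ h₀ h
  · intro b hb
    rw [Finset.mem_filter, mem_box] at hb
    obtain ⟨⟨h1, h2⟩, c, rfl⟩ := hb
    refine ⟨c, ?_, rfl⟩
    rw [mem_box]
    refine ⟨right_ne_zero_of_mul h1, ?_⟩
    rw [le_div_iff₀ hp]
    rw [Nr_mul] at h2
    linarith

open Classical in
theorem ts_split {m : O} (hm : Prim m) (B : ℝ) (G : O → ℂ)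
    (hG : ∀ b, G b ≠ 0 → Prim b ∧ Squarefree b) :
    ∑ b ∈ box B, G b = ∑ b₀ ∈ pdiv m, ∑ b ∈ box (B / Nr b₀),
      if IsCoprime b m then G (b₀ * b) else 0 := by
  have h1 : ∀ b₀ ∈ pdiv m, ∑ b ∈ box (B / Nr b₀), (if IsCoprime b m then G (b₀ * b) else 0) =
      ∑ b ∈ box B, if (∃ c, b = b₀ * c ∧ IsCoprime c m) then G b else 0 := by
    intro b₀ hb₀
    have h₀ : b₀ ≠ 0 := ((mem_pdiv hm.ne_zero).1 hb₀).1.ne_zero
    have := ts_reindex h₀ B (fun b => if (∃ c, b = b₀ * c ∧ IsCoprime c m) then G b else 0)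
    refine Eq.trans ?_ (this.trans ?_)
    · refine Finset.sum_congr rfl fun b _ => ?_
      by_cases hc : IsCoprime b m
      · rw [if_pos hc, if_pos ⟨b, rfl, hc⟩]
      · rw [if_neg hc, if_neg]
        rintro ⟨c, h1, h2⟩
        exact hc (mul_left_cancel₀ h₀ h1 ▸ h2)
    · refine Finset.sum_congr rfl fun b _ => ?_
      by_cases hc : ∃ c, b = b₀ * c ∧ IsCoprime c m
      · obtain ⟨c, h1, h2⟩ := hc
        rw [if_pos ⟨c, h1⟩]
      · simp [hc]
  rw [Finset.sum_congr rfl h1, Finset.sum_comm]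
  refine Finset.sum_congr rfl fun b _ => ?_
  by_cases hb : G b = 0
  · simp [hb]
  obtain ⟨hp, hs⟩ := hG b hb
  obtain ⟨⟨b₀, c⟩, ⟨p1, p2, p3, p4, p5⟩, hu⟩ := exists_part hp hm.ne_zero
  simp only at p1 p2 p3 p4 p5
  have hs₀ : Squarefree b₀ := by rw [p5] at hs; exact hs.of_mul_left
  rw [rad_eq_self p1 hs₀] at p3
  rw [Finset.sum_eq_single b₀]
  · rw [if_pos ⟨c, p5, p4⟩]
  · intro b₁ hb₁ hne
    rw [if_neg]
    rintro ⟨c₁, h1, h2⟩
    obtain ⟨q1, q2⟩ := (mem_pdiv hm.ne_zero).1 hb₁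
    have := hu (b₁, c₁) ⟨q1, q1.of_mul (h1 ▸ hp), (rad_dvd q1.ne_zero).trans q2, h2, h1⟩
    exact hne (congrArg Prod.fst this)
  · intro h
    exact absurd ((mem_pdiv hm.ne_zero).2 ⟨p1, p3⟩) h

open Classical in
/-- The new coefficients. -/
def ts_a (a : O → ℂ) (m b₀ b : O) : ℂ := if IsCoprime b m then a (b₀ * b) else 0

theorem ts_dy {Q : O} {B : ℝ} {a : O → ℂ} (ha : Dy Q B a) (m : O) {b₀ : O} (h₀ : Prim b₀) :
    Dy Q (B / Nr b₀) (ts_a a m b₀) := by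
  intro b hb
  have hp := Nr_pos h₀.ne_zero
  have hb' : a (b₀ * b) ≠ 0 := by
    intro h; apply hb; unfold ts_a; simp [h]
  obtain ⟨⟨h1, h2, h3⟩, h4, h5⟩ := ha _ hb'
  rw [Nr_mul] at h4 h5
  refine ⟨⟨h₀.of_mul h1, h2.of_mul_right, h3.of_mul_left_right⟩, ?_, ?_⟩
  · rw [div_right_comm, div_lt_iff₀ hp]; linarith
  · rw [le_div_iff₀ hp]; linarith

theorem ts_l2 (a : O → ℂ) (B : ℝ) (m : O) {b₀ : O} (h₀ : b₀ ≠ 0) :
    ∑ b ∈ box (B / Nr b₀), ‖ts_a a m b₀ b‖ ^ 2 ≤ ∑ b ∈ box B, ‖a b‖ ^ 2 := by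
  classical
  calc ∑ b ∈ box (B / Nr b₀), ‖ts_a a m b₀ b‖ ^ 2
      ≤ ∑ b ∈ box (B / Nr b₀), ‖a (b₀ * b)‖ ^ 2 := by
        refine Finset.sum_le_sum fun b _ => ?_
        unfold ts_a
        split_ifs
        · exact le_rfl
        · simp
    _ = _ := ts_reindex h₀ B (fun b => ‖a b‖ ^ 2)
    _ ≤ _ := by
        refine Finset.sum_le_sum fun b _ => ?_
        split_ifs
        · exact le_rfl
        · positivity

open Classical in
/-- The factor carried by the cube. -/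
def ts_z (ψ : O → ℂ) (τ : ℝ) (T m h : O) : ℂ :=
  if (2 : O) ∣ m then 0 else
    mu m * (Nr (m ^ 3) : ℂ) ^ (-(τ * I)) * (vth (m ^ 3) * ψ (m ^ 3) * conj (chi (m ^ 3) (h * T)))

theorem ts_norm_z {Q : O} {ψ : O → ℂ} (hψ : IsCh Q ψ) (τ : ℝ) (T : O) {m : O} (hm : Prim m) (h : O) :
    ‖ts_z ψ τ T m h‖ ^ 2 ≤ Nr m := by
  unfold ts_z
  split_ifs with h2
  · simpa using Nr_nonneg m
  have h1 : ‖vth (m ^ 3)‖ = Real.sqrt (Nr m) := by
    have := norm_vth prim_one squarefree_one hm (by simpa using h2)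
    simpa using this
  have h3 : ‖mu m * (Nr (m ^ 3) : ℂ) ^ (-(τ * I)) *
      (vth (m ^ 3) * ψ (m ^ 3) * conj (chi (m ^ 3) (h * T)))‖ ≤ Real.sqrt (Nr m) := by
    rw [norm_mul, norm_mul, norm_mul, norm_mul, sv_norm_cpow (hm.pow 3).ne_zero, h1,
      RCLike.norm_conj]
    have a1 := norm_mu_le m
    have a2 := hψ.norm_le (m ^ 3)
    have a3 := norm_chi_le (m ^ 3) (h * T)
    have a4 := Real.sqrt_nonneg (Nr m)
    calc ‖mu m‖ * 1 * (Real.sqrt (Nr m) * ‖ψ (m ^ 3)‖ * ‖chi (m ^ 3) (h * T)‖)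
        ≤ 1 * 1 * (Real.sqrt (Nr m) * 1 * 1) := by gcongr
      _ = _ := by ring
  calc _ ≤ Real.sqrt (Nr m) ^ 2 := pow_le_pow_left₀ (norm_nonneg _) h3 2
    _ = _ := Real.sq_sqrt (Nr_nonneg m)

theorem ts_bound {Q : O} {ψ : O → ℂ} (hψ : IsCh Q ψ) (r : O) {N : O} (hN : Prim N) :
    ‖vth N * ψ N * conj (chi N r)‖ ≤ 1 * Nr N ^ (1 / 6 : ℝ) := by
  rw [norm_mul, norm_mul, RCLike.norm_conj]
  have a1 := norm_vth_le hN
  have a2 := hψ.norm_le N
  have a3 := norm_chi_le N r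
  have a4 : 0 ≤ Nr N ^ (1 / 6 : ℝ) := Real.rpow_nonneg (Nr_nonneg N) _
  calc ‖vth N‖ * ‖ψ N‖ * ‖chi N r‖ ≤ Nr N ^ (1 / 6 : ℝ) * 1 * 1 := by gcongr
    _ = _ := by ring

open Classical in
/-- One cube. -/
theorem ts_cube {Q : O} {ψ a : O → ℂ} (hψ : IsCh Q ψ) {A B X : ℝ} (τ : ℝ) (T h : O) (ha : Dy Q B a)
    {m : O} (hm : Prim m) :
    ∑ b ∈ box B, a b * sm A (fun N => if m ^ 3 ∣ N then
        (if b ∣ N then mu m * (vth N * ψ N * conj (chi N (h * T))) else 0) else 0) (Nr b * X) τ =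
      ts_z ψ τ T m h * ∑ b₀ ∈ pdiv m, CFull A (fun n => ψ n * sig n m) (ts_a a m b₀) (B / Nr b₀)
        (Nr b₀ * X / Nr (m ^ 3)) τ T h := by
  by_cases h2 : (2 : O) ∣ m
  · have hz : ts_z ψ τ T m h = 0 := by unfold ts_z; rw [if_pos h2]
    rw [hz, zero_mul]
    refine Finset.sum_eq_zero fun b _ => ?_
    rw [sv_congr (c' := fun _ => 0), sv_zero, mul_zero]
    intro N hN
    by_cases h3 : m ^ 3 ∣ N
    · have : vth N = 0 :=
        vth_eq_zero hN (Or.inl ((h2.trans (dvd_pow_self m (by norm_num))).trans h3))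
      simp [this]
    · simp [h3]
  have hz : ts_z ψ τ T m h = mu m * (Nr (m ^ 3) : ℂ) ^ (-(τ * I)) *
      (vth (m ^ 3) * ψ (m ^ 3) * conj (chi (m ^ 3) (h * T))) := by unfold ts_z; rw [if_neg h2]
  rw [ts_split hm B _ (fun b hb => by
    have := ha b (left_ne_zero_of_mul hb)
    exact ⟨this.1.1, this.1.2.1⟩), Finset.mul_sum]
  refine Finset.sum_congr rfl fun b₀ hb₀ => ?_
  obtain ⟨q1, q2⟩ := (mem_pdiv hm.ne_zero).1 hb₀
  unfold CFull
  rw [Finset.mul_sum]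
  refine Finset.sum_congr rfl fun b _ => ?_
  unfold ts_a
  by_cases hc : IsCoprime b m
  swap
  · simp [hc]
  rw [if_pos hc, if_pos hc, sm_dvd (hm.pow 3), hz]
  have e1 : Nr (b₀ * b) * X / Nr (m ^ 3) = Nr b * (Nr b₀ * X / Nr (m ^ 3)) := by
    rw [Nr_mul]; ring
  rw [e1, sv_congr (c' := fun N => (mu m * (vth (m ^ 3) * ψ (m ^ 3) * conj (chi (m ^ 3) (h * T)))) *
    (if b ∣ N then vth N * (ψ N * sig N m) * conj (chi N (h * T)) else 0)), sv_mul]
  · ring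
  intro N hN
  have hiff : b₀ * b ∣ m ^ 3 * N ↔ b ∣ N := by
    constructor
    · intro hd
      exact (hc.pow_right (n := 3)).dvd_of_dvd_mul_left ((dvd_mul_left b b₀).trans hd)
    · intro hd
      exact mul_dvd_mul (q2.trans (dvd_pow_self m (by norm_num))) hd
  by_cases hd : b ∣ N
  swap
  · rw [if_neg (fun h' => hd (hiff.1 h')), if_neg hd, mul_zero]
  rw [if_pos (hiff.2 hd), if_pos hd]
  by_cases hN2 : (2 : O) ∣ N
  · rw [vth_eq_zero hN (Or.inl hN2),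
      vth_eq_zero ((hm.pow 3).mul hN) (Or.inl (hN2.mul_left _))]
    simp
  have h2' : ¬ (2 : O) ∣ N * m := fun h' => (prime_two.dvd_or_dvd h').elim hN2 h2
  rw [hψ.mul, chi_mul_left (hm.pow 3).ne_zero hN.ne_zero, mul_comm (m ^ 3) N, vth_cube hN hm h2',
    map_mul]
  ring

open Classical in
theorem ts_decomp {Q : O} {ψ a : O → ℂ} (hψ : IsCh Q ψ) {A B X : ℝ} (hA : 0 < A) (hX : 0 < X)
    (τ y : ℝ) (T h : O) (ha : Dy Q B a) :
    CSf A ψ a B X τ T h - CLarge A ψ a B X τ y T h =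
      ∑ m ∈ ts_M y, ts_z ψ τ T m h * ∑ b₀ ∈ pdiv m, CFull A (fun n => ψ n * sig n m) (ts_a a m b₀)
        (B / Nr b₀) (Nr b₀ * X / Nr (m ^ 3)) τ T h := by
  rw [← Finset.sum_congr rfl fun m hm => ts_cube hψ τ T h ha (ts_mem_M.1 hm).1, Finset.sum_comm]
  unfold CSf CLarge
  rw [← Finset.sum_sub_distrib]
  refine Finset.sum_congr rfl fun b hb => ?_
  have hb0 := Nr_pos (mem_box.1 hb).1
  have key := ts_sm_lin (K := 1) (σ := 1 / 6) hA (mul_pos hb0 hX) (ts_M y)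
    (fun N => if b ∣ N ∧ Squarefree N then vth N * ψ N * conj (chi N (h * T)) else 0)
    (fun m N => if m ^ 3 ∣ N then
        (if b ∣ N then mu m * (vth N * ψ N * conj (chi N (h * T))) else 0) else 0)
    (fun N hN => by
      split_ifs
      · exact ts_bound hψ _ hN
      · simpa using Real.rpow_nonneg (Nr_nonneg N) _)
    (fun m N hN => by
      have h0 : (0 : ℝ) ≤ 1 * Nr N ^ (1 / 6 : ℝ) := by
        simpa using Real.rpow_nonneg (Nr_nonneg N) _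
      split_ifs
      · rw [norm_mul]
        calc _ ≤ 1 * (1 * Nr N ^ (1 / 6 : ℝ)) :=
              mul_le_mul (norm_mu_le m) (ts_bound hψ _ hN) (norm_nonneg _) zero_le_one
          _ = _ := one_mul _
      · simpa using h0
      · simpa using h0) τ
  rw [sv_congr (c := fun N => if b ∣ N then cy y N * (vth N * ψ N * conj (chi N (h * T))) else 0)
    (c' := fun N => (if b ∣ N ∧ Squarefree N then vth N * ψ N * conj (chi N (h * T)) else 0) -
      ∑ m ∈ ts_M y, if m ^ 3 ∣ N then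
        (if b ∣ N then mu m * (vth N * ψ N * conj (chi N (h * T))) else 0) else 0), key,
    ← Finset.mul_sum]
  · ring
  intro N hN
  by_cases hd : b ∣ N
  swap
  · simp [hd]
  by_cases hv : vth N = 0
  · simp [hv]
  rw [if_pos hd, ts_cy hN hv, sub_mul, Finset.sum_mul]
  congr 1
  · by_cases hs : Squarefree N <;> simp [hs, hd]
  · refine Finset.sum_congr rfl fun m _ => ?_
    by_cases h3 : m ^ 3 ∣ N <;> simp [h3, hd]

end Crest.Agent.R017

end
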