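import Crest.Agent.R017.T2StepAux2

/-! # Row 17: the induction step, part 3: the dual sums -/

set_option autoImplicit false

noncomputable section

open scoped BigOperators ComplexConjugate
open Complex MeasureTheory

namespace Crest.Agent.R017

theorem tt_G_mul (A : ℝ) (ψ ξ a : O → ℂ) (L D τ : ℝ) (t N : O) :
    tt_G A ψ a L D τ t N * ξ N = tt_G A (fun n => ψ n * ξ n) a L D τ t N := by
  unfold tt_G
  split_ifs
  · ring
  · simp

open Classical in
theorem tt_S_split (A : ℝ) {a : O → ℂ} (ha : ∀ b, a b ≠ 0 → Prim b) (L D : ℝ) {d N : O}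
    (hd : Prim d) (hc : IsCoprime d N) :
    tt_S A a L D (d * N) =
      ∑ d₁ ∈ pdiv d, tt_S A (fun b => a (d₁ * b)) (L / Nr d₁) (D * Nr d₁ / Nr d) N := by
  unfold tt_S
  rw [Finset.sum_sigma']
  symm
  refine Finset.sum_bij_ne_zero (fun x _ _ => x.1 * x.2) ?_ ?_ ?_ ?_
  · rintro ⟨d₁, b⟩ h1 -
    obtain ⟨h1, h2⟩ := Finset.mem_sigma.1 h1
    obtain ⟨p1, -⟩ := (mem_pdiv hd.ne_zero).1 h1
    obtain ⟨h3, h4⟩ := mem_box.1 h2
    refine mem_box.2 ⟨mul_ne_zero p1.ne_zero h3, ?_⟩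
    rw [Nr_mul]
    rwa [le_div_iff₀' (Nr_pos p1.ne_zero)] at h4
  · rintro ⟨d₁, b⟩ h1 h2 ⟨d₂, b'⟩ h3 h4 he
    simp only at he h2 h4
    obtain ⟨p1, q1⟩ := (mem_pdiv hd.ne_zero).1 (Finset.mem_sigma.1 h1).1
    obtain ⟨p2, q2⟩ := (mem_pdiv hd.ne_zero).1 (Finset.mem_sigma.1 h3).1
    simp only at p1 q1 p2 q2
    have r1 : b ∣ N := by
      by_contra h
      exact h2 (if_neg h)
    have r2 : b' ∣ N := by
      by_contra h
      exact h4 (if_neg h)
    have c1 : IsCoprime d₁ b' := (hc.of_isCoprime_of_dvd_left q1).of_isCoprime_of_dvd_right r2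
    have c2 : IsCoprime d₂ b := (hc.of_isCoprime_of_dvd_left q2).of_isCoprime_of_dvd_right r1
    have e : d₁ = d₂ := p1.eq_of_associated p2 (associated_of_dvd_dvd
      (c1.dvd_of_dvd_mul_right (he ▸ dvd_mul_right _ _))
      (c2.dvd_of_dvd_mul_right (he ▸ dvd_mul_right _ _)))
    subst e
    rw [mul_left_cancel₀ p1.ne_zero he]
  · intro b hb h
    have r1 : b ∣ d * N := by
      by_contra h'
      exact h (if_neg h')
    rw [if_pos r1] at h
    have pb := ha b (left_ne_zero_of_mul h)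
    obtain ⟨u, v, hu, hv, rfl⟩ := exists_dvd_and_dvd_of_dvd_mul r1
    obtain ⟨w, hw, pw⟩ := exists_prim (x := u) fun h' => pb.not_lam_dvd (h'.mul_right _)
    obtain ⟨w', hw'⟩ := hw.exists_right_inv
    have e : w * u * (w' * v) = u * v := by linear_combination (u * v) * hw'
    have hw'u : IsUnit w' := IsUnit.of_mul_eq_one_right _ hw'
    have r2 : w' * v ∣ N := (hw'u.mul_left_dvd).2 hv
    refine ⟨⟨w * u, w' * v⟩, Finset.mem_sigma.2 ⟨(mem_pdiv hd.ne_zero).2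
      ⟨pw, (hw.mul_left_dvd).2 hu⟩, mem_box.2 ⟨?_, ?_⟩⟩, ?_, e⟩
    · exact right_ne_zero_of_mul (e ▸ pb.ne_zero)
    · rw [le_div_iff₀' (Nr_pos pw.ne_zero), ← Nr_mul, e]
      exact (mem_box.1 hb).2
    · simp only
      rw [if_pos r2, e]
      exact mul_ne_zero (left_ne_zero_of_mul h) (by exact_mod_cast (W_pos _ _).ne')
  · rintro ⟨d₁, b⟩ h1 h2
    simp only at h2 ⊢
    obtain ⟨p1, q1⟩ := (mem_pdiv hd.ne_zero).1 (Finset.mem_sigma.1 h1).1
    simp only at p1 q1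
    have r1 : b ∣ N := by
      by_contra h
      exact h2 (if_neg h)
    rw [if_pos r1, if_pos (mul_dvd_mul q1 r1), Nr_mul, Nr_mul]
    congr 3
    have := (Nr_pos hd.ne_zero).ne'
    rw [mul_div_assoc', div_div_eq_mul_div]
    ring

open Classical in
theorem tt_coef {Q : O} (h6 : (6 : O) ∣ Q) {ψ : O → ℂ} (hψ : IsCh Q ψ) {d n : O} (hd : Prim d)
    (hn : Prim n) (t h : O) :
    mu (d * n) * ψ (d * n) * chi (d * n) t * g6 n * conj (chi n h) = mu d * ψ d * chi d t *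
      (if Squarefree n then vth n * ψ n * conj (chi n (h * (t ^ 5 * d ^ 6))) else 0) := by
  by_cases hψn : ψ n = 0
  · simp [hψ.mul, hψn]
  have cn : IsCoprime n 6 := (ch_cop hψ hψn).of_isCoprime_of_dvd_right h6
  have e : conj (chi n (h * (t ^ 5 * d ^ 6))) =
      conj (chi n h) * chi n t * if IsCoprime n (6 * d) then 1 else 0 := by
    rw [chi_mul_right, chi_mul_right, chi_pow_right _ _ (by norm_num), chi_pow_right _ _ (by norm_num),
      chi_pow_six hn.ne_zero, ← conj_chi, map_mul, map_mul, Complex.conj_conj, mul_assoc]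
    split_ifs <;> simp
  rw [e]
  by_cases hc : IsCoprime d n
  swap
  · rw [tt_mu_mul_zero hc, if_neg (c := IsCoprime n (6 * d)) fun h => hc h.of_mul_right_right.symm]
    simp
  rw [if_pos (c := IsCoprime n (6 * d)) (cn.mul_right hc.symm), mu_mul hc, hψ.mul,
    chi_mul_left hd.ne_zero hn.ne_zero]
  split_ifs with hs
  · rw [key_identity hn cn hs]; ring
  · rw [mu_eq_zero.2 hs]; ring

open Classical in
/-- The dual sum in terms of `CSf`. -/
theorem tt_col {Q : O} (h6 : (6 : O) ∣ Q) {A D : ℝ} (hA : 0 < A) (hD : 0 < D) {ψ a : O → ℂ}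
    (hψ : IsCh Q ψ) (ha : ∀ b, a b ≠ 0 → Prim b) (L τ σ s : ℝ) (t : O) {d : O} (hd : Prim d)
    (h : O) :
    colF (fun n => tt_G A ψ a L D τ t (d * n) * g6 n * (Nr n : ℂ) ^ ((σ : ℂ) + s * I)) h =
      (mu d * ψ d * chi d t * (Nr d : ℂ) ^ (-(τ * I))) * ∑ d₁ ∈ pdiv d,
        (((D * Nr d₁ / Nr d) ^ σ * Real.exp (A * σ ^ 2) : ℝ) : ℂ) *
        CSf A ψ (fun b => a (d₁ * b) * ((Nr b ^ σ : ℝ) : ℂ)) (L / Nr d₁)
          (D * Nr d₁ / Nr d * Real.exp (2 * A * σ)) (τ - s) (t ^ 5 * d ^ 6) h := by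
  set c : O → ℂ := fun n =>
    if Squarefree n then vth n * ψ n * conj (chi n (h * (t ^ 5 * d ^ 6))) else 0 with hc
  have hd0 := Nr_pos hd.ne_zero
  have hX : ∀ d₁ ∈ pdiv d, 0 < D * Nr d₁ / Nr d := fun d₁ h1 => by
    have := Nr_pos ((mem_pdiv hd.ne_zero).1 h1).1.ne_zero
    positivity
  have hcb : ∀ n, Prim n → ‖c n * (Nr n : ℂ) ^ ((σ : ℂ) + s * I)‖ ≤ 1 * Nr n ^ (1 / 6 + σ) := by
    intro n hn
    have h0 := Nr_pos hn.ne_zero
    rw [norm_mul, Complex.norm_cpow_eq_rpow_re_of_pos h0, l3_re, one_mul, Real.rpow_add h0]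
    refine mul_le_mul_of_nonneg_right ?_ (by positivity)
    simp only [hc]
    split_ifs
    · rw [norm_mul, norm_mul, Complex.norm_conj]
      have h1 := norm_vth_le hn
      have h2 := hψ.norm_le n
      have h3 := norm_chi_le n (h * (t ^ 5 * d ^ 6))
      calc ‖vth n‖ * ‖ψ n‖ * ‖chi n (h * (t ^ 5 * d ^ 6))‖ ≤ Nr n ^ (1 / 6 : ℝ) * 1 * 1 := by
            gcongr
        _ = _ := by ring
    · rw [norm_zero]; positivity
  have H := (hasSum_sum fun d₁ h1 => tt_hasSum_sm (L := L / Nr d₁) (τ := τ) hA (hX d₁ h1)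
    (fun b => a (d₁ * b)) hcb).mul_left (mu d * ψ d * chi d t * (Nr d : ℂ) ^ (-(τ * I)))
  have e : colF (fun n => tt_G A ψ a L D τ t (d * n) * g6 n * (Nr n : ℂ) ^ ((σ : ℂ) + s * I)) h =
      ∑' n, (mu d * ψ d * chi d t * (Nr d : ℂ) ^ (-(τ * I))) * ∑ d₁ ∈ pdiv d,
        (if Prim n then c n * (Nr n : ℂ) ^ ((σ : ℂ) + s * I) * (Nr n : ℂ) ^ (-(τ * I)) *
          tt_S A (fun b => a (d₁ * b)) (L / Nr d₁) (D * Nr d₁ / Nr d) n else 0) := by
    refine tsum_congr fun n => ?_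
    simp only [tt_G]
    by_cases hn : Prim n
    swap
    · have hn' : ¬ Prim (d * n) := fun h => hn (hd.of_mul h)
      simp [hn, hn']
    simp only [if_pos hn, if_pos (hd.mul hn)]
    rw [← Finset.mul_sum]
    have k := tt_coef h6 hψ hd hn t h
    have k2 : ((Nr (d * n) : ℝ) : ℂ) ^ (-(τ * I)) =
        (Nr d : ℂ) ^ (-(τ * I)) * (Nr n : ℂ) ^ (-(τ * I)) := by
      rw [Nr_mul, ofReal_mul, mul_cpow_ofReal_nonneg (Nr_nonneg _) (Nr_nonneg _)]
    by_cases hcop : IsCoprime d n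
    · rw [← tt_S_split A ha L D hd hcop, k2]
      linear_combination ((Nr d : ℂ) ^ (-(τ * I)) * (Nr n : ℂ) ^ (-(τ * I)) *
        (Nr n : ℂ) ^ ((σ : ℂ) + s * I) * tt_S A a L D (d * n)) * k
    · rw [tt_mu_mul_zero hcop] at k ⊢
      linear_combination ((Nr d : ℂ) ^ (-(τ * I)) * (Nr n : ℂ) ^ (-(τ * I)) *
        (Nr n : ℂ) ^ ((σ : ℂ) + s * I) *
        ∑ d₁ ∈ pdiv d, tt_S A (fun b => a (d₁ * b)) (L / Nr d₁) (D * Nr d₁ / Nr d) n) * k
  rw [e, H.tsum_eq]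
  congr 1
  refine Finset.sum_congr rfl fun d₁ h1 => ?_
  rw [CSf, Finset.mul_sum]
  refine Finset.sum_congr rfl fun b hb => ?_
  have hb0 := Nr_pos (mem_box.1 hb).1
  have e1 : (fun N => if b ∣ N then c N * (Nr N : ℂ) ^ ((σ : ℂ) + s * I) else 0) =
      fun N => (if b ∣ N ∧ Squarefree N then
        vth N * ψ N * conj (chi N (h * (t ^ 5 * d ^ 6))) else 0) *
          (Nr N : ℂ) ^ ((σ : ℂ) + s * I) := by
    funext N
    by_cases h2 : b ∣ N <;> simp [hc, h2]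
  rw [e1, sm_rpow hA (mul_pos hb0 (hX d₁ h1)), Real.mul_rpow hb0.le (hX d₁ h1).le, mul_assoc (Nr b)]
  push_cast
  ring

end Crest.Agent.R017

end
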