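import Crest.Agent.R017.T2StepAux1

/-! # Row 17: the induction step, part 4: numerical inequalities and divisor sums -/

set_option autoImplicit false

noncomputable section

open scoped BigOperators ComplexConjugate
open Complex MeasureTheory

namespace Crest.Agent.R017

/-- The size constraints on one dual sum. -/
structure tt_Num (R D L q E X B X' k H : ℝ) : Prop where
  hD : 1 ≤ D
  hL : 1 ≤ L
  hq : 1 ≤ q
  hE : 1 ≤ E
  hX : 0 < X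
  hXD : X ≤ D
  hB : 0 < B
  hBL : B ≤ L
  hX' : 0 < X'
  hXX : X' ≤ X
  hk : k * (X * B) = D * L
  hH : H = (X * B) ^ 2 * E / R
  h1 : D * L ^ 2 * q ≤ R
  h2 : L ^ 3 * D ^ (2 / 3 : ℝ) * q ≤ R

section
variable {R D L q E X B X' k H : ℝ}

theorem tt_Num.R_pos (h : tt_Num R D L q E X B X' k H) : 0 < R := by
  have := h.hD; have := h.hL; have := h.hq
  exact lt_of_lt_of_le (by positivity) h.h1

theorem tt_Num.H_pos (h : tt_Num R D L q E X B X' k H) : 0 < H := by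
  have := h.hX; have := h.hB; have := h.hE; have := h.R_pos
  rw [h.hH]
  positivity

theorem tt_Num.mul (h : tt_Num R D L q E X B X' k H) {z : ℝ} (hz : B * z ≤ R) :
    H * z ≤ E * (X ^ 2 * B) := by
  have := h.hX; have := h.hB; have := h.hE; have := h.R_pos
  rw [h.hH, div_mul_eq_mul_div, div_le_iff₀ h.R_pos]
  calc (X * B) ^ 2 * E * z = E * (X ^ 2 * B) * (B * z) := by ring
    _ ≤ _ := by gcongr

theorem tt_Num.t1 (h : tt_Num R D L q E X B X' k H) : X' * H ≤ E * (X ^ 2 * B) := by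
  rw [mul_comm]
  refine h.mul (le_trans ?_ h.h1)
  have := h.hD; have := h.hL; have := h.hq; have := h.hX'; have := h.hB
  have := h.hBL; have := h.hXX.trans h.hXD
  calc B * X' ≤ L * D := by gcongr
    _ = D * (L * 1) * 1 := by ring
    _ ≤ D * (L * L) * q := by gcongr
    _ = _ := by ring

theorem tt_Num.t7 (h : tt_Num R D L q E X B X' k H) : H * X' * B * q ≤ E * (X ^ 2 * B) := by
  rw [mul_assoc, mul_assoc]
  refine h.mul (le_trans ?_ h.h1)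
  have := h.hD; have := h.hL; have := h.hq; have := h.hX'; have := h.hB
  have := h.hBL; have := h.hXX.trans h.hXD
  calc B * (X' * (B * q)) ≤ L * (D * (L * q)) := by gcongr
    _ = _ := by ring

theorem tt_Num.t8 (h : tt_Num R D L q E X B X' k H) {α : ℝ} (h0 : 0 ≤ α) (hα : α ≤ 2 / 3) :
    H * B ^ 2 * X' ^ α * q ≤ E * (X ^ 2 * B) := by
  rw [mul_assoc, mul_assoc]
  refine h.mul (le_trans ?_ h.h2)
  have := h.hD; have := h.hL; have := h.hq; have := h.hX'; have := h.hB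
  have := h.hBL; have h1 := h.hXX.trans h.hXD
  have h2 : X' ^ α ≤ D ^ (2 / 3 : ℝ) :=
    (Real.rpow_le_rpow h.hX'.le h1 h0).trans (Real.rpow_le_rpow_of_exponent_le h.hD hα)
  calc B * (B ^ 2 * (X' ^ α * q)) ≤ L * (L ^ 2 * (D ^ (2 / 3 : ℝ) * q)) := by gcongr
    _ = _ := by ring

theorem tt_Num.t2 (h : tt_Num R D L q E X B X' k H) :
    H ^ 2 * q ^ 2 * k * B ≤ E ^ 2 * (X ^ 2 * B) := by
  have := h.hD; have := h.hL; have := h.hq; have := h.hX; have := h.hB; have := h.hE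
  have := h.hBL; have := h.hXD; have := h.R_pos; have := h.h1
  have e : H ^ 2 * q ^ 2 * k * B = E ^ 2 * (X ^ 2 * B) * (X * B ^ 3 * (D * L) * q ^ 2 / R ^ 2) := by
    rw [h.hH, ← h.hk]
    field_simp
  rw [e]
  refine mul_le_of_le_one_right (by positivity) ((div_le_one (by positivity)).2 ?_)
  calc X * B ^ 3 * (D * L) * q ^ 2 ≤ D * L ^ 3 * (D * L) * q ^ 2 := by gcongr
    _ = (D * L ^ 2 * q) ^ 2 := by ring
    _ ≤ _ := by gcongr

theorem tt_Num.t3 (h : tt_Num R D L q E X B X' k H) :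
    X' ^ (5 / 4 : ℝ) * H ^ (1 / 2 : ℝ) * B ≤ E * (X ^ 2 * B) := by
  have := h.hD; have := h.hL; have := h.hq; have := h.hX; have := h.hB; have := h.hE
  have := h.hBL; have := h.hX'; have := h.H_pos; have := h.hXX
  refine (pow_le_pow_iff_left₀ (by positivity) (by positivity) two_ne_zero).1 ?_
  have e1 : (H ^ (1 / 2 : ℝ)) ^ 2 = H := by
    rw [← Real.rpow_natCast, ← Real.rpow_mul h.H_pos.le]
    norm_num
  have e2 : (X' ^ (5 / 4 : ℝ)) ^ 2 = X' ^ 2 * X' ^ (1 / 2 : ℝ) := by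
    rw [← Real.rpow_natCast, ← Real.rpow_mul h.hX'.le, ← Real.rpow_natCast, ← Real.rpow_add h.hX']
    norm_num
  have h2 : X' ^ (1 / 2 : ℝ) ≤ D := by
    refine (Real.rpow_le_rpow h.hX'.le (h.hXX.trans h.hXD) (by norm_num)).trans ?_
    simpa using Real.rpow_le_rpow_of_exponent_le h.hD (show (1 / 2 : ℝ) ≤ 1 by norm_num)
  have h3 : H * (D * B) ≤ E * (X ^ 2 * B) := by
    refine h.mul (le_trans ?_ h.h1)
    calc B * (D * B) ≤ L * (D * L) := by gcongr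
      _ = D * L ^ 2 * 1 := by ring
      _ ≤ _ := by gcongr
  rw [mul_pow, mul_pow, e1, e2]
  calc X' ^ 2 * X' ^ (1 / 2 : ℝ) * H * B ^ 2 ≤ X ^ 2 * D * H * B ^ 2 := by gcongr
    _ = 1 * (X ^ 2 * B) * (H * (D * B)) := by ring
    _ ≤ E * (X ^ 2 * B) * (E * (X ^ 2 * B)) := by gcongr
    _ = _ := by ring

theorem tt_Num.small (h : tt_Num R D L q E X B X' k H) :
    X' * H + H ^ 2 * q ^ 2 * k * B + X' ^ (5 / 4 : ℝ) * H ^ (1 / 2 : ℝ) * B +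
      X' ^ (1 / 2 : ℝ) * B ^ 2 * H * q ≤ 4 * E ^ 2 * (X ^ 2 * B) := by
  have h1 := h.t1
  have h2 := h.t2
  have h3 := h.t3
  have h4 := h.t8 (α := 1 / 2) (by norm_num) (by norm_num)
  have := h.hX; have := h.hB; have := h.hE
  have h5 : E * (X ^ 2 * B) ≤ E ^ 2 * (X ^ 2 * B) := by
    gcongr
    nlinarith
  linarith

theorem tt_Num.large (h : tt_Num R D L q E X B X' k H) {Ξ : ℝ} (hΞ : 0 ≤ Ξ) :
    X' * H + Ξ * (X' ^ 2 * B + H * X' * B * q + H * B ^ 2 * X' ^ (2 / 3 : ℝ) * q) ≤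
      3 * (1 + Ξ) * E ^ 2 * (X ^ 2 * B) := by
  have h1 := h.t1
  have h2 := h.t7
  have h3 := h.t8 (α := 2 / 3) (by norm_num) le_rfl
  have := h.hX; have := h.hB; have := h.hE; have := h.hX'; have := h.hXX
  have h5 : E * (X ^ 2 * B) ≤ E ^ 2 * (X ^ 2 * B) := by
    gcongr
    nlinarith
  have h6 : X' ^ 2 * B ≤ E * (X ^ 2 * B) := by
    calc X' ^ 2 * B ≤ X ^ 2 * B := by gcongr
      _ ≤ _ := le_mul_of_one_le_left (by positivity) h.hE
  have h7 : Ξ * (X' ^ 2 * B + H * X' * B * q + H * B ^ 2 * X' ^ (2 / 3 : ℝ) * q) ≤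
      Ξ * (3 * (E ^ 2 * (X ^ 2 * B))) := mul_le_mul_of_nonneg_left (by linarith) hΞ
  have h8 : 0 ≤ E ^ 2 * (X ^ 2 * B) := by positivity
  linarith

end

theorem tt_num_pre {σ R X B x : ℝ} (hσ : 0 ≤ σ) (hR : 0 < R) (hX : 0 < X) (hB : 0 < B) (hx : 0 < x)
    (h : (X * B) ^ 2 ≤ x * R) :
    R ^ (1 - σ) * (X ^ (σ - 1 / 2)) ^ 2 * ((B / 2) ^ (σ - 1 / 2)) ^ 2 * (X ^ 2 * B) ≤
      2 * x ^ σ * R * X := by
  have e1 : (X ^ (σ - 1 / 2)) ^ 2 * ((B / 2) ^ (σ - 1 / 2)) ^ 2 =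
      ((X * B / 2) ^ 2) ^ σ / (X * B / 2) := by
    have h0 : 0 < X * B / 2 := by positivity
    rw [← mul_pow, ← Real.mul_rpow hX.le (by positivity), ← mul_div_assoc, ← Real.rpow_natCast,
      ← Real.rpow_natCast, ← Real.rpow_mul h0.le, ← Real.rpow_mul h0.le, ← Real.rpow_sub_one h0.ne']
    congr 1
    push_cast
    ring
  have h2 : ((X * B / 2) ^ 2) ^ σ ≤ x ^ σ * R ^ σ := by
    rw [← Real.mul_rpow hx.le hR.le]
    refine Real.rpow_le_rpow (by positivity) (le_trans ?_ h) hσ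
    have : 0 < X * B := by positivity
    nlinarith
  have e3 : R ^ (1 - σ) * R ^ σ = R := by
    rw [← Real.rpow_add hR, sub_add_cancel, Real.rpow_one]
  rw [mul_assoc (R ^ (1 - σ)), e1]
  calc R ^ (1 - σ) * (((X * B / 2) ^ 2) ^ σ / (X * B / 2)) * (X ^ 2 * B) =
      2 * R ^ (1 - σ) * ((X * B / 2) ^ 2) ^ σ * X := by field_simp
    _ ≤ 2 * R ^ (1 - σ) * (x ^ σ * R ^ σ) * X := by gcongr
    _ = 2 * x ^ σ * (R ^ (1 - σ) * R ^ σ) * X := by ring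
    _ = _ := by rw [e3]

theorem tt_sum_inj {α β : Type*} [DecidableEq β] {s : Finset α} {t : Finset β} (i : α → β)
    {f : α → ℝ} {g : β → ℝ} (hi : Set.InjOn i s) (hm : ∀ a ∈ s, i a ∈ t)
    (hf : ∀ a ∈ s, f a ≤ g (i a)) (hg : ∀ b ∈ t, 0 ≤ g b) : ∑ a ∈ s, f a ≤ ∑ b ∈ t, g b := by
  refine (Finset.sum_le_sum hf).trans ?_
  rw [← Finset.sum_image hi]
  exact Finset.sum_le_sum_of_subset_of_nonneg (Finset.image_subset_iff.2 hm) fun b hb _ => hg b hb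

open Classical in
theorem tt_sum_d1 {x : ℝ} {f : O → ℝ} (hf : ∀ d, 0 ≤ f d) :
    ∑ d ∈ box x, ∑ d₁ ∈ pdiv d, Nr d₁ / Nr d * f d₁ ≤
      (∑ d ∈ box x, (Nr d)⁻¹) * ∑ d₁ ∈ box x, f d₁ := by
  rw [Finset.sum_mul_sum, Finset.sum_sigma', ← Finset.sum_product']
  refine tt_sum_inj (fun p => (p.1 / p.2, p.2)) ?_ ?_ ?_ ?_
  · rintro ⟨d, d₁⟩ h1 ⟨d', d₂⟩ h2 he
    obtain ⟨h1, h3⟩ := Finset.mem_sigma.1 h1
    obtain ⟨h2, h4⟩ := Finset.mem_sigma.1 h2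
    obtain ⟨p1, q1⟩ := (mem_pdiv (mem_box.1 h1).1).1 h3
    obtain ⟨p2, q2⟩ := (mem_pdiv (mem_box.1 h2).1).1 h4
    simp only [Prod.mk.injEq] at he p1 q1 p2 q2
    obtain ⟨he, rfl⟩ := he
    have : d = d' := by
      rw [← EuclideanDomain.mul_div_cancel' p1.ne_zero q1, he,
        EuclideanDomain.mul_div_cancel' p1.ne_zero q2]
    rw [this]
  · rintro ⟨d, d₁⟩ h1
    obtain ⟨h1, h3⟩ := Finset.mem_sigma.1 h1
    obtain ⟨h0, hx⟩ := mem_box.1 h1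
    obtain ⟨p1, q1⟩ := (mem_pdiv h0).1 h3
    simp only at h0 hx p1 q1
    have e := EuclideanDomain.mul_div_cancel' p1.ne_zero q1
    refine Finset.mem_product.2 ⟨mem_box.2 ⟨right_ne_zero_of_mul (e.symm ▸ h0), ?_⟩,
      mem_box.2 ⟨p1.ne_zero, (Nr_le_of_dvd h0 q1).trans hx⟩⟩
    exact (Nr_le_of_dvd h0 (Dvd.intro_left _ e)).trans hx
  · rintro ⟨d, d₁⟩ h1
    obtain ⟨h1, h3⟩ := Finset.mem_sigma.1 h1
    obtain ⟨h0, -⟩ := mem_box.1 h1
    obtain ⟨p1, c, hc⟩ := (mem_pdiv h0).1 h3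
    simp only at p1 hc ⊢
    subst hc
    rw [mul_div_cancel_left₀ _ p1.ne_zero, Nr_mul, div_mul_cancel_left₀ (Nr_pos p1.ne_zero).ne']
  · exact fun b _ => mul_nonneg (inv_nonneg.2 (Nr_nonneg _)) (hf _)

open Classical in
theorem tt_sum_d2 {e : ℝ} (he : 0 < e) : ∃ C : ℝ, 0 ≤ C ∧ ∀ (x L : ℝ) (f : O → ℝ), (∀ b, 0 ≤ f b) →
    0 < L → ∑ d₁ ∈ box x, ∑ b ∈ box (L / Nr d₁), f (d₁ * b) ≤ C * L ^ e * ∑ b ∈ box L, f b := by
  obtain ⟨C, hC⟩ := a2_card_div he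
  refine ⟨|C|, abs_nonneg _, fun x L f hf hL => ?_⟩
  have h1 : ∀ d₁ ∈ box x, ∑ b ∈ box (L / Nr d₁), f (d₁ * b) ≤
      ∑ c ∈ box L, if d₁ ∣ c then f c else 0 := by
    intro d₁ h1
    have h0 := (mem_box.1 h1).1
    refine tt_sum_inj (fun b => d₁ * b) (mul_right_injective₀ h0).injOn (fun b hb => ?_)
      (fun b _ => by simp) fun c _ => by split_ifs; exacts [hf c, le_rfl]
    obtain ⟨h3, h4⟩ := mem_box.1 hb
    refine mem_box.2 ⟨mul_ne_zero h0 h3, ?_⟩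
    rw [Nr_mul]
    rwa [le_div_iff₀' (Nr_pos h0)] at h4
  refine (Finset.sum_le_sum h1).trans ?_
  rw [Finset.sum_comm, Finset.mul_sum]
  refine Finset.sum_le_sum fun c hc => ?_
  obtain ⟨h0, h2⟩ := mem_box.1 hc
  rw [← Finset.sum_filter, Finset.sum_const, nsmul_eq_mul]
  refine mul_le_mul_of_nonneg_right
    ((hC c h0 _ fun d hd => (Finset.mem_filter.1 hd).2).trans ?_) (hf c)
  have := Nr_nonneg c
  gcongr
  exact le_abs_self _

theorem tt_sum_inv {e : ℝ} (he : 0 < e) : ∃ C : ℝ, 0 ≤ C ∧ ∀ x : ℝ, 1 ≤ x →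
    ∑ d ∈ box x, (Nr d)⁻¹ ≤ C * x ^ e := by
  obtain ⟨C, hC⟩ := sum_box_inv_le
  refine ⟨|C| * (1 + 1 / e), by positivity, fun x hx => (hC x hx).trans ?_⟩
  have h1 := Real.log_le_rpow_div (by linarith : 0 ≤ x) he
  have h2 := Real.one_le_rpow hx he.le
  have h3 := Real.log_nonneg hx
  rw [mul_assoc]
  refine mul_le_mul (le_abs_self _) ?_ (by positivity) (abs_nonneg _)
  rw [add_mul, one_mul, one_div, inv_mul_eq_div]
  linarith

theorem tt_sum_d {e : ℝ} (he : 0 < e) : ∃ C : ℝ, 0 ≤ C ∧ ∀ (x L : ℝ) (f : O → ℝ), (∀ b, 0 ≤ f b) →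
    1 ≤ x → 0 < L → L ≤ x →
    ∑ d ∈ box x, ∑ d₁ ∈ pdiv d, Nr d₁ / Nr d * ∑ b ∈ box (L / Nr d₁), f (d₁ * b) ≤
      C * (x ^ e) ^ 2 * ∑ b ∈ box L, f b := by
  obtain ⟨C, hC0, hC⟩ := tt_sum_d2 he
  obtain ⟨C', hC0', hC'⟩ := tt_sum_inv he
  refine ⟨C' * C, by positivity, fun x L f hf hx hL hLx => ?_⟩
  refine (tt_sum_d1 (f := fun d₁ => ∑ b ∈ box (L / Nr d₁), f (d₁ * b))
    fun d => Finset.sum_nonneg fun _ _ => hf _).trans ?_
  have h0 : 0 ≤ ∑ b ∈ box L, f b := Finset.sum_nonneg fun _ _ => hf _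
  calc _ ≤ (C' * x ^ e) * (C * L ^ e * ∑ b ∈ box L, f b) :=
        mul_le_mul (hC' x hx) (hC x L f hf hL)
          (Finset.sum_nonneg fun _ _ => Finset.sum_nonneg fun _ _ => hf _) (by positivity)
    _ ≤ (C' * x ^ e) * (C * x ^ e * ∑ b ∈ box L, f b) := by gcongr
    _ = _ := by ring

theorem tt_TwoB_mono {P : O → Prop} {Q : O} {A D₀ D₁ x x₁ Ξ C : ℝ} (hD : D₁ ≤ D₀) (hx : x₁ ≤ x)
    (h : TwoB P Q A D₀ x Ξ C) : TwoB P Q A D₁ x₁ Ξ C :=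
  fun R D L τ ψ a t k h1 h2 h3 h4 h5 h6 h7 h8 h9 h10 h11 h12 h13 =>
    h R D L τ ψ a t k h1 h2 h3 h4 h5 (h6.trans hx) h7 (h8.trans hD) h9 (h10.trans hx) (h11.trans hx)
      (h12.trans hx) h13

end Crest.Agent.R017

end
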