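import Crest.Agent.R017.T2Small
import Crest.Agent.R017.T2Large
import Crest.Agent.R017.T2StepAux3
import Crest.Agent.R017.T2StepAux4

/-! # Row 17: the induction step, part 5: the bound for the dual sums -/

set_option autoImplicit false

noncomputable section

open scoped BigOperators ComplexConjugate
open Complex MeasureTheory

namespace Crest.Agent.R017

theorem tt_Dy {Q : O} {L : ℝ} {a : O → ℂ} (ha : Dy Q L a) {d₁ : O} (hd : Prim d₁) (c : O → ℂ) :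
    Dy Q (L / Nr d₁) (fun b => a (d₁ * b) * c b) := by
  intro b hb
  obtain ⟨⟨h1, h2, h3⟩, h4, h5⟩ := ha _ (left_ne_zero_of_mul hb)
  have h0 := Nr_pos hd.ne_zero
  rw [Nr_mul] at h4 h5
  refine ⟨⟨hd.of_mul h1, h2.of_mul_right, h3.of_mul_left_right⟩, ?_, ?_⟩
  · rw [div_right_comm, div_lt_iff₀' h0]
    exact h4
  · rw [le_div_iff₀' h0]
    exact h5

theorem tt_coef_le {Q : O} {B σ : ℝ} (hB : 0 < B) (hσ : σ ≤ 0) {a : O → ℂ}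
    (ha : Dy Q B (fun b => a b * ((Nr b ^ σ : ℝ) : ℂ))) :
    ∑ b ∈ box B, ‖a b * ((Nr b ^ σ : ℝ) : ℂ)‖ ^ 2 ≤ ((B / 2) ^ σ) ^ 2 * ∑ b ∈ box B, ‖a b‖ ^ 2 := by
  rw [Finset.mul_sum]
  refine Finset.sum_le_sum fun b _ => ?_
  by_cases h : a b * ((Nr b ^ σ : ℝ) : ℂ) = 0
  · rw [h, norm_zero, zero_pow two_ne_zero]
    positivity
  have h1 := (ha b h).2.1
  have h2 : Nr b ^ σ ≤ (B / 2) ^ σ := Real.rpow_le_rpow_of_nonpos (by positivity) h1.le hσ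
  have h3 : 0 ≤ Nr b ^ σ := Real.rpow_nonneg (Nr_nonneg _) _
  rw [norm_mul, norm_real, Real.norm_of_nonneg h3, mul_pow, mul_comm]
  gcongr

theorem tt_dual1 {Q : O} (hQ : Q ≠ 0) (h72 : (72 : O) ∣ Q) {A e C₀ : ℝ} (hA : 0 < A) (he : 0 < e)
    (he' : e ≤ 1 / 4) (hC₀ : 0 ≤ C₀) : ∃ C K : ℝ, 0 ≤ C ∧ 0 ≤ K ∧
    ∀ (x y D₀ Ξ R D L s : ℝ) (ψ a : O → ℂ) (t d d₁ : O), 2 ≤ x → Real.exp (3 + 4 * A) ≤ y → y ≤ x →
      D₀ ≤ x → 0 ≤ Ξ → TwoB (fun _ => True) Q A (D₀ / y) (x ^ (100 : ℕ)) Ξ C₀ → IsCh Q ψ → t ≠ 0 →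
      1 ≤ D → D ≤ D₀ → 1 ≤ L → L ≤ x → Nr (rad t) ≤ x → Dy Q L a → D * L ^ 2 * Nr (rad t) ≤ R →
      L ^ 3 * D ^ (2 / 3 : ℝ) * Nr (rad t) ≤ R → Adm Q d → Nr d ≤ x → d₁ ∈ pdiv d →
      R ^ (1 - e) * NS ((D * L / Nr d) ^ 2 * x ^ e / R) (fun h =>
        (((D * Nr d₁ / Nr d) ^ (e - 1 / 2) * Real.exp (A * (e - 1 / 2) ^ 2) : ℝ) : ℂ) *
        CSf A ψ (fun b => a (d₁ * b) * ((Nr b ^ (e - 1 / 2) : ℝ) : ℂ)) (L / Nr d₁)
          (D * Nr d₁ / Nr d * Real.exp (2 * A * (e - 1 / 2))) s (t ^ 5 * d ^ 6) h) ≤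
      C * (x ^ e) ^ 5 * (y ^ 3 + Ξ) * (1 + |s|) ^ K * R * D *
        (Nr d₁ / Nr d * ∑ b ∈ box (L / Nr d₁), ‖a (d₁ * b)‖ ^ 2) := by
  obtain ⟨Cs, hCs0, hCs⟩ := two_small hQ h72 hA he
  obtain ⟨Cl, hCl0, hCl⟩ := two_large hQ h72 hA he hC₀
  refine ⟨Real.exp (A * (e - 1 / 2) ^ 2) ^ 2 * (8 * Cs + 6 * Cl) * 2, Cs + Cl, by positivity,
    by positivity, fun x y D₀ Ξ R D L s ψ a t d d₁ hx hy hyx hD₀ hΞ hT hψ ht hD hDD hL hLx hq ha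
      hR1 hR2 hd hdx hd₁ => ?_⟩
  obtain ⟨p1, q1⟩ := (mem_pdiv hd.1.ne_zero).1 hd₁
  have n1 := one_le_Nr p1.ne_zero
  have n2 := Nr_le_of_dvd hd.1.ne_zero q1
  have n3 := one_le_Nr hd.1.ne_zero
  have hq1 := one_le_Nr (rad_ne_zero t)
  have hy1 : 1 ≤ y := le_trans (Real.one_le_exp (by positivity)) hy
  have hx1 : 1 ≤ x := by linarith
  have hxx : x ≤ x ^ 2 := by nlinarith
  have hE : 1 ≤ x ^ e := Real.one_le_rpow hx1 he.le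
  have hEx : x ^ e ≤ x := by
    simpa using Real.rpow_le_rpow_of_exponent_le hx1 (show e ≤ 1 by linarith)
  have hR : 0 < R := lt_of_lt_of_le (by positivity) hR1
  set X := D * Nr d₁ / Nr d with hX
  set B := L / Nr d₁ with hB
  set E := x ^ e with hEd
  set q := Nr (rad t) with hqd
  set H := (D * L / Nr d) ^ 2 * E / R with hH
  set X' := X * Real.exp (2 * A * (e - 1 / 2)) with hX'
  set a₁ : O → ℂ := fun b => a (d₁ * b) * ((Nr b ^ (e - 1 / 2) : ℝ) : ℂ) with ha₁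
  set S := ∑ b ∈ box B, ‖a (d₁ * b)‖ ^ 2 with hS
  have hS0 : 0 ≤ S := Finset.sum_nonneg fun _ _ => sq_nonneg _
  have hX0 : 0 < X := by positivity
  have hB0 : 0 < B := by positivity
  rw [tt_NS_mul]
  by_cases hB1 : 1 ≤ B
  swap
  · have : NS H (CSf A ψ a₁ B X' s (t ^ 5 * d ^ 6)) = 0 := by
      simp [NS, CSf, box_eq_empty (not_le.1 hB1)]
    rw [this, mul_zero, mul_zero]
    positivity
  have hXB : X * B = D * L / Nr d := by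
    rw [hX, hB]
    field_simp
  have hexp : Real.exp (2 * A * (e - 1 / 2)) ≤ 1 := Real.exp_le_one_iff.2 (by nlinarith)
  have hXD : X ≤ D := by
    rw [hX, div_le_iff₀ (by positivity)]
    gcongr
  have N : tt_Num R D L q E X B X' (Nr d) H :=
    { hD := hD, hL := hL, hq := hq1, hE := hE, hX := hX0, hXD := hXD, hB := hB0
      hBL := div_le_self (by positivity) n1
      hX' := by positivity
      hXX := mul_le_of_le_one_right hX0.le hexp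
      hk := by rw [hXB]; field_simp
      hH := by rw [hXB]
      h1 := hR1, h2 := hR2 }
  have hXBR : (X * B) ^ 2 ≤ x * R := by
    have := N.hBL
    calc (X * B) ^ 2 ≤ (D * L) ^ 2 := by gcongr
      _ = D * (D * L ^ 2 * 1) := by ring
      _ ≤ x * (D * L ^ 2 * q) := by gcongr; linarith
      _ ≤ _ := by gcongr
  have hHx : H ≤ x ^ 2 := by
    rw [N.hH, div_le_iff₀ hR]
    calc (X * B) ^ 2 * E ≤ (x * R) * x := by gcongr
      _ = _ := by ring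
  have hXl : (x ^ 2)⁻¹ ≤ X' := by
    have h1 : x⁻¹ ≤ X := by
      rw [hX, inv_eq_one_div]
      refine div_le_div₀ (by positivity) ?_ (by positivity) hdx
      nlinarith
    have h2 : x⁻¹ ≤ Real.exp (2 * A * (e - 1 / 2)) := by
      refine inv_le_of_inv_le₀ (Real.exp_pos _) ?_
      rw [← Real.exp_neg]
      refine le_trans (Real.exp_le_exp.2 ?_) (hy.trans hyx)
      nlinarith
    rw [sq, mul_inv]
    exact mul_le_mul h1 h2 (by positivity) hX0.le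
  have hXu : X' ≤ D₀ := N.hXX.trans (hXD.trans hDD)
  have hDy : Dy Q B a₁ := tt_Dy ha p1 _
  have hS1 : ∑ b ∈ box B, ‖a₁ b‖ ^ 2 ≤ ((B / 2) ^ (e - 1 / 2)) ^ 2 * S :=
    tt_coef_le (a := fun b => a (d₁ * b)) hB0 (by linarith) hDy
  have r1 : rad (t ^ 5) = rad t := rad_pow (by norm_num)
  have r2 : rad d = d := rad_eq_self hd.1 hd.2.1
  have hs := hCs (x ^ 2) y H X' B s ψ a₁ (t ^ 5) d (by linarith) hy1 (by linarith) hψ
    (pow_ne_zero _ ht) hd.1.ne_zero N.H_pos hHx hXl (by linarith) hB1 (by linarith [N.hBL])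
    (by rw [r1]; linarith) (by rw [r2]; linarith) hDy
  have hl := hCl (x ^ 2) y H X' B s Ξ ψ a₁ (t ^ 5) d (by linarith) hy hψ
    (pow_ne_zero _ ht) hd.1.ne_zero N.H_pos hHx hXl (by linarith) hB1 (by linarith [N.hBL])
    (by rw [r1]; linarith) (by rw [r2]; linarith) hDy hΞ
    (tt_TwoB_mono (by gcongr) (by rw [← pow_mul]; exact pow_le_pow_right₀ hx1 (by norm_num)) hT)
  have eE : (x ^ 2) ^ e = E ^ 2 := by
    rw [hEd, ← Real.rpow_natCast, ← Real.rpow_natCast, ← Real.rpow_mul (by linarith),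
      ← Real.rpow_mul (by linarith), mul_comm]
  rw [r1, r2, eE] at hs
  rw [r1, eE] at hl
  set S₁ := ∑ b ∈ box B, ‖a₁ b‖ ^ 2 with hS₁
  have hS10 : 0 ≤ S₁ := Finset.sum_nonneg fun _ _ => sq_nonneg _
  have s1 : 1 ≤ 1 + |s| := by linarith [abs_nonneg s]
  have k1 : (1 + |s|) ^ Cs ≤ (1 + |s|) ^ (Cs + Cl) :=
    Real.rpow_le_rpow_of_exponent_le s1 (by linarith)
  have k2 : (1 + |s|) ^ Cl ≤ (1 + |s|) ^ (Cs + Cl) :=
    Real.rpow_le_rpow_of_exponent_le s1 (by linarith)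
  set T := (1 + |s|) ^ (Cs + Cl) with hT'
  have hT0 : 0 ≤ T := by positivity
  have y3 : 1 ≤ y ^ 3 := one_le_pow₀ hy1
  have hs' : Cs * E ^ 2 * y ^ 3 * (1 + |s|) ^ Cs * S₁ * (X' * H + H ^ 2 * q ^ 2 * Nr d * B +
      X' ^ (5 / 4 : ℝ) * H ^ (1 / 2 : ℝ) * B + X' ^ (1 / 2 : ℝ) * B ^ 2 * H * q) ≤
      Cs * E ^ 2 * (y ^ 3 + Ξ) * T * S₁ * (4 * E ^ 2 * (X ^ 2 * B)) := by
    have := N.small
    have := N.H_pos
    have := N.hX'
    gcongr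
    linarith
  have hl' : Cl * E ^ 2 * (1 + |s|) ^ Cl * S₁ * (X' * H + Ξ * (X' ^ 2 * B + H * X' * B * q +
      H * B ^ 2 * X' ^ (2 / 3 : ℝ) * q)) ≤
      Cl * E ^ 2 * T * S₁ * (3 * (y ^ 3 + Ξ) * E ^ 2 * (X ^ 2 * B)) := by
    have h1 := N.large hΞ
    have h2 : 3 * (1 + Ξ) * E ^ 2 * (X ^ 2 * B) ≤ 3 * (y ^ 3 + Ξ) * E ^ 2 * (X ^ 2 * B) := by gcongr
    have h3 := h1.trans h2
    have := N.H_pos
    have := N.hX'
    gcongr
  have hN : NS H (CSf A ψ a₁ B X' s (t ^ 5 * d ^ 6)) ≤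
      (8 * Cs + 6 * Cl) * E ^ 4 * (y ^ 3 + Ξ) * T * S₁ * (X ^ 2 * B) := by
    have h1 := tt_NS_add H (CSf A ψ a₁ B X' s (t ^ 5 * d ^ 6))
      (CLarge A ψ a₁ B X' s y (t ^ 5 * d ^ 6))
    have h2 := hs.trans hs'
    have h3 := hl.trans hl'
    linarith
  have hpre := tt_num_pre he.le hR hX0 hB0 (by linarith : 0 < x) hXBR
  rw [norm_real, Real.norm_of_nonneg (by positivity), mul_pow]
  calc R ^ (1 - e) * ((X ^ (e - 1 / 2)) ^ 2 * Real.exp (A * (e - 1 / 2) ^ 2) ^ 2 *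
        NS H (CSf A ψ a₁ B X' s (t ^ 5 * d ^ 6)))
      ≤ R ^ (1 - e) * ((X ^ (e - 1 / 2)) ^ 2 * Real.exp (A * (e - 1 / 2) ^ 2) ^ 2 *
        ((8 * Cs + 6 * Cl) * E ^ 4 * (y ^ 3 + Ξ) * T * (((B / 2) ^ (e - 1 / 2)) ^ 2 * S) *
          (X ^ 2 * B))) := by
        gcongr
        refine hN.trans ?_
        gcongr
    _ = Real.exp (A * (e - 1 / 2) ^ 2) ^ 2 * (8 * Cs + 6 * Cl) * E ^ 4 * (y ^ 3 + Ξ) * T * S *
        (R ^ (1 - e) * (X ^ (e - 1 / 2)) ^ 2 * ((B / 2) ^ (e - 1 / 2)) ^ 2 * (X ^ 2 * B)) := by ring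
    _ ≤ Real.exp (A * (e - 1 / 2) ^ 2) ^ 2 * (8 * Cs + 6 * Cl) * E ^ 4 * (y ^ 3 + Ξ) * T * S *
        (2 * E * R * X) := by gcongr
    _ = _ := by rw [hX]; ring

/-- The bound for a dual sum. -/
theorem tt_dual {Q : O} (hQ : Q ≠ 0) (h72 : (72 : O) ∣ Q) {A e C₀ : ℝ} (hA : 0 < A) (he : 0 < e)
    (he' : e ≤ 1 / 4) (hC₀ : 0 ≤ C₀) : ∃ C K : ℝ, 0 ≤ C ∧ 0 ≤ K ∧
    ∀ (x y D₀ Ξ R D L τ s : ℝ) (ψ a : O → ℂ) (t d : O), 2 ≤ x → Real.exp (3 + 4 * A) ≤ y → y ≤ x →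
      D₀ ≤ x → 0 ≤ Ξ → TwoB (fun _ => True) Q A (D₀ / y) (x ^ (100 : ℕ)) Ξ C₀ → IsCh Q ψ → t ≠ 0 →
      1 ≤ D → D ≤ D₀ → 1 ≤ L → L ≤ x → Nr (rad t) ≤ x → Dy Q L a → D * L ^ 2 * Nr (rad t) ≤ R →
      L ^ 3 * D ^ (2 / 3 : ℝ) * Nr (rad t) ≤ R → Adm Q d →
      R ^ (1 - e) * NS ((D * L / Nr d) ^ 2 * x ^ e / R) (colF fun n =>
        tt_G A ψ a L D τ t (d * n) * g6 n * (Nr n : ℂ) ^ (((e - 1 / 2 : ℝ) : ℂ) + s * I)) ≤
      (if d ∈ box x then C * (x ^ e) ^ 6 * (y ^ 3 + Ξ) * (1 + |τ|) ^ K * R * D *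
        ∑ d₁ ∈ pdiv d, Nr d₁ / Nr d * ∑ b ∈ box (L / Nr d₁), ‖a (d₁ * b)‖ ^ 2 else 0) *
        (1 + |s|) ^ K := by
  obtain ⟨C, K, hC0, hK0, hC⟩ := tt_dual1 hQ h72 hA he he' hC₀
  obtain ⟨C', hC0', hC'⟩ := tt_div_const he
  refine ⟨C' * C, K, by positivity, hK0, fun x y D₀ Ξ R D L τ s ψ a t d hx hy hyx hD₀ hΞ hT hψ ht hD
    hDD hL hLx hq ha hR1 hR2 hd => ?_⟩
  have h6 : (6 : O) ∣ Q := (show (6 : O) ∣ 72 from ⟨12, by norm_num⟩).trans h72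
  have hq1 := one_le_Nr (rad_ne_zero t)
  have hR : 0 < R := lt_of_lt_of_le (by positivity) hR1
  have hx1 : 1 ≤ x := by linarith
  have hy1 : 1 ≤ y := le_trans (Real.one_le_exp (by positivity)) hy
  have n3 := one_le_Nr hd.1.ne_zero
  split_ifs with hdx
  swap
  · have h1 : x < Nr d := not_le.1 fun h => hdx (mem_box.2 ⟨hd.1.ne_zero, h⟩)
    have hEx : x ^ e ≤ x := by
      simpa using Real.rpow_le_rpow_of_exponent_le hx1 (show e ≤ 1 by linarith)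
    rw [tt_NS_zero, mul_zero, zero_mul]
    rw [div_lt_one hR, div_pow, div_mul_eq_mul_div, div_lt_iff₀ (by positivity)]
    calc (D * L) ^ 2 * x ^ e = (D * L ^ 2 * 1) * (D * x ^ e) := by ring
      _ ≤ (D * L ^ 2 * Nr (rad t)) * (x * x) := by gcongr; linarith
      _ ≤ R * (x * x) := by gcongr
      _ < R * (Nr d * Nr d) := by gcongr
      _ = _ := by ring
  have hdx' := (mem_box.1 hdx).2
  have e1 := funext fun h => tt_col h6 hA (by linarith : 0 < D) hψ (fun b hb => (ha b hb).1.1) L τ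
    (e - 1 / 2) s t hd.1 h
  rw [show colF (fun n => tt_G A ψ a L D τ t (d * n) * g6 n *
    (Nr n : ℂ) ^ (((e - 1 / 2 : ℝ) : ℂ) + s * I)) = _ from e1, tt_NS_mul]
  have z1 : ‖mu d * ψ d * chi d t * (Nr d : ℂ) ^ (-(τ * I))‖ ^ 2 ≤ 1 := by
    refine pow_le_one₀ (norm_nonneg _) ?_
    rw [norm_mul, sv_norm_cpow hd.1.ne_zero, mul_one, norm_mul, norm_mul]
    have h1 := norm_mu_le d
    have h2 := hψ.norm_le d
    have h3 := norm_chi_le d t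
    calc ‖mu d‖ * ‖ψ d‖ * ‖chi d t‖ ≤ 1 * 1 * 1 := by gcongr
      _ = 1 := by ring
  have hc : ((pdiv d).card : ℝ) ≤ C' * x ^ e := by
    refine (hC' d hd.1.ne_zero _ fun d₁ h => ((mem_pdiv hd.1.ne_zero).1 h).2).trans ?_
    gcongr
  refine le_trans (mul_le_mul_of_nonneg_left ((mul_le_of_le_one_left (l4_nonneg _ _) z1).trans
    ((tt_NS_sum _ _ _).trans (mul_le_mul_of_nonneg_right hc
      (Finset.sum_nonneg fun _ _ => l4_nonneg _ _)))) (by positivity)) ?_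
  rw [mul_left_comm, Finset.mul_sum, Finset.mul_sum, Finset.mul_sum, Finset.sum_mul]
  refine Finset.sum_le_sum fun d₁ h1 => ?_
  have h2 := hC x y D₀ Ξ R D L (τ - s) ψ a t d d₁ hx hy hyx hD₀ hΞ hT hψ ht hD hDD hL hLx hq ha hR1
    hR2 hd hdx' h1
  refine (mul_le_mul_of_nonneg_left h2 (by positivity)).trans ?_
  have k : (1 + |τ - s|) ^ K ≤ (1 + |τ|) ^ K * (1 + |s|) ^ K := by
    rw [← Real.mul_rpow (by positivity) (by positivity)]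
    refine Real.rpow_le_rpow (by positivity) ?_ hK0
    nlinarith [abs_sub τ s, mul_nonneg (abs_nonneg τ) (abs_nonneg s)]
  have h0 : 0 ≤ Nr d₁ / Nr d * ∑ b ∈ box (L / Nr d₁), ‖a (d₁ * b)‖ ^ 2 :=
    mul_nonneg (div_nonneg (Nr_nonneg _) (Nr_nonneg _)) (Finset.sum_nonneg fun _ _ => sq_nonneg _)
  calc _ ≤ C' * x ^ e * (C * (x ^ e) ^ 5 * (y ^ 3 + Ξ) * ((1 + |τ|) ^ K * (1 + |s|) ^ K) * R * D *
        (Nr d₁ / Nr d * ∑ b ∈ box (L / Nr d₁), ‖a (d₁ * b)‖ ^ 2)) := by gcongr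
    _ = _ := by ring

end Crest.Agent.R017

end
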