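import Crest.Agent.R017.T2Small
import Crest.Agent.R017.T2Large
import Crest.Agent.R017.T2StepAux5

/-! # Row 17: second moments: the induction step -/

set_option autoImplicit false

noncomputable section

open scoped BigOperators ComplexConjugate
open Complex MeasureTheory

namespace Crest.Agent.R017

theorem tt_tail_num {e R Y x B : ℝ} (he : 0 < e) (hR : 0 < R) (hY : 0 < Y) (hx : 0 < x)
    (hB : B = 1 + 7 / e) :
    R ^ (1 - B) * (Y ^ 2 * x ^ e / R) ^ (1 - B) * (Y ^ (1 + (B - 1 / 2))) ^ 2 = Y ^ 3 / x ^ 7 := by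
  rw [← Real.mul_rpow hR.le (by positivity), mul_div_cancel₀ _ hR.ne',
    Real.mul_rpow (by positivity) (by positivity), ← Real.rpow_mul hx.le, ← Real.rpow_natCast Y 2,
    ← Real.rpow_natCast (Y ^ _) 2, ← Real.rpow_mul hY.le, ← Real.rpow_mul hY.le, mul_right_comm,
    ← Real.rpow_add hY, show e * (1 - B) = -((7 : ℕ) : ℝ) by rw [hB]; field_simp; norm_num,
    Real.rpow_neg hx.le, Real.rpow_natCast, ← Real.rpow_natCast Y 3, div_eq_mul_inv]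
  congr 2
  push_cast
  ring

theorem tt_core {Q : O} (hQ : Q ≠ 0) (h72 : (72 : O) ∣ Q) {A e C₀ : ℝ} (hA : 0 < A) (he : 0 < e)
    (he' : e ≤ 1 / 4) (hC₀ : 0 ≤ C₀) : ∃ C K : ℝ, 0 ≤ C ∧ 0 ≤ K ∧
    ∀ (x y D₀ Ξ R D L τ : ℝ) (ψ a : O → ℂ) (t : O), 2 ≤ x → Real.exp (3 + 4 * A) ≤ y → y ≤ x →
      D₀ ≤ x → 0 ≤ Ξ → TwoB (fun _ => True) Q A (D₀ / y) (x ^ (100 : ℕ)) Ξ C₀ → IsCh Q ψ → t ≠ 0 →
      1 ≤ D → D ≤ D₀ → 1 ≤ L → L ≤ x → Nr (rad t) ≤ x → Dy Q L a → D * L ^ 2 * Nr (rad t) ≤ R →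
      L ^ 3 * D ^ (2 / 3 : ℝ) * Nr (rad t) ≤ R →
      NS R (rowF (tt_G A ψ a L D τ t)) ≤
        C * (x ^ e) ^ 8 * (y ^ 3 + Ξ) * (1 + |τ|) ^ K * D * (∑ b ∈ box L, ‖a b‖ ^ 2) * R := by
  classical
  have h12 : (12 : O) ∣ Q := (show (12 : O) ∣ 72 from ⟨6, by norm_num⟩).trans h72
  have hB : 2 ≤ 1 + 7 / e := by
    have : 1 ≤ 7 / e := (one_le_div he).2 (by linarith)
    linarith
  obtain ⟨Cm, K, hCm0, hK0, hCm⟩ := tt_dual hQ h72 hA he he' hC₀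
  obtain ⟨Cp, hCp0, hCp⟩ := tt_pstep hQ h12 he hB K
  obtain ⟨Ct, hCt0, hCt⟩ := tt_tail hA (B := 1 + 7 / e - 1 / 2) (by linarith)
  obtain ⟨Cd, hCd0, hCd⟩ := tt_diag hA he
  obtain ⟨Cs, hCs0, hCs⟩ := tt_sum_d he
  set Z := ∑' d : O, Nr d ^ (-(3 : ℝ)) with hZ
  have hZ0 : 0 ≤ Z := tsum_nonneg fun d => Real.rpow_nonneg (Nr_nonneg _) _
  refine ⟨Cp * (Cd + Cm * Cs + Ct * Z), K, by positivity, hK0, fun x y D₀ Ξ R D L τ ψ a t hx hy hyx
    hD₀ hΞ hT hψ ht hD hDD hL hLx hq ha hR1 hR2 => ?_⟩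
  have hq1 := one_le_Nr (rad_ne_zero t)
  have hR1' : 1 ≤ R := le_trans (one_le_mul_of_one_le_of_one_le
    (one_le_mul_of_one_le_of_one_le hD (one_le_pow₀ hL)) hq1) hR1
  have hR : 0 < R := by linarith
  have hx1 : 1 ≤ x := by linarith
  have hy1 : 1 ≤ y := le_trans (Real.one_le_exp (by positivity)) hy
  have hE : 1 ≤ x ^ e := Real.one_le_rpow hx1 he.le
  have hDx : D ≤ x := hDD.trans hD₀
  have hD0 : 0 < D := by linarith
  have hL0 : 0 < L := by linarith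
  set S := ∑ b ∈ box L, ‖a b‖ ^ 2 with hS
  have hS0 : 0 ≤ S := Finset.sum_nonneg fun _ _ => sq_nonneg _
  have hU : ∀ d, 0 ≤ ∑ d₁ ∈ pdiv d, Nr d₁ / Nr d * ∑ b ∈ box (L / Nr d₁), ‖a (d₁ * b)‖ ^ 2 :=
    fun d => Finset.sum_nonneg fun _ _ => mul_nonneg (div_nonneg (Nr_nonneg _) (Nr_nonneg _))
      (Finset.sum_nonneg fun _ _ => sq_nonneg _)
  set M : O → ℝ := fun d => if d ∈ box x then
    Cm * (x ^ e) ^ 6 * (y ^ 3 + Ξ) * (1 + |τ|) ^ K * R * D *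
      ∑ d₁ ∈ pdiv d, Nr d₁ / Nr d * ∑ b ∈ box (L / Nr d₁), ‖a (d₁ * b)‖ ^ 2 else 0 with hM
  have hMz : ∀ d ∉ box x, M d = 0 := fun d hd => if_neg hd
  have h := hCp R (fun d => if d = 0 then 1 else (D * L / Nr d) ^ 2 * x ^ e / R)
    (tt_G A ψ a L D τ t) M (fun d => Ct * S * Nr d ^ (-(3 : ℝ))) hR (fun d => by
      split_ifs with hd
      · exact one_pos
      · have := Nr_pos hd
        positivity)
    (tt_supp hψ A a L D τ t) (tt_rap hψ hA hD0 a L τ t) (summable_of_ne_finset_zero hMz)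
    ((summable_Nr_rpow (by norm_num)).mul_left _) (fun d => by
      simp only [hM]
      split_ifs
      · exact mul_nonneg (by positivity) (hU d)
      · exact le_rfl)
    (fun d => mul_nonneg (mul_nonneg hCt0 hS0) (Real.rpow_nonneg (Nr_nonneg _) _))
    (fun d hd ξ hξ s => by
      simp only [if_neg hd.1.ne_zero, tt_G_mul]
      exact hCm x y D₀ Ξ R D L τ s _ a t d hx hy hyx hD₀ hΞ hT (hψ.mul_same hξ) ht hD hDD hL hLx hq ha
        hR1 hR2 hd)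
    (fun d hd => by
      have n0 := Nr_pos hd.1.ne_zero
      simp only [if_neg hd.1.ne_zero]
      refine (mul_le_mul_of_nonneg_left (hCt Q ψ a L D τ t d hψ hD0 hL0 hd.1.ne_zero)
        (by positivity)).trans ?_
      have e1 := tt_tail_num (Y := D * L / Nr d) he hR (by positivity) (by linarith : 0 < x) rfl
      rw [mul_comm L D, mul_left_comm, e1, Real.rpow_neg n0.le, show (3 : ℝ) = (3 : ℕ) by norm_num,
        Real.rpow_natCast]
      calc Ct * L * S * ((D * L / Nr d) ^ 3 / x ^ 7) =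
          Ct * S * (Nr d ^ 3)⁻¹ * (L ^ 4 * D ^ 3 / x ^ 7) := by ring
        _ ≤ _ := by
          refine mul_le_of_le_one_right (by positivity) ((div_le_one (by positivity)).2 ?_)
          calc L ^ 4 * D ^ 3 ≤ x ^ 4 * x ^ 3 := by gcongr
            _ = _ := by ring)
  refine h.trans ?_
  have s1 : 1 ≤ (1 + |τ|) ^ K := Real.one_le_rpow (by linarith [abs_nonneg τ]) hK0
  have y3 : 1 ≤ y ^ 3 + Ξ := by linarith [one_le_pow₀ (n := 3) hy1]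
  set E := x ^ e with hEd
  set T := (1 + |τ|) ^ K
  set V := y ^ 3 + Ξ
  have b1 : R * ∑' n, ‖tt_G A ψ a L D τ t n‖ ^ 2 ≤ Cd * (E ^ 8 * V * T * D * S * R) := by
    have h1 := hCd Q ψ a L D τ t hψ hD0 hL0
    calc _ ≤ R * (Cd * L ^ e * D ^ e * D * S) := by gcongr
      _ ≤ R * (Cd * E * E * D * S) := by
          rw [hEd]
          gcongr
      _ = Cd * (E ^ 2 * 1 * 1 * D * S * R) := by ring
      _ ≤ _ := by
          gcongr
          norm_num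
  have b2 : ∑' d, M d ≤ Cm * Cs * (E ^ 8 * V * T * D * S * R) := by
    rw [tsum_eq_sum hMz, Finset.sum_congr rfl fun d hd => if_pos hd, ← Finset.mul_sum]
    have h1 := hCs x L (fun b => ‖a b‖ ^ 2) (fun _ => sq_nonneg _) hx1 hL0 hLx
    calc _ ≤ Cm * E ^ 6 * V * T * R * D * (Cs * E ^ 2 * S) := by gcongr
      _ = _ := by ring
  have b3 : ∑' d : O, Ct * S * Nr d ^ (-(3 : ℝ)) ≤ Ct * Z * (E ^ 8 * V * T * D * S * R) := by
    rw [tsum_mul_left]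
    have := one_le_pow₀ (n := 8) hE
    calc _ = Ct * Z * (1 * 1 * 1 * 1 * S * 1) := by ring
      _ ≤ _ := by gcongr
  calc _ ≤ Cp * (Cd * (E ^ 8 * V * T * D * S * R) + Cm * Cs * (E ^ 8 * V * T * D * S * R) +
        Ct * Z * (E ^ 8 * V * T * D * S * R)) := by gcongr
    _ = _ := by ring

theorem two_step {Q : O} (hQ : Q ≠ 0) (h72 : (72 : O) ∣ Q) {A ε C₀ : ℝ} (hA : 0 < A) (hε : 0 < ε)
    (hC₀ : 0 ≤ C₀) : ∃ C : ℝ, 0 ≤ C ∧ ∀ (x y D₀ Ξ : ℝ), 2 ≤ x → Real.exp (3 + 4 * A) ≤ y → y ≤ x →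
      D₀ ≤ x → 0 ≤ Ξ → TwoB (fun _ => True) Q A (D₀ / y) (x ^ (100 : ℕ)) Ξ C₀ →
      TwoB (fun k => k = 1) Q A D₀ x (C * x ^ ε * (y ^ 3 + Ξ)) C := by
  have he : 0 < min (ε / 8) (1 / 4) := lt_min (by positivity) (by norm_num)
  obtain ⟨C, K, hC0, hK0, hC⟩ := tt_core hQ h72 hA he (min_le_right _ _) hC₀
  obtain ⟨Cb, hCb0, hCb⟩ := two_base Q hA hε
  refine ⟨C + K + Cb, by positivity, fun x y D₀ Ξ hx hy hyx hD₀ hΞ hT R D L τ ψ a t k hψ ht hk hk1 hR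
    hRx hD hDD hL hLx hq hkx ha => ?_⟩
  have hx1 : 1 ≤ x := by linarith
  have hy1 : 1 ≤ y := le_trans (Real.one_le_exp (by positivity)) hy
  have y3 : 1 ≤ y ^ 3 + Ξ := by linarith [one_le_pow₀ (n := 3) hy1]
  have s1 : 1 ≤ 1 + |τ| := by linarith [abs_nonneg τ]
  have hq0 := Nr_nonneg (rad t)
  have hS0 : 0 ≤ ∑ b ∈ box L, ‖a b‖ ^ 2 := Finset.sum_nonneg fun _ _ => sq_nonneg _
  have p1 : 0 ≤ D * L ^ 2 * Nr (rad t) := by positivity
  have p2 : 0 ≤ L ^ 3 * D ^ (2 / 3 : ℝ) * Nr (rad t) := by positivity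
  rcases le_total D 1 with hD1 | hD1
  · refine (hCb x hx1 R D L τ ψ a t k hψ ht hk trivial hR hRx hD hD1 hL hLx hq hkx ha).trans ?_
    rw [← mul_one (Cb * x ^ ε)]
    gcongr
    · linarith
    · linarith
  subst hk1
  have e1 : SF A ψ a L D τ t 1 = rowF (tt_G A ψ (tt_a ψ a τ) L D τ t) :=
    funext fun r => tt_SF_eq hA hD hψ ha τ t r
  rw [e1]
  refine (l4_mono (by linarith) _).trans ((hC x y D₀ Ξ
    (R + D * L ^ 2 * Nr (rad t) + L ^ 3 * D ^ (2 / 3 : ℝ) * Nr (rad t)) D L τ ψ _ t hx hy hyx hD₀ hΞ hT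
    hψ ht hD1 hDD hL hLx hq (tt_Dy_a ha τ) (by linarith) (by linarith)).trans ?_)
  have h1 : (x ^ min (ε / 8) (1 / 4)) ^ 8 ≤ x ^ ε := by
    rw [← Real.rpow_natCast, ← Real.rpow_mul (by linarith)]
    refine Real.rpow_le_rpow_of_exponent_le hx1 ?_
    have := min_le_left (ε / 8) (1 / 4)
    push_cast
    linarith
  gcongr with b
  · linarith
  · linarith
  · exact tt_norm_a hψ ha τ b

end Crest.Agent.R017

end
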