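import Crest.Agent.R017.T2A

/-! # Row 17: the induction step, part 1: `pstep` with characters modulo `4` -/

set_option autoImplicit false

noncomputable section

open scoped BigOperators ComplexConjugate
open Complex MeasureTheory

namespace Crest.Agent.R017

theorem tt_sq_sum {ι : Type*} (s : Finset ι) (z : ι → ℂ) :
    ‖∑ i ∈ s, z i‖ ^ 2 ≤ s.card * ∑ i ∈ s, ‖z i‖ ^ 2 := by
  refine le_trans ?_ (sq_sum_le_card_mul_sum_sq (s := s) (f := fun i => ‖z i‖))
  gcongr
  exact norm_sum_le _ _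

theorem tt_NS_sum {ι : Type*} (R : ℝ) (s : Finset ι) (f : ι → O → ℂ) :
    NS R (fun r => ∑ i ∈ s, f i r) ≤ s.card * ∑ i ∈ s, NS R (f i) := by
  unfold NS
  rw [Finset.sum_comm, Finset.mul_sum]
  exact Finset.sum_le_sum fun r _ => tt_sq_sum s _

theorem tt_NS_mul (R : ℝ) (z : ℂ) (f : O → ℂ) : NS R (fun r => z * f r) = ‖z‖ ^ 2 * NS R f := by
  unfold NS
  rw [Finset.mul_sum]
  exact Finset.sum_congr rfl fun r _ => by rw [norm_mul, mul_pow]

theorem tt_NS_add (R : ℝ) (f g : O → ℂ) :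
    NS R f ≤ 2 * NS R (fun h => f h - g h) + 2 * NS R g := by
  unfold NS
  rw [Finset.mul_sum, Finset.mul_sum, ← Finset.sum_add_distrib]
  refine Finset.sum_le_sum fun r _ => ?_
  have := l4_sq (f r - g r) (g r)
  rwa [sub_add_cancel] at this

theorem tt_NS_zero {R : ℝ} (hR : R < 1) (f : O → ℂ) : NS R f = 0 := by
  simp [NS, box_eq_empty hR]

theorem tt_rap_le {γ γ' : O → ℂ} (hr : Rap γ) (h : ∀ n, ‖γ' n‖ ≤ ‖γ n‖) : Rap γ' := fun B =>
  Summable.of_nonneg_of_le
    (fun n => mul_nonneg (norm_nonneg _) (Real.rpow_nonneg (Nr_nonneg _) _))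
    (fun n => mul_le_mul_of_nonneg_right (h n) (Real.rpow_nonneg (Nr_nonneg _) _)) (hr B)

theorem tt_summable_row {γ : O → ℂ} (hr : Rap γ) (r : O) : Summable fun n => γ n * chi n r := by
  have h0 : Summable fun n => ‖γ n‖ := by simpa using hr 0
  refine Summable.of_norm_bounded h0 fun n => ?_
  rw [norm_mul]
  exact mul_le_of_le_one_right (norm_nonneg _) (norm_chi_le _ _)

theorem tt_summable_col {Q d : O} (h6 : (6 : O) ∣ Q) {γ : O → ℂ} (hs : Supp Q γ) (hr : Rap γ)
    (hd : Prim d) (σ t : ℝ) (h : O) :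
    Summable fun n => γ (d * n) * g6 n * (Nr n : ℂ) ^ ((σ : ℂ) + t * I) * conj (chi n h) := by
  refine Summable.of_norm_bounded (l3_summable_dn hs hr σ d) fun n => ?_
  by_cases h0 : γ (d * n) = 0
  · simp [h0]
  obtain ⟨pn, sn, cn⟩ := l3_adm h6 (hs _ h0) hd
  rw [norm_mul, norm_mul, norm_mul, norm_g6 cn sn, mul_one,
    Complex.norm_cpow_eq_rpow_re_of_pos (Nr_pos pn.ne_zero), l3_re, Complex.norm_conj]
  exact mul_le_of_le_one_right
    (mul_nonneg (norm_nonneg _) (Real.rpow_nonneg (Nr_nonneg _) _)) (norm_chi_le _ _)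

open Classical in
theorem tt_row_split {γ : O → ℂ} (hr : Rap γ) (r : O) :
    rowF γ r = ∑ c ∈ reps 4, rowF (fun n => if (4 : O) ∣ n - c then γ n else 0) r := by
  unfold rowF
  rw [← Summable.tsum_finsetSum fun c _ => tt_summable_row (tt_rap_le hr fun n => by
    split_ifs <;> simp) r]
  refine tsum_congr fun n => ?_
  obtain ⟨c, ⟨hc, hc'⟩, hu⟩ := reps_existsUnique (n := 4) (by decide) n
  rw [Finset.sum_eq_single c]
  · rw [if_pos (dvd_sub_comm.1 hc')]
  · intro c' hc1 hne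
    rw [if_neg fun h => hne (hu c' ⟨hc1, dvd_sub_comm.1 h⟩), zero_mul]
  · exact fun h => absurd hc h

open Classical in
/-- `pstep` without the class condition. -/
theorem tt_pstep {Q : O} (hQ : Q ≠ 0) (h12 : (12 : O) ∣ Q) {σ A : ℝ} (hσ : 0 < σ) (hA : 2 ≤ A)
    (K : ℝ) : ∃ C : ℝ, 0 ≤ C ∧ ∀ (R : ℝ) (H : O → ℝ) (γ : O → ℂ) (M T : O → ℝ), 0 < R →
    (∀ d, 0 < H d) → Supp Q γ → Rap γ → Summable M → Summable T → (∀ d, 0 ≤ M d) →
    (∀ d, 0 ≤ T d) →
    (∀ d, Adm Q d → ∀ ξ, IsCh Q ξ → ∀ t : ℝ, R ^ (1 - σ) *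
      NS (H d) (colF (fun n => γ (d * n) * ξ (d * n) * g6 n *
        (Nr n : ℂ) ^ (((σ - 1 / 2 : ℝ) : ℂ) + t * I))) ≤ M d * (1 + |t|) ^ K) →
    (∀ d, Adm Q d →
      R ^ (1 - A) * H d ^ (1 - A) * (∑' n : O, ‖γ (d * n)‖ * Nr n ^ (A - 1 / 2)) ^ 2 ≤ T d) →
    NS R (rowF γ) ≤ C * (R * (∑' n : O, ‖γ n‖ ^ 2) + ∑' d, M d + ∑' d, T d) := by
  obtain ⟨C, hC0, hC⟩ := pstep hσ hA
  obtain ⟨S, hS12, hSch, -, hS⟩ := class_four hQ h12
  have h6 : (6 : O) ∣ Q := (show (6 : O) ∣ 12 from ⟨2, by norm_num⟩).trans h12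
  set G : ℝ := ∫ t : ℝ, ‖Complex.Gamma (σ + t * I)‖ * (1 + |t|) ^ K with hG
  have hG0 : 0 ≤ G := integral_nonneg fun t => by positivity
  refine ⟨256 * (C * (1 + G)), by positivity,
    fun R H γ M T hR hH hs hr hM hT hM0 hT0 hmain htail => ?_⟩
  have p1 : 0 ≤ R * ∑' n, ‖γ n‖ ^ 2 := mul_nonneg hR.le (tsum_nonneg fun _ => sq_nonneg _)
  have p2 : 0 ≤ ∑' d, M d := tsum_nonneg hM0
  have p3 : 0 ≤ ∑' d, T d := tsum_nonneg hT0
  have key : ∀ c : O, NS R (rowF (fun n => if (4 : O) ∣ n - c then γ n else 0)) ≤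
      C * (1 + G) * (R * (∑' n : O, ‖γ n‖ ^ 2) + ∑' d, M d + ∑' d, T d) := by
    intro c
    set γ' : O → ℂ := fun n => if (4 : O) ∣ n - c then γ n else 0 with hγ'
    have hle : ∀ n, ‖γ' n‖ ≤ ‖γ n‖ := fun n => by
      simp only [hγ']
      split_ifs <;> simp
    have hs' : Supp Q γ' := fun n hn => hs n fun h0 => hn (by simp [hγ', h0])
    have hr' : Rap γ' := tt_rap_le hr hle
    by_cases hex : ∃ c', IsCoprime c' Q ∧ (4 : O) ∣ c' - c
    swap
    · have : γ' = fun _ => 0 := by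
        funext n
        by_contra hn
        refine hex ⟨n, (hs' n hn).2.2, ?_⟩
        by_contra h4
        exact hn (by simp [hγ', h4])
      rw [this]
      have : NS R (rowF fun _ => 0) = 0 := by simp [NS, rowF]
      rw [this]
      positivity
    obtain ⟨c', hc'Q, hc'⟩ := hex
    have hγS : ∀ n, γ' n = ∑ ξ ∈ S, (conj (ξ c') / 12) * (γ n * ξ n) := by
      intro n
      by_cases h0 : γ n = 0
      · simp [hγ', h0]
      have h1 := hS n c' (hs n h0).2.2 hc'Q
      have h2 : ∑ ξ ∈ S, (conj (ξ c') / 12) * (γ n * ξ n) =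
          γ n / 12 * ∑ ξ ∈ S, ξ n * conj (ξ c') := by
        rw [Finset.mul_sum]
        exact Finset.sum_congr rfl fun _ _ => by ring
      have h3 : (4 : O) ∣ n - c' ↔ (4 : O) ∣ n - c := by
        rw [show n - c = n - c' + (c' - c) by ring]
        exact (dvd_add_left hc').symm
      rw [h2, h1]
      simp only [hγ', h3]
      split_ifs
      · ring
      · ring
    have h := hC Q R H γ' h6 hR hH hs' hr' ⟨c, fun n hn => by
      by_contra h4
      exact hn (by simp [hγ', h4])⟩ (fun d => G * M d + T d) ((hM.mul_left G).add hT)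
      (fun d => add_nonneg (mul_nonneg hG0 (hM0 d)) (hT0 d)) fun d hd => ?_
    · rw [((hM.mul_left G).tsum_add hT), tsum_mul_left] at h
      refine h.trans ?_
      have h1 : ∑' n, ‖γ' n‖ ^ 2 ≤ ∑' n, ‖γ n‖ ^ 2 :=
        (l3_summable_sq hr').tsum_le_tsum (fun n => by gcongr; exact hle n) (l3_summable_sq hr)
      have h2 := mul_le_mul_of_nonneg_left h1 hR.le
      rw [mul_assoc]
      refine mul_le_mul_of_nonneg_left ?_ hC0
      nlinarith [mul_nonneg hG0 p1, mul_nonneg hG0 p3]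
    refine add_le_add ?_ (le_trans ?_ (htail d hd))
    · rw [← integral_const_mul, hG, ← integral_mul_const]
      refine integral_mono_of_nonneg (Filter.Eventually.of_forall fun t => ?_)
        ((integrable_Gamma_mul hσ K).mul_const _) (Filter.Eventually.of_forall fun t => ?_)
      · exact mul_nonneg (by positivity) (mul_nonneg (norm_nonneg _) (l4_nonneg _ _))
      simp only
      rw [mul_left_comm, mul_assoc]
      refine mul_le_mul_of_nonneg_left ?_ (norm_nonneg _)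
      have e : colF (fun n => γ' (d * n) * g6 n * (Nr n : ℂ) ^ (((σ - 1 / 2 : ℝ) : ℂ) + t * I)) =
          fun h => ∑ ξ ∈ S, (conj (ξ c') / 12) * colF (fun n => γ (d * n) * ξ (d * n) * g6 n *
            (Nr n : ℂ) ^ (((σ - 1 / 2 : ℝ) : ℂ) + t * I)) h := by
        funext h
        unfold colF
        simp only [← tsum_mul_left]
        rw [← Summable.tsum_finsetSum]
        · refine tsum_congr fun n => ?_
          rw [hγS, Finset.sum_mul, Finset.sum_mul, Finset.sum_mul]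
          exact Finset.sum_congr rfl fun _ _ => by ring
        · intro ξ hξ
          refine Summable.mul_left _ (tt_summable_col (γ := fun n => γ n * ξ n) h6
            (fun n hn => hs n (left_ne_zero_of_mul hn)) (tt_rap_le hr fun n => ?_) hd.1 _ _ h)
          rw [norm_mul]
          exact mul_le_of_le_one_right (norm_nonneg _) ((hSch ξ hξ).norm_le _)
      rw [e]
      refine (mul_le_mul_of_nonneg_left (tt_NS_sum _ _ _) (by positivity)).trans ?_
      rw [mul_left_comm, Finset.mul_sum]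
      have h3 : ∀ ξ ∈ S, R ^ (1 - σ) * NS (H d) (fun h => (conj (ξ c') / 12) *
          colF (fun n => γ (d * n) * ξ (d * n) * g6 n *
            (Nr n : ℂ) ^ (((σ - 1 / 2 : ℝ) : ℂ) + t * I)) h) ≤
          (1 / 12) ^ 2 * (M d * (1 + |t|) ^ K) := by
        intro ξ hξ
        rw [tt_NS_mul, mul_left_comm]
        refine mul_le_mul ?_ (hmain d hd ξ (hSch ξ hξ) t)
          (mul_nonneg (by positivity) (l4_nonneg _ _)) (by positivity)
        rw [norm_div, Complex.norm_conj]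
        have := (hSch ξ hξ).norm_le c'
        have e12 : ‖(12 : ℂ)‖ = 12 := by simp
        rw [e12]
        gcongr
      refine (mul_le_mul_of_nonneg_left (Finset.sum_le_card_nsmul _ _ _ h3)
        (Nat.cast_nonneg _)).trans (le_of_eq ?_)
      rw [hS12, nsmul_eq_mul]
      push_cast
      ring
    · have h1 : ∑' n : O, ‖γ' (d * n)‖ * Nr n ^ (A - 1 / 2) ≤
          ∑' n : O, ‖γ (d * n)‖ * Nr n ^ (A - 1 / 2) :=
        (l3_summable_dn hs' hr' _ d).tsum_le_tsum (fun n => mul_le_mul_of_nonneg_right (hle _)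
          (Real.rpow_nonneg (Nr_nonneg _) _)) (l3_summable_dn hs hr _ d)
      have h2 : 0 ≤ ∑' n : O, ‖γ' (d * n)‖ * Nr n ^ (A - 1 / 2) :=
        tsum_nonneg fun n => mul_nonneg (norm_nonneg _) (Real.rpow_nonneg (Nr_nonneg _) _)
      have := hH d
      gcongr
  have e : rowF γ = fun r => ∑ c ∈ reps 4, rowF (fun n => if (4 : O) ∣ n - c then γ n else 0) r :=
    funext fun r => tt_row_split hr r
  rw [e]
  refine (tt_NS_sum _ _ _).trans ?_
  refine (mul_le_mul_of_nonneg_left (Finset.sum_le_card_nsmul _ _ _ fun c _ => key c)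
    (Nat.cast_nonneg _)).trans (le_of_eq ?_)
  have h16 : (reps 4).card = 16 := by
    rw [card_reps (by decide)]
    decide
  rw [h16, nsmul_eq_mul]
  push_cast
  ring

end Crest.Agent.R017

end
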