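import Crest.Agent.R017.T2StepAux1

/-! # Row 17: the induction step, part 2: the coefficients of `SF` -/

set_option autoImplicit false

noncomputable section

open scoped BigOperators ComplexConjugate
open Complex MeasureTheory

namespace Crest.Agent.R017

open Classical in
/-- `∑_{b ∣ N} a_b W(N N / (N b D))`. -/
def tt_S (A : ℝ) (a : O → ℂ) (L D : ℝ) (N : O) : ℂ :=
  ∑ b ∈ box L, if b ∣ N then a b * (W A (Nr N / (Nr b * D)) : ℂ) else 0

/-- The coefficients of `SF` as a row sum. -/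
def tt_G (A : ℝ) (ψ a : O → ℂ) (L D τ : ℝ) (t N : O) : ℂ :=
  if Prim N then mu N * ψ N * chi N t * (Nr N : ℂ) ^ (-(τ * I)) * tt_S A a L D N else 0

open Classical in
theorem tt_hasSum_sm {A L D τ : ℝ} (hA : 0 < A) (hD : 0 < D) (a : O → ℂ) {c : O → ℂ} {K B : ℝ}
    (hc : ∀ n, Prim n → ‖c n‖ ≤ K * Nr n ^ B) :
    HasSum (fun N => if Prim N then c N * (Nr N : ℂ) ^ (-(τ * I)) * tt_S A a L D N else 0)
      (∑ b ∈ box L, a b * sm A (fun N => if b ∣ N then c N else 0) (Nr b * D) τ) := by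
  have h : ∀ b ∈ box L, HasSum (fun N => a b * (if Prim N then (if b ∣ N then c N else 0) *
      (Nr N : ℂ) ^ (-(τ * I)) * (W A (Nr N / (Nr b * D)) : ℂ) else 0))
      (a b * sm A (fun N => if b ∣ N then c N else 0) (Nr b * D) τ) := by
    intro b hb
    refine HasSum.mul_left _ (Summable.hasSum ?_)
    refine summable_sm (K := K) (A := B) hA (mul_pos (Nr_pos (mem_box.1 hb).1) hD) (fun n hn => ?_) τ
    split_ifs
    · exact hc n hn
    · rw [norm_zero]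
      exact (norm_nonneg _).trans (hc n hn)
  convert hasSum_sum h using 2 with N
  split_ifs with hN
  · rw [tt_S, Finset.mul_sum]
    refine Finset.sum_congr rfl fun b _ => ?_
    split_ifs
    · ring
    · ring
  · simp

theorem tt_mu_mul_zero {x y : O} (h : ¬ IsCoprime x y) : mu (x * y) = 0 := by
  rw [mu_eq_zero, squarefree_mul_iff]
  exact fun h' => h (isRelPrime_iff_isCoprime.1 h'.1)

theorem tt_cpow_cancel {x : ℝ} (hx : 0 < x) (τ : ℝ) :
    (x : ℂ) ^ (τ * I) * (x : ℂ) ^ (-(τ * I)) = 1 := by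
  rw [← cpow_add _ _ (by exact_mod_cast hx.ne'), add_neg_cancel, cpow_zero]

/-- The modified coefficients. -/
def tt_a (ψ a : O → ℂ) (τ : ℝ) (b : O) : ℂ := a b * mu b * conj (ψ b) * (Nr b : ℂ) ^ (τ * I)

theorem tt_norm_a {Q : O} {ψ a : O → ℂ} (hψ : IsCh Q ψ) {L : ℝ} (ha : Dy Q L a) (τ : ℝ) (b : O) :
    ‖tt_a ψ a τ b‖ ≤ ‖a b‖ := by
  by_cases h : a b = 0
  · simp [tt_a, h]
  have h0 := Nr_pos (ha b h).1.1.ne_zero
  rw [tt_a, norm_mul, norm_mul, norm_mul, Complex.norm_conj,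
    Complex.norm_cpow_eq_rpow_re_of_pos h0]
  have h1 := norm_mu_le b
  have h2 := hψ.norm_le b
  simp only [mul_re, ofReal_re, I_re, mul_zero, ofReal_im, I_im, mul_one, sub_self, Real.rpow_zero]
  calc ‖a b‖ * ‖mu b‖ * ‖ψ b‖ ≤ ‖a b‖ * 1 * 1 := by gcongr
    _ = _ := by ring

theorem tt_Dy_a {Q : O} {ψ a : O → ℂ} {L : ℝ} (ha : Dy Q L a) (τ : ℝ) : Dy Q L (tt_a ψ a τ) :=
  fun b hb => ha b fun h => hb (by simp [tt_a, h])

open Classical in
theorem tt_SF_eq {Q : O} {A L D : ℝ} (hA : 0 < A) (hD : 0 < D) {ψ a : O → ℂ} (hψ : IsCh Q ψ)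
    (ha : Dy Q L a) (τ : ℝ) (t r : O) :
    SF A ψ a L D τ t 1 r = rowF (tt_G A ψ (tt_a ψ a τ) L D τ t) r := by
  have h := tt_hasSum_sm (A := A) (L := L) (D := D) (τ := τ) hA hD (tt_a ψ a τ)
    (c := fun N => mu N * ψ N * chi N (r * t)) (K := 1) (B := 0) fun n _ => by
      rw [Real.rpow_zero, mul_one, norm_mul, norm_mul]
      have h1 := norm_mu_le n
      have h2 := hψ.norm_le n
      have h3 := norm_chi_le n (r * t)
      calc ‖mu n‖ * ‖ψ n‖ * ‖chi n (r * t)‖ ≤ 1 * 1 * 1 := by gcongr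
        _ = 1 := by ring
  have e : rowF (tt_G A ψ (tt_a ψ a τ) L D τ t) r = ∑' N, (if Prim N then
      mu N * ψ N * chi N (r * t) * (Nr N : ℂ) ^ (-(τ * I)) * tt_S A (tt_a ψ a τ) L D N else 0) := by
    refine tsum_congr fun N => ?_
    rw [tt_G]
    split_ifs
    · rw [chi_mul_right]; ring
    · simp
  rw [e, h.tsum_eq, SF]
  refine Finset.sum_congr rfl fun b _ => ?_
  by_cases h0 : a b = 0
  · simp [tt_a, h0]
  obtain ⟨⟨pb, sb, cb⟩, -⟩ := ha b h0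
  have hb := Nr_pos pb.ne_zero
  rw [sm_dvd pb, mul_div_cancel_left₀ _ hb.ne']
  have e2 : sm A (fun n => mu (b * n) * ψ (b * n) * chi (b * n) (r * t)) D τ =
      (mu b * ψ b * chi b (r * t)) * sm A (fun n => if IsCoprime n (b * 1) then
        mu n * (ψ n * chi n (r * t)) else 0) D τ := by
    rw [← sv_mul]
    refine sv_congr fun n hn => ?_
    rw [mul_one]
    split_ifs with hc
    · rw [mu_mul hc.symm, hψ.mul, chi_mul_left pb.ne_zero hn.ne_zero]; ring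
    · rw [tt_mu_mul_zero fun h => hc h.symm]; ring
  rw [e2, tt_a]
  have e3 := mu_sq sb
  have e4 : conj (ψ b) * ψ b = 1 :=
    g1_conj_mul (hψ.norm_eq fun h => (hψ.zero b).1 h cb)
  have e5 := tt_cpow_cancel hb τ
  set S := sm A (fun n => if IsCoprime n (b * 1) then mu n * (ψ n * chi n (r * t)) else 0) D τ
  calc a b * chi b (r * t) * S = a b * chi b (r * t) * S * (mu b * mu b) * (conj (ψ b) * ψ b) *
        ((Nr b : ℂ) ^ (τ * I) * (Nr b : ℂ) ^ (-(τ * I))) := by rw [e3, e4, e5]; ring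
    _ = _ := by ring

theorem tt_supp {Q : O} {ψ : O → ℂ} (hψ : IsCh Q ψ) (A : ℝ) (a : O → ℂ) (L D τ : ℝ) (t : O) :
    Supp Q (tt_G A ψ a L D τ t) := by
  intro n hn
  unfold tt_G at hn
  split_ifs at hn with hp
  · refine ⟨hp, ?_, ?_⟩
    · by_contra h
      exact hn (by simp [mu_eq_zero.2 h])
    · by_contra h
      exact hn (by simp [(hψ.zero n).2 h])
  · exact absurd rfl hn

open Classical in
theorem tt_norm_G {Q : O} {ψ : O → ℂ} (hψ : IsCh Q ψ) (A : ℝ) (a : O → ℂ) (L D τ : ℝ) (t N : O) :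
    ‖tt_G A ψ a L D τ t N‖ ≤ if N = 0 then 0 else
      ∑ b ∈ box L, if b ∣ N then ‖a b‖ * W A (Nr N / (Nr b * D)) else 0 := by
  have hS : ‖tt_S A a L D N‖ ≤
      ∑ b ∈ box L, if b ∣ N then ‖a b‖ * W A (Nr N / (Nr b * D)) else 0 := by
    refine (norm_sum_le _ _).trans (Finset.sum_le_sum fun b _ => le_of_eq ?_)
    split_ifs
    · rw [norm_mul, norm_real, Real.norm_of_nonneg (W_pos _ _).le]
    · simp
  unfold tt_G
  by_cases hp : Prim N
  · rw [if_pos hp, if_neg hp.ne_zero, norm_mul, norm_mul, sv_norm_cpow hp.ne_zero, mul_one,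
      norm_mul, norm_mul]
    have h1 := norm_mu_le N
    have h2 := hψ.norm_le N
    have h3 := norm_chi_le N t
    calc ‖mu N‖ * ‖ψ N‖ * ‖chi N t‖ * ‖tt_S A a L D N‖ ≤ 1 * 1 * 1 * ‖tt_S A a L D N‖ := by gcongr
      _ ≤ _ := by rw [mul_one, mul_one, one_mul]; exact hS
  · rw [if_neg hp, norm_zero]
    split_ifs
    · exact le_rfl
    · exact (norm_nonneg _).trans hS

theorem tt_G_dn {Q : O} {ψ : O → ℂ} (hψ : IsCh Q ψ) (A : ℝ) (a : O → ℂ) (L D τ : ℝ) (t : O)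
    {d : O} (hd : d ≠ 0) (B : ℝ) (n : O) :
    ‖tt_G A ψ a L D τ t (d * n)‖ * Nr n ^ B ≤
      ∑ b ∈ box L, ‖a b‖ * (if n = 0 then 0 else Nr n ^ B * W A (Nr n / (Nr b * D / Nr d))) := by
  have h := tt_norm_G hψ A a L D τ t (d * n)
  by_cases hn : n = 0
  · rw [if_pos (by simp [hn])] at h
    rw [le_antisymm h (norm_nonneg _)]
    simp [hn]
  rw [if_neg (mul_ne_zero hd hn)] at h
  have h0 : 0 ≤ Nr n ^ B := Real.rpow_nonneg (Nr_nonneg _) _
  refine (mul_le_mul_of_nonneg_right h h0).trans ?_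
  rw [Finset.sum_mul]
  refine Finset.sum_le_sum fun b _ => ?_
  rw [if_neg hn]
  split_ifs
  · refine le_of_eq ?_
    rw [Nr_mul, div_div_eq_mul_div, mul_comm (Nr d)]
    ring
  · rw [zero_mul]
    exact mul_nonneg (norm_nonneg _) (mul_nonneg h0 (W_pos _ _).le)

theorem tt_rap {Q : O} {ψ : O → ℂ} (hψ : IsCh Q ψ) {A D : ℝ} (hA : 0 < A) (hD : 0 < D)
    (a : O → ℂ) (L τ : ℝ) (t : O) : Rap (tt_G A ψ a L D τ t) := by
  intro B
  have h := fun n => tt_G_dn hψ A a L D τ t (d := 1) one_ne_zero B n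
  simp only [one_mul] at h
  refine Summable.of_nonneg_of_le
    (fun n => mul_nonneg (norm_nonneg _) (Real.rpow_nonneg (Nr_nonneg _) _)) h ?_
  refine summable_sum fun b hb => Summable.mul_left _ (summable_W hA ?_ B)
  have := Nr_pos (mem_box.1 hb).1
  rw [Nr_one]
  positivity

theorem tt_W_const {A : ℝ} (hA : 0 < A) (B : ℝ) (hB : -1 < B) : ∃ C : ℝ, 0 ≤ C ∧ ∀ X : ℝ, 0 < X →
    ∑' n : O, (if n = 0 then 0 else Nr n ^ B * W A (Nr n / X)) ≤ C * X ^ (1 + B) := by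
  obtain ⟨C, hC⟩ := tsum_W_le hA B hB
  refine ⟨|C|, abs_nonneg _, fun X hX => (hC X hX).trans ?_⟩
  gcongr
  exact le_abs_self _

/-- The tail sum. -/
theorem tt_tail {A : ℝ} (hA : 0 < A) {B : ℝ} (hB : 0 ≤ B) : ∃ C : ℝ, 0 ≤ C ∧
    ∀ (Q : O) (ψ a : O → ℂ) (L D τ : ℝ) (t d : O), IsCh Q ψ → 0 < D → 0 < L → d ≠ 0 →
    (∑' n, ‖tt_G A ψ a L D τ t (d * n)‖ * Nr n ^ B) ^ 2 ≤
      C * L * (∑ b ∈ box L, ‖a b‖ ^ 2) * ((L * D / Nr d) ^ (1 + B)) ^ 2 := by
  obtain ⟨C, hC0, hC⟩ := tt_W_const hA B (by linarith)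
  refine ⟨25 * C ^ 2, by positivity, fun Q ψ a L D τ t d hψ hD hL hd => ?_⟩
  have hd0 := Nr_pos hd
  have hpos : ∀ b ∈ box L, 0 < Nr b * D / Nr d := fun b hb => by
    have := Nr_pos (mem_box.1 hb).1
    positivity
  have h1 : ∑' n, ‖tt_G A ψ a L D τ t (d * n)‖ * Nr n ^ B ≤
      (∑ b ∈ box L, ‖a b‖) * (C * (L * D / Nr d) ^ (1 + B)) := by
    refine le_trans (Summable.tsum_le_tsum (tt_G_dn hψ A a L D τ t hd B)
      (l3_summable_dn (tt_supp hψ A a L D τ t) (tt_rap hψ hA hD a L τ t) B d)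
      (summable_sum fun b hb => (summable_W hA (hpos b hb) B).mul_left _)) ?_
    rw [Summable.tsum_finsetSum fun b hb => (summable_W hA (hpos b hb) B).mul_left _,
      Finset.sum_mul]
    refine Finset.sum_le_sum fun b hb => ?_
    rw [tsum_mul_left]
    refine mul_le_mul_of_nonneg_left ((hC _ (hpos b hb)).trans ?_) (norm_nonneg _)
    have h2 := (hpos b hb).le
    have h3 := (mem_box.1 hb).2
    gcongr
  have h0 : 0 ≤ ∑' n, ‖tt_G A ψ a L D τ t (d * n)‖ * Nr n ^ B :=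
    tsum_nonneg fun n => mul_nonneg (norm_nonneg _) (Real.rpow_nonneg (Nr_nonneg _) _)
  have h2 : (∑ b ∈ box L, ‖a b‖) ^ 2 ≤ 25 * L * ∑ b ∈ box L, ‖a b‖ ^ 2 := by
    refine sq_sum_le_card_mul_sum_sq.trans ?_
    have := card_box_le hL.le
    gcongr
  calc _ ≤ ((∑ b ∈ box L, ‖a b‖) * (C * (L * D / Nr d) ^ (1 + B))) ^ 2 := by gcongr
    _ = (∑ b ∈ box L, ‖a b‖) ^ 2 * (C * (L * D / Nr d) ^ (1 + B)) ^ 2 := by ring
    _ ≤ (25 * L * ∑ b ∈ box L, ‖a b‖ ^ 2) * (C * (L * D / Nr d) ^ (1 + B)) ^ 2 := by gcongr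
    _ = _ := by ring

theorem tt_div_const {ε : ℝ} (hε : 0 < ε) : ∃ C : ℝ, 0 ≤ C ∧
    ∀ t : O, t ≠ 0 → ∀ S : Finset O, (∀ d ∈ S, d ∣ t) → (S.card : ℝ) ≤ C * Nr t ^ ε := by
  obtain ⟨C, hC⟩ := a2_card_div hε
  refine ⟨|C|, abs_nonneg _, fun t ht S hS => (hC t ht S hS).trans ?_⟩
  have := Nr_nonneg t
  gcongr
  exact le_abs_self _

open Classical in
theorem tt_tsum_dvd {b : O} (hb : b ≠ 0) (f : O → ℝ) :
    ∑' N, (if b ∣ N then f N else 0) = ∑' n, f (b * n) := by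
  rw [← (mul_right_injective₀ hb).tsum_eq (f := fun N => if b ∣ N then f N else 0)]
  · simp
  · intro N hN
    by_contra h
    exact hN (if_neg fun ⟨n, hn⟩ => h ⟨n, hn.symm⟩)

open Classical in
/-- The diagonal. -/
theorem tt_diag {A : ℝ} (hA : 0 < A) {e : ℝ} (he : 0 < e) : ∃ C : ℝ, 0 ≤ C ∧
    ∀ (Q : O) (ψ a : O → ℂ) (L D τ : ℝ) (t : O), IsCh Q ψ → 0 < D → 0 < L →
    ∑' n, ‖tt_G A ψ a L D τ t n‖ ^ 2 ≤ C * L ^ e * D ^ e * D * ∑ b ∈ box L, ‖a b‖ ^ 2 := by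
  obtain ⟨C, hC0, hC⟩ := tt_W_const hA e (by linarith)
  obtain ⟨C', hC0', hC'⟩ := tt_div_const he
  refine ⟨C' * C, by positivity, fun Q ψ a L D τ t hψ hD hL => ?_⟩
  set F : O → O → ℝ := fun b N => if N = 0 then 0 else Nr N ^ e * W A (Nr N / (Nr b * D)) with hF
  have hF0 : ∀ b N, 0 ≤ F b N := fun b N => w1_nonneg _ _ _ _
  have hpos : ∀ b ∈ box L, 0 < Nr b * D := fun b hb => mul_pos (Nr_pos (mem_box.1 hb).1) hD
  have hsF : ∀ b ∈ box L, Summable fun N => if b ∣ N then F b N else 0 := fun b hb =>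
    Summable.of_nonneg_of_le (fun N => by split_ifs; exacts [hF0 b N, le_rfl])
      (fun N => by split_ifs; exacts [le_rfl, hF0 b N])
      (show Summable (F b) from summable_W hA (hpos b hb) e)
  have h1 : ∀ N, ‖tt_G A ψ a L D τ t N‖ ^ 2 ≤
      ∑ b ∈ box L, C' * ‖a b‖ ^ 2 * (if b ∣ N then F b N else 0) := by
    intro N
    have h := tt_norm_G hψ A a L D τ t N
    by_cases hN : N = 0
    · rw [if_pos hN] at h
      rw [le_antisymm h (norm_nonneg _)]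
      simp [hF, hN]
    rw [if_neg hN, ← Finset.sum_filter] at h
    refine le_trans (pow_le_pow_left₀ (norm_nonneg _) h 2) (sq_sum_le_card_mul_sum_sq.trans ?_)
    refine (mul_le_mul_of_nonneg_right (hC' N hN _ fun d hd => (Finset.mem_filter.1 hd).2)
      (Finset.sum_nonneg fun _ _ => sq_nonneg _)).trans ?_
    rw [Finset.sum_filter, Finset.mul_sum]
    refine Finset.sum_le_sum fun b _ => ?_
    split_ifs
    · simp only [hF, if_neg hN]
      have w1 := W_le_one hA (Nr N / (Nr b * D))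
      have w2 := (W_pos A (Nr N / (Nr b * D))).le
      have w3 : 0 ≤ Nr N ^ e := Real.rpow_nonneg (Nr_nonneg _) _
      calc C' * Nr N ^ e * (‖a b‖ * W A (Nr N / (Nr b * D))) ^ 2 =
          C' * ‖a b‖ ^ 2 * (Nr N ^ e * W A (Nr N / (Nr b * D))) * W A (Nr N / (Nr b * D)) := by ring
        _ ≤ C' * ‖a b‖ ^ 2 * (Nr N ^ e * W A (Nr N / (Nr b * D))) * 1 := by gcongr
        _ = _ := by ring
    · simp
  refine le_trans (Summable.tsum_le_tsum h1 (l3_summable_sq (tt_rap hψ hA hD a L τ t))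
    (summable_sum fun b hb => (hsF b hb).mul_left _)) ?_
  rw [Summable.tsum_finsetSum fun b hb => (hsF b hb).mul_left _, Finset.mul_sum]
  refine Finset.sum_le_sum fun b hb => ?_
  obtain ⟨hb0, hbL⟩ := mem_box.1 hb
  have hb1 := Nr_pos hb0
  rw [tsum_mul_left, tt_tsum_dvd hb0]
  have e1 : ∀ n, F b (b * n) = Nr b ^ e * (if n = 0 then 0 else Nr n ^ e * W A (Nr n / D)) := by
    intro n
    by_cases hn : n = 0
    · simp [hF, hn]
    simp only [hF, if_neg hn, if_neg (mul_ne_zero hb0 hn)]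
    rw [Nr_mul, mul_div_mul_left _ _ hb1.ne', Real.mul_rpow hb1.le (Nr_nonneg _)]
    ring
  simp only [e1]
  rw [tsum_mul_left]
  have h2 := hC D hD
  rw [Real.rpow_add hD, Real.rpow_one] at h2
  calc C' * ‖a b‖ ^ 2 * (Nr b ^ e * ∑' n, (if n = 0 then 0 else Nr n ^ e * W A (Nr n / D))) ≤
      C' * ‖a b‖ ^ 2 * (L ^ e * (C * (D * D ^ e))) := by
        gcongr
        exact tsum_nonneg fun n => w1_nonneg _ _ _ _
    _ = _ := by ring

end Crest.Agent.R017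

end
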