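import Crest.Agent.R017.T4StepAuxC
import Crest.Agent.R017.T4StepAuxE

/-! # Row 17: one step of the fourth moment recursion -/

set_option autoImplicit false

noncomputable section

open scoped BigOperators ComplexConjugate
open Complex MeasureTheory

namespace Crest.Agent.R017

theorem s4_ga_le (T : O3 → ℂ) {k : O} (hk : Prim k) (c n : O) (A : ℝ) :
    ‖s4_ga (s4_G T) k c n‖ * Nr n ^ A ≤ ∑ κ ∈ s4_dv k,
      if Prim n then s4_G (fun m => ‖T (κ * m)‖ * Nr (s4_pr m) ^ A) n else 0 := by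
  have h0 : ∀ κ ∈ s4_dv k, 0 ≤ if Prim n then
      s4_G (fun m => ‖T (κ * m)‖ * Nr (s4_pr m) ^ A) n else 0 := fun κ _ => by
    split_ifs
    · exact Finset.sum_nonneg fun m _ =>
        mul_nonneg (norm_nonneg _) (Real.rpow_nonneg (Nr_nonneg _) _)
    · exact le_rfl
  unfold s4_ga
  split_ifs with h h' h'
  · rw [s4_G_mul T hk h.1 h.2.2.1]
    refine (mul_le_mul_of_nonneg_right (norm_sum_le _ _)
      (Real.rpow_nonneg (Nr_nonneg _) _)).trans ?_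
    rw [Finset.sum_mul]
    refine Finset.sum_le_sum fun κ _ => ?_
    refine (mul_le_mul_of_nonneg_right (norm_sum_le _ _)
      (Real.rpow_nonneg (Nr_nonneg _) _)).trans (le_of_eq ?_)
    rw [Finset.sum_mul]
    refine Finset.sum_congr rfl fun m hm => ?_
    beta_reduce
    rw [((s4_mem_dv h.1.ne_zero).1 hm).2]
  · exact absurd h.1 h'
  · rw [norm_zero, zero_mul]
    simpa only [if_pos h'] using Finset.sum_nonneg h0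
  · simp

theorem s4_ga_mom {T : O3 → ℂ} (hT : s4_Dec T) {k : O} (hk : Prim k) (c : O) (A : ℝ) :
    Summable (fun n => ‖s4_ga (s4_G T) k c n‖ * Nr n ^ A) ∧
    ∑' n, ‖s4_ga (s4_G T) k c n‖ * Nr n ^ A ≤ ∑ κ ∈ s4_dv k,
      ∑' m, (if s4_P m then ‖T (κ * m)‖ * Nr (s4_pr m) ^ A else 0) := by
  have h := hasSum_sum (s := s4_dv k) fun κ hκ =>
    s4_group ((hT.shift ((s4_mem_dv hk.ne_zero).1 hκ).1).summable A)
  have h1 : Summable (fun n => ‖s4_ga (s4_G T) k c n‖ * Nr n ^ A) :=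
    Summable.of_nonneg_of_le (fun n => mul_nonneg (norm_nonneg _) (Real.rpow_nonneg (Nr_nonneg _) _))
      (fun n => s4_ga_le T hk c n A) h.summable
  exact ⟨h1, hasSum_le (fun n => s4_ga_le T hk c n A) h1.hasSum h⟩

theorem s4_G_le {T : O3 → ℂ} {n : O} (hn : Prim n) {B : ℝ}
    (h : ∀ m, s4_P m → s4_pr m = n → ‖T m‖ ≤ B) : ‖s4_G T n‖ ≤ (s4_dv n).card * B := by
  refine (norm_sum_le _ _).trans ?_
  rw [← nsmul_eq_mul]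
  exact Finset.sum_le_card_nsmul _ _ _ fun m hm =>
    h m ((s4_mem_dv hn.ne_zero).1 hm).1 ((s4_mem_dv hn.ne_zero).1 hm).2

theorem s4_isAbs {Q : O} (hQ : Q ≠ 0) (h72 : (72 : O) ∣ Q) {a₁ a₂ e C₀ : ℝ} (ha₁ : 0 < a₁)
    (ha₂ : 0 < a₂) (he : 0 < e) (he1 : e ≤ 1 / 8) (hC₀ : 0 ≤ C₀) :
    ∃ (CA : ℝ → ℝ) (M C : ℝ), 0 ≤ M ∧ 0 ≤ C ∧
    ∀ (x R K N₁ N₂ l Z θ Ξ P τ : ℝ) (c : ℂ) (ψ α : O → ℂ) (t : O),
    s4_Hyp Q a₁ a₂ C₀ x R K N₁ N₂ l Z θ Ξ P c ψ α t →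
    s4_Abs Q t CA M C e x R K (N₁ * N₂ * Z)
      (C * x ^ (31 * e) * (1 + |τ|) ^ C * (s4_Dd R K N₁ N₂ l Z θ Ξ P c t / (N₁ * N₂ * Z)))
      (s4_G (s4_T a₁ a₂ N₁ N₂ l τ c ψ α t)) := by
  obtain ⟨C, hC, hch⟩ := s4_child hQ h72 ha₁ ha₂ he he1 hC₀
  obtain ⟨Cd, hCd, hd⟩ := s4_card_dv he
  obtain ⟨C1, hC1, hd1⟩ := s4_card_dv one_pos
  have hm := fun A (hA : -1 < A) => s4_T_mom ha₁ ha₂ hA
  choose! Cm hCm0 hCm using hm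
  refine ⟨fun A => Cd * Cm A, Cd * 2, C, by positivity, hC,
    fun x R K N₁ N₂ l Z θ Ξ P τ c ψ α t h => ?_⟩
  have hx0 : 0 < x := lt_of_lt_of_le one_pos h.hx
  have hN₁ : 0 < N₁ := lt_of_lt_of_le (inv_pos.2 hx0) h.hN₁
  have hN₂ : 0 < N₂ := lt_of_lt_of_le (inv_pos.2 hx0) h.hN₂
  have hl : 0 < l := lt_of_lt_of_le one_pos h.hl
  have hZ : 0 < Z := lt_of_lt_of_le one_pos h.hZ
  have hK : 0 < K := lt_of_lt_of_le one_pos h.hK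
  have hR : 0 < R := lt_of_lt_of_le one_pos h.hR
  have hdec := s4_T_dec (τ := τ) h.hψ ha₁ ha₂ hN₁ hN₂ hl h.hc h.hα (fun b hb => (h.hαs b hb).2) t
  refine ⟨h.hx, h.hR, h.hRx, h.hK, h.hKx, by positivity, ?_, ?_, fun n hn hG => ?_,
    fun A k c' hk => (s4_ga_mom hdec hk c' A).1, fun A k c' hA hk => ?_, fun n hn => ?_, ?_,
    hch x R K N₁ N₂ l Z θ Ξ P τ c ψ α t h⟩
  · calc N₁ * N₂ * Z ≤ x * x * x := by gcongr; exacts [h.hN₁x, h.hN₂x, h.hZx]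
      _ = x ^ 3 := by ring
  · have h1 := h.hΞ
    have h2 := Nr_nonneg (rad t)
    have h3 : 0 ≤ s4_Dd R K N₁ N₂ l Z θ Ξ P c t := by
      unfold s4_Dd
      split_ifs <;> positivity
    positivity
  · obtain ⟨m, hm, hT⟩ := Finset.exists_ne_zero_of_sum_ne_zero hG
    obtain ⟨hP, rfl⟩ := (s4_mem_dv hn.ne_zero).1 hm
    simp only [s4_T, mul_ne_zero_iff] at hT
    obtain ⟨⟨⟨⟨⟨h1, h2⟩, h3⟩, h4⟩, -⟩, -⟩ := hT
    refine IsCoprime.mul_right (((ch_cop h.hψ h1).mul_left (ch_cop h.hψ h2)).mul_left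
      (h.hαs _ h3).1.2.2) ?_
    by_contra h5
    exact h4 ((chi_eq_zero hn.ne_zero).2 fun h6 => h5 h6.of_mul_right_right)
  · refine (s4_ga_mom hdec hk c' A).2.trans ?_
    refine (Finset.sum_le_card_nsmul (s4_dv k) _ (Cm A * (N₁ * N₂ * Z / Nr k) ^ (1 + A))
      fun κ hκ => ?_).trans ?_
    · obtain ⟨hP, hκk⟩ := (s4_mem_dv hk.ne_zero).1 hκ
      have h1 := hCm A hA Q ψ α N₁ N₂ l τ Z c t κ h.hψ hN₁ hN₂ hl hZ h.hc h.hα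
          (fun b hb => (h.hαs b hb).2) hP
      rwa [hκk] at h1
    rw [nsmul_eq_mul]
    have h2 := hCm0 A hA
    have h3 := Nr_pos hk.ne_zero
    calc _ ≤ (Cd * Nr k ^ e) * (Cm A * (N₁ * N₂ * Z / Nr k) ^ (1 + A)) :=
          mul_le_mul_of_nonneg_right (hd k hk.ne_zero) (by positivity)
      _ = _ := by ring
  · refine (s4_G_le hn (B := 2) fun m hm _ => (s4_T_norm h.hψ h.hc t hm).trans ?_).trans ?_
    · have w := fun (a y : ℝ) => (W_pos a y).le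
      have h1 := mul_le_one₀ (W_le_one ha₁ (Nr m.1 / N₁)) (w _ _) (W_le_one ha₂ (Nr m.2.1 / N₂))
      have h2 := mul_le_one₀ (W_le_one ha₁ (Nr m.1 / (N₁ / l))) (w _ _)
        (W_le_one ha₂ (Nr m.2.1 / (N₂ * l)))
      calc _ ≤ 1 * (1 + 1 : ℝ) := mul_le_mul (h.hα _) (add_le_add h1 h2)
            (add_nonneg (mul_nonneg (w _ _) (w _ _)) (mul_nonneg (w _ _) (w _ _))) zero_le_one
        _ = 2 := by norm_num
    · calc _ ≤ (Cd * Nr n ^ e) * 2 := mul_le_mul_of_nonneg_right (hd n hn.ne_zero) (by norm_num)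
        _ = _ := by ring
  · obtain ⟨K₀, hK₀⟩ := hdec 3
    refine ⟨C1 * |K₀|, fun n hn => ?_⟩
    have h1 := Nr_pos hn.ne_zero
    refine (s4_G_le hn (B := |K₀| * Nr n ^ (-3 : ℝ)) fun m hm hmn => (hK₀ m hm).trans ?_).trans ?_
    · rw [hmn]
      exact mul_le_mul_of_nonneg_right (le_abs_self _) (by positivity)
    · calc _ ≤ (C1 * Nr n ^ (1 : ℝ)) * (|K₀| * Nr n ^ (-3 : ℝ)) :=
            mul_le_mul_of_nonneg_right (hd1 n hn.ne_zero) (by positivity)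
        _ = C1 * |K₀| * (Nr n ^ (1 : ℝ) * Nr n ^ (-3 : ℝ)) := by ring
        _ = _ := by rw [← Real.rpow_add h1]; norm_num

theorem s4_F {Q : O} {a₁ a₂ C₀ x R K N₁ N₂ l Z θ Ξ P : ℝ} {c : ℂ} {ψ α : O → ℂ} {t : O}
    (ha₁ : 0 < a₁) (ha₂ : 0 < a₂) (h : s4_Hyp Q a₁ a₂ C₀ x R K N₁ N₂ l Z θ Ξ P c ψ α t) (τ : ℝ)
    (r : O) :
    (sm a₁ (fun n => ψ n * chi n (r * t)) N₁ τ * sm a₂ (fun n => ψ n * chi n (r * t)) N₂ τ -
        c * (sm a₁ (fun n => ψ n * chi n (r * t)) (N₁ / l) τ *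
          sm a₂ (fun n => ψ n * chi n (r * t)) (N₂ * l) τ)) * ∑ b ∈ box Z, α b * chi b (r * t) =
      ∑' n, if Prim n then s4_G (s4_T a₁ a₂ N₁ N₂ l τ c ψ α t) n * chi n r else 0 := by
  have hx0 : 0 < x := lt_of_lt_of_le one_pos h.hx
  have hN₁ : 0 < N₁ := lt_of_lt_of_le (inv_pos.2 hx0) h.hN₁
  have hN₂ : 0 < N₂ := lt_of_lt_of_le (inv_pos.2 hx0) h.hN₂
  have hl : 0 < l := lt_of_lt_of_le one_pos h.hl
  have hdec := s4_T_dec (τ := τ) h.hψ ha₁ ha₂ hN₁ hN₂ hl h.hc h.hα (fun b hb => (h.hαs b hb).2) t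
  have hb : ∀ n, Prim n → ‖chi n r‖ ≤ 1 * Nr n ^ (0 : ℝ) := fun n _ => by simpa using norm_chi_le n r
  have h1 := (s4_group (hdec.mul (u := fun m => chi (s4_pr m) r)
    fun m hm => hb _ hm.pr).summable').tsum_eq
  have h2 := s4_eval (τ := τ) h.hψ ha₁ ha₂ hN₁ hN₂ hl c (fun b hb => (h.hαs b hb).2) t (κ := 1)
    ⟨prim_one, prim_one, prim_one⟩ (u := fun n => chi n r)
    (fun x y hx hy => chi_mul_left hx.ne_zero hy.ne_zero r) hb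
  have h3 : s4_pr 1 = 1 := by simp [s4_pr]
  simp only [one_mul, Prod.fst_one, Prod.snd_one, h.hψ.one, h3, chi_unit_left isUnit_one, Nr_one,
    div_one, Complex.ofReal_one, Complex.one_cpow] at h2
  have h4 : (fun n => ψ n * chi n (r * t)) = fun n => ψ n * chi n t * chi n r := by
    funext n; rw [chi_mul_right]; ring
  have h5 : ∑ b ∈ box Z, α b * chi b (r * t) =
      ∑ b ∈ (box Z).filter Prim, α b * (chi b t * chi b r) := by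
    rw [Finset.sum_filter]
    refine Finset.sum_congr rfl fun b _ => ?_
    split_ifs with hb
    · rw [chi_mul_right]; ring
    · have : α b = 0 := by
        by_contra h0
        exact hb (h.hαs b h0).1.1
      rw [this, zero_mul]
  rw [h4, h5]
  refine Eq.trans ?_ (h2.symm.trans (h1.symm.trans (tsum_congr fun n => ?_)))
  · rfl
  · split_ifs with hn
    · unfold s4_G
      rw [Finset.sum_mul]
      refine Finset.sum_congr rfl fun m hm => ?_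
      beta_reduce
      rw [((s4_mem_dv hn.ne_zero).1 hm).2]
    · rfl

theorem s4_alg {R K n Z θ Ξ P E T : ℝ} (hR : 0 < R) (hK : 0 < K) (hn : 0 < n) (hZ : 0 < Z) :
    K ^ (5 / 6 : ℝ) * (n * Z) ^ 2 * ((K⁻¹ * Ξ * P ^ 2 * (R * T) * Z ^ (2 * θ - 1) +
      (R / K) ^ (1 / 6 : ℝ) * E * Z + n * Z) / (n * Z)) =
    n * (K ^ (5 / 6 : ℝ) * n * Z ^ 2 + K ^ (2 / 3 : ℝ) * R ^ (1 / 6 : ℝ) * E * Z ^ 2 +
      K ^ (-(1 / 6 : ℝ)) * Ξ * P ^ 2 * (R * T) * Z ^ (2 * θ)) := by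
  have h1 : K ^ (-(1 / 6 : ℝ)) = K ^ (5 / 6 : ℝ) * K⁻¹ := by
    rw [← Real.rpow_neg_one, ← Real.rpow_add hK]; norm_num
  have h2 : K ^ (2 / 3 : ℝ) = K ^ (5 / 6 : ℝ) / K ^ (1 / 6 : ℝ) := by
    rw [← Real.rpow_sub hK]; norm_num
  have h3 : Z ^ (2 * θ) = Z ^ (2 * θ - 1) * Z := by
    rw [← Real.rpow_add_one hZ.ne']; norm_num
  have h4 : 0 < K ^ (1 / 6 : ℝ) := Real.rpow_pos_of_pos hK _
  rw [h1, h2, h3, Real.div_rpow hR.le hK.le]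
  field_simp
  ring

open Classical in
/-- Poisson, multiplicity gain, Poisson.  `c = 1` is the centred case: the main terms of the two
products cancel on exceptional rows. -/
theorem step4 {Q : O} (hQ : Q ≠ 0) (h72 : (72 : O) ∣ Q) {a₁ a₂ ε C₀ : ℝ} (ha₁ : 0 < a₁) (ha₂ : 0 < a₂)
    (hε : 0 < ε) (hC₀ : 0 ≤ C₀) : ∃ C : ℝ, 0 ≤ C ∧
    ∀ (x y R K N₁ N₂ l Z θ Ξ P τ : ℝ) (c : ℂ) (ψ α : O → ℂ) (t : O),
    1 ≤ x → IsCh Q ψ → t ≠ 0 → 0 < R → R ≤ x → 1 ≤ K → K ≤ x → x⁻¹ ≤ N₁ → N₁ ≤ x → x⁻¹ ≤ N₂ → N₂ ≤ x →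
    1 ≤ l → l ≤ x → 1 ≤ y → 1 ≤ Z → Z ≤ x → Nr (rad t) ≤ x → 1 / 2 ≤ θ → θ ≤ 1 → 0 ≤ Ξ → 0 ≤ P →
    (c = 0 ∨ c = 1) → (∀ b, ‖α b‖ ≤ 1) → (∀ b, α b ≠ 0 → Adm Q b ∧ Z / y ≤ Nr b ∧ Nr b ≤ Z) →
    -- the fourth moment for the shorter row sets
    (∀ a : ℝ, a = a₁ ∨ a = a₂ → ∀ (ψ' : O → ℂ) (d : O) (N' τ' : ℝ), IsCh Q ψ' → d ≠ 0 → 0 < N' →
      ∑ r ∈ (box (R / (K * Nr d ^ 2))).filter (fun r => ¬ Exc Q (t * d ^ 2) r),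
        ‖sm a (fun n => ψ' n * chi n (r * (t * d ^ 2))) N' τ'‖ ^ 4 ≤
        Ξ * (1 + |τ'|) ^ C₀ * (R / (K * Nr d ^ 2) * Nr (rad (t * d ^ 2))) * N' ^ 2) →
    -- the pointwise bound for the third factor
    (∀ (ψ' : O → ℂ) (d r f : O) (σ' τ' : ℝ), IsCh Q ψ' → d ≠ 0 → r ∈ box (R / (K * Nr d ^ 2)) →
      ¬ Exc Q (t * d ^ 2) r → Prim f → -1 ≤ σ' → σ' ≤ 0 →
      ‖∑ b ∈ (box Z).filter Prim,
          α (f * b) * (ψ' b * chi b (r * (t * d ^ 2))) * (Nr b : ℂ) ^ ((σ' : ℂ) + τ' * I)‖ ≤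
        P * (1 + |τ'|) * (Z / Nr f) ^ (θ + σ')) →
    ∑ r ∈ box R, ‖(sm a₁ (fun n => ψ n * chi n (r * t)) N₁ τ * sm a₂ (fun n => ψ n * chi n (r * t)) N₂ τ -
        c * (sm a₁ (fun n => ψ n * chi n (r * t)) (N₁ / l) τ *
          sm a₂ (fun n => ψ n * chi n (r * t)) (N₂ * l) τ)) * ∑ b ∈ box Z, α b * chi b (r * t)‖ ^ 2 ≤
      C * x ^ ε * y ^ 2 * (1 + |τ|) ^ C * (N₁ * N₂) *
        (R * Z + K ^ (5 / 6 : ℝ) * (N₁ * N₂) * Z ^ 2 +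
          K ^ (2 / 3 : ℝ) * R ^ (1 / 6 : ℝ) * (if c = 0 then N₁ * N₂ else 1 + N₁ + N₂ * l) * Z ^ 2 +
          K ^ (-(1 / 6 : ℝ)) * Ξ * P ^ 2 * (R * Nr (rad t)) * Z ^ (2 * θ)) := by
  have he : 0 < min ε 1 / 60 := by positivity
  have he1 : min ε 1 / 60 ≤ 1 / 8 := by linarith [min_le_right ε 1]
  have he2 : 51 * (min ε 1 / 60) ≤ ε := by linarith [min_le_left ε 1]
  obtain ⟨e, hed⟩ : ∃ e, e = min ε 1 / 60 := ⟨_, rfl⟩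
  rw [← hed] at he he1 he2
  have h6 : (6 : O) ∣ Q := (show (6 : O) ∣ 72 from ⟨12, by norm_num⟩).trans h72
  obtain ⟨CA, M, C₁, hM, hC₁, h₁⟩ := s4_isAbs hQ h72 ha₁ ha₂ he he1 hC₀
  obtain ⟨C₂, hC₂, h₂⟩ := s4_abs hQ h6 CA hM hC₁ he he1
  refine ⟨C₂ * (1 + C₁) + C₁, by positivity, fun x y R K N₁ N₂ l Z θ Ξ P τ c ψ α t hx hψ ht hR hRx
    hK hKx hN₁ hN₁x hN₂ hN₂x hl hlx hy hZ hZx htx hθ hθ1 hΞ hP hc hα hαs IH PW => ?_⟩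
  have hx0 : 0 < x := lt_of_lt_of_le one_pos hx
  have hN₁0 : 0 < N₁ := lt_of_lt_of_le (inv_pos.2 hx0) hN₁
  have hN₂0 : 0 < N₂ := lt_of_lt_of_le (inv_pos.2 hx0) hN₂
  have hl0 : 0 < l := lt_of_lt_of_le one_pos hl
  have hZ0 : 0 < Z := lt_of_lt_of_le one_pos hZ
  have hK0 : 0 < K := lt_of_lt_of_le one_pos hK
  have hT0 := Nr_nonneg (rad t)
  obtain ⟨E, hE⟩ : ∃ E : ℝ, E = if c = 0 then N₁ * N₂ else 1 + N₁ + N₂ * l := ⟨_, rfl⟩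
  have hE0 : 0 ≤ E := by rw [hE]; split_ifs <;> positivity
  rw [← hE]
  rcases lt_or_ge R 1 with hR1 | hR1
  · rw [box_eq_empty hR1, Finset.sum_empty]
    positivity
  have h : s4_Hyp Q a₁ a₂ C₀ x R K N₁ N₂ l Z θ Ξ P c ψ α t :=
    ⟨hx, hψ, ht, hR1, hRx, hK, hKx, hN₁, hN₁x, hN₂, hN₂x, hl, hlx, hZ, hZx, htx, hθ, hθ1, hΞ, hP, hc,
      hα, fun b hb => ⟨(hαs b hb).1, (hαs b hb).2.2⟩, IH, PW⟩
  simp only [s4_F ha₁ ha₂ h τ]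
  refine (h₂ t x R K _ _ _ (h₁ x R K N₁ N₂ l Z θ Ξ P τ c ψ α t h)).trans ?_
  have ha := s4_alg (θ := θ) (Ξ := Ξ) (P := P) (E := E) (T := Nr (rad t)) hR hK0
    (mul_pos hN₁0 hN₂0) hZ0
  unfold s4_Dd
  rw [← hE]
  obtain ⟨n, hn⟩ : ∃ n, n = N₁ * N₂ := ⟨_, rfl⟩
  have hn0 : 0 < n := hn ▸ mul_pos hN₁0 hN₂0
  rw [← hn] at ha ⊢
  obtain ⟨D, hD⟩ : ∃ D, D = (K⁻¹ * Ξ * P ^ 2 * (R * Nr (rad t)) * Z ^ (2 * θ - 1) +
      (R / K) ^ (1 / 6 : ℝ) * E * Z + n * Z) / (n * Z) := ⟨_, rfl⟩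
  rw [← hD] at ha ⊢
  obtain ⟨U₁, hU₁⟩ : ∃ U, U = K ^ (5 / 6 : ℝ) * n * Z ^ 2 := ⟨_, rfl⟩
  obtain ⟨U₂, hU₂⟩ : ∃ U, U = K ^ (2 / 3 : ℝ) * R ^ (1 / 6 : ℝ) * E * Z ^ 2 := ⟨_, rfl⟩
  obtain ⟨U₃, hU₃⟩ : ∃ U, U = K ^ (-(1 / 6 : ℝ)) * Ξ * P ^ 2 * (R * Nr (rad t)) * Z ^ (2 * θ) :=
    ⟨_, rfl⟩
  have hU₁0 : 0 ≤ U₁ := by rw [hU₁]; positivity
  have hU₂0 : 0 ≤ U₂ := by rw [hU₂]; positivity
  have hU₃0 : 0 ≤ U₃ := by rw [hU₃]; positivity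
  have hb : K ^ (5 / 6 : ℝ) * (n * Z) ^ 2 = n * U₁ := by rw [hU₁]; ring
  rw [← hU₁, ← hU₂, ← hU₃] at ha ⊢
  obtain ⟨p, hp⟩ : ∃ p, p = x ^ (31 * e) * (1 + |τ|) ^ C₁ := ⟨_, rfl⟩
  have hτ : 1 ≤ 1 + |τ| := le_add_of_nonneg_right (abs_nonneg _)
  have hp1 : 1 ≤ p := hp ▸ one_le_mul_of_one_le_of_one_le (Real.one_le_rpow hx (by positivity))
    (Real.one_le_rpow hτ hC₁)
  have hRZ : 0 ≤ R * Z := by positivity
  calc _ = C₂ * x ^ (20 * e) * n * (R * Z + U₁ + C₁ * p * (U₁ + U₂ + U₃)) := by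
        rw [hp]
        linear_combination C₂ * x ^ (20 * e) * hb +
          C₂ * x ^ (20 * e) * (C₁ * x ^ (31 * e) * (1 + |τ|) ^ C₁) * ha
    _ ≤ C₂ * x ^ (20 * e) * n * ((1 + C₁) * p * (R * Z + U₁ + U₂ + U₃)) := by
        refine mul_le_mul_of_nonneg_left ?_ (by positivity)
        have h1 : R * Z + U₁ ≤ p * (R * Z + U₁ + U₂ + U₃) :=
          le_trans (by linarith) (le_mul_of_one_le_left (by positivity) hp1)
        have h2 : C₁ * p * (U₁ + U₂ + U₃) ≤ C₁ * p * (R * Z + U₁ + U₂ + U₃) :=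
          mul_le_mul_of_nonneg_left (by linarith) (by positivity)
        linarith
    _ = C₂ * (1 + C₁) * x ^ (51 * e) * 1 * (1 + |τ|) ^ C₁ * n * (R * Z + U₁ + U₂ + U₃) := by
        rw [hp, show 51 * e = 20 * e + 31 * e by ring, Real.rpow_add hx0]; ring
    _ ≤ _ := by
        have h1 : C₂ * (1 + C₁) ≤ C₂ * (1 + C₁) + C₁ := by linarith
        have h2 : x ^ (51 * e) ≤ x ^ ε := Real.rpow_le_rpow_of_exponent_le hx he2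
        have h3 : 1 ≤ y ^ 2 := one_le_pow₀ hy
        have h4 : (1 + |τ|) ^ C₁ ≤ (1 + |τ|) ^ (C₂ * (1 + C₁) + C₁) :=
          Real.rpow_le_rpow_of_exponent_le hτ (le_add_of_nonneg_left (by positivity))
        gcongr

end Crest.Agent.R017

end
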