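import Crest.Agent.R017.Slots
import Crest.Agent.R017.T4Step

/-! # Row 17: fourth moments, normalised moments and their reflection -/

set_option autoImplicit false

noncomputable section

open scoped BigOperators ComplexConjugate
open Complex MeasureTheory

namespace Crest.Agent.R017

/-- The normalised size of a smooth character sum of length `e^v`. -/
def t41_B (a : ℝ) (ψ : O → ℂ) (t : O) (τ : ℝ) (r : O) (v : ℝ) : ℝ :=
  ‖sm a (fun n => ψ n * chi n (r * t)) (Real.exp v) τ‖ * Real.exp (-v / 2)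

open Classical in
/-- The normalised fourth moment. -/
def t41_Ph (Q : O) (a R : ℝ) (ψ : O → ℂ) (t : O) (τ v : ℝ) : ℝ :=
  ∑ r ∈ (box R).filter (fun r => ¬ Exc Q t r), t41_B a ψ t τ r v ^ 4

theorem t41_B_nonneg (a : ℝ) (ψ : O → ℂ) (t : O) (τ : ℝ) (r : O) (v : ℝ) : 0 ≤ t41_B a ψ t τ r v :=
  mul_nonneg (norm_nonneg _) (Real.exp_pos _).le

theorem t41_norm (a : ℝ) (ψ : O → ℂ) (t : O) (τ : ℝ) (r : O) (v : ℝ) :
    ‖sm a (fun n => ψ n * chi n (r * t)) (Real.exp v) τ‖ = t41_B a ψ t τ r v * Real.exp (v / 2) := by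
  rw [t41_B, mul_assoc, ← Real.exp_add, show -v / 2 + v / 2 = 0 by ring, Real.exp_zero, mul_one]

theorem t41_exp_half (v : ℝ) : Real.exp (v / 2) ^ 4 = Real.exp v ^ 2 := by
  rw [← Real.exp_nat_mul, ← Real.exp_nat_mul]; congr 1; push_cast; ring

open Classical in
theorem t41_F (Q : O) (a R : ℝ) (ψ : O → ℂ) (t : O) (τ v : ℝ) :
    ∑ r ∈ (box R).filter (fun r => ¬ Exc Q t r),
      ‖sm a (fun n => ψ n * chi n (r * t)) (Real.exp v) τ‖ ^ 4 =
      t41_Ph Q a R ψ t τ v * Real.exp v ^ 2 := by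
  rw [t41_Ph, Finset.sum_mul]
  refine Finset.sum_congr rfl fun r _ => ?_
  rw [t41_norm, mul_pow, t41_exp_half]

theorem t41_eta_le {Q : O} {ψ : O → ℂ} (hψ : IsCh Q ψ) (u n : O) : ‖ψ n * chi n u‖ ≤ 1 := by
  rw [norm_mul]
  exact mul_le_one₀ (hψ.norm_le n) (norm_nonneg _) (norm_chi_le n u)

theorem t41_cont {Q : O} {a : ℝ} (ha : 0 < a) {ψ : O → ℂ} (hψ : IsCh Q ψ) (t : O) (τ : ℝ) (r : O) :
    Continuous (t41_B a ψ t τ r) := by
  have h := continuous_sm (c := fun n => ψ n * chi n (r * t)) (K := 1) (A := 0) ha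
    (fun n _ => by simpa using t41_eta_le hψ (r * t) n)
  have h2 : Continuous fun v : ℝ => sm a (fun n => ψ n * chi n (r * t)) (Real.exp v) τ :=
    h.comp (f := fun v : ℝ => (v, τ)) (by fun_prop)
  unfold t41_B
  exact h2.norm.mul (by fun_prop)

open Classical in
theorem t41_card (Q t : O) {R : ℝ} (hR : 0 ≤ R) :
    (((box R).filter (fun r => ¬ Exc Q t r)).card : ℝ) ≤ 25 * R :=
  le_trans (by exact_mod_cast Finset.card_filter_le _ _) (card_box_le hR)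

theorem t41_small (Q : O) {a : ℝ} (ha : 0 < a) : ∃ C : ℝ, 0 ≤ C ∧ ∀ (R v τ : ℝ) (ψ : O → ℂ) (t : O),
    IsCh Q ψ → 0 ≤ R → v ≤ 0 → t41_Ph Q a R ψ t τ v ≤ C * R := by
  classical
  obtain ⟨C, hC⟩ := norm_sm_le ha (1 / 2)
  refine ⟨C ^ 4 * 25, by positivity, fun R v τ ψ t hψ hR hv => ?_⟩
  have h1 : ∀ r, t41_B a ψ t τ r v ≤ C := fun r => by
    have := hC (fun n => ψ n * chi n (r * t)) (Real.exp v) τ (Real.exp_pos v)
      (fun n _ => t41_eta_le hψ _ n) (Or.inr (Real.exp_le_one_iff.2 hv))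
    rw [t41_norm, ← Real.exp_mul, show v * (1 / 2) = v / 2 by ring] at this
    exact le_of_mul_le_mul_right this (Real.exp_pos _)
  refine (Finset.sum_le_card_nsmul _ _ (C ^ 4) fun r _ =>
    pow_le_pow_left₀ (t41_B_nonneg _ _ _ _ _ _) (h1 r) 4).trans ?_
  rw [nsmul_eq_mul, mul_comm, mul_assoc]
  exact mul_le_mul_of_nonneg_left (t41_card Q t hR) (by positivity)

theorem t41_holder {g : ℝ → ℝ} (hg : Continuous g) {U : ℝ} (hU : 0 ≤ U) :
    (∫ u in (0 : ℝ)..U, g u) ^ 4 ≤ U ^ 3 * ∫ u in (0 : ℝ)..U, g u ^ 4 := by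
  rcases hU.eq_or_lt with rfl | hU0
  · simp
  set J := ∫ u in (0 : ℝ)..U, g u with hJ
  set m := J / U with hm
  have hJm : J = m * U := by rw [hm]; field_simp
  have h1 : ∫ u in (0 : ℝ)..U, (4 * m ^ 3 * g u - 3 * m ^ 4) ≤ ∫ u in (0 : ℝ)..U, g u ^ 4 := by
    refine intervalIntegral.integral_mono_on hU (Continuous.intervalIntegrable (by fun_prop) _ _)
      (Continuous.intervalIntegrable (by fun_prop) _ _) fun u _ => ?_
    nlinarith [mul_nonneg (sq_nonneg (g u - m)) (add_nonneg (sq_nonneg (g u + m))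
      (mul_nonneg (by norm_num : (0 : ℝ) ≤ 2) (sq_nonneg m)))]
  rw [intervalIntegral.integral_sub (Continuous.intervalIntegrable (by fun_prop) _ _)
    (Continuous.intervalIntegrable (by fun_prop) _ _), intervalIntegral.integral_const_mul,
    intervalIntegral.integral_const, ← hJ, sub_zero, smul_eq_mul] at h1
  calc J ^ 4 = U ^ 3 * (4 * m ^ 3 * J - U * (3 * m ^ 4)) := by rw [hJm]; ring
    _ ≤ _ := mul_le_mul_of_nonneg_left h1 (by positivity)

theorem t41_four (s : ℝ) : (1 + s) ^ 4 ≤ 8 * (1 + s ^ 4) := by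
  nlinarith [sq_nonneg (s ^ 2 - 1), sq_nonneg (s - 1), sq_nonneg (s ^ 2 - s), sq_nonneg (s + 1),
    mul_nonneg (sq_nonneg (s - 1)) (sq_nonneg (s + 1)), mul_nonneg (sq_nonneg (s - 1)) (sq_nonneg s),
    sq_nonneg ((s - 1) ^ 2)]

theorem t41_rad_le {r t : O} (hr : r ≠ 0) (ht : t ≠ 0) : Nr (rad (r * t)) ≤ Nr r * Nr (rad t) := by
  refine (Nr_le_of_dvd (mul_ne_zero (rad_ne_zero r) (rad_ne_zero t)) (rad_mul_dvd hr ht)).trans ?_
  rw [Nr_mul]
  exact mul_le_mul_of_nonneg_right (Nr_le_of_dvd hr (rad_dvd hr)) (Nr_nonneg _)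

/-- Reflection of the fourth moment. -/
theorem t41_refl {Q : O} (hQ : Q ≠ 0) (h72 : (72 : O) ∣ Q) {a ε : ℝ} (ha : 0 < a) (hε : 0 < ε) :
    ∃ C : ℝ, 0 ≤ C ∧ ∀ (x R τ v U M : ℝ) (ψ : O → ℂ) (t : O), 1 ≤ x → IsCh Q ψ → t ≠ 0 → 0 ≤ R →
      Nr Q * (R * Nr (rad t)) ≤ x → 0 ≤ U →
      Real.log (Nr Q * (R * Nr (rad t))) - v + ε * Real.log x ≤ U →
      (∀ u, 0 ≤ u → u ≤ U → t41_Ph Q a R ψ t τ u ≤ M) →
      t41_Ph Q (2 * a) R ψ t τ v ≤ C * (x ^ ε) ^ 4 * (1 + |τ|) ^ C * (R + U ^ 4 * M) := by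
  classical
  obtain ⟨C, hC, h⟩ := reflect ha hε
  refine ⟨200 * C ^ 4 + 4 * C, by positivity, fun x R τ v U M ψ t hx hψ ht hR hW hU hvU hM => ?_⟩
  set S := (box R).filter (fun r => ¬ Exc Q t r) with hS
  have hT : 1 ≤ 1 + |τ| := by linarith [abs_nonneg τ]
  have hM0 : 0 ≤ M := le_trans (Finset.sum_nonneg fun r _ => by positivity) (hM 0 le_rfl hU)
  have hx0 : 0 < x := lt_of_lt_of_le one_pos hx
  have h1 : ∀ r ∈ S, t41_B (2 * a) ψ t τ r v ^ 4 ≤ (C * x ^ ε * (1 + |τ|) ^ C) ^ 4 *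
      (8 * (1 + U ^ 3 * ∫ u in (0 : ℝ)..U, t41_B a ψ t τ r u ^ 4)) := by
    intro r hr
    obtain ⟨hr1, hr2⟩ := Finset.mem_filter.1 hr
    obtain ⟨hr0, hrR⟩ := mem_box.1 hr1
    have hrt : r * t ≠ 0 := mul_ne_zero hr0 ht
    have hq : Nr (Q * rad (r * t)) ≤ Nr Q * (R * Nr (rad t)) := by
      rw [Nr_mul]
      exact mul_le_mul_of_nonneg_left ((t41_rad_le hr0 ht).trans
        (mul_le_mul_of_nonneg_right hrR (Nr_nonneg _))) (Nr_nonneg _)
    have h2 := h x _ _ hx (hψ.mul_chi h72 hrt) (not_princ_of_not_exc hψ h72 hrt hr2) (hq.trans hW) v τ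
    have hc := t41_cont ha hψ t τ r
    have h3 : max 0 (Real.log (Nr (Q * rad (r * t))) - v + ε * Real.log x) ≤ U := by
      refine max_le hU (le_trans ?_ hvU)
      have := Real.log_le_log (Nr_pos (mul_ne_zero hQ (rad_ne_zero _))) hq
      linarith
    have h4 : ∫ u in (0 : ℝ)..(max 0 (Real.log (Nr (Q * rad (r * t))) - v + ε * Real.log x)),
        t41_B a ψ t τ r u ≤ ∫ u in (0 : ℝ)..U, t41_B a ψ t τ r u :=
      intervalIntegral.integral_mono_interval le_rfl (le_max_left _ _) h3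
        (Filter.Eventually.of_forall fun u => t41_B_nonneg _ _ _ _ _ _) (hc.intervalIntegrable _ _)
    have h5 : t41_B (2 * a) ψ t τ r v ≤
        C * x ^ ε * (1 + |τ|) ^ C * (1 + ∫ u in (0 : ℝ)..U, t41_B a ψ t τ r u) :=
      le_trans h2 (mul_le_mul_of_nonneg_left (add_le_add le_rfl h4) (by positivity))
    refine (pow_le_pow_left₀ (t41_B_nonneg _ _ _ _ _ _) h5 4).trans ?_
    rw [mul_pow]
    refine mul_le_mul_of_nonneg_left ((t41_four _).trans ?_) (by positivity)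
    have := t41_holder hc hU
    linarith
  have h6 : ∑ r ∈ S, ∫ u in (0 : ℝ)..U, t41_B a ψ t τ r u ^ 4 ≤ U * M := by
    rw [← intervalIntegral.integral_finsetSum (f := fun r u => t41_B a ψ t τ r u ^ 4) fun r _ =>
      ((t41_cont ha hψ t τ r).pow 4).intervalIntegrable _ _]
    have : ∫ u in (0 : ℝ)..U, ∑ r ∈ S, t41_B a ψ t τ r u ^ 4 ≤ ∫ _ in (0 : ℝ)..U, M :=
      intervalIntegral.integral_mono_on hU
        ((continuous_finsetSum _ fun r _ => (t41_cont ha hψ t τ r).pow 4).intervalIntegrable _ _)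
        (continuous_const.intervalIntegrable _ _) fun u hu => hM u hu.1 hu.2
    simpa using this
  refine (Finset.sum_le_sum h1).trans ?_
  rw [← Finset.mul_sum, ← Finset.mul_sum, Finset.sum_add_distrib, ← Finset.mul_sum, Finset.sum_const,
    nsmul_eq_mul, mul_one]
  have h7 := t41_card Q t hR
  have h8 : ((1 + |τ|) ^ C) ^ 4 ≤ (1 + |τ|) ^ (200 * C ^ 4 + 4 * C) := by
    rw [← Real.rpow_natCast, ← Real.rpow_mul (by positivity)]
    refine Real.rpow_le_rpow_of_exponent_le hT ?_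
    have : 0 ≤ C ^ 4 := by positivity
    push_cast
    linarith
  have h9 : 8 * ((S.card : ℝ) + U ^ 3 * ∑ r ∈ S, ∫ u in (0 : ℝ)..U, t41_B a ψ t τ r u ^ 4) ≤
      200 * (R + U ^ 4 * M) := by
    have h10 := mul_le_mul_of_nonneg_left h6 (show 0 ≤ U ^ 3 by positivity)
    have h11 : 0 ≤ U ^ 4 * M := by positivity
    have h12 : U ^ 3 * (U * M) = U ^ 4 * M := by ring
    linarith
  calc _ ≤ (C * x ^ ε * (1 + |τ|) ^ C) ^ 4 * (200 * (R + U ^ 4 * M)) :=
        mul_le_mul_of_nonneg_left h9 (by positivity)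
    _ = 200 * C ^ 4 * (x ^ ε) ^ 4 * ((1 + |τ|) ^ C) ^ 4 * (R + U ^ 4 * M) := by ring
    _ ≤ _ := by
        gcongr
        linarith

open Classical in
/-- `step4` without a third factor. -/
theorem t41_step {Q : O} (hQ : Q ≠ 0) (h72 : (72 : O) ∣ Q) {a ε C₀ : ℝ} (ha : 0 < a) (hε : 0 < ε)
    (hC₀ : 0 ≤ C₀) : ∃ C : ℝ, 0 ≤ C ∧ ∀ (x R K N l Ξ τ : ℝ) (c : ℂ) (ψ : O → ℂ) (t : O),
    1 ≤ x → IsCh Q ψ → t ≠ 0 → 0 < R → R ≤ x → 1 ≤ K → K ≤ x → 1 ≤ N → N ≤ x → 1 ≤ l → l ≤ x →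
    Nr (rad t) ≤ x → 0 ≤ Ξ → (c = 0 ∨ c = 1) →
    (∀ (ψ' : O → ℂ) (d : O) (N' τ' : ℝ), IsCh Q ψ' → d ≠ 0 → 0 < N' →
      ∑ r ∈ (box (R / (K * Nr d ^ 2))).filter (fun r => ¬ Exc Q (t * d ^ 2) r),
        ‖sm a (fun n => ψ' n * chi n (r * (t * d ^ 2))) N' τ'‖ ^ 4 ≤
        Ξ * (1 + |τ'|) ^ C₀ * (R / (K * Nr d ^ 2) * Nr (rad (t * d ^ 2))) * N' ^ 2) →
    ∑ r ∈ box R, ‖sm a (fun n => ψ n * chi n (r * t)) N τ * sm a (fun n => ψ n * chi n (r * t)) N τ -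
        c * (sm a (fun n => ψ n * chi n (r * t)) (N / l) τ *
          sm a (fun n => ψ n * chi n (r * t)) (N * l) τ)‖ ^ 2 ≤
      C * x ^ ε * (1 + |τ|) ^ C * (N * N) *
        (R + K ^ (5 / 6 : ℝ) * (N * N) +
          K ^ (2 / 3 : ℝ) * R ^ (1 / 6 : ℝ) * (if c = 0 then N * N else 1 + N + N * l) +
          K ^ (-(1 / 6 : ℝ)) * Ξ * (R * Nr (rad t))) := by
  obtain ⟨C, hC, h⟩ := step4 hQ h72 ha ha hε hC₀
  refine ⟨C, hC, fun x R K N l Ξ τ c ψ t hx hψ ht hR hRx hK hKx hN hNx hl hlx htx hΞ hc IH => ?_⟩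
  have hxi : x⁻¹ ≤ N := (inv_le_one_of_one_le₀ hx).trans hN
  have h1 : (1 : O) ∈ box 1 := mem_box.2 ⟨one_ne_zero, Nr_one.le⟩
  have h2 := h x 1 R K N N l 1 (1 / 2) Ξ 1 τ c ψ (fun b => if b = 1 then 1 else 0) t hx hψ ht hR hRx hK
    hKx hxi hNx hxi hNx hl hlx le_rfl le_rfl hx htx le_rfl (by norm_num) hΞ zero_le_one hc
    (fun b => by split_ifs <;> simp)
    (fun b hb => by
      have : b = 1 := by
        by_contra h0
        exact hb (if_neg h0)
      subst this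
      exact ⟨⟨prim_one, squarefree_one, isCoprime_one_left⟩, by simp [Nr_one], Nr_one.le⟩)
    (fun a' ha' => by
      have : a' = a := ha'.elim id id
      subst this
      exact IH)
    (fun ψ' d r f σ' τ' hψ' _ _ _ hf _ _ => by
      by_cases hf1 : f = 1
      · subst hf1
        rw [Finset.sum_eq_single 1]
        · simp [hψ'.one, chi_unit_left isUnit_one, Nr_one]
        · intro b _ hb
          simp [hb]
        · intro h0
          exact absurd (Finset.mem_filter.2 ⟨h1, prim_one⟩) h0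
      · rw [Finset.sum_eq_zero fun b _ => by
          rw [if_neg fun h0 => hf1 (hf.eq_one_of_isUnit (IsUnit.of_mul_eq_one b h0)), zero_mul,
            zero_mul]]
        have := Nr_nonneg f
        rw [norm_zero]
        positivity)
  have h3 : ∀ r : O, ∑ b ∈ box 1, (if b = 1 then (1 : ℂ) else 0) * chi b (r * t) = 1 := fun r => by
    rw [Finset.sum_eq_single 1]
    · simp [chi_unit_left isUnit_one]
    · intro b _ hb
      simp [hb]
    · intro h0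
      exact absurd h1 h0
  simpa only [h3, mul_one, one_pow, Real.one_rpow] using h2

end Crest.Agent.R017

end
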