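import Crest.Agent.R017.Slots
import Crest.Agent.R017.T4Step
import Crest.Agent.R017.T41Aux1

/-! # Row 17: fourth moments -/

set_option autoImplicit false

noncomputable section

open scoped BigOperators ComplexConjugate
open Complex MeasureTheory

namespace Crest.Agent.R017

open Classical in
/-- The inductive claim. -/
def t41_P (Q : O) (k : ℕ) : Prop :=
  ∀ a e : ℝ, 0 < a → 0 < e → ∃ C : ℝ, 0 ≤ C ∧ ∀ (x K R N τ : ℝ) (ψ : O → ℂ) (t : O), 1 ≤ x → 1 ≤ K →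
    K ≤ x → 0 ≤ R → R < K ^ k → IsCh Q ψ → t ≠ 0 → R * Nr (rad t) ≤ x → 0 < N →
    ∑ r ∈ (box R).filter (fun r => ¬ Exc Q t r), ‖sm a (fun n => ψ n * chi n (r * t)) N τ‖ ^ 4 ≤
      C * x ^ e * K * (1 + |τ|) ^ C * (R * Nr (rad t)) * N ^ 2

/-- The standing hypotheses in the inductive step. -/
structure t41_Hy (Q : O) (k : ℕ) (x K R : ℝ) (ψ : O → ℂ) (t : O) : Prop where
  hx : 1 ≤ x
  hK : 1 ≤ K
  hKx : K ≤ x
  hR : 1 ≤ R
  hRK : R < K ^ (k + 1)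
  hψ : IsCh Q ψ
  ht : t ≠ 0
  hW : R * Nr (rad t) ≤ x

/-- The bound for short sums. -/
def t41_Lo (Q : O) (k : ℕ) (a β e : ℝ) (m : ℕ) : Prop :=
  ∃ C : ℝ, 0 ≤ C ∧ ∀ (x K R v τ : ℝ) (ψ : O → ℂ) (t : O), t41_Hy Q k x K R ψ t →
    v ≤ β * Real.log (R * Nr (rad t)) + 2 * Real.log (Nr Q) + e * Real.log x →
    t41_Ph Q a R ψ t τ v ≤ C * (x ^ e) ^ m * K * (1 + |τ|) ^ C * (R * Nr (rad t))

/-- The bound for long sums. -/
def t41_Hi (Q : O) (k : ℕ) (a β e : ℝ) (m : ℕ) : Prop :=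
  ∃ C : ℝ, 0 ≤ C ∧ ∀ (x K R v τ : ℝ) (ψ : O → ℂ) (t : O), t41_Hy Q k x K R ψ t →
    (1 - β) * Real.log (R * Nr (rad t)) ≤ v →
    t41_Ph Q a R ψ t τ v ≤ C * (x ^ e) ^ m * K * (1 + |τ|) ^ C * (R * Nr (rad t))

theorem t41_Hy.q {Q : O} {k : ℕ} {x K R : ℝ} {ψ : O → ℂ} {t : O} (_ : t41_Hy Q k x K R ψ t) :
    1 ≤ Nr (rad t) := one_le_Nr (rad_ne_zero t)

theorem t41_Hy.RW {Q : O} {k : ℕ} {x K R : ℝ} {ψ : O → ℂ} {t : O} (h : t41_Hy Q k x K R ψ t) :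
    R ≤ R * Nr (rad t) := le_mul_of_one_le_right (zero_le_one.trans h.hR) h.q

theorem t41_Hy.W {Q : O} {k : ℕ} {x K R : ℝ} {ψ : O → ℂ} {t : O} (h : t41_Hy Q k x K R ψ t) :
    1 ≤ R * Nr (rad t) := h.hR.trans h.RW

theorem t41_Hy.qx {Q : O} {k : ℕ} {x K R : ℝ} {ψ : O → ℂ} {t : O} (h : t41_Hy Q k x K R ψ t) :
    Nr (rad t) ≤ x := (le_mul_of_one_le_left (zero_le_one.trans h.q) h.hR).trans h.hW

theorem t41_mono {c C D y K T W : ℝ} {m n : ℕ} (hc : c ≤ C) (hD : D ≤ C) (hc0 : 0 ≤ c) (hy : 1 ≤ y)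
    (hK : 0 ≤ K) (hT : 1 ≤ T) (hW : 0 ≤ W) (hmn : m ≤ n) :
    c * y ^ m * K * T ^ D * W ≤ C * y ^ n * K * T ^ C * W := by
  have h1 : y ^ m ≤ y ^ n := pow_le_pow_right₀ hy hmn
  have h2 : T ^ D ≤ T ^ C := Real.rpow_le_rpow_of_exponent_le hT hD
  have h3 : 0 ≤ C := hc0.trans hc
  have h4 : 0 ≤ y := zero_le_one.trans hy
  have h5 : 0 ≤ T := zero_le_one.trans hT
  gcongr

theorem t41_log {n e : ℝ} (hn : 1 ≤ n) (he : 0 < e) (he1 : e ≤ 1) : ∃ C : ℝ, 0 ≤ C ∧ ∀ x : ℝ, 1 ≤ x →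
    (2 * (Real.log x + Real.log n)) ^ 4 ≤ C * x ^ e := by
  refine ⟨(8 / e) ^ 4 * n, by positivity, fun x hx => ?_⟩
  have hx0 : 0 < x := lt_of_lt_of_le one_pos hx
  have hn0 : 0 < n := lt_of_lt_of_le one_pos hn
  have h1 := Real.log_le_rpow_div (x := x * n) (by positivity) (show 0 < e / 4 by positivity)
  rw [Real.log_mul hx0.ne' hn0.ne'] at h1
  have h2 : 2 * (Real.log x + Real.log n) ≤ 8 / e * (x * n) ^ (e / 4) := by
    have : 8 / e * (x * n) ^ (e / 4) = 2 * ((x * n) ^ (e / 4) / (e / 4)) := by field_simp; ring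
    linarith
  have h3 : 0 ≤ 2 * (Real.log x + Real.log n) := by
    have := Real.log_nonneg hx
    have := Real.log_nonneg hn
    positivity
  refine (pow_le_pow_left₀ h3 h2 4).trans ?_
  rw [mul_pow, ← Real.rpow_natCast ((x * n) ^ (e / 4)), ← Real.rpow_mul (by positivity),
    show e / 4 * ((4 : ℕ) : ℝ) = e by push_cast; ring, Real.mul_rpow hx0.le hn0.le, mul_assoc,
    mul_comm n]
  have h4 : n ^ e ≤ n := by simpa using Real.rpow_le_rpow_of_exponent_le hn he1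
  gcongr

theorem t41_RB {Q : O} (hQ : Q ≠ 0) (h72 : (72 : O) ∣ Q) {k m : ℕ} {a β e : ℝ} (ha : 0 < a)
    (he : 0 < e) (he1 : e ≤ 1) (hβ : 0 ≤ β) (hβ1 : β ≤ 1) (h : t41_Lo Q k a β e m) :
    t41_Hi Q k (2 * a) β e (m + 5) := by
  obtain ⟨C₁, hC₁, h₁⟩ := h
  obtain ⟨C₂, hC₂, h₂⟩ := t41_refl hQ h72 ha he
  have hn : 1 ≤ Nr Q := one_le_Nr hQ
  have hn0 : 0 < Nr Q := Nr_pos hQ
  obtain ⟨C₃, hC₃, h₃⟩ := t41_log hn he he1
  refine ⟨C₂ * Nr Q ^ 4 * (1 + C₃ * C₁) + (C₂ + C₁), by positivity, fun x K R v τ ψ t H hv => ?_⟩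
  have hx := H.hx
  have hx0 : 0 < x := lt_of_lt_of_le one_pos hx
  have hW := H.W
  have hRW := H.RW
  have hK := H.hK
  set W := R * Nr (rad t) with hWd
  have hW0 : 0 < W := lt_of_lt_of_le one_pos hW
  have hL := Real.log_nonneg hW
  have hln := Real.log_nonneg hn
  have hlx := Real.log_nonneg hx
  have hLx : Real.log W ≤ Real.log x := Real.log_le_log hW0 H.hW
  have hT : 1 ≤ 1 + |τ| := by linarith [abs_nonneg τ]
  have hy : 1 ≤ x ^ e := Real.one_le_rpow hx he.le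
  set U := β * Real.log W + 2 * Real.log (Nr Q) + e * Real.log x with hU
  have hU0 : 0 ≤ U := by positivity
  have hU1 : U ≤ 2 * (Real.log x + Real.log (Nr Q)) := by
    have := mul_le_of_le_one_left hL hβ1
    have := mul_le_of_le_one_left hlx he1
    linarith
  have hU2 : U ^ 4 ≤ C₃ * x ^ e := (pow_le_pow_left₀ hU0 hU1 4).trans (h₃ x hx)
  have h4 := h₂ (Nr Q * x) R τ v U _ ψ t (one_le_mul_of_one_le_of_one_le hn hx) H.hψ H.ht
    (zero_le_one.trans H.hR) (mul_le_mul_of_nonneg_left H.hW hn0.le) hU0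
    (by
      rw [Real.log_mul hn0.ne' hW0.ne', Real.log_mul hn0.ne' hx0.ne']
      have := mul_le_of_le_one_left hln he1
      nlinarith)
    (fun u _ hu => h₁ x K R u τ ψ t H hu)
  refine h4.trans ?_
  have h5 : (Nr Q * x) ^ e ≤ Nr Q * x ^ e := by
    rw [Real.mul_rpow hn0.le hx0.le]
    have h4 : Nr Q ^ e ≤ Nr Q := by simpa using Real.rpow_le_rpow_of_exponent_le hn he1
    gcongr
  have hT1 : 1 ≤ (1 + |τ|) ^ C₁ := Real.one_le_rpow hT hC₁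
  have hR0 : 0 < R := lt_of_lt_of_le one_pos H.hR
  have hq0 := Nr_nonneg (rad t)
  set y := x ^ e with hyd
  have h6 : R ≤ y ^ (m + 1) * K * (1 + |τ|) ^ C₁ * W := by
    refine hRW.trans (le_mul_of_one_le_left hW0.le ?_)
    exact one_le_mul_of_one_le_of_one_le (one_le_mul_of_one_le_of_one_le (one_le_pow₀ hy) hK) hT1
  calc _ ≤ C₂ * (Nr Q * y) ^ 4 * (1 + |τ|) ^ C₂ * (y ^ (m + 1) * K * (1 + |τ|) ^ C₁ * W +
        C₃ * y * (C₁ * y ^ m * K * (1 + |τ|) ^ C₁ * W)) := by gcongr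
    _ = C₂ * Nr Q ^ 4 * (1 + C₃ * C₁) * y ^ (m + 5) * K * (1 + |τ|) ^ (C₂ + C₁) * W := by
        rw [Real.rpow_add (by positivity)]
        ring
    _ ≤ _ := t41_mono (le_add_of_nonneg_right (by positivity)) (le_add_of_nonneg_left (by positivity))
        (by positivity) hy (by positivity) hT hW0.le le_rfl

open Classical in
/-- `step4` with the inductive hypothesis inserted. -/
theorem t41_step' {Q : O} (hQ : Q ≠ 0) (h72 : (72 : O) ∣ Q) {k : ℕ} (hP : t41_P Q k) {a e : ℝ}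
    (ha : 0 < a) (he : 0 < e) (he1 : e ≤ 1) : ∃ C : ℝ, 0 ≤ C ∧
    ∀ (x K R N l τ : ℝ) (c : ℂ) (ψ : O → ℂ) (t : O), t41_Hy Q k x K R ψ t → 1 ≤ N → 1 ≤ l → l ≤ x →
    (c = 0 ∨ c = 1) → N * N ≤ Nr Q ^ 4 * (x ^ e) ^ 2 * (R * Nr (rad t)) →
    R ^ (1 / 6 : ℝ) * (if c = 0 then N * N else 1 + N + N * l) ≤
      3 * Nr Q ^ 4 * (x ^ e) ^ 2 * (R * Nr (rad t)) →
    ∑ r ∈ box R, ‖sm a (fun n => ψ n * chi n (r * t)) N τ * sm a (fun n => ψ n * chi n (r * t)) N τ -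
        c * (sm a (fun n => ψ n * chi n (r * t)) (N / l) τ *
          sm a (fun n => ψ n * chi n (r * t)) (N * l) τ)‖ ^ 2 ≤
      C * (x ^ e) ^ 3 * K * (1 + |τ|) ^ C * (R * Nr (rad t)) * N ^ 2 := by
  obtain ⟨C₀, hC₀, h₀⟩ := hP a e ha he
  obtain ⟨C₁, hC₁, h₁⟩ := t41_step hQ h72 ha (half_pos he) hC₀
  have hn : 1 ≤ Nr Q := one_le_Nr hQ
  have hn0 : 0 < Nr Q := Nr_pos hQ
  refine ⟨C₁ * Nr Q * (1 + 4 * Nr Q ^ 4 + C₀) + C₁, by positivity,
    fun x K R N l τ c ψ t H hN hl hlx hc hN1 hN2 => ?_⟩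
  have hx := H.hx
  have hx0 : 0 < x := lt_of_lt_of_le one_pos hx
  have hW := H.W
  have hRW := H.RW
  have hK := H.hK
  have hK0 : 0 < K := lt_of_lt_of_le one_pos hK
  have hR0 : 0 < R := lt_of_lt_of_le one_pos H.hR
  have hT : 1 ≤ 1 + |τ| := by linarith [abs_nonneg τ]
  have hy : 1 ≤ x ^ e := Real.one_le_rpow hx he.le
  have hyx : x ^ e ≤ x := by simpa using Real.rpow_le_rpow_of_exponent_le hx he1
  have hxX : x ≤ (Nr Q * x) ^ 2 := by
    have : x ≤ Nr Q * x := le_mul_of_one_le_left hx0.le hn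
    nlinarith
  have hNX : N ≤ (Nr Q * x) ^ 2 := by
    refine (pow_le_pow_iff_left₀ (zero_le_one.trans hN) (by positivity) two_ne_zero).1 ?_
    have h1 : Nr Q ^ 4 * (x ^ e) ^ 2 * (R * Nr (rad t)) ≤ Nr Q ^ 4 * x ^ 2 * (x * x) := by
      have := H.hW.trans (le_mul_of_one_le_left hx0.le hx)
      gcongr
    calc N ^ 2 = N * N := sq N
      _ ≤ _ := hN1.trans h1
      _ = _ := by ring
  have h2 := h₁ ((Nr Q * x) ^ 2) R K N l (C₀ * x ^ e * K) τ c ψ t (hx.trans hxX) H.hψ H.ht hR0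
    ((hRW.trans H.hW).trans hxX) hK (H.hKx.trans hxX) hN hNX hl (hlx.trans hxX) (H.qx.trans hxX)
    (by positivity) hc (fun ψ' d N' τ' hψ' hd hN' => by
      have hd1 : 1 ≤ Nr d := one_le_Nr hd
      have hd2 : d ^ 2 ≠ 0 := pow_ne_zero 2 hd
      refine h₀ x K _ N' τ' ψ' (t * d ^ 2) hx hK H.hKx (by positivity) ?_ hψ' (mul_ne_zero H.ht hd2)
        ?_ hN'
      · rw [div_lt_iff₀ (by positivity)]
        refine H.hRK.trans_le ?_
        rw [pow_succ]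
        have : K ≤ K * Nr d ^ 2 := le_mul_of_one_le_right hK0.le (one_le_pow₀ hd1)
        gcongr
      · refine le_trans ?_ H.hW
        have h3 : Nr (rad (t * d ^ 2)) ≤ Nr (rad t) * Nr d := by
          refine (Nr_le_of_dvd (mul_ne_zero (rad_ne_zero t) (rad_ne_zero _))
            (rad_mul_dvd H.ht hd2)).trans ?_
          rw [Nr_mul, rad_pow two_ne_zero]
          exact mul_le_mul_of_nonneg_left (Nr_le_of_dvd hd (rad_dvd hd)) (Nr_nonneg _)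
        have h4 : Nr d ≤ K * Nr d ^ 2 := by nlinarith
        have h5 := Nr_nonneg (rad t)
        have h6 := Nr_nonneg (rad (t * d ^ 2))
        calc _ ≤ R / Nr d * (Nr (rad t) * Nr d) := by gcongr
          _ = _ := by field_simp)
  refine h2.trans ?_
  set W := R * Nr (rad t) with hWd
  have hW0 : 0 < W := lt_of_lt_of_le one_pos hW
  have h5 : ((Nr Q * x) ^ 2) ^ (e / 2) ≤ Nr Q * x ^ e := by
    rw [← Real.rpow_natCast, ← Real.rpow_mul (by positivity),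
      show ((2 : ℕ) : ℝ) * (e / 2) = e by push_cast; ring, Real.mul_rpow hn0.le hx0.le]
    have h4 : Nr Q ^ e ≤ Nr Q := by simpa using Real.rpow_le_rpow_of_exponent_le hn he1
    gcongr
  set y := x ^ e with hyd
  have hK1 : K ^ (5 / 6 : ℝ) ≤ K := by
    simpa using Real.rpow_le_rpow_of_exponent_le hK (show (5 / 6 : ℝ) ≤ 1 by norm_num)
  have hK2 : K ^ (2 / 3 : ℝ) ≤ K := by
    simpa using Real.rpow_le_rpow_of_exponent_le hK (show (2 / 3 : ℝ) ≤ 1 by norm_num)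
  have hK3 : K ^ (-(1 / 6 : ℝ)) ≤ 1 := Real.rpow_le_one_of_one_le_of_nonpos hK (by norm_num)
  have hE0 : 0 ≤ R ^ (1 / 6 : ℝ) * (if c = 0 then N * N else 1 + N + N * l) := by
    split_ifs <;> positivity
  have b1 : R ≤ y ^ 2 * K * W :=
    hRW.trans (le_mul_of_one_le_left hW0.le (one_le_mul_of_one_le_of_one_le (one_le_pow₀ hy) hK))
  have b2 : K ^ (5 / 6 : ℝ) * (N * N) ≤ K * (Nr Q ^ 4 * y ^ 2 * W) := by gcongr
  have b3 : K ^ (2 / 3 : ℝ) * R ^ (1 / 6 : ℝ) * (if c = 0 then N * N else 1 + N + N * l) ≤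
      K * (3 * Nr Q ^ 4 * y ^ 2 * W) := by
    rw [mul_assoc]
    gcongr
  have b4 : K ^ (-(1 / 6 : ℝ)) * (C₀ * y * K) * W ≤ 1 * (C₀ * y ^ 2 * K) * W := by
    have : y ≤ y ^ 2 := by nlinarith
    gcongr
  have hN0 : 0 < N := lt_of_lt_of_le one_pos hN
  calc _ ≤ C₁ * (Nr Q * y) * (1 + |τ|) ^ C₁ * (N * N) * (y ^ 2 * K * W + K * (Nr Q ^ 4 * y ^ 2 * W) +
        K * (3 * Nr Q ^ 4 * y ^ 2 * W) + 1 * (C₀ * y ^ 2 * K) * W) := by gcongr
    _ = C₁ * Nr Q * (1 + 4 * Nr Q ^ 4 + C₀) * y ^ 3 * K * (1 + |τ|) ^ C₁ * W * N ^ 2 := by ring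
    _ ≤ _ := mul_le_mul_of_nonneg_right (t41_mono (le_add_of_nonneg_right hC₁)
        (le_add_of_nonneg_left (by positivity)) (by positivity) hy hK0.le hT hW0.le le_rfl)
        (by positivity)

theorem t41_exp {n x W β e v : ℝ} (hn : 0 < n) (hx : 0 < x) (hW : 0 < W)
    (hv : v ≤ β * Real.log W + 2 * Real.log n + e * Real.log x) :
    Real.exp v ≤ W ^ β * n ^ 2 * x ^ e := by
  refine (Real.exp_le_exp.2 hv).trans (le_of_eq ?_)
  rw [Real.exp_add, Real.exp_add, Real.rpow_def_of_pos hW, Real.rpow_def_of_pos hx, mul_comm β,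
    mul_comm e, show 2 * Real.log n = Real.log n + Real.log n by ring, Real.exp_add, Real.exp_log hn,
    sq]

theorem t41_A {Q : O} (hQ : Q ≠ 0) (h72 : (72 : O) ∣ Q) {k : ℕ} (hP : t41_P Q k) {a e : ℝ}
    (ha : 0 < a) (he : 0 < e) (he1 : e ≤ 1) : t41_Lo Q k a (5 / 12) e 3 := by
  classical
  obtain ⟨C₁, hC₁, h₁⟩ := t41_step' hQ h72 hP ha he he1
  obtain ⟨C₂, hC₂, h₂⟩ := t41_small Q ha
  have hn : 1 ≤ Nr Q := one_le_Nr hQ
  have hn0 : 0 < Nr Q := Nr_pos hQ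
  refine ⟨C₁ + C₂, by positivity, fun x K R v τ ψ t H hv => ?_⟩
  have hx := H.hx
  have hx0 : 0 < x := lt_of_lt_of_le one_pos hx
  have hW := H.W
  have hRW := H.RW
  have hK := H.hK
  have hK0 : 0 < K := lt_of_lt_of_le one_pos hK
  have hR0 : 0 < R := lt_of_lt_of_le one_pos H.hR
  have hT : 1 ≤ 1 + |τ| := by linarith [abs_nonneg τ]
  have hy : 1 ≤ x ^ e := Real.one_le_rpow hx he.le
  have hW0 : 0 < R * Nr (rad t) := lt_of_lt_of_le one_pos hW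
  rcases le_total v 0 with hv0 | hv0
  · refine (h₂ R v τ ψ t H.hψ hR0.le hv0).trans (le_trans ?_ (t41_mono (m := 0) (D := 0)
      (le_add_of_nonneg_left hC₁) (by positivity) hC₂ hy hK0.le hT hW0.le (Nat.zero_le 3)))
    rw [pow_zero, Real.rpow_zero, mul_one, mul_one, mul_assoc]
    exact mul_le_mul_of_nonneg_left (hRW.trans (le_mul_of_one_le_left hW0.le hK)) hC₂
  have hN := t41_exp hn0 hx0 hW0 hv
  have hN0 := Real.exp_pos v
  have hNN : Real.exp v * Real.exp v ≤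
      Nr Q ^ 4 * (x ^ e) ^ 2 * (R * Nr (rad t)) ^ (5 / 6 : ℝ) := by
    refine (mul_le_mul hN hN hN0.le (by positivity)).trans (le_of_eq ?_)
    rw [show (5 / 6 : ℝ) = 5 / 12 + 5 / 12 by norm_num, Real.rpow_add hW0]
    ring
  have hW1 : (R * Nr (rad t)) ^ (5 / 6 : ℝ) ≤ R * Nr (rad t) := by
    simpa using Real.rpow_le_rpow_of_exponent_le hW (show (5 / 6 : ℝ) ≤ 1 by norm_num)
  have h3 := h₁ x K R (Real.exp v) 1 τ 0 ψ t H (Real.one_le_exp hv0) le_rfl hx (Or.inl rfl)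
    (hNN.trans (by gcongr)) (by
      rw [if_pos rfl]
      have h4 : R ^ (1 / 6 : ℝ) ≤ (R * Nr (rad t)) ^ (1 / 6 : ℝ) :=
        Real.rpow_le_rpow hR0.le hRW (by norm_num)
      have h5 : (R * Nr (rad t)) ^ (1 / 6 : ℝ) * (R * Nr (rad t)) ^ (5 / 6 : ℝ) = R * Nr (rad t) := by
        rw [← Real.rpow_add hW0]; norm_num
      calc _ ≤ (R * Nr (rad t)) ^ (1 / 6 : ℝ) *
            (Nr Q ^ 4 * (x ^ e) ^ 2 * (R * Nr (rad t)) ^ (5 / 6 : ℝ)) := by gcongr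
        _ = 1 * Nr Q ^ 4 * (x ^ e) ^ 2 *
            ((R * Nr (rad t)) ^ (1 / 6 : ℝ) * (R * Nr (rad t)) ^ (5 / 6 : ℝ)) := by ring
        _ ≤ _ := by rw [h5]; gcongr; norm_num)
  have h4 : t41_Ph Q a R ψ t τ v * Real.exp v ^ 2 ≤
      C₁ * (x ^ e) ^ 3 * K * (1 + |τ|) ^ C₁ * (R * Nr (rad t)) * Real.exp v ^ 2 := by
    rw [← t41_F]
    refine le_trans ?_ h3
    refine le_trans (Finset.sum_le_sum_of_subset_of_nonneg (Finset.filter_subset _ _)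
      fun r _ _ => by positivity) (le_of_eq (Finset.sum_congr rfl fun r _ => ?_))
    rw [zero_mul, sub_zero, norm_mul]
    ring
  exact (le_of_mul_le_mul_right h4 (by positivity)).trans (t41_mono (le_add_of_nonneg_right hC₂)
    (le_add_of_nonneg_right hC₂) hC₁ hy hK0.le hT hW0.le le_rfl)

theorem t41_split (z z₁ z₂ : ℂ) {B₁ B₂ N : ℝ} (h : ‖z₁‖ * ‖z₂‖ = B₁ * B₂ * N) :
    ‖z‖ ^ 4 ≤ 2 * ‖z * z - 1 * (z₁ * z₂)‖ ^ 2 + (B₁ ^ 4 + B₂ ^ 4) * N ^ 2 := by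
  have h1 := l4_sq (z * z - 1 * (z₁ * z₂)) (z₁ * z₂)
  rw [show z * z - 1 * (z₁ * z₂) + z₁ * z₂ = z * z by ring, norm_mul z z, norm_mul z₁ z₂, h] at h1
  nlinarith [mul_nonneg (sq_nonneg (B₁ ^ 2 - B₂ ^ 2)) (sq_nonneg N)]

theorem t41_Bm {Q : O} (hQ : Q ≠ 0) (h72 : (72 : O) ∣ Q) {k : ℕ} (hP : t41_P Q k) {a e : ℝ}
    (ha : 0 < a) (he : 0 < e) (he1 : e ≤ 1) : t41_Lo Q k a (1 / 2) e 8 := by
  classical
  obtain ⟨C₁, hC₁, h₁⟩ := t41_step' hQ h72 hP ha he he1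
  obtain ⟨C₂, hC₂, h₂⟩ := t41_A hQ h72 hP ha he he1
  obtain ⟨C₃, hC₃, h₃⟩ := t41_RB hQ h72 (half_pos ha) he he1 (by norm_num) (by norm_num)
    (t41_A hQ h72 hP (half_pos ha) he he1)
  rw [show 2 * (a / 2) = a by ring] at h₃
  have hn : 1 ≤ Nr Q := one_le_Nr hQ
  have hn0 : 0 < Nr Q := Nr_pos hQ
  refine ⟨2 * C₁ + C₂ + C₃, by positivity, fun x K R v τ ψ t H hv => ?_⟩
  have hx := H.hx
  have hx0 : 0 < x := lt_of_lt_of_le one_pos hx
  have hW := H.W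
  have hRW := H.RW
  have hK := H.hK
  have hK0 : 0 < K := lt_of_lt_of_le one_pos hK
  have hR0 : 0 < R := lt_of_lt_of_le one_pos H.hR
  have hT : 1 ≤ 1 + |τ| := by linarith [abs_nonneg τ]
  have hy : 1 ≤ x ^ e := Real.one_le_rpow hx he.le
  have hW0 : 0 < R * Nr (rad t) := lt_of_lt_of_le one_pos hW
  have hL := Real.log_nonneg hW
  have hln := Real.log_nonneg hn
  have hlx := mul_nonneg he.le (Real.log_nonneg hx)
  rcases le_total v (5 / 12 * Real.log (R * Nr (rad t))) with hv0 | hv0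
  · exact (h₂ x K R v τ ψ t H (by linarith)).trans (t41_mono (by linarith) (by linarith) hC₂ hy
      hK0.le hT hW0.le (by norm_num))
  have hN := t41_exp hn0 hx0 hW0 hv
  have hN0 := Real.exp_pos v
  have hN1 : 1 ≤ Real.exp v := Real.one_le_exp (by linarith)
  set l := Real.exp (Real.log (R * Nr (rad t)) / 4) with hl
  have hl1 : 1 ≤ l := Real.one_le_exp (by linarith)
  have hlW : l = (R * Nr (rad t)) ^ (1 / 4 : ℝ) := by
    rw [hl, Real.rpow_def_of_pos hW0]; congr 1; ring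
  have hlx' : l ≤ x := by
    refine le_trans ?_ H.hW
    rw [hlW]
    simpa using Real.rpow_le_rpow_of_exponent_le hW (show (1 / 4 : ℝ) ≤ 1 by norm_num)
  have hNN : Real.exp v * Real.exp v ≤ Nr Q ^ 4 * (x ^ e) ^ 2 * (R * Nr (rad t)) := by
    refine (mul_le_mul hN hN hN0.le (by positivity)).trans (le_of_eq ?_)
    have : (R * Nr (rad t)) ^ (1 / 2 : ℝ) * (R * Nr (rad t)) ^ (1 / 2 : ℝ) = R * Nr (rad t) := by
      rw [← Real.rpow_add hW0]; norm_num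
    linear_combination (Nr Q ^ 4 * (x ^ e) ^ 2) * this
  have h4 := h₁ x K R (Real.exp v) l τ 1 ψ t H hN1 hl1 hlx' (Or.inr rfl) hNN (by
      rw [if_neg one_ne_zero]
      have h4 : R ^ (1 / 6 : ℝ) ≤ (R * Nr (rad t)) ^ (1 / 6 : ℝ) :=
        Real.rpow_le_rpow hR0.le hRW (by norm_num)
      have h5 : (R * Nr (rad t)) ^ (1 / 6 : ℝ) * (R * Nr (rad t)) ^ (1 / 2 : ℝ) *
          (R * Nr (rad t)) ^ (1 / 4 : ℝ) ≤ R * Nr (rad t) := by
        rw [← Real.rpow_add hW0, ← Real.rpow_add hW0]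
        simpa using Real.rpow_le_rpow_of_exponent_le hW
          (show (1 / 6 + 1 / 2 + 1 / 4 : ℝ) ≤ 1 by norm_num)
      have h6 : 1 + Real.exp v + Real.exp v * l ≤ 3 * (Real.exp v * l) := by nlinarith
      have h7 : Nr Q ^ 2 ≤ Nr Q ^ 4 := pow_le_pow_right₀ hn (by norm_num)
      have h8 : x ^ e ≤ (x ^ e) ^ 2 := by nlinarith
      calc _ ≤ (R * Nr (rad t)) ^ (1 / 6 : ℝ) *
            (3 * (((R * Nr (rad t)) ^ (1 / 2 : ℝ) * Nr Q ^ 2 * x ^ e) * l)) := by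
            refine mul_le_mul h4 (h6.trans ?_) (by positivity) (by positivity)
            gcongr
        _ = 3 * Nr Q ^ 2 * x ^ e * ((R * Nr (rad t)) ^ (1 / 6 : ℝ) * (R * Nr (rad t)) ^ (1 / 2 : ℝ) *
            (R * Nr (rad t)) ^ (1 / 4 : ℝ)) := by rw [hlW]; ring
        _ ≤ _ := by gcongr)
  have h5 := h₂ x K R (v - Real.log (R * Nr (rad t)) / 4) τ ψ t H (by linarith)
  have h6 := h₃ x K R (v + Real.log (R * Nr (rad t)) / 4) τ ψ t H (by linarith)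
  have h7 : t41_Ph Q a R ψ t τ v * Real.exp v ^ 2 ≤
      2 * (C₁ * (x ^ e) ^ 3 * K * (1 + |τ|) ^ C₁ * (R * Nr (rad t)) * Real.exp v ^ 2) +
      (t41_Ph Q a R ψ t τ (v - Real.log (R * Nr (rad t)) / 4) +
        t41_Ph Q a R ψ t τ (v + Real.log (R * Nr (rad t)) / 4)) * Real.exp v ^ 2 := by
    rw [← t41_F]
    refine le_trans (Finset.sum_le_sum fun r _ => t41_split _
      (sm a (fun n => ψ n * chi n (r * t)) (Real.exp v / l) τ)
      (sm a (fun n => ψ n * chi n (r * t)) (Real.exp v * l) τ)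
      (B₁ := t41_B a ψ t τ r (v - Real.log (R * Nr (rad t)) / 4))
      (B₂ := t41_B a ψ t τ r (v + Real.log (R * Nr (rad t)) / 4)) (N := Real.exp v) ?_) ?_
    · rw [hl, ← Real.exp_sub, ← Real.exp_add, t41_norm, t41_norm, mul_mul_mul_comm, ← Real.exp_add]
      congr 2
      ring
    · rw [Finset.sum_add_distrib, ← Finset.mul_sum, ← Finset.sum_mul, Finset.sum_add_distrib]
      refine add_le_add (mul_le_mul_of_nonneg_left (le_trans ?_ h4) zero_le_two) le_rfl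
      exact Finset.sum_le_sum_of_subset_of_nonneg (Finset.filter_subset _ _)
        fun r _ _ => by positivity
  have h8 : t41_Ph Q a R ψ t τ v ≤ 2 * (C₁ * (x ^ e) ^ 3 * K * (1 + |τ|) ^ C₁ * (R * Nr (rad t))) +
      (t41_Ph Q a R ψ t τ (v - Real.log (R * Nr (rad t)) / 4) +
        t41_Ph Q a R ψ t τ (v + Real.log (R * Nr (rad t)) / 4)) := by
    refine le_of_mul_le_mul_right (h7.trans (le_of_eq ?_)) (pow_pos hN0 2)
    ring
  set C := 2 * C₁ + C₂ + C₃ with hC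
  have m1 : ∀ (c D : ℝ) (m : ℕ), 0 ≤ c → D ≤ C → m ≤ 8 →
      c * (x ^ e) ^ m * K * (1 + |τ|) ^ D * (R * Nr (rad t)) ≤
        c * ((x ^ e) ^ 8 * K * (1 + |τ|) ^ C * (R * Nr (rad t))) := by
    intro c D m hc hD hm
    have h1 : (x ^ e) ^ m ≤ (x ^ e) ^ 8 := pow_le_pow_right₀ hy hm
    have h2 : (1 + |τ|) ^ D ≤ (1 + |τ|) ^ C := Real.rpow_le_rpow_of_exponent_le hT hD
    calc _ ≤ c * (x ^ e) ^ 8 * K * (1 + |τ|) ^ C * (R * Nr (rad t)) := by gcongr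
      _ = _ := by ring
  have a1 := m1 C₁ C₁ 3 hC₁ (by linarith) (by norm_num)
  have a2 := m1 C₂ C₂ 3 hC₂ (by linarith) (by norm_num)
  have a3 := m1 C₃ C₃ (3 + 5) hC₃ (by linarith) (by norm_num)
  calc _ ≤ 2 * (C₁ * ((x ^ e) ^ 8 * K * (1 + |τ|) ^ C * (R * Nr (rad t)))) +
        (C₂ * ((x ^ e) ^ 8 * K * (1 + |τ|) ^ C * (R * Nr (rad t))) +
          C₃ * ((x ^ e) ^ 8 * K * (1 + |τ|) ^ C * (R * Nr (rad t)))) :=
        h8.trans (add_le_add (mul_le_mul_of_nonneg_left a1 zero_le_two)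
          (add_le_add (h5.trans a2) (h6.trans a3)))
    _ = (2 * C₁ + C₂ + C₃) * (x ^ e) ^ 8 * K * (1 + |τ|) ^ C * (R * Nr (rad t)) := by ring

theorem t41_succ {Q : O} (hQ : Q ≠ 0) (h72 : (72 : O) ∣ Q) {k : ℕ} (hP : t41_P Q k) :
    t41_P Q (k + 1) := by
  classical
  intro a ε ha hε
  set e := min (ε / 13) 1 with hed
  have he : 0 < e := lt_min (by positivity) one_pos
  have he1 : e ≤ 1 := min_le_right _ _
  have he2 : e * ((13 : ℕ) : ℝ) ≤ ε := by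
    have : e ≤ ε / 13 := min_le_left _ _
    push_cast
    linarith
  obtain ⟨C₁, hC₁, h₁⟩ := t41_Bm hQ h72 hP ha he he1
  obtain ⟨C₂, hC₂, h₂⟩ := t41_RB hQ h72 (half_pos ha) he he1 (by norm_num) (by norm_num)
    (t41_Bm hQ h72 hP (half_pos ha) he he1)
  rw [show 2 * (a / 2) = a by ring] at h₂
  refine ⟨C₁ + C₂, by positivity, fun x K R N τ ψ t hx hK hKx hR hRK hψ ht hW hN => ?_⟩
  have hx0 : 0 < x := lt_of_lt_of_le one_pos hx
  have hK0 : 0 < K := lt_of_lt_of_le one_pos hK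
  have hq := Nr_nonneg (rad t)
  rcases lt_or_ge R 1 with hR1 | hR1
  · rw [box_eq_empty hR1, Finset.filter_empty, Finset.sum_empty]
    positivity
  have H : t41_Hy Q k x K R ψ t := ⟨hx, hK, hKx, hR1, hRK, hψ, ht, hW⟩
  obtain ⟨v, rfl⟩ : ∃ v, N = Real.exp v := ⟨Real.log N, (Real.exp_log hN).symm⟩
  rw [t41_F]
  refine mul_le_mul_of_nonneg_right ?_ (by positivity)
  have hT : 1 ≤ 1 + |τ| := by linarith [abs_nonneg τ]
  have hy : 1 ≤ x ^ e := Real.one_le_rpow hx he.le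
  have hln := Real.log_nonneg (one_le_Nr hQ)
  have hlx := mul_nonneg he.le (Real.log_nonneg hx)
  have h3 : t41_Ph Q a R ψ t τ v ≤
      (C₁ + C₂) * (x ^ e) ^ 13 * K * (1 + |τ|) ^ (C₁ + C₂) * (R * Nr (rad t)) := by
    rcases le_total v (1 / 2 * Real.log (R * Nr (rad t))) with hv | hv
    · exact (h₁ x K R v τ ψ t H (by linarith)).trans (t41_mono (by linarith) (by linarith) hC₁ hy
        hK0.le hT (by positivity) (by norm_num))
    · exact (h₂ x K R v τ ψ t H (by linarith)).trans (t41_mono (by linarith) (by linarith) hC₂ hy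
        hK0.le hT (by positivity) (by norm_num))
  refine h3.trans ?_
  have h4 : (x ^ e) ^ 13 ≤ x ^ ε := by
    rw [← Real.rpow_natCast, ← Real.rpow_mul hx0.le]
    exact Real.rpow_le_rpow_of_exponent_le hx he2
  gcongr

theorem t41_all {Q : O} (hQ : Q ≠ 0) (h72 : (72 : O) ∣ Q) (k : ℕ) : t41_P Q k := by
  induction k with
  | zero =>
    intro a e _ _
    refine ⟨0, le_rfl, fun x K R N τ ψ t _ _ _ _ hR _ _ _ _ => ?_⟩
    rw [pow_zero] at hR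
    simp [box_eq_empty hR]
  | succ k ih => exact t41_succ hQ h72 ih

open Classical in
/-- The fourth moment of smooth character sums of arbitrary length. -/
theorem four {Q : O} (hQ : Q ≠ 0) (h72 : (72 : O) ∣ Q) {a ε : ℝ} (ha : 0 < a) (hε : 0 < ε) :
    ∃ C : ℝ, 0 ≤ C ∧ ∀ (x R N τ : ℝ) (ψ : O → ℂ) (t : O), 1 ≤ x → IsCh Q ψ → t ≠ 0 → 0 < N → 0 ≤ R →
      R * Nr (rad t) ≤ x →
      ∑ r ∈ (box R).filter (fun r => ¬ Exc Q t r), ‖sm a (fun n => ψ n * chi n (r * t)) N τ‖ ^ 4 ≤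
        C * x ^ ε * (1 + |τ|) ^ C * (R * Nr (rad t)) * N ^ 2 := by
  set δ := min (ε / 2) 1 with hδd
  have hδ : 0 < δ := lt_min (half_pos hε) one_pos
  have hδ1 : δ ≤ 1 := min_le_right _ _
  have hδ2 : δ ≤ ε / 2 := min_le_left _ _
  obtain ⟨C, hC, h⟩ := t41_all hQ h72 ⌈1 / δ⌉₊ a (ε / 2) ha (half_pos hε)
  have h2 : (1 : ℝ) ≤ 2 ^ ε := Real.one_le_rpow one_le_two hε.le
  refine ⟨C * 2 ^ ε, by positivity, fun x R N τ ψ t hx hψ ht hN hR hW => ?_⟩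
  have hx0 : 0 < x := lt_of_lt_of_le one_pos hx
  have hx2 : 1 ≤ 2 * x := by linarith
  have hq : 1 ≤ Nr (rad t) := one_le_Nr (rad_ne_zero t)
  have hT : 1 ≤ 1 + |τ| := by linarith [abs_nonneg τ]
  have h3 := h (2 * x) ((2 * x) ^ δ) R N τ ψ t hx2 (Real.one_le_rpow hx2 hδ.le)
    (by simpa using Real.rpow_le_rpow_of_exponent_le hx2 hδ1) hR
    (by
      rw [← Real.rpow_natCast, ← Real.rpow_mul (by positivity)]
      have h4 : 1 ≤ δ * (⌈1 / δ⌉₊ : ℝ) := by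
        have := mul_le_mul_of_nonneg_left (Nat.le_ceil (1 / δ)) hδ.le
        rwa [mul_one_div_cancel hδ.ne'] at this
      have h5 : 2 * x ≤ (2 * x) ^ (δ * (⌈1 / δ⌉₊ : ℝ)) := by
        simpa using Real.rpow_le_rpow_of_exponent_le hx2 h4
      have h6 : R ≤ R * Nr (rad t) := le_mul_of_one_le_right hR hq
      linarith)
    hψ ht (by linarith) hN
  refine h3.trans ?_
  have h4 : (2 * x) ^ (ε / 2) * (2 * x) ^ δ ≤ 2 ^ ε * x ^ ε := by
    rw [← Real.rpow_add (by positivity), ← Real.mul_rpow zero_le_two hx0.le]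
    exact Real.rpow_le_rpow_of_exponent_le hx2 (by linarith)
  have h5 : (1 + |τ|) ^ C ≤ (1 + |τ|) ^ (C * 2 ^ ε) :=
    Real.rpow_le_rpow_of_exponent_le hT (le_mul_of_one_le_right hC h2)
  calc _ = C * ((2 * x) ^ (ε / 2) * (2 * x) ^ δ) * (1 + |τ|) ^ C * (R * Nr (rad t)) * N ^ 2 := by ring
    _ ≤ C * (2 ^ ε * x ^ ε) * (1 + |τ|) ^ (C * 2 ^ ε) * (R * Nr (rad t)) * N ^ 2 := by gcongr
    _ = _ := by ring

end Crest.Agent.R017

end
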