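import Crest.Agent.R017.Slots

/-! # Row 17: the coefficients of a product of prime slots -/

set_option autoImplicit false

noncomputable section

open scoped BigOperators ComplexConjugate
open Complex MeasureTheory

namespace Crest.Agent.R017

/-- The support condition of a slot. -/
def t4_In (Q : O) (Z y : ℝ) (p : O) : Prop :=
  Prime p ∧ Prim p ∧ IsCoprime p Q ∧ Z / y < Nr p ∧ Nr p ≤ Z * y

theorem t4_in_of_ne {Q : O} {Z y : ℝ} {p : O} (h : slot Q Z y p ≠ 0) : t4_In Q Z y p := by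
  unfold slot at h
  by_contra hc
  exact h (if_neg hc)

open Classical in
/-- The tuples of primes in the windows. -/
def t4_T {j : ℕ} (Q : O) (Z : Fin j → ℝ) (y : ℝ) : Finset (Fin j → O) :=
  Fintype.piFinset fun i => (box (Z i * y)).filter (t4_In Q (Z i) y)

theorem t4_mem_T {j : ℕ} {Q : O} {Z : Fin j → ℝ} {y : ℝ} {p : Fin j → O} :
    p ∈ t4_T Q Z y ↔ ∀ i, t4_In Q (Z i) y (p i) := by
  classical
  unfold t4_T
  rw [Fintype.mem_piFinset]
  refine forall_congr' fun i => ?_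
  rw [Finset.mem_filter, mem_box]
  exact ⟨fun h => h.2, fun h => ⟨⟨h.1.ne_zero, h.2.2.2.2⟩, h⟩⟩

open Classical in
/-- The coefficient of the product of the slots. -/
def t4_al {j : ℕ} (Q : O) (Z : Fin j → ℝ) (y : ℝ) (b : O) : ℂ :=
  ∑ p ∈ t4_T Q Z y, if ∏ i, p i = b then ∏ i, slot Q (Z i) y (p i) else 0

open Classical in
theorem t4_PS_eq (Q : O) (Z y : ℝ) (η : O → ℂ) :
    PS Q Z y η = ∑ p ∈ (box (Z * y)).filter (t4_In Q Z y), slot Q Z y p * η p := by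
  unfold PS
  rw [Finset.sum_filter]
  refine Finset.sum_congr rfl fun p _ => ?_
  split_ifs with h
  · rfl
  · have : slot Q Z y p = 0 := by
      by_contra hc
      exact h (t4_in_of_ne hc)
    rw [this, zero_mul]

theorem t4_map_prod {ι : Type*} {η : O → ℂ} (h1 : η 1 = 1)
    (hm : ∀ a b, a ≠ 0 → b ≠ 0 → η (a * b) = η a * η b) (s : Finset ι) (p : ι → O)
    (hp : ∀ i ∈ s, p i ≠ 0) : η (∏ i ∈ s, p i) = ∏ i ∈ s, η (p i) := by
  classical
  induction s using Finset.induction_on with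
  | empty => simpa using h1
  | insert a s ha ih =>
    rw [Finset.prod_insert ha, Finset.prod_insert ha,
      hm _ _ (hp a (Finset.mem_insert_self _ _))
        (Finset.prod_ne_zero_iff.2 fun i hi => hp i (Finset.mem_insert_of_mem hi)),
      ih fun i hi => hp i (Finset.mem_insert_of_mem hi)]

theorem t4_prim_prod {ι : Type*} (s : Finset ι) (p : ι → O) (hp : ∀ i ∈ s, Prim (p i)) :
    Prim (∏ i ∈ s, p i) :=
  Finset.prod_induction p Prim (fun _ _ => Prim.mul) prim_one hp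

/-- A prime in two windows: the windows coincide. -/
theorem t4_sep {j : ℕ} {Q : O} {Z : Fin j → ℝ} {y : ℝ} (hS : Sep Z y) {i k : Fin j} {p : O}
    (hi : t4_In Q (Z i) y p) (hk : t4_In Q (Z k) y p) : i = k := by
  rcases lt_trichotomy i k with h | h | h
  · have := hS i k h
    linarith [hi.2.2.2.2, hk.2.2.2.1]
  · exact h
  · have := hS k i h
    linarith [hk.2.2.2.2, hi.2.2.2.1]

theorem t4_eq_of_dvd {j : ℕ} {Q : O} {Z : Fin j → ℝ} {y : ℝ} (hS : Sep Z y) {p : Fin j → O}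
    (hp : p ∈ t4_T Q Z y) {i : Fin j} {q : O} (hq : t4_In Q (Z i) y q) (h : q ∣ ∏ k, p k) :
    p i = q := by
  obtain ⟨k, -, hk⟩ := (Prime.dvd_finsetProd_iff hq.1 _).1 h
  have hk' := t4_mem_T.1 hp k
  have e : q = p k := hq.2.1.eq_of_associated hk'.2.1 (hq.1.associated_of_dvd hk'.1 hk)
  have : i = k := t4_sep hS hq (e ▸ hk')
  rw [this, e]

theorem t4_Nr_prod_le {j : ℕ} {Q : O} {Z : Fin j → ℝ} {y : ℝ} (hZ : ∀ i, 1 ≤ Z i) (hy : 1 ≤ y)
    {p : Fin j → O} (hp : p ∈ t4_T Q Z y) (I : Finset (Fin j)) :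
    Nr (∏ i ∈ I, p i) ≤ (∏ i ∈ I, Z i) * y ^ j := by
  rw [Nr_prod]
  calc ∏ i ∈ I, Nr (p i) ≤ ∏ i ∈ I, (Z i * y) :=
        Finset.prod_le_prod (fun i _ => Nr_nonneg _) fun i _ => (t4_mem_T.1 hp i).2.2.2.2
    _ = (∏ i ∈ I, Z i) * y ^ I.card := by rw [Finset.prod_mul_distrib, Finset.prod_const]
    _ ≤ _ := by
      refine mul_le_mul_of_nonneg_left (pow_le_pow_right₀ hy ?_)
        (Finset.prod_nonneg fun i _ => by linarith [hZ i])
      simpa using I.card_le_univ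

theorem t4_le_Nr_prod {j : ℕ} {Q : O} {Z : Fin j → ℝ} {y : ℝ} (hZ : ∀ i, 1 ≤ Z i) (hy : 1 ≤ y)
    {p : Fin j → O} (hp : p ∈ t4_T Q Z y) (I : Finset (Fin j)) :
    (∏ i ∈ I, Z i) / y ^ j ≤ Nr (∏ i ∈ I, p i) := by
  rw [Nr_prod]
  have hy0 : 0 < y := by linarith
  calc (∏ i ∈ I, Z i) / y ^ j ≤ (∏ i ∈ I, Z i) / y ^ I.card := by
        refine div_le_div_of_nonneg_left (Finset.prod_nonneg fun i _ => by linarith [hZ i])
          (by positivity) (pow_le_pow_right₀ hy ?_)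
        simpa using I.card_le_univ
    _ = ∏ i ∈ I, (Z i / y) := by rw [Finset.prod_div_distrib, Finset.prod_const]
    _ ≤ _ := Finset.prod_le_prod (fun i _ => div_nonneg (by linarith [hZ i]) hy0.le)
        fun i _ => (t4_mem_T.1 hp i).2.2.2.1.le

theorem t4_prod_le_prod {j : ℕ} {Z : Fin j → ℝ} (hZ : ∀ i, 1 ≤ Z i) (I : Finset (Fin j)) :
    ∏ i ∈ I, Z i ≤ ∏ i, Z i :=
  Finset.prod_le_prod_of_subset_of_one_le (Finset.subset_univ I)
    (fun i _ => by linarith [hZ i]) fun i _ _ => hZ i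

theorem t4_one_le_prod {j : ℕ} {Z : Fin j → ℝ} (hZ : ∀ i, 1 ≤ Z i) (I : Finset (Fin j)) :
    1 ≤ ∏ i ∈ I, Z i := by
  simpa using Finset.prod_le_prod (s := I) (f := fun _ => (1 : ℝ)) (fun _ _ => zero_le_one)
    fun i _ => hZ i

/-- The generating identity. -/
theorem t4_al_sum {j : ℕ} {Q : O} {Z : Fin j → ℝ} {y : ℝ} (hZ : ∀ i, 1 ≤ Z i) (hy : 1 ≤ y)
    {η : O → ℂ} (h1 : η 1 = 1) (hm : ∀ a b, a ≠ 0 → b ≠ 0 → η (a * b) = η a * η b) :
    ∑ b ∈ box ((∏ i, Z i) * y ^ j), t4_al Q Z y b * η b = ∏ i, PS Q (Z i) y η := by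
  classical
  simp only [t4_PS_eq]
  rw [Finset.prod_univ_sum]
  unfold t4_al
  simp only [Finset.sum_mul]
  rw [Finset.sum_comm]
  refine Finset.sum_congr rfl fun p hp => ?_
  have hne : ∀ i ∈ (Finset.univ : Finset (Fin j)), p i ≠ 0 := fun i _ => (t4_mem_T.1 hp i).1.ne_zero
  rw [Finset.sum_eq_single (∏ i, p i)]
  · rw [if_pos rfl, t4_map_prod h1 hm _ _ hne, Finset.prod_mul_distrib]
  · intro b _ hb
    rw [if_neg (Ne.symm hb), zero_mul]
  · intro h
    exact absurd (mem_box.2 ⟨Finset.prod_ne_zero_iff.2 hne, t4_Nr_prod_le hZ hy hp _⟩) h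

theorem t4_al_ex {j : ℕ} {Q : O} {Z : Fin j → ℝ} {y : ℝ} {b : O} (h : t4_al Q Z y b ≠ 0) :
    ∃ p ∈ t4_T Q Z y, ∏ i, p i = b := by
  obtain ⟨p, hp, h2⟩ := Finset.exists_ne_zero_of_sum_ne_zero h
  refine ⟨p, hp, ?_⟩
  by_contra hc
  exact h2 (if_neg hc)

theorem t4_al_prod {j : ℕ} {Q : O} {Z : Fin j → ℝ} {y : ℝ} (hS : Sep Z y) {p : Fin j → O}
    (hp : p ∈ t4_T Q Z y) : t4_al Q Z y (∏ i, p i) = ∏ i, slot Q (Z i) y (p i) := by
  unfold t4_al
  rw [Finset.sum_eq_single p]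
  · rw [if_pos rfl]
  · intro q hq hne
    refine if_neg fun h => hne (funext fun i => ?_)
    exact t4_eq_of_dvd hS hq (t4_mem_T.1 hp i) (h ▸ Finset.dvd_prod_of_mem _ (Finset.mem_univ i))
  · intro h
    exact absurd hp h

theorem t4_al_norm {j : ℕ} {Q : O} {Z : Fin j → ℝ} {y M : ℝ} (hS : Sep Z y) (hM0 : 0 ≤ M)
    (hM : ∀ i p, ‖slot Q (Z i) y p‖ ≤ M) (b : O) : ‖t4_al Q Z y b‖ ≤ M ^ j := by
  by_cases h : t4_al Q Z y b = 0
  · rw [h, norm_zero]; positivity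
  obtain ⟨p, hp, rfl⟩ := t4_al_ex h
  rw [t4_al_prod hS hp, norm_prod]
  calc ∏ i, ‖slot Q (Z i) y (p i)‖ ≤ ∏ _i : Fin j, M :=
        Finset.prod_le_prod (fun i _ => norm_nonneg _) fun i _ => hM i _
    _ = M ^ j := by simp

theorem t4_al_supp {j : ℕ} {Q : O} {Z : Fin j → ℝ} {y : ℝ} (hS : Sep Z y) (hZ : ∀ i, 1 ≤ Z i)
    (hy : 1 ≤ y) {b : O} (h : t4_al Q Z y b ≠ 0) :
    Adm Q b ∧ (∏ i, Z i) * y ^ j / (y ^ j) ^ 2 ≤ Nr b ∧ Nr b ≤ (∏ i, Z i) * y ^ j := by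
  obtain ⟨p, hp, rfl⟩ := t4_al_ex h
  have hy0 : 0 < y := by linarith
  refine ⟨⟨t4_prim_prod _ _ fun i _ => (t4_mem_T.1 hp i).2.1, ?_, ?_⟩, ?_, t4_Nr_prod_le hZ hy hp _⟩
  · refine Finset.squarefree_prod_of_pairwise_isCoprime (fun i _ k _ hik => ?_)
      fun i _ => (t4_mem_T.1 hp i).1.squarefree
    have hi := t4_mem_T.1 hp i
    have hk := t4_mem_T.1 hp k
    refine (hi.1.irreducible.isRelPrime_iff_not_dvd).2 fun hd => hik ?_
    have e : p i = p k := hi.2.1.eq_of_associated hk.2.1 (hi.1.associated_of_dvd hk.1 hd)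
    exact t4_sep hS hi (e ▸ hk)
  · exact IsCoprime.prod_left fun i _ => (t4_mem_T.1 hp i).2.2.1
  · refine le_trans (le_of_eq ?_) (t4_le_Nr_prod hZ hy hp _)
    field_simp

/-- Primary divisors of a product of primary primes. -/
theorem t4_dvd_prod {ι : Type*} [DecidableEq ι] (p : ι → O) (s : Finset ι)
    (hp : ∀ i ∈ s, Prime (p i) ∧ Prim (p i)) :
    ∀ f : O, Prim f → f ∣ ∏ i ∈ s, p i → ∃ I ⊆ s, f = ∏ i ∈ I, p i := by
  induction s using Finset.induction_on with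
  | empty =>
    intro f hf h
    rw [Finset.prod_empty] at h
    exact ⟨∅, Finset.Subset.refl _, by simpa using hf.eq_one_of_isUnit (isUnit_of_dvd_one h)⟩
  | insert a s ha ih =>
    intro f hf h
    rw [Finset.prod_insert ha] at h
    obtain ⟨hpa, hpa'⟩ := hp a (Finset.mem_insert_self _ _)
    have ih' := ih fun i hi => hp i (Finset.mem_insert_of_mem hi)
    by_cases hd : p a ∣ f
    · obtain ⟨g, rfl⟩ := hd
      obtain ⟨I, hI, e⟩ := ih' g (hpa'.of_mul hf) ((mul_dvd_mul_iff_left hpa.ne_zero).1 h)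
      refine ⟨insert a I, Finset.insert_subset_insert _ hI, ?_⟩
      rw [Finset.prod_insert fun h' => ha (hI h'), e]
    · have hc : IsCoprime f (p a) := ((hpa.irreducible.coprime_iff_not_dvd).2 hd).symm
      obtain ⟨I, hI, e⟩ := ih' f hf (hc.dvd_of_dvd_mul_left h)
      exact ⟨I, hI.trans (Finset.subset_insert _ _), e⟩

open Classical in
/-- The shifted generating identity. -/
theorem t4_al_shift {j : ℕ} {Q : O} {Z : Fin j → ℝ} {y : ℝ} (hS : Sep Z y) (hZ : ∀ i, 1 ≤ Z i)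
    (hy : 1 ≤ y) {η : O → ℂ} (h1 : η 1 = 1) (hm : ∀ a b, a ≠ 0 → b ≠ 0 → η (a * b) = η a * η b)
    {p : Fin j → O} (hp : p ∈ t4_T Q Z y) (I : Finset (Fin j)) :
    ∑ b ∈ (box ((∏ i, Z i) * y ^ j)).filter Prim, t4_al Q Z y ((∏ i ∈ I, p i) * b) * η b =
      (∏ i ∈ I, slot Q (Z i) y (p i)) * ∏ i ∈ Iᶜ, PS Q (Z i) y η := by
  have hf0 : (∏ i ∈ I, p i) ≠ 0 := Finset.prod_ne_zero_iff.2 fun i _ => (t4_mem_T.1 hp i).1.ne_zero
  set S' : Fin j → Finset O := fun i =>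
    if i ∈ I then {p i} else (box (Z i * y)).filter (t4_In Q (Z i) y) with hS'
  set g : Fin j → O → ℂ := fun i q =>
    if i ∈ I then slot Q (Z i) y q else slot Q (Z i) y q * η q with hg
  have hR : (∏ i ∈ I, slot Q (Z i) y (p i)) * ∏ i ∈ Iᶜ, PS Q (Z i) y η =
      ∏ i, ∑ q ∈ S' i, g i q := by
    rw [← Finset.prod_mul_prod_compl I]
    congr 1
    · refine Finset.prod_congr rfl fun i hi => ?_
      simp only [hS', hg, if_pos hi, Finset.sum_singleton]
    · refine Finset.prod_congr rfl fun i hi => ?_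
      simp only [hS', hg, if_neg (Finset.mem_compl.1 hi), t4_PS_eq]
  rw [hR, Finset.prod_univ_sum]
  have hsub : Fintype.piFinset S' ⊆ t4_T Q Z y := by
    intro q hq
    rw [Fintype.mem_piFinset] at hq
    refine t4_mem_T.2 fun i => ?_
    have := hq i
    by_cases hi : i ∈ I
    · simp only [hS', if_pos hi, Finset.mem_singleton] at this
      rw [this]
      exact t4_mem_T.1 hp i
    · simp only [hS', if_neg hi] at this
      exact (Finset.mem_filter.1 this).2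
  unfold t4_al
  simp only [Finset.sum_mul]
  rw [Finset.sum_comm, ← Finset.sum_subset hsub]
  · refine Finset.sum_congr rfl fun q hq => ?_
    have hqT := hsub hq
    have hne : ∀ i, q i ≠ 0 := fun i => (t4_mem_T.1 hqT i).1.ne_zero
    have hqI : ∀ i ∈ I, q i = p i := fun i hi => by
      have := Fintype.mem_piFinset.1 hq i
      simpa only [hS', if_pos hi, Finset.mem_singleton] using this
    have e : ∏ i, q i = (∏ i ∈ I, p i) * ∏ i ∈ Iᶜ, q i := by
      rw [← Finset.prod_mul_prod_compl I, Finset.prod_congr rfl hqI]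
    rw [Finset.sum_eq_single (∏ i ∈ Iᶜ, q i)]
    · rw [if_pos e, t4_map_prod h1 hm _ _ fun i _ => hne i, ← Finset.prod_mul_prod_compl I,
        ← Finset.prod_mul_prod_compl I (fun i => g i (q i)), mul_assoc, ← Finset.prod_mul_distrib]
      congr 1
      · exact Finset.prod_congr rfl fun i hi => by simp only [hg, if_pos hi]
      · exact Finset.prod_congr rfl fun i hi => by simp only [hg, if_neg (Finset.mem_compl.1 hi)]
    · intro b _ hb
      rw [if_neg, zero_mul]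
      intro h
      exact hb (mul_left_cancel₀ hf0 (h.symm.trans e))
    · intro h
      refine absurd (Finset.mem_filter.2 ⟨mem_box.2 ⟨Finset.prod_ne_zero_iff.2 fun i _ => hne i, ?_⟩,
        t4_prim_prod _ _ fun i _ => (t4_mem_T.1 hqT i).2.1⟩) h
      refine (t4_Nr_prod_le hZ hy hqT _).trans ?_
      exact mul_le_mul_of_nonneg_right (t4_prod_le_prod hZ _) (by positivity)
  · intro q hq hq'
    refine Finset.sum_eq_zero fun b _ => ?_
    rw [if_neg, zero_mul]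
    intro h
    refine hq' (Fintype.mem_piFinset.2 fun i => ?_)
    by_cases hi : i ∈ I
    · simp only [hS', if_pos hi, Finset.mem_singleton]
      refine t4_eq_of_dvd hS hq (t4_mem_T.1 hp i) ?_
      rw [h]
      exact (Finset.dvd_prod_of_mem _ hi).mul_right _
    · simp only [hS', if_neg hi]
      have := t4_mem_T.1 hq i
      exact Finset.mem_filter.2 ⟨mem_box.2 ⟨this.1.ne_zero, this.2.2.2.2⟩, this⟩

open Classical in
/-- The shifted sum vanishes or factors. -/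
theorem t4_al_cases {j : ℕ} {Q : O} {Z : Fin j → ℝ} {y : ℝ} (hS : Sep Z y) (hZ : ∀ i, 1 ≤ Z i)
    (hy : 1 ≤ y) {η : O → ℂ} (h1 : η 1 = 1) (hm : ∀ a b, a ≠ 0 → b ≠ 0 → η (a * b) = η a * η b)
    {f : O} (hf : Prim f) :
    ∑ b ∈ (box ((∏ i, Z i) * y ^ j)).filter Prim, t4_al Q Z y (f * b) * η b = 0 ∨
    ∃ p ∈ t4_T Q Z y, ∃ I : Finset (Fin j), f = ∏ i ∈ I, p i ∧
      ∑ b ∈ (box ((∏ i, Z i) * y ^ j)).filter Prim, t4_al Q Z y (f * b) * η b =
        (∏ i ∈ I, slot Q (Z i) y (p i)) * ∏ i ∈ Iᶜ, PS Q (Z i) y η := by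
  by_cases h : ∑ b ∈ (box ((∏ i, Z i) * y ^ j)).filter Prim, t4_al Q Z y (f * b) * η b = 0
  · exact Or.inl h
  right
  obtain ⟨b, -, hb⟩ := Finset.exists_ne_zero_of_sum_ne_zero h
  obtain ⟨p, hp, e⟩ := t4_al_ex (left_ne_zero_of_mul hb)
  obtain ⟨I, -, rfl⟩ := t4_dvd_prod p Finset.univ
    (fun i _ => ⟨(t4_mem_T.1 hp i).1, (t4_mem_T.1 hp i).2.1⟩) f hf ⟨b, e⟩
  exact ⟨p, hp, I, rfl, t4_al_shift hS hZ hy h1 hm hp I⟩

end Crest.Agent.R017

end
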