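import Crest.Agent.R017.T4AuxB
import Crest.Agent.R017.Sieve

/-! # Row 17: `step4` for a product of prime slots -/

set_option autoImplicit false

noncomputable section

open scoped BigOperators ComplexConjugate
open Complex MeasureTheory

namespace Crest.Agent.R017

theorem t4_log_le {e x : ℝ} (he : 0 < e) (hx : 1 ≤ x) : 1 + Real.log x ≤ (1 + 1 / e) * x ^ e := by
  have h1 := Real.log_le_rpow_div (show 0 ≤ x by linarith) he
  have h2 : 1 ≤ x ^ e := Real.one_le_rpow hx he.le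
  calc 1 + Real.log x ≤ x ^ e + x ^ e / e := add_le_add h2 h1
    _ = _ := by ring

theorem t4_rpow_cmp {A B Y γ : ℝ} (hA : 0 < A) (hAB : A ≤ B) (hY : 1 ≤ Y) (hB : B ≤ A * Y)
    (h1 : -1 ≤ γ) : A ^ γ ≤ Y * B ^ γ := by
  have hB0 : 0 < B := hA.trans_le hAB
  have hY0 : 0 < Y := by linarith
  have hp := Real.rpow_pos_of_pos hB0 γ
  rcases le_total 0 γ with h | h
  · exact (Real.rpow_le_rpow hA.le hAB h).trans (le_mul_of_one_le_left hp.le hY)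
  · have h2 : B / Y ≤ A := by rwa [div_le_iff₀ hY0]
    calc A ^ γ ≤ (B / Y) ^ γ := Real.rpow_le_rpow_of_nonpos (by positivity) h2 h
      _ = Y ^ (-γ) * B ^ γ := by
          rw [Real.div_rpow hB0.le hY0.le, Real.rpow_neg hY0.le]; ring
      _ ≤ Y ^ (1 : ℝ) * B ^ γ := by
          refine mul_le_mul_of_nonneg_right (Real.rpow_le_rpow_of_exponent_le hY (by linarith)) hp.le
      _ = _ := by rw [Real.rpow_one]

/-- Common bounds for slots. -/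
theorem t4_slot {e η₀ : ℝ} (he : 0 < e) (hη : 0 < η₀) : ∃ D : ℝ, 1 ≤ D ∧
    ∀ (x Z : ℝ) (Q : O), 1 ≤ x → 1 ≤ Z → Z ≤ x →
      (∀ p, ‖slot Q Z (x ^ η₀) p‖ ≤ D * x ^ e) ∧
      (∀ η : O → ℂ, (∀ p, ‖η p‖ ≤ 1) → ‖PS Q Z (x ^ η₀) η‖ ≤ D * x ^ e * Z) ∧
      ∀ (q : O) (η : O → ℂ) (σ α τ : ℝ), IsCh q η → Q ∣ q → ¬ Princ η → Nr q ≤ x ^ 2 → 1 / 2 ≤ σ →
        σ ≤ 1 → (∀ T, ZFl η σ T) → |α| ≤ 1 → |τ| ≤ x →
        ‖PS Q Z (x ^ η₀) (fun p => η p * (Nr p : ℂ) ^ ((α : ℂ) + τ * I))‖ ≤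
          D * x ^ e * Z ^ (σ + α) := by
  obtain ⟨C₁, hC₁, h₁⟩ := norm_slot_le
  obtain ⟨C₂, hC₂, h₂⟩ := norm_PS_le
  obtain ⟨C₃, hC₃, h₃⟩ := pw_PS (half_pos he) (half_pos hη)
  have he' : 0 < 1 + 1 / e := by positivity
  refine ⟨1 + C₁ * (1 + 1 / e) + C₂ * (1 + 1 / e) + C₃, by nlinarith, fun x Z Q hx hZ hZx => ?_⟩
  have hx0 : 0 < x := by linarith
  have hw : 0 < x ^ e := Real.rpow_pos_of_pos hx0 e
  have hl : 1 + Real.log Z ≤ (1 + 1 / e) * x ^ e :=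
    le_trans (by gcongr) (t4_log_le he hx)
  have hA := mul_nonneg hC₁ he'.le
  have hB := mul_nonneg hC₂ he'.le
  refine ⟨fun p => ?_, fun η hη1 => ?_, fun q η σ α τ hq hQ hP hqx hσ hσ1 hZF hα hτ => ?_⟩
  · calc _ ≤ C₁ * (1 + Real.log Z) := h₁ Q Z _ p hZ
      _ ≤ C₁ * ((1 + 1 / e) * x ^ e) := by gcongr
      _ = (C₁ * (1 + 1 / e)) * x ^ e := by ring
      _ ≤ _ := by gcongr; linarith
  · calc _ ≤ C₂ * Z * (1 + Real.log Z) := h₂ Q Z _ η hZ hη1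
      _ ≤ C₂ * Z * ((1 + 1 / e) * x ^ e) := by gcongr
      _ = (C₂ * (1 + 1 / e)) * x ^ e * Z := by ring
      _ ≤ _ := by gcongr; linarith
  · have hxx : x ≤ x ^ 2 := by nlinarith
    have h := h₃ (x ^ 2) Q q η σ _ Z α τ (by nlinarith) hq hQ hP hqx hσ hσ1 (hZF _) hZ
      (hZx.trans hxx) hα (hτ.trans hxx) le_rfl
    have e1 : ∀ s : ℝ, (x ^ 2) ^ (s / 2) = x ^ s := fun s => by
      rw [← Real.rpow_natCast, ← Real.rpow_mul hx0.le]
      congr 1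
      push_cast
      ring
    rw [e1, e1] at h
    refine h.trans ?_
    have := Real.rpow_nonneg (show 0 ≤ Z by linarith) (σ + α)
    gcongr
    linarith

theorem t4_pow_le {D x e : ℝ} (hD : 1 ≤ D) (hx : 1 ≤ x) (he : 0 < e) (j : ℕ) :
    (D * x ^ (e / (j + 1))) ^ j ≤ D ^ j * x ^ e := by
  rw [mul_pow, ← Real.rpow_natCast (x ^ _), ← Real.rpow_mul (by linarith)]
  refine mul_le_mul_of_nonneg_left (Real.rpow_le_rpow_of_exponent_le hx ?_) (by positivity)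
  rw [div_mul_eq_mul_div, div_le_iff₀ (by positivity)]
  nlinarith

open Classical in
/-- The pointwise bound for the shifted coefficient sums. -/
theorem t4_pw {θ : ℝ} (hθ : 1 / 2 ≤ θ) (hθ1 : θ ≤ 1) (hZF : ZF θ) {e η₀ : ℝ} (he : 0 < e)
    (hη : 0 < η₀) (j : ℕ) : ∃ C : ℝ, 1 ≤ C ∧ ∀ (x : ℝ) (Q : O) (Z : Fin j → ℝ), 1 ≤ x →
      (∀ i, 1 ≤ Z i) → Sep Z (x ^ η₀) → ((∏ i, Z i) * (x ^ η₀) ^ j) ^ 2 ≤ x →
      (∀ b, ‖t4_al Q Z (x ^ η₀) b‖ ≤ C * x ^ e) ∧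
      ∀ (q : O) (η : O → ℂ) (f : O) (σ' τ' : ℝ), IsCh q η → Q ∣ q → ¬ Princ η → Nr q ≤ x ^ 2 →
        Prim f → -1 ≤ σ' → σ' ≤ 0 →
        ‖∑ b ∈ (box ((∏ i, Z i) * (x ^ η₀) ^ j)).filter Prim,
          t4_al Q Z (x ^ η₀) (f * b) * (η b * (Nr b : ℂ) ^ ((σ' : ℂ) + τ' * I))‖ ≤
        C * x ^ e * ((x ^ η₀) ^ j) ^ 2 * (1 + |τ'|) *
          ((∏ i, Z i) * (x ^ η₀) ^ j / Nr f) ^ (θ + σ') := by
  obtain ⟨D, hD, h⟩ := t4_slot (e := e / (j + 1)) (by positivity) hη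
  refine ⟨D ^ j, one_le_pow₀ hD, fun x Q Z hx hZ hS hZs => ?_⟩
  have hx0 : 0 < x := by linarith
  set y := x ^ η₀ with hy
  have hy1 : 1 ≤ y := Real.one_le_rpow hx hη.le
  set Y := y ^ j with hY
  have hY1 : 1 ≤ Y := one_le_pow₀ hy1
  set Zp := ∏ i, Z i with hZp
  have hZp1 : 1 ≤ Zp := t4_one_le_prod hZ _
  have hZs1 : 1 ≤ Zp * Y := one_le_mul_of_one_le_of_one_le hZp1 hY1
  have hZi : ∀ i, Z i ≤ x := fun i => by
    have h1 : Z i ≤ Zp := by simpa using t4_prod_le_prod hZ {i}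
    nlinarith
  set M := D * x ^ (e / (j + 1)) with hM
  have hM0 : 0 ≤ M := by positivity
  have hMj : M ^ j ≤ D ^ j * x ^ e := t4_pow_le hD hx he j
  refine ⟨fun b => (t4_al_norm hS hM0 (fun i p => (h x (Z i) Q hx (hZ i) (hZi i)).1 p) b).trans hMj,
    fun q η f σ' τ' hq hQ hP hqx hf hσ1 hσ0 => ?_⟩
  have hf0 := Nr_pos hf.ne_zero
  have hm : ∀ a b : O, a ≠ 0 → b ≠ 0 → η (a * b) * (Nr (a * b) : ℂ) ^ ((σ' : ℂ) + τ' * I) =
      η a * (Nr a : ℂ) ^ ((σ' : ℂ) + τ' * I) * (η b * (Nr b : ℂ) ^ ((σ' : ℂ) + τ' * I)) := by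
    intro a b _ _
    rw [hq.mul, Nr_mul, Complex.ofReal_mul, Complex.mul_cpow_ofReal_nonneg (Nr_nonneg a) (Nr_nonneg b)]
    ring
  rcases t4_al_cases (Q := Q) hS hZ hy1 (η := fun b => η b * (Nr b : ℂ) ^ ((σ' : ℂ) + τ' * I))
    (by simp [hq.one, Nr_one]) hm hf with h0 | ⟨p, hp, J, hfJ, h0⟩
  · rw [h0, norm_zero]
    positivity
  rw [h0, norm_mul, norm_prod, norm_prod]
  set A := ∏ i ∈ Jᶜ, Z i with hA
  have hA1 : 1 ≤ A := t4_one_le_prod hZ _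
  have hJ1 : 1 ≤ ∏ i ∈ J, Z i := t4_one_le_prod hZ _
  have hsplit : Zp = (∏ i ∈ J, Z i) * A := (Finset.prod_mul_prod_compl J Z).symm
  have hu := t4_Nr_prod_le hZ hy1 hp J
  have hl := t4_le_Nr_prod hZ hy1 hp J
  rw [← hfJ, ← hY] at hu hl
  rw [div_le_iff₀ (by positivity)] at hl
  set B := Zp * Y / Nr f with hB
  have hAB : A ≤ B := by
    rw [hB, le_div_iff₀ hf0, hsplit]
    nlinarith
  have hBA : B ≤ A * Y ^ 2 := by
    rw [hB, div_le_iff₀ hf0, hsplit]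
    have : 0 ≤ A * Y := by positivity
    nlinarith
  have hBp : 0 < B ^ (θ + σ') := Real.rpow_pos_of_pos (by linarith) _
  have h1 : ∏ i ∈ J, ‖slot Q (Z i) y (p i)‖ ≤ M ^ J.card := by
    rw [← Finset.prod_const]
    exact Finset.prod_le_prod (fun i _ => norm_nonneg _) fun i _ =>
      (h x (Z i) Q hx (hZ i) (hZi i)).1 _
  have hcard : M ^ J.card * M ^ Jᶜ.card = M ^ j := by
    rw [← pow_add, Finset.card_add_card_compl, Fintype.card_fin]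
  have hτ1 : 1 ≤ 1 + |τ'| := by linarith [abs_nonneg τ']
  have key : ∀ G : ℝ, 0 ≤ G → G ≤ Y ^ 2 * (1 + |τ'|) * B ^ (θ + σ') →
      ∏ i ∈ Jᶜ, ‖PS Q (Z i) y (fun b => η b * (Nr b : ℂ) ^ ((σ' : ℂ) + τ' * I))‖ ≤ M ^ Jᶜ.card * G →
      (∏ i ∈ J, ‖slot Q (Z i) y (p i)‖) *
        ∏ i ∈ Jᶜ, ‖PS Q (Z i) y (fun b => η b * (Nr b : ℂ) ^ ((σ' : ℂ) + τ' * I))‖ ≤
      D ^ j * x ^ e * Y ^ 2 * (1 + |τ'|) * B ^ (θ + σ') := by
    intro G hG0 hG h2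
    calc _ ≤ M ^ J.card * (M ^ Jᶜ.card * G) :=
          mul_le_mul h1 h2 (Finset.prod_nonneg fun i _ => norm_nonneg _) (by positivity)
      _ = M ^ j * G := by rw [← mul_assoc, hcard]
      _ ≤ D ^ j * x ^ e * (Y ^ 2 * (1 + |τ'|) * B ^ (θ + σ')) :=
          mul_le_mul hMj hG hG0 (by positivity)
      _ = _ := by ring
  rcases le_total |τ'| x with hτ | hτ
  · refine key (A ^ (θ + σ')) (by positivity) ?_ ?_
    · calc A ^ (θ + σ') ≤ Y ^ 2 * B ^ (θ + σ') :=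
            t4_rpow_cmp (by linarith) hAB (one_le_pow₀ hY1) hBA (by linarith)
        _ = Y ^ 2 * 1 * B ^ (θ + σ') := by ring
        _ ≤ _ := by gcongr
    · rw [hA, ← Real.finsetProd_rpow _ _ (fun i _ => by linarith [hZ i]), ← Finset.prod_const,
        ← Finset.prod_mul_distrib]
      exact Finset.prod_le_prod (fun i _ => norm_nonneg _) fun i _ =>
        (h x (Z i) Q hx (hZ i) (hZi i)).2.2 q η θ σ' τ' hq hQ hP hqx hθ hθ1
          (fun T => hZF.zfl hq hP T) (abs_le.2 ⟨hσ1, by linarith⟩) hτ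
  · refine key A (by positivity) ?_ ?_
    · have hB1 : 1 ≤ B := hA1.trans hAB
      have hBZ : B ≤ Zp * Y := div_le_self (by positivity) (one_le_Nr hf.ne_zero)
      have h2 : (Zp * Y)⁻¹ ≤ B ^ (θ + σ') := by
        calc (Zp * Y)⁻¹ ≤ B⁻¹ := inv_anti₀ (by linarith) hBZ
          _ = B ^ (-1 : ℝ) := (Real.rpow_neg_one B).symm
          _ ≤ _ := Real.rpow_le_rpow_of_exponent_le hB1 (by linarith)
      calc A ≤ Zp * Y := hAB.trans hBZ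
        _ = 1 * (Zp * Y) ^ 2 * (Zp * Y)⁻¹ := by field_simp
        _ ≤ Y ^ 2 * (1 + |τ'|) * B ^ (θ + σ') := by
            gcongr
            · exact one_le_pow₀ hY1
            · linarith
    · rw [hA, ← Finset.prod_const, ← Finset.prod_mul_distrib]
      refine Finset.prod_le_prod (fun i _ => norm_nonneg _) fun i _ =>
        (h x (Z i) Q hx (hZ i) (hZi i)).2.1 _ fun b => ?_
      by_cases hb : b = 0
      · simp [hb, hq.map_zero]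
      rw [norm_mul, Complex.norm_cpow_eq_rpow_re_of_pos (Nr_pos hb)]
      refine mul_le_one₀ (hq.norm_le b) (Real.rpow_nonneg (Nr_nonneg b) _) ?_
      exact Real.rpow_le_one_of_one_le_of_nonpos (one_le_Nr hb) (by simpa using hσ0)

end Crest.Agent.R017

end
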