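import Crest.Agent.R017.T4AuxC
import Crest.Agent.R017.T41

/-! # Row 17: `step4` for a product of prime slots, the core estimate -/

set_option autoImplicit false

noncomputable section

open scoped BigOperators ComplexConjugate
open Complex MeasureTheory

namespace Crest.Agent.R017

theorem t4_num {C₄ Cp w Y Z Λ R T₂ T₃ K₂ K₃ K₄ Zs2 ρ : ℝ} (hC₄ : 0 ≤ C₄) (hw : 1 ≤ w)
    (hY0 : 0 ≤ Y) (hY : Y ≤ w) (hZ : 0 ≤ Z) (hΛ : 1 ≤ Λ) (hR : 0 ≤ R)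
    (h2 : K₂ * T₂ * Z ≤ Λ * R) (h3 : K₃ * T₃ * Z ≤ Λ * R) (h4 : K₄ * Zs2 ≤ Z * w ^ 2)
    (h40 : 0 ≤ K₄ * Zs2) (hρ0 : 0 ≤ ρ) (hρ : ρ ≤ 1) :
    R * (Z * Y) + K₂ * T₂ * (Z * Y) ^ 2 + K₃ * T₃ * (Z * Y) ^ 2 +
      K₄ * (C₄ * w) * (Cp * w * Y ^ 2) ^ 2 * (R * ρ) * Zs2 ≤
      (3 + C₄ * Cp ^ 2) * w ^ 9 * (Λ * R * Z) := by
  have hw0 : 0 ≤ w := by linarith
  have hw2 : Y ^ 2 ≤ w ^ 9 := (pow_le_pow_left₀ hY0 hY 2).trans (pow_le_pow_right₀ hw (by norm_num))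
  have hw1 : Y ≤ w ^ 9 := hY.trans (by simpa using pow_le_pow_right₀ hw (show 1 ≤ 9 by norm_num))
  have hRZ : R * Z ≤ Λ * R * Z := by
    rw [mul_assoc]
    exact le_mul_of_one_le_left (by positivity) hΛ
  have a1 : R * (Z * Y) ≤ w ^ 9 * (Λ * R * Z) := by
    calc R * (Z * Y) = Y * (R * Z) := by ring
      _ ≤ _ := by gcongr
  have a2 : K₂ * T₂ * (Z * Y) ^ 2 ≤ w ^ 9 * (Λ * R * Z) := by
    calc K₂ * T₂ * (Z * Y) ^ 2 = Y ^ 2 * (K₂ * T₂ * Z * Z) := by ring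
      _ ≤ Y ^ 2 * (Λ * R * Z) := by gcongr
      _ ≤ _ := by gcongr
  have a3 : K₃ * T₃ * (Z * Y) ^ 2 ≤ w ^ 9 * (Λ * R * Z) := by
    calc K₃ * T₃ * (Z * Y) ^ 2 = Y ^ 2 * (K₃ * T₃ * Z * Z) := by ring
      _ ≤ Y ^ 2 * (Λ * R * Z) := by gcongr
      _ ≤ _ := by gcongr
  have a4 : K₄ * (C₄ * w) * (Cp * w * Y ^ 2) ^ 2 * (R * ρ) * Zs2 ≤
      C₄ * Cp ^ 2 * w ^ 9 * (Λ * R * Z) := by
    calc _ = C₄ * Cp ^ 2 * w ^ 3 * Y ^ 4 * R * ρ * (K₄ * Zs2) := by ring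
      _ ≤ C₄ * Cp ^ 2 * w ^ 3 * w ^ 4 * R * 1 * (Z * w ^ 2) := by gcongr
      _ = C₄ * Cp ^ 2 * w ^ 9 * (R * Z) := by ring
      _ ≤ _ := by gcongr
  linarith

open Classical in
theorem t4_core {Q : O} (hQ : Q ≠ 0) (h72 : (72 : O) ∣ Q) {θ : ℝ} (hθ : 1 / 2 ≤ θ) (hθ1 : θ ≤ 1)
    (hZF : ZF θ) {a₁ a₂ e η₀ : ℝ} (ha₁ : 0 < a₁) (ha₂ : 0 < a₂) (he : 0 < e) (he1 : e ≤ 1 / 4)
    (hη : 0 < η₀) (j : ℕ) (hj : η₀ * j ≤ e) : ∃ C : ℝ, 0 ≤ C ∧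
    ∀ (x R N₁ N₂ l τ Λ : ℝ) (c : ℂ) (ψ : O → ℂ) (Z : Fin j → ℝ), 1 ≤ x → Nr Q ≤ x → IsCh Q ψ → R ≤ x →
      (x ^ 3)⁻¹ ≤ N₁ → N₁ ≤ x ^ 3 → (x ^ 3)⁻¹ ≤ N₂ → N₂ ≤ x ^ 3 → 1 ≤ l → l ≤ x ^ 3 →
      (∀ i, 1 ≤ Z i) → Sep Z (x ^ η₀) → (∏ i, Z i) ^ (18 : ℕ) ≤ R → (c = 0 ∨ c = 1) → 1 ≤ Λ →
      (∏ i, Z i) ^ (10 * θ - 4) * (N₁ * N₂) ≤ Λ * R →
      (∏ i, Z i) ^ (8 * θ - 3) * R ^ (1 / 6 : ℝ) * (if c = 0 then N₁ * N₂ else 1 + N₁ + N₂ * l) ≤ Λ * R →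
      ∑ r ∈ box R, ‖sm a₁ (fun n => ψ n * chi n r) N₁ τ * sm a₂ (fun n => ψ n * chi n r) N₂ τ -
          c * (sm a₁ (fun n => ψ n * chi n r) (N₁ / l) τ * sm a₂ (fun n => ψ n * chi n r) (N₂ * l) τ)‖ ^ 2 *
          ∏ i, ‖PS Q (Z i) (x ^ η₀) (fun p => chi p r)‖ ^ 2 ≤
        C * (x ^ e) ^ 18 * (1 + |τ|) ^ C * (N₁ * N₂) * (Λ * R * ∏ i, Z i) := by
  obtain ⟨C₁, hC₁, h₁⟩ := four hQ h72 ha₁ he
  obtain ⟨C₂, hC₂, h₂⟩ := four hQ h72 ha₂ he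
  set C₄ := max C₁ C₂ with hC₄
  have hC₄0 : 0 ≤ C₄ := hC₁.trans (le_max_left _ _)
  obtain ⟨Cs, hCs, hs⟩ := step4 hQ h72 ha₁ ha₂ he hC₄0
  obtain ⟨Cp, hCp, hp⟩ := t4_pw hθ hθ1 hZF he hη j
  refine ⟨max Cs (Cs * Cp ^ 2 * (3 + C₄ * Cp ^ 2)), hCs.trans (le_max_left _ _),
    fun x R N₁ N₂ l τ Λ c ψ Z hx hQx hψ hRx hN₁ hN₁' hN₂ hN₂' hl hl' hZ hS hZR hc hΛ hT₂ hT₃ => ?_⟩
  have hx0 : 0 < x := by linarith
  set y := x ^ η₀ with hy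
  have hy1 : 1 ≤ y := Real.one_le_rpow hx hη.le
  set Y := y ^ j with hY
  have hY1 : 1 ≤ Y := one_le_pow₀ hy1
  set w := x ^ e with hw
  have hw1 : 1 ≤ w := Real.one_le_rpow hx he.le
  have hYw : Y ≤ w := by
    rw [hY, hy, ← Real.rpow_natCast, ← Real.rpow_mul hx0.le]
    exact Real.rpow_le_rpow_of_exponent_le hx hj
  set Zp := ∏ i, Z i with hZp
  have hZp1 : 1 ≤ Zp := t4_one_le_prod hZ _
  have hZp0 : 0 < Zp := by linarith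
  have hR1 : 1 ≤ R := (one_le_pow₀ hZp1).trans hZR
  have hxx : x ≤ x ^ 3 := le_self_pow₀ hx (by norm_num)
  have hw4 : w ^ 4 ≤ x := by
    rw [hw, ← Real.rpow_natCast, ← Real.rpow_mul hx0.le]
    conv_rhs => rw [← Real.rpow_one x]
    exact Real.rpow_le_rpow_of_exponent_le hx (by push_cast; linarith)
  have hZ4 : Zp ^ 4 ≤ x := (pow_le_pow_right₀ hZp1 (by norm_num)).trans (hZR.trans hRx)
  have hZs : (Zp * Y) ^ 2 ≤ x := by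
    have h1 : ((Zp * Y) ^ 2) ^ 2 ≤ x ^ 2 := by
      calc ((Zp * Y) ^ 2) ^ 2 = Zp ^ 4 * Y ^ 4 := by ring
        _ ≤ x * w ^ 4 := by gcongr
        _ ≤ x * x := by gcongr
        _ = x ^ 2 := by ring
    exact (pow_le_pow_iff_left₀ (by positivity) hx0.le two_ne_zero).1 h1
  have hZs1 : 1 ≤ Zp * Y := one_le_mul_of_one_le_of_one_le hZp1 hY1
  have hZsx : Zp * Y ≤ x := by nlinarith
  obtain ⟨hp1, hp2⟩ := hp x Q Z hx hZ hS hZs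
  set M := Cp * w with hM
  have hM1 : 1 ≤ M := one_le_mul_of_one_le_of_one_le hCp hw1
  have hM0 : 0 < M := by linarith
  set K := Zp ^ (12 * θ - 6) with hK
  have hK1 : 1 ≤ K := Real.one_le_rpow hZp1 (by linarith)
  have hKx : K ≤ x ^ 3 := by
    calc K ≤ Zp ^ ((18 : ℕ) : ℝ) := Real.rpow_le_rpow_of_exponent_le hZp1 (by push_cast; linarith)
      _ = Zp ^ (18 : ℕ) := Real.rpow_natCast _ _
      _ ≤ _ := hZR.trans (hRx.trans hxx)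
  have hρ : Nr (rad (1 : O)) ≤ 1 := (Nr_le_of_dvd one_ne_zero (rad_dvd one_ne_zero)).trans Nr_one.le
  have hd2 : ∀ d : O, d ≠ 0 → Nr (rad (1 * d ^ 2)) ≤ Nr d ^ 2 := fun d hd => by
    have h0 : (1 * d ^ 2 : O) ≠ 0 := by simpa using hd
    refine (Nr_le_of_dvd h0 (rad_dvd h0)).trans ?_
    rw [one_mul, Nr_pow]
  have hRK : ∀ d : O, d ≠ 0 → R / (K * Nr d ^ 2) * Nr d ^ 2 ≤ x := fun d hd => by
    have := Nr_pos hd
    calc R / (K * Nr d ^ 2) * Nr d ^ 2 = R / K := by field_simp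
      _ ≤ R := div_le_self (by linarith) hK1
      _ ≤ x := hRx
  have key := hs (x ^ 3) (Y ^ 2) R K N₁ N₂ l (Zp * Y) θ (C₄ * w) (Cp * w * Y ^ 2) τ c ψ
    (fun b => t4_al Q Z y b / M) 1 (hx.trans hxx) hψ one_ne_zero (by linarith) (hRx.trans hxx) hK1 hKx
    hN₁ hN₁' hN₂ hN₂' hl hl' (one_le_pow₀ hY1) hZs1 (hZsx.trans hxx) (hρ.trans (hx.trans hxx)) hθ hθ1
    (by positivity) (by positivity) hc
    (fun b => by
      rw [norm_div, Complex.norm_real, Real.norm_of_nonneg hM0.le, div_le_one hM0]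
      exact hp1 b)
    (fun b hb => t4_al_supp hS hZ hy1 fun h => hb (by rw [h, zero_div]))
    (fun a ha ψ' d N' τ' hψ' hd hN' => by
      have hd0 : (1 * d ^ 2 : O) ≠ 0 := by simpa using hd
      have hNd := Nr_pos hd
      have hb : R / (K * Nr d ^ 2) * Nr (rad (1 * d ^ 2)) ≤ x :=
        le_trans (mul_le_mul_of_nonneg_left (hd2 d hd) (by positivity)) (hRK d hd)
      have hτ' : 1 ≤ 1 + |τ'| := by linarith [abs_nonneg τ']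
      have hn := Nr_nonneg (rad (1 * d ^ 2))
      rcases ha with rfl | rfl
      · refine (h₁ x _ N' τ' ψ' _ hx hψ' hd0 hN' (by positivity) hb).trans ?_
        gcongr <;> exact le_max_left _ _
      · refine (h₂ x _ N' τ' ψ' _ hx hψ' hd0 hN' (by positivity) hb).trans ?_
        gcongr <;> exact le_max_right _ _)
    (fun ψ' d r f σ' τ' hψ' hd hr hE hf hσ1 hσ0 => by
      have hd0 : (1 * d ^ 2 : O) ≠ 0 := by simpa using hd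
      obtain ⟨hr0, hrR⟩ := mem_box.1 hr
      have hrd : r * (1 * d ^ 2) ≠ 0 := mul_ne_zero hr0 hd0
      have hq : Nr (Q * rad (r * (1 * d ^ 2))) ≤ x ^ 2 := by
        rw [Nr_mul, sq x]
        refine mul_le_mul hQx ((Nr_le_of_dvd hrd (rad_dvd hrd)).trans ?_) (Nr_nonneg _) hx0.le
        rw [Nr_mul, one_mul, Nr_pow]
        exact le_trans (mul_le_mul_of_nonneg_right hrR (by positivity)) (hRK d hd)
      have h := hp2 _ _ f σ' τ' (hψ'.mul_chi h72 hrd) (dvd_mul_right _ _)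
        (not_princ_of_not_exc hψ' h72 hrd hE) hq hf hσ1 hσ0
      refine le_trans ?_ h
      have e : ∑ b ∈ (box (Zp * Y)).filter Prim, t4_al Q Z y (f * b) / M *
          (ψ' b * chi b (r * (1 * d ^ 2))) * (Nr b : ℂ) ^ ((σ' : ℂ) + τ' * I) =
          (∑ b ∈ (box (Zp * Y)).filter Prim, t4_al Q Z y (f * b) *
          (ψ' b * chi b (r * (1 * d ^ 2)) * (Nr b : ℂ) ^ ((σ' : ℂ) + τ' * I))) / M := by
        rw [Finset.sum_div]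
        exact Finset.sum_congr rfl fun b _ => by ring
      rw [e, norm_div, Complex.norm_real, Real.norm_of_nonneg hM0.le]
      exact div_le_self (norm_nonneg _) hM1)
  simp only [mul_one] at key
  have hsum : ∀ r : O, ∑ b ∈ box (Zp * Y), t4_al Q Z y b / M * chi b r =
      (∏ i, PS Q (Z i) y (fun p => chi p r)) / M := fun r => by
    rw [← t4_al_sum hZ hy1 (η := fun p => chi p r) (chi_unit_left isUnit_one r)
      fun a b ha hb => chi_mul_left ha hb r, Finset.sum_div]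
    exact Finset.sum_congr rfl fun b _ => by ring
  simp only [hsum, norm_mul, mul_pow _ _ 2, norm_div, Complex.norm_real, Real.norm_of_nonneg hM0.le,
    div_pow, norm_prod, ← Finset.prod_pow, ← mul_div_assoc, ← Finset.sum_div] at key
  rw [div_le_iff₀ (by positivity)] at key
  refine key.trans ?_
  have hN0 : 0 < N₁ * N₂ :=
    mul_pos (lt_of_lt_of_le (by positivity) hN₁) (lt_of_lt_of_le (by positivity) hN₂)
  have hτ1 : 1 ≤ 1 + |τ| := by linarith [abs_nonneg τ]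
  have hKp : ∀ s : ℝ, K ^ s = Zp ^ ((12 * θ - 6) * s) := fun s => by
    rw [hK, ← Real.rpow_mul hZp0.le]
  have hnum := t4_num (C₄ := C₄) (Cp := Cp) (w := w) (Y := Y) (Z := Zp) (Λ := Λ) (R := R)
    (T₂ := N₁ * N₂) (T₃ := if c = 0 then N₁ * N₂ else 1 + N₁ + N₂ * l) (K₂ := K ^ (5 / 6 : ℝ))
    (K₃ := K ^ (2 / 3 : ℝ) * R ^ (1 / 6 : ℝ)) (K₄ := K ^ (-(1 / 6 : ℝ))) (Zs2 := (Zp * Y) ^ (2 * θ))
    (ρ := Nr (rad (1 : O))) hC₄0 hw1 (by linarith) hYw hZp0.le hΛ (by linarith)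
    (by
      refine le_trans (le_of_eq ?_) hT₂
      rw [hKp, show 10 * θ - 4 = (12 * θ - 6) * (5 / 6) + 1 by ring, Real.rpow_add hZp0,
        Real.rpow_one]
      ring)
    (by
      refine le_trans (le_of_eq ?_) hT₃
      rw [hKp, show 8 * θ - 3 = (12 * θ - 6) * (2 / 3) + 1 by ring, Real.rpow_add hZp0,
        Real.rpow_one]
      ring)
    (by
      rw [hKp, Real.mul_rpow hZp0.le (by linarith), ← mul_assoc, ← Real.rpow_add hZp0,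
        show (12 * θ - 6) * -(1 / 6) + 2 * θ = 1 by ring, Real.rpow_one]
      refine mul_le_mul_of_nonneg_left ?_ hZp0.le
      calc Y ^ (2 * θ) ≤ Y ^ ((2 : ℕ) : ℝ) :=
            Real.rpow_le_rpow_of_exponent_le hY1 (by push_cast; linarith)
        _ = Y ^ 2 := Real.rpow_natCast _ _
        _ ≤ w ^ 2 := by gcongr)
    (by positivity) (Nr_nonneg _) hρ
  have hx3 : (x ^ 3) ^ e = w ^ 3 := by
    rw [hw, ← Real.rpow_natCast, ← Real.rpow_mul hx0.le, ← Real.rpow_natCast,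
      ← Real.rpow_mul hx0.le, mul_comm]
  simp only [mul_pow _ _ 2] at hnum
  rw [hx3]
  calc _ ≤ Cs * w ^ 3 * (Y ^ 2) ^ 2 * (1 + |τ|) ^ Cs *
        (N₁ * N₂) * ((3 + C₄ * Cp ^ 2) * w ^ 9 * (Λ * R * Zp)) * (Cp * w) ^ 2 :=
        mul_le_mul_of_nonneg_right (mul_le_mul_of_nonneg_left hnum (by positivity)) (sq_nonneg _)
    _ ≤ Cs * w ^ 3 * (w ^ 2) ^ 2 * (1 + |τ|) ^ max Cs (Cs * Cp ^ 2 * (3 + C₄ * Cp ^ 2)) *
        (N₁ * N₂) * ((3 + C₄ * Cp ^ 2) * w ^ 9 * (Λ * R * Zp)) * (Cp * w) ^ 2 := by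
        gcongr
        exact le_max_left _ _
    _ = Cs * Cp ^ 2 * (3 + C₄ * Cp ^ 2) * w ^ 18 *
        (1 + |τ|) ^ max Cs (Cs * Cp ^ 2 * (3 + C₄ * Cp ^ 2)) * (N₁ * N₂) * (Λ * R * Zp) := by ring
    _ ≤ _ := by
        gcongr
        exact le_max_right _ _

end Crest.Agent.R017

end
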