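import Crest.Agent.R017.T4AuxD

/-! # Row 17: the fourth moment with primes, small and large `x` -/

set_option autoImplicit false

noncomputable section

open scoped BigOperators ComplexConjugate
open Complex MeasureTheory

namespace Crest.Agent.R017

open Classical in
theorem t4_small {Q : O} {θ : ℝ} (hθ : 1 / 2 ≤ θ) {a η₀ x₀ : ℝ} (ha : 0 < a) (hη : 0 < η₀) (j : ℕ) :
    ∃ C : ℝ, 0 ≤ C ∧ ∀ (x R N τ : ℝ) (ψ : O → ℂ) (Z : Fin j → ℝ), 1 ≤ x → x ≤ x₀ → IsCh Q ψ → 1 ≤ N →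
      R ≤ x → (∀ i, 1 ≤ Z i) → N ^ 2 * (∏ i, Z i) ^ (10 * θ - 4) ≤ R → (∏ i, Z i) ^ (18 : ℕ) ≤ R →
      ∑ r ∈ (box R).filter (fun r => ¬ Exc Q 1 r), ‖sm a (fun n => ψ n * chi n r) N τ‖ ^ 4 *
          ∏ i, ‖PS Q (Z i) (x ^ η₀) (fun p => chi p r)‖ ^ 2 ≤ C * R * N ^ 2 * ∏ i, Z i := by
  obtain ⟨D, hD, h⟩ := t4_slot one_pos hη
  obtain ⟨C₀, hC₀⟩ := norm_sm_le ha 1
  refine ⟨25 * |C₀| ^ 4 * |x₀| * ((D * |x₀|) ^ j) ^ 2 * |x₀|, by positivity,
    fun x R N τ ψ Z hx hx₀ hψ hN hRx hZ hNR hZR => ?_⟩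
  set Zp := ∏ i, Z i with hZp
  have hZp1 : 1 ≤ Zp := t4_one_le_prod hZ _
  have hxa : x ≤ |x₀| := hx₀.trans (le_abs_self _)
  have hZx : Zp ≤ x := (le_self_pow₀ hZp1 (by norm_num)).trans (hZR.trans hRx)
  have hR1 : 1 ≤ R := (one_le_pow₀ hZp1).trans hZR
  have hN2 : N ^ 2 ≤ x :=
    (le_mul_of_one_le_right (by positivity) (Real.one_le_rpow hZp1 (by linarith))).trans (hNR.trans hRx)
  have hZi : ∀ i, Z i ≤ x := fun i => le_trans (by simpa using t4_prod_le_prod hZ {i}) hZx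
  have hb : ∀ r ∈ (box R).filter (fun r => ¬ Exc Q 1 r), ‖sm a (fun n => ψ n * chi n r) N τ‖ ^ 4 *
      ∏ i, ‖PS Q (Z i) (x ^ η₀) (fun p => chi p r)‖ ^ 2 ≤
      (|C₀| * N) ^ 4 * ((D * |x₀|) ^ j * Zp) ^ 2 := by
    intro r _
    have h1 : ‖sm a (fun n => ψ n * chi n r) N τ‖ ≤ |C₀| * N := by
      have := hC₀ (fun n => ψ n * chi n r) N τ (by linarith) (fun n _ => by
        rw [norm_mul]
        exact mul_le_one₀ (hψ.norm_le n) (norm_nonneg _) (norm_chi_le _ _)) (Or.inl le_rfl)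
      rw [Real.rpow_one] at this
      exact this.trans (mul_le_mul_of_nonneg_right (le_abs_self _) (by linarith))
    have h2 : ∏ i, ‖PS Q (Z i) (x ^ η₀) (fun p => chi p r)‖ ≤ (D * |x₀|) ^ j * Zp := by
      calc _ ≤ ∏ i, (D * |x₀| * Z i) := by
            refine Finset.prod_le_prod (fun i _ => norm_nonneg _) fun i _ => ?_
            refine ((h x (Z i) Q hx (hZ i) (hZi i)).2.1 _ fun p => norm_chi_le _ _).trans ?_
            rw [Real.rpow_one]
            have := hZ i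
            gcongr
        _ = _ := by rw [Finset.prod_mul_distrib, Finset.prod_const]; simp [hZp]
    rw [Finset.prod_pow]
    have h3 : 0 ≤ ∏ i, ‖PS Q (Z i) (x ^ η₀) (fun p => chi p r)‖ :=
      Finset.prod_nonneg fun i _ => norm_nonneg _
    gcongr
  refine (Finset.sum_le_card_nsmul _ _ _ hb).trans ?_
  rw [nsmul_eq_mul]
  have hc : (((box R).filter (fun r => ¬ Exc Q 1 r)).card : ℝ) ≤ 25 * R :=
    le_trans (by exact_mod_cast Finset.card_filter_le _ _) (card_box_le (by linarith))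
  calc _ ≤ 25 * R * ((|C₀| * N) ^ 4 * ((D * |x₀|) ^ j * Zp) ^ 2) := by gcongr
    _ = 25 * |C₀| ^ 4 * N ^ 2 * ((D * |x₀|) ^ j) ^ 2 * Zp * R * N ^ 2 * Zp := by ring
    _ ≤ _ := by
      gcongr
      · exact hN2.trans hxa
      · exact hZx.trans hxa

/-- The numerical facts about the shift `l`. -/
theorem t4_shift {θ R N Z : ℝ} (hθ : 1 / 2 ≤ θ) (hθ1 : θ ≤ 1) (hN : 1 ≤ N) (hZ : 1 ≤ Z)
    (h1 : N ^ 2 * Z ^ (10 * θ - 4) ≤ R) (h2 : Z ^ (18 : ℕ) ≤ R) :
    ∃ l : ℝ, 1 ≤ l ∧ Z ^ (8 * θ - 3) * R ^ (1 / 6 : ℝ) = l ^ 2 ∧ Z ^ (10 * θ - 4) ≤ l ^ 2 ∧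
      l ^ 2 * (N * l) ≤ R := by
  have hZ0 : 0 < Z := by linarith
  have hR1 : 1 ≤ R := (one_le_pow₀ hZ).trans h2
  have hR0 : 0 < R := by linarith
  set u := R ^ (1 / 12 : ℝ) with hu
  set z := Z ^ ((8 * θ - 3) / 2) with hz
  have hu1 : 1 ≤ u := Real.one_le_rpow hR1 (by norm_num)
  have hz1 : 1 ≤ z := Real.one_le_rpow hZ (by linarith)
  have hup : ∀ k : ℕ, u ^ k = R ^ ((k : ℝ) / 12) := fun k => by
    rw [hu, ← Real.rpow_natCast, ← Real.rpow_mul hR0.le]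
    congr 1
    ring
  have hzp : ∀ k : ℕ, z ^ k = Z ^ ((8 * θ - 3) / 2 * k) := fun k => by
    rw [hz, ← Real.rpow_natCast, ← Real.rpow_mul hZ0.le]
  have hu12 : u ^ 12 = R := by rw [hup]; norm_num
  have hu2 : u ^ 2 = R ^ (1 / 6 : ℝ) := by rw [hup]; norm_num
  have hz2 : z ^ 2 = Z ^ (8 * θ - 3) := by
    rw [hzp]
    congr 1
    push_cast
    ring
  have hZ9 : Z ^ 9 ≤ u ^ 6 := by
    refine (pow_le_pow_iff_left₀ (by positivity) (by positivity) two_ne_zero).1 ?_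
    calc (Z ^ 9) ^ 2 = Z ^ 18 := by ring
      _ ≤ R := h2
      _ = (u ^ 6) ^ 2 := by rw [← hu12]; ring
  have hZu : Z ≤ u :=
    (pow_le_pow_iff_left₀ hZ0.le (by positivity) (show 6 ≠ 0 by norm_num)).1
      ((pow_le_pow_right₀ hZ (by norm_num)).trans hZ9)
  refine ⟨u * z, one_le_mul_of_one_le_of_one_le hu1 hz1, by rw [mul_pow, hu2, hz2, mul_comm], ?_, ?_⟩
  · calc Z ^ (10 * θ - 4) ≤ Z ^ ((1 : ℝ) + (8 * θ - 3)) :=
          Real.rpow_le_rpow_of_exponent_le hZ (by linarith)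
      _ = Z * z ^ 2 := by rw [Real.rpow_add hZ0, Real.rpow_one, hz2]
      _ ≤ u ^ 2 * z ^ 2 := by
          gcongr
          nlinarith
      _ = _ := by ring
  · have h3 : N * z ^ 3 ≤ u ^ 9 := by
      refine (pow_le_pow_iff_left₀ (by positivity) (by positivity) two_ne_zero).1 ?_
      have h4 : z ^ 6 ≤ Z ^ (10 * θ - 4) * Z ^ 9 := by
        rw [hzp, ← Real.rpow_natCast Z 9, ← Real.rpow_add hZ0]
        exact Real.rpow_le_rpow_of_exponent_le hZ (by push_cast; linarith)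
      calc (N * z ^ 3) ^ 2 = N ^ 2 * z ^ 6 := by ring
        _ ≤ N ^ 2 * (Z ^ (10 * θ - 4) * Z ^ 9) := by gcongr
        _ = N ^ 2 * Z ^ (10 * θ - 4) * Z ^ 9 := by ring
        _ ≤ R * u ^ 6 := by gcongr
        _ = _ := by rw [← hu12]; ring
    calc (u * z) ^ 2 * (N * (u * z)) = u ^ 3 * (N * z ^ 3) := by ring
      _ ≤ u ^ 3 * u ^ 9 := by gcongr
      _ = R := by rw [← hu12]; ring

set_option maxHeartbeats 1600000 in
open Classical in
/-- The uncentred remainder. -/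
theorem t4_rem {Q : O} (hQ : Q ≠ 0) (h72 : (72 : O) ∣ Q) {θ : ℝ} (hθ : 1 / 2 ≤ θ) (hθ1 : θ ≤ 1)
    (hZF : ZF θ) {a e η₀ : ℝ} (ha : 0 < a) (he : 0 < e) (he1 : e ≤ 1 / 4)
    (hη : 0 < η₀) (j : ℕ) (hj : η₀ * j ≤ e) : ∃ x₀ C : ℝ, 0 ≤ C ∧
    ∀ (x R N l τ : ℝ) (ψ : O → ℂ) (Z : Fin j → ℝ), 1 ≤ x → x₀ ≤ x → Nr Q ≤ x → IsCh Q ψ → R ≤ x →
      1 ≤ N → 1 ≤ l → (∀ i, 1 ≤ Z i) → Sep Z (x ^ η₀) → (∏ i, Z i) ^ (18 : ℕ) ≤ R →
      (∏ i, Z i) ^ (8 * θ - 3) * R ^ (1 / 6 : ℝ) = l ^ 2 → (∏ i, Z i) ^ (10 * θ - 4) ≤ l ^ 2 →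
      l ^ 2 * (N * l) ≤ R →
      ∑ r ∈ (box R).filter (fun r => ¬ Exc Q 1 r),
        (‖sm a (fun n => ψ n * chi n r) (N / l) τ‖ ^ 2 *
          ∏ i, ‖PS Q (Z i) (x ^ η₀) (fun p => chi p r)‖ ^ 2) *
          ‖sm a (fun n => ψ n * chi n r) (N * l) τ‖ ^ 2 ≤
        C * (x ^ e) ^ 23 * (1 + |τ|) ^ C * R * N ^ 2 * ∏ i, Z i := by
  obtain ⟨N₀, c, hN₀, hN₀1, hc, hlow⟩ := t4_low (half_pos ha)
  obtain ⟨Cr, hCr, hr⟩ := reflect (half_pos ha) (half_pos he)
  obtain ⟨Cc, hCc, hcore⟩ := t4_core hQ h72 hθ hθ1 hZF ha (half_pos ha) he he1 hη j hj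
  set C₁ := 2 * Cr ^ 2 * ((c ^ 2)⁻¹ + 9 * (1 + 1 / e) ^ 2) * Cc * Nr Q with hC₁
  have hQ1 := one_le_Nr hQ
  refine ⟨N₀⁻¹, max C₁ (2 * Cr + Cc), le_max_of_le_right (by positivity),
    fun x R N l τ ψ Z hx hx₀ hQx hψ hRx hN hl hZ hS hZR hl2 hl3 hl4 => ?_⟩
  have hx0 : 0 < x := by linarith
  set w := x ^ e with hw
  have hw1 : 1 ≤ w := Real.one_le_rpow hx he.le
  have hwx : w ≤ x := by
    conv_rhs => rw [← Real.rpow_one x]
    exact Real.rpow_le_rpow_of_exponent_le hx (by linarith)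
  set Zp := ∏ i, Z i with hZp
  have hZp1 : 1 ≤ Zp := t4_one_le_prod hZ _
  have hR1 : 1 ≤ R := (one_le_pow₀ hZp1).trans hZR
  have hxx : x ≤ x ^ 3 := le_self_pow₀ hx (by norm_num)
  have hl0 : 0 < l := by linarith
  have hNl1 : 1 ≤ N * l := one_le_mul_of_one_le_of_one_le hN hl
  have hNlR : N * l ≤ R := (le_mul_of_one_le_left (by positivity) (one_le_pow₀ hl)).trans hl4
  have hlx : l ≤ x := (le_mul_of_one_le_left hl0.le hN).trans (hNlR.trans hRx)
  have hNx : N ≤ x := (le_mul_of_one_le_right (by linarith) hl).trans (hNlR.trans hRx)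
  have hτ1 : 1 ≤ 1 + |τ| := by linarith [abs_nonneg τ]
  set S := (box R).filter (fun r => ¬ Exc Q 1 r) with hSdef
  set Λ := Nr Q * w with hΛ
  have hΛ1 : 1 ≤ Λ := one_le_mul_of_one_le_of_one_le hQ1 hw1
  set ω : O → ℝ := fun r => ‖sm a (fun n => ψ n * chi n r) (N / l) τ‖ ^ 2 *
    ∏ i, ‖PS Q (Z i) (x ^ η₀) (fun p => chi p r)‖ ^ 2 with hω
  have hω0 : ∀ r, 0 ≤ ω r := fun r =>
    mul_nonneg (sq_nonneg _) (Finset.prod_nonneg fun i _ => sq_nonneg _)
  set H := Cc * w ^ 18 * (1 + |τ|) ^ Cc * (N / l) * (Λ * R * Zp) with hH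
  have hH0 : 0 ≤ H := by positivity
  have hG : ∀ N₂ : ℝ, (x ^ 3)⁻¹ ≤ N₂ → N₂ ≤ x ^ 3 → l ^ 2 * (N / l * N₂) ≤ Λ * R →
      ∑ r ∈ S, ω r * ‖sm (a / 2) (fun n => ψ n * chi n r) N₂ τ‖ ^ 2 ≤ H * N₂ := by
    intro N₂ h1 h2 h3
    have hN₂ : 0 < N₂ := lt_of_lt_of_le (by positivity) h1
    have h := hcore x R (N / l) N₂ 1 τ Λ 0 ψ Z hx hQx hψ hRx
      (by
        calc (x ^ 3)⁻¹ ≤ l⁻¹ := inv_anti₀ hl0 (hlx.trans hxx)
          _ = 1 / l := (one_div l).symm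
          _ ≤ N / l := by gcongr)
      ((div_le_self (by linarith) hl).trans (hNx.trans hxx)) h1 h2 le_rfl (hx.trans hxx) hZ hS hZR
      (Or.inl rfl) hΛ1 (le_trans (by gcongr) h3) (by rw [if_pos rfl, hl2]; exact h3)
    simp only [zero_mul, sub_zero, norm_mul, mul_pow] at h
    calc _ ≤ ∑ r ∈ box R, ω r * ‖sm (a / 2) (fun n => ψ n * chi n r) N₂ τ‖ ^ 2 :=
          Finset.sum_le_sum_of_subset_of_nonneg (Finset.filter_subset _ _)
            fun r _ _ => mul_nonneg (hω0 r) (sq_nonneg _)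
      _ = _ := Finset.sum_congr rfl fun r _ => by simp only [hω]; ring
      _ ≤ _ := h
      _ = _ := by rw [hH]; ring
  have hbase : l ^ 2 * (N / l) ≤ Λ * R := by
    calc l ^ 2 * (N / l) ≤ l ^ 2 * (N * l) := by
          gcongr
          exact (div_le_self (by linarith) hl).trans (le_mul_of_one_le_right (by linarith) hl)
      _ ≤ R := hl4
      _ ≤ _ := le_mul_of_one_le_left (by linarith) hΛ1
  have hrow : ∀ r ∈ S, r ≠ 0 ∧ Nr (Q * rad r) ≤ Nr Q * R ∧ IsCh (Q * rad r) (fun n => ψ n * chi n r) ∧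
      ¬ Princ (fun n => ψ n * chi n r) := by
    intro r hr
    obtain ⟨h1, h2⟩ := Finset.mem_filter.1 hr
    obtain ⟨h3, h4⟩ := mem_box.1 h1
    refine ⟨h3, ?_, hψ.mul_chi h72 h3, ?_⟩
    · rw [Nr_mul]
      exact mul_le_mul_of_nonneg_left ((Nr_le_of_dvd h3 (rad_dvd h3)).trans h4) (Nr_nonneg _)
    · simpa only [mul_one] using not_princ_of_not_exc hψ h72 (by simpa using h3) h2
  set v := Real.log (N * l) with hv
  have hv0 : 0 ≤ v := Real.log_nonneg hNl1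
  have hev : Real.exp v = N * l := Real.exp_log (by linarith)
  set U := max 0 (Real.log (Nr Q * R) - v + e * Real.log x) with hU
  have hU0 : 0 ≤ U := le_max_left _ _
  have hQR : Nr Q * R ≤ x ^ 2 := by rw [sq]; gcongr
  have hlx0 : 0 ≤ Real.log x := Real.log_nonneg hx
  have hlog2 : Real.log (x ^ 2) = 2 * Real.log x := by rw [Real.log_pow]; norm_num
  have hUx : U ≤ 3 * Real.log x := by
    refine max_le (by positivity) ?_
    have : Real.log (Nr Q * R) ≤ Real.log (x ^ 2) := Real.log_le_log (by positivity) hQR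
    nlinarith
  have hUw : U ≤ 3 * ((1 + 1 / e) * w) := by linarith [t4_log_le he hx]
  have e1 : (x ^ 2) ^ (e / 2) = w := by
    rw [← Real.rpow_natCast, ← Real.rpow_mul hx0.le]
    congr 1
    push_cast
    ring
  have main := t4_refl S ω (fun r => ‖sm a (fun n => ψ n * chi n r) (N * l) τ‖)
    (fun r => max 0 (Real.log (Nr (Q * rad r)) - v + e / 2 * Real.log (x ^ 2)))
    (fun r u => ‖sm (a / 2) (fun n => ψ n * chi n r) (Real.exp u) τ‖ * Real.exp (-u / 2))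
    (E := Real.exp (v / 2) * (Cr * w * (1 + |τ|) ^ Cr)) (U := U) (H₀ := (c ^ 2)⁻¹ * H) (H₁ := H)
    (fun r _ => hω0 r) (fun r _ => norm_nonneg _)
    (fun r hr => by
      have hc' : ∀ n, Prim n → ‖ψ n * chi n r‖ ≤ 1 * Nr n ^ (0 : ℝ) := fun n _ => by
        simpa using (hrow r hr).2.2.1.norm_le n
      have h1 : Continuous fun u : ℝ => sm (a / 2) (fun n => ψ n * chi n r) (Real.exp u) τ :=
        (continuous_sm (half_pos ha) hc').comp (f := fun u : ℝ => (u, τ)) (by fun_prop)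
      fun_prop)
    (fun r _ u => by positivity) (by positivity) hU0 (fun r _ => le_max_left _ _)
    (fun r hr => by
      refine max_le_max le_rfl ?_
      have : Real.log (Nr (Q * rad r)) ≤ Real.log (Nr Q * R) :=
        Real.log_le_log (Nr_pos (hrow r hr).2.2.1.ne) (hrow r hr).2.1
      rw [hlog2]
      linarith)
    (fun r hr' => by
      obtain ⟨-, h2, h3, h4⟩ := hrow r hr'
      have h := hr (x ^ 2) _ _ (by nlinarith) h3 h4 (h2.trans hQR) v τ
      rw [show 2 * (a / 2) = a by ring, hev, e1] at h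
      have e2 : Real.exp (v / 2) * Real.exp (-v / 2) = 1 := by
        rw [← Real.exp_add, ← Real.exp_zero]; congr 1; ring
      calc _ = Real.exp (v / 2) *
            (‖sm a (fun n => ψ n * chi n r) (N * l) τ‖ * Real.exp (-v / 2)) := by
            rw [mul_left_comm, e2, mul_one]
        _ ≤ _ := by
            rw [mul_assoc (Real.exp (v / 2))]
            exact mul_le_mul_of_nonneg_left h (Real.exp_pos _).le)
    (by
      have h1 : (x ^ 3)⁻¹ ≤ N₀ := by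
        rw [inv_le_comm₀ (by positivity) hN₀]
        exact hx₀.trans hxx
      have h := hG N₀ h1 (hN₀1.trans (hx.trans hxx))
        (le_trans (by gcongr; exact mul_le_of_le_one_right (by positivity) hN₀1) hbase)
      rw [le_inv_mul_iff₀ (by positivity), Finset.mul_sum]
      refine le_trans (Finset.sum_le_sum fun r hr => ?_) (h.trans (mul_le_of_le_one_right hH0 hN₀1))
      rw [mul_comm]
      refine mul_le_mul_of_nonneg_left (pow_le_pow_left₀ hc.le ?_ 2) (hω0 r)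
      exact hlow _ τ (hrow r hr).2.2.1.one fun n _ => (hrow r hr).2.2.1.norm_le n)
    (fun u hu0 huU => by
      have h1 : 1 ≤ Real.exp u := Real.one_le_exp hu0
      have h2 : Real.exp u ≤ x ^ 3 := by
        calc Real.exp u ≤ Real.exp (Real.log (x ^ 3)) := by
              refine Real.exp_le_exp.2 (huU.trans ?_)
              rw [Real.log_pow]
              exact_mod_cast hUx
          _ = _ := Real.exp_log (by positivity)
      have h3 : l ^ 2 * (N / l * Real.exp u) ≤ Λ * R := by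
        rcases le_max_iff.1 huU with h | h
        · have : u = 0 := le_antisymm h hu0
          rw [this, Real.exp_zero, mul_one]
          exact hbase
        · have h4 : Real.exp u ≤ Nr Q * R / (N * l) * w := by
            refine (Real.exp_le_exp.2 h).trans (le_of_eq ?_)
            rw [Real.exp_add, Real.exp_sub, Real.exp_log (by positivity), hev, hw,
              Real.rpow_def_of_pos hx0, mul_comm e]
          calc l ^ 2 * (N / l * Real.exp u) ≤ l ^ 2 * (N / l * (Nr Q * R / (N * l) * w)) := by gcongr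
            _ = Λ * R := by rw [hΛ]; field_simp
      have h := hG (Real.exp u) ((inv_le_one_of_one_le₀ (hx.trans hxx)).trans h1) h2 h3
      have e2 : Real.exp (-u / 2) ^ 2 * Real.exp u = 1 := by
        rw [sq, ← Real.exp_add, ← Real.exp_add, ← Real.exp_zero]; congr 1; ring
      calc _ = Real.exp (-u / 2) ^ 2 *
            ∑ r ∈ S, ω r * ‖sm (a / 2) (fun n => ψ n * chi n r) (Real.exp u) τ‖ ^ 2 := by
            rw [Finset.mul_sum]
            exact Finset.sum_congr rfl fun r _ => by ring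
        _ ≤ Real.exp (-u / 2) ^ 2 * (H * Real.exp u) := by gcongr
        _ = H := by rw [mul_left_comm, e2, mul_one])
  refine main.trans ?_
  have e3 : Real.exp (v / 2) ^ 2 = N * l := by
    rw [sq, ← Real.exp_add, ← hev]; congr 1; ring
  have e4 : ((1 + |τ|) ^ Cr) ^ 2 * (1 + |τ|) ^ Cc = (1 + |τ|) ^ (2 * Cr + Cc) := by
    rw [sq, ← Real.rpow_add (by linarith), ← Real.rpow_add (by linarith)]
    congr 1
    ring
  have h5 : (c ^ 2)⁻¹ * H + U ^ 2 * H ≤ ((c ^ 2)⁻¹ + 9 * (1 + 1 / e) ^ 2) * w ^ 2 * H := by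
    rw [← add_mul, add_mul _ _ (w ^ 2)]
    refine mul_le_mul_of_nonneg_right (add_le_add ?_ ?_) hH0
    · exact le_mul_of_one_le_right (by positivity) (one_le_pow₀ hw1)
    · calc U ^ 2 ≤ (3 * ((1 + 1 / e) * w)) ^ 2 := by gcongr
        _ = _ := by ring
  calc _ ≤ 2 * (Real.exp (v / 2) * (Cr * w * (1 + |τ|) ^ Cr)) ^ 2 *
        (((c ^ 2)⁻¹ + 9 * (1 + 1 / e) ^ 2) * w ^ 2 * H) := by gcongr
    _ = C₁ * w ^ 23 * (((1 + |τ|) ^ Cr) ^ 2 * (1 + |τ|) ^ Cc) * R *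
        (Real.exp (v / 2) ^ 2 * (N / l)) * Zp := by rw [hH, hC₁, hΛ]; ring
    _ = C₁ * w ^ 23 * (1 + |τ|) ^ (2 * Cr + Cc) * R * N ^ 2 * Zp := by
        rw [e3, e4]
        congr 2
        field_simp
    _ ≤ _ := by
        gcongr
        · exact le_max_left _ _
        · exact le_max_right _ _

end Crest.Agent.R017

end
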