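import Crest.Agent.R017.T4StepAux0

/-! # Row 17, `step4`: sums over triples -/

set_option autoImplicit false

noncomputable section

open scoped BigOperators ComplexConjugate
open Complex MeasureTheory

namespace Crest.Agent.R017

theorem s4a_w : Summable (fun m : O3 => Nr (s4_pr m) ^ (-(2 : ℝ))) := by
  have h := summable_Nr_rpow (σ := 2) (by norm_num)
  have h0 : ∀ x : O, 0 ≤ Nr x ^ (-(2 : ℝ)) := fun x => Real.rpow_nonneg (Nr_nonneg x) _
  have h2 := h.mul_of_nonneg h h0 h0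
  have h3 := h.mul_of_nonneg h2 h0 fun x => mul_nonneg (h0 _) (h0 _)
  refine h3.congr fun m => ?_
  rw [s4_pr, Nr_mul, Nr_mul, Real.mul_rpow (mul_nonneg (Nr_nonneg _) (Nr_nonneg _)) (Nr_nonneg _),
    Real.mul_rpow (Nr_nonneg _) (Nr_nonneg _), mul_assoc]

/-- Compare with `N m₁⁻² N m₂⁻² N m₃⁻²` (`summable_mul_of_summable_norm`, `l3_summable_two`). -/
theorem s4_Dec.summable {T : O3 → ℂ} (h : s4_Dec T) (A : ℝ) :
    Summable (fun m => if s4_P m then ‖T m‖ * Nr (s4_pr m) ^ A else 0) := by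
  obtain ⟨K, hK⟩ := h (A + 2)
  refine Summable.of_nonneg_of_le (fun m => ?_) (fun m => ?_) (s4a_w.mul_left |K|)
  · split_ifs
    · exact mul_nonneg (norm_nonneg _) (Real.rpow_nonneg (Nr_nonneg _) _)
    · exact le_rfl
  · have h0 : 0 ≤ Nr (s4_pr m) ^ (-(2 : ℝ)) := Real.rpow_nonneg (Nr_nonneg _) _
    split_ifs with hm
    · have hp := Nr_pos hm.pr.ne_zero
      calc ‖T m‖ * Nr (s4_pr m) ^ A ≤ K * Nr (s4_pr m) ^ (-(A + 2)) * Nr (s4_pr m) ^ A :=
            mul_le_mul_of_nonneg_right (hK m hm) (Real.rpow_nonneg hp.le _)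
        _ = K * Nr (s4_pr m) ^ (-(2 : ℝ)) := by
            rw [mul_assoc, ← Real.rpow_add hp]; congr 2; ring
        _ ≤ _ := mul_le_mul_of_nonneg_right (le_abs_self K) h0
    · exact mul_nonneg (abs_nonneg K) h0

theorem s4_Dec.summable' {T : O3 → ℂ} (h : s4_Dec T) :
    Summable (fun m => if s4_P m then T m else 0) := by
  refine Summable.of_norm ((h.summable 0).congr fun m => ?_)
  split_ifs <;> simp

theorem s4_Dec.shift {T : O3 → ℂ} (h : s4_Dec T) {κ : O3} (hκ : s4_P κ) :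
    s4_Dec (fun m => T (κ * m)) := by
  intro A
  obtain ⟨K, hK⟩ := h A
  refine ⟨K * Nr (s4_pr κ) ^ (-A), fun m hm => (hK _ (hκ.mul hm)).trans (le_of_eq ?_)⟩
  rw [s4_pr_mul, Nr_mul, Real.mul_rpow (Nr_nonneg _) (Nr_nonneg _), mul_assoc]

theorem s4_Dec.mul {T : O3 → ℂ} (h : s4_Dec T) {u : O3 → ℂ} {K B : ℝ}
    (hu : ∀ m, s4_P m → ‖u m‖ ≤ K * Nr (s4_pr m) ^ B) : s4_Dec (fun m => T m * u m) := by
  intro A
  obtain ⟨K₁, hK⟩ := h (A + B)
  refine ⟨K₁ * K, fun m hm => ?_⟩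
  have hp := Nr_pos hm.pr.ne_zero
  rw [norm_mul]
  calc ‖T m‖ * ‖u m‖ ≤ (K₁ * Nr (s4_pr m) ^ (-(A + B))) * (K * Nr (s4_pr m) ^ B) :=
        mul_le_mul (hK m hm) (hu m hm) (norm_nonneg _) ((norm_nonneg _).trans (hK m hm))
    _ = K₁ * K * (Nr (s4_pr m) ^ (-(A + B)) * Nr (s4_pr m) ^ B) := by ring
    _ = _ := by rw [← Real.rpow_add hp]; congr 2; ring

/-- `s4_fib` with `π = s4_pr`. -/
theorem s4_group {E : Type} [NormedAddCommGroup E] [CompleteSpace E] {T : O3 → E}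
    (hT : Summable (fun m => if s4_P m then T m else 0)) :
    HasSum (fun n => if Prim n then s4_G T n else 0) (∑' m, if s4_P m then T m else 0) := by
  have h := s4_fib hT s4_pr (fun n => if Prim n then s4_dv n else ∅) (fun n m hm => by
    by_cases hn : Prim n
    · rw [if_pos hn] at hm
      exact ((s4_mem_dv hn.ne_zero).1 hm).2
    · rw [if_neg hn] at hm
      exact absurd hm (Finset.notMem_empty m)) (fun m hm => by
    have hP : s4_P m := by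
      by_contra hP
      exact hm (if_neg hP)
    rw [if_pos hP.pr]
    exact (s4_mem_dv hP.pr.ne_zero).2 ⟨hP, rfl⟩)
  refine h.congr_fun fun n => ?_
  by_cases hn : Prim n
  · rw [if_pos hn, if_pos hn]
    exact Finset.sum_congr rfl fun m hm => (if_pos ((s4_mem_dv hn.ne_zero).1 hm).1).symm
  · rw [if_neg hn, if_neg hn, Finset.sum_empty]

theorem s4a_uniq {k n k' n' : O} (hk : Prim k) (hk' : Prim k') (h1 : IsCoprime k n')
    (h2 : IsCoprime k' n) (h : k * n = k' * n') : k = k' ∧ n = n' := by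
  have e : k = k' := hk.eq_of_associated hk' (associated_of_dvd_dvd
    (h1.dvd_of_dvd_mul_right (h ▸ dvd_mul_right k n))
    (h2.dvd_of_dvd_mul_right (h ▸ dvd_mul_right k' n')))
  subst e
  exact ⟨rfl, mul_left_cancel₀ hk.ne_zero h⟩

theorem s4a_split {μ k n : O} (hμ : Prim μ) (hk : Prim k) (h : μ ∣ k * n) :
    ∃ κ m : O, Prim κ ∧ Prim m ∧ κ ∣ k ∧ m ∣ n ∧ μ = κ * m := by
  obtain ⟨a, b, ha, hb, rfl⟩ := exists_dvd_and_dvd_of_dvd_mul h
  obtain ⟨u, hu, hp⟩ := exists_prim (x := a) fun h' => hk.not_lam_dvd (h'.trans ha)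
  obtain ⟨v, hv⟩ := hu.exists_right_inv
  have hvu : IsUnit v := IsUnit.of_mul_eq_one u (by rw [mul_comm]; exact hv)
  have e : a * b = (u * a) * (v * b) := by linear_combination (-(a * b)) * hv
  exact ⟨u * a, v * b, hp, hp.of_mul (e ▸ hμ), hu.mul_left_dvd.2 ha, hvu.mul_left_dvd.2 hb, e⟩

theorem s4a_dvd (m : O3) : m.1 ∣ s4_pr m ∧ m.2.1 ∣ s4_pr m ∧ m.2.2 ∣ s4_pr m :=
  ⟨(dvd_mul_right _ _).mul_right _, (dvd_mul_left _ _).mul_right _, dvd_mul_left _ _⟩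

/-- `(κ, m) ↦ κ m` is a bijection `s4_dv k × s4_dv n → s4_dv (k n)`. -/
theorem s4_G_mul {E : Type} [AddCommMonoid E] (T : O3 → E) {k n : O} (hk : Prim k) (hn : Prim n)
    (hc : IsCoprime n k) : s4_G T (k * n) = ∑ κ ∈ s4_dv k, s4_G (fun m => T (κ * m)) n := by
  have cop : ∀ {a b : O}, a ∣ k → b ∣ n → IsCoprime a b := fun ha hb =>
    (hc.symm.of_isCoprime_of_dvd_left ha).of_isCoprime_of_dvd_right hb
  unfold s4_G
  rw [← Finset.sum_product' (s4_dv k) (s4_dv n) (fun κ m => T (κ * m))]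
  symm
  refine Finset.sum_bij (fun x _ => x.1 * x.2) ?_ ?_ ?_ fun _ _ => rfl
  · intro x hx
    obtain ⟨h1, h2⟩ := Finset.mem_product.1 hx
    rw [s4_mem_dv hk.ne_zero] at h1
    rw [s4_mem_dv hn.ne_zero] at h2
    rw [s4_mem_dv (hk.mul hn).ne_zero, s4_pr_mul, h1.2, h2.2]
    exact ⟨h1.1.mul h2.1, rfl⟩
  · intro x hx x' hx' h
    obtain ⟨h1, h2⟩ := Finset.mem_product.1 hx
    obtain ⟨h1', h2'⟩ := Finset.mem_product.1 hx'
    rw [s4_mem_dv hk.ne_zero] at h1 h1'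
    rw [s4_mem_dv hn.ne_zero] at h2 h2'
    have d1 := h1.2 ▸ s4a_dvd x.1
    have d2 := h2.2 ▸ s4a_dvd x.2
    have d1' := h1'.2 ▸ s4a_dvd x'.1
    have d2' := h2'.2 ▸ s4a_dvd x'.2
    have e1 := s4a_uniq h1.1.1 h1'.1.1 (cop d1.1 d2'.1) (cop d1'.1 d2.1) (congrArg Prod.fst h)
    have e2 := s4a_uniq h1.1.2.1 h1'.1.2.1 (cop d1.2.1 d2'.2.1) (cop d1'.2.1 d2.2.1)
      (congrArg (fun z : O3 => z.2.1) h)
    have e3 := s4a_uniq h1.1.2.2 h1'.1.2.2 (cop d1.2.2 d2'.2.2) (cop d1'.2.2 d2.2.2)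
      (congrArg (fun z : O3 => z.2.2) h)
    exact Prod.ext (Prod.ext e1.1 (Prod.ext e2.1 e3.1)) (Prod.ext e1.2 (Prod.ext e2.2 e3.2))
  · intro μ hμ
    rw [s4_mem_dv (hk.mul hn).ne_zero] at hμ
    have d := hμ.2 ▸ s4a_dvd μ
    obtain ⟨κ₁, m₁, a1, a2, a3, a4, a5⟩ := s4a_split hμ.1.1 hk d.1
    obtain ⟨κ₂, m₂, b1, b2, b3, b4, b5⟩ := s4a_split hμ.1.2.1 hk d.2.1
    obtain ⟨κ₃, m₃, c1, c2, c3, c4, c5⟩ := s4a_split hμ.1.2.2 hk d.2.2
    have e : ((κ₁, κ₂, κ₃) : O3) * (m₁, m₂, m₃) = μ :=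
      Prod.ext a5.symm (Prod.ext b5.symm c5.symm)
    have pκ : s4_P (κ₁, κ₂, κ₃) := ⟨a1, b1, c1⟩
    have pm : s4_P (m₁, m₂, m₃) := ⟨a2, b2, c2⟩
    have e' := s4a_uniq (n := s4_pr (m₁, m₂, m₃)) (n' := n) pκ.pr hk
      (((cop a3 dvd_rfl).mul_left (cop b3 dvd_rfl)).mul_left (cop c3 dvd_rfl))
      (((cop dvd_rfl a4).mul_right (cop dvd_rfl b4)).mul_right (cop dvd_rfl c4))
      (by rw [← s4_pr_mul, e, hμ.2])
    exact ⟨((κ₁, κ₂, κ₃), (m₁, m₂, m₃)), Finset.mem_product.2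
      ⟨(s4_mem_dv hk.ne_zero).2 ⟨pκ, e'.1⟩, (s4_mem_dv hn.ne_zero).2 ⟨pm, e'.2⟩⟩, e⟩

theorem s4a_cancel {f m m' : O3} (hf : s4_P f) (h : f * m = f * m') : m = m' :=
  Prod.ext (mul_left_cancel₀ hf.1.ne_zero (congrArg Prod.fst h))
    (Prod.ext (mul_left_cancel₀ hf.2.1.ne_zero (congrArg (fun z : O3 => z.2.1) h))
      (mul_left_cancel₀ hf.2.2.ne_zero (congrArg (fun z : O3 => z.2.2) h)))

/-- `s4_fib` on pairs `(f, m)` with `π = f m`, then `HasSum.prod_fiberwise`. -/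
theorem s4_expand {T : O3 → ℂ} (hT : s4_Dec T) {g φ : O3 → ℂ} {K : ℝ}
    (hg : ∀ f, s4_P f → ‖g f‖ ≤ K * Nr (s4_pr f))
    (h : ∀ m, s4_P m → ∑ f ∈ s4_D m, g f = φ m) :
    HasSum (fun f => if s4_P f then g f * ∑' m, (if s4_P m then T (f * m) else 0) else 0)
      (∑' m, if s4_P m then φ m * T m else 0) := by
  classical
  obtain ⟨K₃, hK⟩ := hT 3
  set F : O3 × O3 → ℂ := fun x => if s4_P x.1 ∧ s4_P x.2 then g x.1 * T (x.1 * x.2) else 0 with hF
  have h0 : ∀ m : O3, 0 ≤ Nr (s4_pr m) ^ (-(2 : ℝ)) := fun m => Real.rpow_nonneg (Nr_nonneg _) _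
  have hs : Summable F := by
    refine Summable.of_norm_bounded ((s4a_w.mul_of_nonneg s4a_w h0 h0).mul_left (|K| * |K₃|))
      fun x => ?_
    have h1 := h0 x.1
    have h2 := h0 x.2
    simp only [hF]
    split_ifs with hx
    swap
    · rw [norm_zero]; positivity
    have p1 := Nr_pos hx.1.pr.ne_zero
    have p2 := one_le_Nr hx.2.pr.ne_zero
    have q1 : ‖g x.1‖ ≤ |K| * Nr (s4_pr x.1) :=
      (hg _ hx.1).trans (mul_le_mul_of_nonneg_right (le_abs_self K) p1.le)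
    have q2 : ‖T (x.1 * x.2)‖ ≤
        |K₃| * (Nr (s4_pr x.1) ^ (-(3 : ℝ)) * Nr (s4_pr x.2) ^ (-(2 : ℝ))) := by
      refine (hK _ (hx.1.mul hx.2)).trans ?_
      rw [s4_pr_mul, Nr_mul, Real.mul_rpow (Nr_nonneg _) (Nr_nonneg _)]
      have : Nr (s4_pr x.2) ^ (-(3 : ℝ)) ≤ Nr (s4_pr x.2) ^ (-(2 : ℝ)) :=
        Real.rpow_le_rpow_of_exponent_le p2 (by norm_num)
      have := le_abs_self K₃
      gcongr
    have q3 : Nr (s4_pr x.1) * Nr (s4_pr x.1) ^ (-(3 : ℝ)) = Nr (s4_pr x.1) ^ (-(2 : ℝ)) := by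
      rw [← Real.rpow_one_add' p1.le (by norm_num)]; norm_num
    rw [norm_mul]
    calc _ ≤ (|K| * Nr (s4_pr x.1)) *
          (|K₃| * (Nr (s4_pr x.1) ^ (-(3 : ℝ)) * Nr (s4_pr x.2) ^ (-(2 : ℝ)))) :=
          mul_le_mul q1 q2 (norm_nonneg _) (by positivity)
      _ = _ := by rw [← q3]; ring
  have h1 := s4_fib hs (fun x => x.1 * x.2)
    (fun y => if s4_P y then (s4_D y ×ˢ s4_D y).filter (fun x => x.1 * x.2 = y) else ∅)
    (fun y x hx => by
      by_cases hy : s4_P y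
      · rw [if_pos hy] at hx
        exact (Finset.mem_filter.1 hx).2
      · rw [if_neg hy] at hx
        exact absurd hx (Finset.notMem_empty x))
    (fun x hx => by
      have hP : s4_P x.1 ∧ s4_P x.2 := by
        by_contra hP
        exact hx (if_neg hP)
      have hy := hP.1.mul hP.2
      rw [if_pos hy]
      exact Finset.mem_filter.2 ⟨Finset.mem_product.2 ⟨(s4_mem_D hy).2 ⟨hP.1, dvd_mul_right _ _⟩,
        (s4_mem_D hy).2 ⟨hP.2, dvd_mul_left _ _⟩⟩, rfl⟩)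
  have h2 : HasSum (fun m => if s4_P m then φ m * T m else 0) (∑' x, F x) := by
    refine h1.congr_fun fun y => ?_
    by_cases hy : s4_P y
    swap
    · rw [if_neg hy, if_neg hy, Finset.sum_empty]
    rw [if_pos hy, if_pos hy, ← h y hy, Finset.sum_mul]
    symm
    refine Finset.sum_bij (fun x _ => x.1) ?_ ?_ ?_ ?_
    · intro x hx
      exact (Finset.mem_product.1 (Finset.mem_filter.1 hx).1).1
    · intro x hx x' hx' e
      obtain ⟨a1, a2⟩ := Finset.mem_filter.1 hx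
      obtain ⟨-, a2'⟩ := Finset.mem_filter.1 hx'
      have hP := ((s4_mem_D hy).1 (Finset.mem_product.1 a1).1).1
      have e' : x.1 = x'.1 := e
      exact Prod.ext e' (s4a_cancel hP (by rw [a2, e', a2']))
    · intro f hf
      obtain ⟨hP, m, hm⟩ := (s4_mem_D hy).1 hf
      exact ⟨(f, m), Finset.mem_filter.2 ⟨Finset.mem_product.2 ⟨hf, (s4_mem_D hy).2
        ⟨hP.of_mul (hm ▸ hy), hm ▸ dvd_mul_left _ _⟩⟩, hm.symm⟩, rfl⟩
    · intro x hx
      obtain ⟨a1, a2⟩ := Finset.mem_filter.1 hx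
      obtain ⟨b1, b2⟩ := Finset.mem_product.1 a1
      simp only [hF]
      rw [if_pos ⟨((s4_mem_D hy).1 b1).1, ((s4_mem_D hy).1 b2).1⟩, a2]
  rw [h2.tsum_eq]
  refine hs.hasSum.prod_fiberwise fun f => ?_
  by_cases hf : s4_P f
  · rw [if_pos hf]
    refine ((hT.shift hf).summable'.hasSum.mul_left (g f)).congr_fun fun m => ?_
    by_cases hm : s4_P m <;> simp [hF, hf, hm]
  · rw [if_neg hf]
    refine hasSum_zero.congr_fun fun m => ?_
    simp [hF, hf]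

theorem s4a_mul {ι κ : Type} {f : ι → ℂ} {g : κ → ℂ} {a b : ℂ} (hf : HasSum f a)
    (hg : HasSum g b) : HasSum (fun x : ι × κ => f x.1 * g x.2) (a * b) :=
  hf.mul hg (summable_mul_of_summable_norm (summable_norm_iff.2 hf.summable)
    (summable_norm_iff.2 hg.summable))

theorem s4_prod {c₁ c₂ c₃ : O → ℂ} (h₁ : Summable (fun n => if Prim n then c₁ n else 0))
    (h₂ : Summable (fun n => if Prim n then c₂ n else 0))
    (h₃ : Summable (fun n => if Prim n then c₃ n else 0)) :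
    HasSum (fun m : O3 => if s4_P m then c₁ m.1 * c₂ m.2.1 * c₃ m.2.2 else 0)
      ((∑' n, if Prim n then c₁ n else 0) * (∑' n, if Prim n then c₂ n else 0) *
        (∑' n, if Prim n then c₃ n else 0)) := by
  have h := s4a_mul h₁.hasSum (s4a_mul h₂.hasSum h₃.hasSum)
  rw [mul_assoc]
  refine h.congr_fun fun m => ?_
  by_cases a1 : Prim m.1 <;> by_cases a2 : Prim m.2.1 <;> by_cases a3 : Prim m.2.2 <;>
    simp [s4_P, a1, a2, a3, mul_assoc]

end Crest.Agent.R017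

end
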