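import Crest.Agent.R017.T4StepAux0

/-! # Row 17, `step4`: the abstract double Poisson step -/

set_option autoImplicit false

noncomputable section

open scoped BigOperators ComplexConjugate
open Complex MeasureTheory

namespace Crest.Agent.R017

section

variable {Q t : O} {CA : ℝ → ℝ} {M C₁ e x R K Λ Y : ℝ} {G : O → ℂ}

theorem s4d_supp (h : s4_Abs Q t CA M C₁ e x R K Λ Y G) {k c n : O} (hk : Prim k)
    (hn : s4_ga G k c n ≠ 0) : Adm Q n ∧ IsCoprime k t ∧ (4 : O) ∣ n - c := by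
  unfold s4_ga at hn
  split_ifs at hn with h1
  · have h2 := h.supp _ (hk.mul h1.1) hn
    exact ⟨⟨h1.1, h1.2.1, h2.of_mul_left_right.of_mul_right_left⟩,
      h2.of_mul_left_left.of_mul_right_right, h1.2.2.2⟩
  · exact absurd rfl hn

theorem s4d_mom (h : s4_Abs Q t CA M C₁ e x R K Λ Y G) {k : O} (hk : Prim k) (c : O) {A : ℝ}
    (hA : -1 < A) :
    ∑' n, ‖s4_ga G k c n‖ * Nr n ^ A ≤ |CA A| * (Nr k ^ e * (Λ / Nr k) ^ (1 + A)) := by
  refine (h.mom A k c hA hk).trans ?_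
  have := Nr_pos hk.ne_zero
  have := h.hΛ
  rw [mul_assoc]
  exact mul_le_mul_of_nonneg_right (le_abs_self _) (by positivity)

theorem s4d_sq (h : s4_Abs Q t CA M C₁ e x R K Λ Y G) (hM : 0 ≤ M) {k : O} (hk : Prim k) (c : O)
    {A : ℝ} (hA : -1 < A + e) :
    Summable (fun n => ‖s4_ga G k c n‖ ^ 2 * Nr n ^ A) ∧
    ∑' n, ‖s4_ga G k c n‖ ^ 2 * Nr n ^ A ≤
      M * |CA (A + e)| * (Nr k ^ e * (Nr k ^ e * (Λ / Nr k) ^ (1 + (A + e)))) := by
  have kk := Nr_pos hk.ne_zero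
  have hle : ∀ n, ‖s4_ga G k c n‖ ^ 2 * Nr n ^ A ≤
      (M * Nr k ^ e) * (‖s4_ga G k c n‖ * Nr n ^ (A + e)) := fun n => by
    unfold s4_ga
    split_ifs with h1
    · have h2 := h.pt _ (hk.mul h1.1)
      have h3 := Nr_pos h1.1.ne_zero
      rw [Nr_mul, Real.mul_rpow kk.le h3.le] at h2
      rw [Real.rpow_add h3]
      calc _ = ‖G (k * n)‖ * (‖G (k * n)‖ * Nr n ^ A) := by ring
        _ ≤ (M * (Nr k ^ e * Nr n ^ e)) * (‖G (k * n)‖ * Nr n ^ A) := by gcongr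
        _ = _ := by ring
    · simp
  have hs := (h.summ (A + e) k c hk).mul_left (M * Nr k ^ e)
  have h1 := Summable.of_nonneg_of_le
    (fun n => mul_nonneg (by positivity) (Real.rpow_nonneg (Nr_nonneg _) _)) hle hs
  refine ⟨h1, (h1.tsum_le_tsum hle hs).trans ?_⟩
  rw [tsum_mul_left]
  refine (mul_le_mul_of_nonneg_left (s4d_mom h hk c hA) (by positivity)).trans (le_of_eq ?_)
  ring

open Classical in
theorem s4d_dvd {E : Type} [AddCommMonoid E] [TopologicalSpace E] {j : O} (hj : j ≠ 0) (f : O → E) :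
    (∑' n, if j ∣ n then f n else 0) = ∑' n, f (j * n) := by
  rw [← (mul_right_injective₀ hj).tsum_eq (f := fun n => if j ∣ n then f n else 0)]
  · simp
  · intro n hn
    by_contra h
    refine hn (if_neg ?_)
    rintro ⟨m, rfl⟩
    exact h ⟨m, rfl⟩

theorem s4d_cpow {n : O} (hn : n ≠ 0) (σ u : ℝ) : ‖(Nr n : ℂ) ^ ((σ : ℂ) + u * I)‖ = Nr n ^ σ := by
  rw [Complex.norm_cpow_eq_rpow_re_of_pos (Nr_pos hn), l3_re]

open Classical in
/-- The coefficient in the second Poisson step. -/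
def s4d_g (G : O → ℂ) (k c j : O) (e u : ℝ) (n : O) : ℂ :=
  if j ∣ n then s4_ga G k c n * g6 n * (Nr n : ℂ) ^ (((e - 1 / 2 : ℝ) : ℂ) + u * I) else 0

open Classical in
theorem s4d_norm (h6 : (6 : O) ∣ Q) (h : s4_Abs Q t CA M C₁ e x R K Λ Y G) {k : O} (hk : Prim k)
    (c j : O) (u : ℝ) (n : O) :
    ‖s4d_g G k c j e u n‖ = if j ∣ n then ‖s4_ga G k c n‖ * Nr n ^ (e - 1 / 2) else 0 := by
  unfold s4d_g
  split_ifs
  · by_cases h0 : s4_ga G k c n = 0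
    · simp [h0]
    obtain ⟨⟨h1, h2, h3⟩, -⟩ := s4d_supp h hk h0
    rw [norm_mul, norm_mul, norm_g6 (h3.of_isCoprime_of_dvd_right h6) h2, mul_one,
      s4d_cpow h1.ne_zero]
  · simp

theorem s4d_norm_le (h6 : (6 : O) ∣ Q) (h : s4_Abs Q t CA M C₁ e x R K Λ Y G) {k : O} (hk : Prim k)
    (c j : O) (u : ℝ) (n : O) :
    ‖s4d_g G k c j e u n‖ ≤ ‖s4_ga G k c n‖ * Nr n ^ (e - 1 / 2) := by
  rw [s4d_norm h6 h hk]
  split_ifs
  · exact le_rfl
  · exact mul_nonneg (norm_nonneg _) (Real.rpow_nonneg (Nr_nonneg _) _)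

theorem s4d_ne {k c j n : O} {u : ℝ} (hn : s4d_g G k c j e u n ≠ 0) : s4_ga G k c n ≠ 0 := by
  intro h0
  exact hn (by simp [s4d_g, h0])

theorem s4d_rap (h6 : (6 : O) ∣ Q) (h : s4_Abs Q t CA M C₁ e x R K Λ Y G) {k : O} (hk : Prim k)
    (c j : O) (u : ℝ) : Rap (s4d_g G k c j e u) := by
  intro A
  refine Summable.of_nonneg_of_le
    (fun n => mul_nonneg (norm_nonneg _) (Real.rpow_nonneg (Nr_nonneg _) _)) (fun n => ?_)
    (h.summ (e - 1 / 2 + A) k c hk)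
  by_cases h0 : s4_ga G k c n = 0
  · simp [s4d_g, h0]
  rw [Real.rpow_add (Nr_pos (s4d_supp h hk h0).1.1.ne_zero), ← mul_assoc]
  exact mul_le_mul_of_nonneg_right (s4d_norm_le h6 h hk c j u n) (Real.rpow_nonneg (Nr_nonneg _) _)

theorem s4d_odd (h6 : (6 : O) ∣ Q) {n : O} (hn : Adm Q n) : ¬ (2 : O) ∣ n :=
  (coprime_six_iff.1 (hn.2.2.of_isCoprime_of_dvd_right h6)).2

theorem s4d_alg1 {k j : ℝ} (hx : 1 ≤ x) (hΛ : 0 < Λ) (hΛx : Λ ≤ x ^ 3) (hk : 1 ≤ k) (hj : 1 ≤ j)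
    (he : 0 < e) : (k * j) ^ e * ((k * j) ^ e * (Λ / (k * j)) ^ (1 + (2 * e - 1 + e))) ≤ x ^ (9 * e) := by
  obtain ⟨x, rfl⟩ : ∃ u, x = Real.exp u := ⟨_, (Real.exp_log (by linarith)).symm⟩
  obtain ⟨Λ, rfl⟩ : ∃ u, Λ = Real.exp u := ⟨_, (Real.exp_log hΛ).symm⟩
  obtain ⟨k, rfl⟩ : ∃ u, k = Real.exp u := ⟨_, (Real.exp_log (by linarith)).symm⟩
  obtain ⟨j, rfl⟩ : ∃ u, j = Real.exp u := ⟨_, (Real.exp_log (by linarith)).symm⟩
  rw [Real.one_le_exp_iff] at hk hj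
  simp only [← Real.exp_mul, ← Real.exp_nat_mul, ← Real.exp_add, ← Real.exp_sub,
    Real.exp_le_exp] at hΛx ⊢
  push_cast at hΛx ⊢
  nlinarith [mul_nonneg he.le (sub_nonneg.2 hΛx), mul_nonneg he.le hk, mul_nonneg he.le hj]

theorem s4d_diag (h6 : (6 : O) ∣ Q) (h : s4_Abs Q t CA M C₁ e x R K Λ Y G) (hM : 0 ≤ M) (he : 0 < e)
    {k : O} (hk : Prim k) (c : O) {j : O} (hj : Adm Q j) (u : ℝ) :
    ∑' n, ‖s4d_g G k c j e u n‖ ^ 2 ≤
      M * |CA (2 * e - 1 + e)| * (x ^ (9 * e) * Nr j ^ (2 * e - 1)) := by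
  classical
  obtain ⟨c', hc'⟩ := s4_ga_shift G k c hj.1 (s4d_odd h6 hj)
  have kj := Nr_pos hj.1.ne_zero
  have e1 : ∀ n, ‖s4d_g G k c j e u n‖ ^ 2 =
      if j ∣ n then (‖s4_ga G k c n‖ * Nr n ^ (e - 1 / 2)) ^ 2 else 0 := fun n => by
    rw [s4d_norm h6 h hk]; split_ifs <;> simp
  simp only [e1]
  rw [s4d_dvd hj.1.ne_zero]
  obtain ⟨h1, h2⟩ := s4d_sq h hM (hk.mul hj.1) c' (A := 2 * e - 1) (by linarith)
  have hle : ∀ n, (‖s4_ga G k c (j * n)‖ * Nr (j * n) ^ (e - 1 / 2)) ^ 2 ≤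
      Nr j ^ (2 * e - 1) * (‖s4_ga G (k * j) c' n‖ ^ 2 * Nr n ^ (2 * e - 1)) := fun n => by
    have := Nr_nonneg n
    rw [hc', mul_pow, ← Real.rpow_natCast (_ ^ _), ← Real.rpow_mul (Nr_nonneg _), Nr_mul,
      Real.mul_rpow kj.le this, show (e - 1 / 2) * ((2 : ℕ) : ℝ) = 2 * e - 1 by push_cast; ring]
    split_ifs
    · exact le_of_eq (by ring)
    · simp only [norm_zero, ne_eq, OfNat.ofNat_ne_zero, not_false_eq_true, zero_pow, zero_mul]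
      positivity
  have h3 := h1.mul_left (Nr j ^ (2 * e - 1))
  refine ((Summable.of_nonneg_of_le (fun n => by positivity) hle h3).tsum_le_tsum hle h3).trans ?_
  rw [tsum_mul_left]
  have a1 := s4d_alg1 h.hx h.hΛ h.hΛx (one_le_Nr hk.ne_zero) (one_le_Nr hj.1.ne_zero) he
  rw [Nr_mul] at h2
  calc _ ≤ Nr j ^ (2 * e - 1) * (M * |CA (2 * e - 1 + e)| * x ^ (9 * e)) :=
        mul_le_mul_of_nonneg_left (h2.trans (mul_le_mul_of_nonneg_left a1 (by positivity)))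
          (by positivity)
    _ = _ := by ring

theorem s4d_tail (h6 : (6 : O) ∣ Q) (h : s4_Abs Q t CA M C₁ e x R K Λ Y G) (he : 0 < e)
    {k : O} (hk : Prim k) (c j : O) {d : O} (hd : Adm Q d) (u : ℝ) {A : ℝ} (hA : 2 ≤ A) :
    ∑' n, ‖s4d_g G k c j e u (d * n)‖ * Nr n ^ (A - 1 / 2) ≤ |CA (e - 1 / 2 + (A - 1 / 2))| *
      (Nr d ^ (e - 1 / 2) * ((Nr k * Nr d) ^ e *
        (Λ / (Nr k * Nr d)) ^ (1 + (e - 1 / 2 + (A - 1 / 2))))) := by
  classical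
  obtain ⟨c', hc'⟩ := s4_ga_shift G k c hd.1 (s4d_odd h6 hd)
  have kd := Nr_pos hd.1.ne_zero
  have hle : ∀ n, ‖s4d_g G k c j e u (d * n)‖ * Nr n ^ (A - 1 / 2) ≤
      Nr d ^ (e - 1 / 2) * (‖s4_ga G (k * d) c' n‖ * Nr n ^ (e - 1 / 2 + (A - 1 / 2))) := fun n => by
    have := Nr_nonneg n
    refine (mul_le_mul_of_nonneg_right (s4d_norm_le h6 h hk c j u _) (by positivity)).trans ?_
    rw [hc']
    split_ifs
    · by_cases h0 : s4_ga G (k * d) c' n = 0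
      · simp [h0]
      rw [Real.rpow_add (Nr_pos (s4d_supp h (hk.mul hd.1) h0).1.1.ne_zero), Nr_mul,
        Real.mul_rpow kd.le this]
      exact le_of_eq (by ring)
    · simp only [norm_zero, zero_mul]
      positivity
  have h3 := (h.summ (e - 1 / 2 + (A - 1 / 2)) (k * d) c' (hk.mul hd.1)).mul_left (Nr d ^ (e - 1 / 2))
  refine ((Summable.of_nonneg_of_le (fun n => mul_nonneg (norm_nonneg _)
    (Real.rpow_nonneg (Nr_nonneg _) _)) hle h3).tsum_le_tsum hle h3).trans ?_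
  rw [tsum_mul_left]
  have h2 := s4d_mom h (hk.mul hd.1) c' (A := e - 1 / 2 + (A - 1 / 2)) (by linarith)
  rw [Nr_mul] at h2
  refine (mul_le_mul_of_nonneg_left h2 (by positivity)).trans (le_of_eq ?_)
  ring

theorem s4d_alg2 {k d : ℝ} (hk : 0 < k) (hd : 0 < d) :
    (d ^ (e - 1 / 2)) ^ 2 * ((k * d) ^ (1 - 4 * e) / d) = k ^ (1 - 4 * e) * d ^ (-(1 + 2 * e)) := by
  obtain ⟨k, rfl⟩ : ∃ u, k = Real.exp u := ⟨_, (Real.exp_log hk).symm⟩
  obtain ⟨d, rfl⟩ : ∃ u, d = Real.exp u := ⟨_, (Real.exp_log hd).symm⟩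
  simp only [← Real.exp_mul, ← Real.exp_nat_mul, ← Real.exp_add, ← Real.exp_sub]
  congr 1
  push_cast
  ring

theorem s4d_alg3 {k d j : ℝ} (hk : 0 < k) (hd : 0 < d) (hj : 0 < j) :
    (d ^ (e - 1 / 2)) ^ 2 * ((j ^ (2 * e - 1)) ^ 2 * ((k * d * j) ^ (1 - 4 * e) / d)) =
      k ^ (1 - 4 * e) * d ^ (-(1 + 2 * e)) * j⁻¹ := by
  obtain ⟨k, rfl⟩ : ∃ u, k = Real.exp u := ⟨_, (Real.exp_log hk).symm⟩
  obtain ⟨d, rfl⟩ : ∃ u, d = Real.exp u := ⟨_, (Real.exp_log hd).symm⟩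
  obtain ⟨j, rfl⟩ : ∃ u, j = Real.exp u := ⟨_, (Real.exp_log hj).symm⟩
  simp only [← Real.exp_mul, ← Real.exp_nat_mul, ← Real.exp_add, ← Real.exp_sub, ← Real.exp_neg]
  congr 1
  push_cast
  ring

open Classical in
theorem s4d_child (h6 : (6 : O) ∣ Q) (h : s4_Abs Q t CA M C₁ e x R K Λ Y G)
    {k : O} (hk : Prim k) (c : O) {j d : O} (hj : Adm Q j) (hj' : j = 1 ∨ Prime j) (hd : Adm Q d)
    (u v : ℝ) :
    NS (R / (K * Nr d ^ 2)) (rowF (fun n => s4d_g G k c j e u (d * n) * conj (g6 n) *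
      (Nr n : ℂ) ^ (((e - 1 / 2 : ℝ) : ℂ) + v * I))) ≤
      Y * (1 + |u + v|) ^ C₁ * (Nr k ^ (1 - 4 * e) * Nr d ^ (-(1 + 2 * e)) *
        (if j ∣ d then 1 else (Nr j)⁻¹)) := by
  obtain ⟨c', hc'⟩ := s4_ga_shift G k c hd.1 (s4d_odd h6 hd)
  have kd := Nr_pos hd.1.ne_zero
  have kk := Nr_pos hk.ne_zero
  have kj := Nr_pos hj.1.ne_zero
  have hY := h.hY
  have hkd := hk.mul hd.1
  have hd6 := hd.2.2.of_isCoprime_of_dvd_right h6
  by_cases hz : ∀ n, s4_ga G k c (d * n) = 0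
  · simp only [s4d_g, hz, zero_mul, ite_self, NS, rowF, tsum_zero, norm_zero, ne_eq,
      OfNat.ofNat_ne_zero, not_false_eq_true, zero_pow, Finset.sum_const_zero]
    split_ifs <;> positivity
  obtain ⟨n₀, hn₀⟩ := not_forall.1 hz
  have hcond : Squarefree d ∧ IsCoprime d k := by
    by_contra h0
    exact hn₀ (by rw [hc', if_neg h0])
  simp only [if_pos hcond] at hc'
  have hdt : IsCoprime d t := (s4d_supp h hkd (hc' n₀ ▸ hn₀)).2.1.of_mul_left_right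
  have key : rowF (fun n => s4d_g G k c j e u (d * n) * conj (g6 n) *
      (Nr n : ℂ) ^ (((e - 1 / 2 : ℝ) : ℂ) + v * I)) = fun r =>
      (g6 d * (Nr d : ℂ) ^ (((e - 1 / 2 : ℝ) : ℂ) + u * I)) * ∑' n, if j ∣ d * n then
        s4_ga G (k * d) c' n * (sig n d * chi n (d ^ 2)) *
          (Nr n : ℂ) ^ (((2 * e - 1 : ℝ) : ℂ) + (u + v : ℝ) * I) * chi n r else 0 := by
    funext r
    rw [rowF, ← tsum_mul_left]
    refine tsum_congr fun n => ?_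
    unfold s4d_g
    split_ifs
    swap
    · simp
    rw [hc']
    by_cases h0 : s4_ga G (k * d) c' n = 0
    · simp [h0]
    obtain ⟨hn, -⟩ := s4d_supp h hkd h0
    have hn6 := hn.2.2.of_isCoprime_of_dvd_right h6
    have hdn : IsCoprime d n := by
      unfold s4_ga at h0
      split_ifs at h0 with h1
      · exact h1.2.2.1.of_mul_right_right.symm
      · exact absurd rfl h0
    have h2 : g6 n * conj (g6 n) = 1 := by
      rw [Complex.mul_conj, Complex.normSq_eq_norm_sq, norm_g6 hn6 hn.2.1]; simp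
    have h3 : (((2 * e - 1 : ℝ) : ℂ) + (u + v : ℝ) * I) =
        (((e - 1 / 2 : ℝ) : ℂ) + u * I) + (((e - 1 / 2 : ℝ) : ℂ) + v * I) := by push_cast; ring
    have h4 : (Nr n : ℂ) ≠ 0 := Complex.ofReal_ne_zero.2 (Nr_pos hn.1.ne_zero).ne'
    rw [g6_mul hd6 hn6 hdn, chi_recip hd.1 hn.1 (s4d_odd h6 hd) (s4d_odd h6 hn), sig_comm d n,
      chi_pow_right n d two_ne_zero, h3, Complex.cpow_add (((e - 1 / 2 : ℝ) : ℂ) + u * I) _ h4, Nr_mul, Complex.ofReal_mul,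
      Complex.mul_cpow_ofReal_nonneg (Nr_nonneg _) (Nr_nonneg _)]
    linear_combination (s4_ga G (k * d) c' n * g6 d * sig n d * chi n d ^ 2 *
      (Nr d : ℂ) ^ (((e - 1 / 2 : ℝ) : ℂ) + u * I) * (Nr n : ℂ) ^ (((e - 1 / 2 : ℝ) : ℂ) + u * I) *
      (Nr n : ℂ) ^ (((e - 1 / 2 : ℝ) : ℂ) + v * I) * chi n r) * h2
  rw [key, s4_NS_mul, norm_mul, norm_g6 hd6 hd.2.1, one_mul, s4d_cpow hd.1.ne_zero]
  split_ifs with hjd
  · simp only [hjd.mul_right, if_true]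
    refine (mul_le_mul_of_nonneg_left (h.child (k * d) c' d (u + v) hkd hd hdt)
      (by positivity)).trans (le_of_eq ?_)
    rw [Nr_mul, mul_one, ← s4d_alg2 kk kd]
    ring
  have hjp : Prime j := hj'.resolve_left fun h1 => hjd (h1 ▸ one_dvd d)
  obtain ⟨c'', hc''⟩ := s4_ga_shift G (k * d) c' hj.1 (s4d_odd h6 hj)
  have e1 : ∀ n, j ∣ d * n ↔ j ∣ n := fun n =>
    ⟨fun h1 => (hjp.dvd_or_dvd h1).resolve_left hjd, fun h1 => h1.mul_left d⟩
  simp only [e1, s4d_dvd hj.1.ne_zero]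
  have h5 : NS (R / (K * Nr d ^ 2)) (fun r => ∑' n, s4_ga G (k * d) c' (j * n) *
      (sig (j * n) d * chi (j * n) (d ^ 2)) *
      (Nr (j * n) : ℂ) ^ (((2 * e - 1 : ℝ) : ℂ) + (u + v : ℝ) * I) * chi (j * n) r) ≤
      (Nr j ^ (2 * e - 1)) ^ 2 * (Y * (1 + |u + v|) ^ C₁ * Nr (k * d * j) ^ (1 - 4 * e) / Nr d) := by
    refine le_trans (s4_NS_le (g := fun r => ((Nr j ^ (2 * e - 1) : ℝ) : ℂ) *
      rowF (fun n => s4_ga G (k * d * j) c'' n * (sig n d * chi n (d ^ 2)) *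
      (Nr n : ℂ) ^ (((2 * e - 1 : ℝ) : ℂ) + (u + v : ℝ) * I)) r) fun r _ => ?_) ?_
    · by_cases h1 : Squarefree j ∧ IsCoprime j (k * d)
      swap
      · simp [hc'', h1]
        positivity
      have h2 : (∑' n, s4_ga G (k * d) c' (j * n) * (sig (j * n) d * chi (j * n) (d ^ 2)) *
          (Nr (j * n) : ℂ) ^ (((2 * e - 1 : ℝ) : ℂ) + (u + v : ℝ) * I) * chi (j * n) r) =
          (sig j d * chi j (d ^ 2) * chi j r *
            (Nr j : ℂ) ^ (((2 * e - 1 : ℝ) : ℂ) + (u + v : ℝ) * I)) *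
          rowF (fun n => s4_ga G (k * d * j) c'' n * (sig n d * chi n (d ^ 2)) *
            (Nr n : ℂ) ^ (((2 * e - 1 : ℝ) : ℂ) + (u + v : ℝ) * I)) r := by
        rw [rowF, ← tsum_mul_left]
        refine tsum_congr fun n => ?_
        rw [hc'', if_pos h1]
        by_cases h0 : s4_ga G (k * d * j) c'' n = 0
        · simp [h0]
        obtain ⟨hn, -⟩ := s4d_supp h (hkd.mul hj.1) h0
        rw [sig_mul_left (s4d_odd h6 hj) (s4d_odd h6 hn) (s4d_odd h6 hd),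
          chi_mul_left hj.1.ne_zero hn.1.ne_zero, chi_mul_left hj.1.ne_zero hn.1.ne_zero, Nr_mul,
          Complex.ofReal_mul, Complex.mul_cpow_ofReal_nonneg (Nr_nonneg _) (Nr_nonneg _)]
        ring
      rw [h2, norm_mul, norm_mul (_ : ℂ) (rowF _ _), Complex.norm_real,
        Real.norm_of_nonneg (by positivity), norm_mul, s4d_cpow hj.1.ne_zero]
      refine mul_le_mul_of_nonneg_right (mul_le_of_le_one_left (by positivity) ?_) (norm_nonneg _)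
      rw [norm_mul, norm_mul]
      refine mul_le_one₀ (mul_le_one₀ ?_ (norm_nonneg _) (norm_chi_le _ _)) (norm_nonneg _)
        (norm_chi_le _ _)
      rcases sig_cases (s4d_odd h6 hj) (s4d_odd h6 hd) with h3 | h3 <;> simp [h3]
    · rw [s4_NS_mul, Complex.norm_real, Real.norm_of_nonneg (by positivity)]
      exact mul_le_mul_of_nonneg_left (h.child (k * d * j) c'' d (u + v) (hkd.mul hj.1) hd hdt)
        (by positivity)
  refine (mul_le_mul_of_nonneg_left h5 (by positivity)).trans (le_of_eq ?_)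
  rw [Nr_mul, Nr_mul, ← s4d_alg3 kk kd kj]
  ring

theorem s4d_alg4 {k d j : ℝ} (hx : 1 ≤ x) (hR : 0 < R) (hRx : R ≤ x) (hK : 1 ≤ K) (hΛ : 0 < Λ)
    (hΛx : Λ ≤ x ^ 3) (hk : 0 < k) (hd : 1 ≤ d) (hj : 1 ≤ j) (hjx : j ≤ x) (he : 0 < e)
    (he1 : e ≤ 1 / 8) :
    (K * ((Λ / k) ^ 2 * x ^ e / R)) ^ (1 - (2 + 3 / e)) * (R / (K * d ^ 2)) ^ (1 - (2 + 3 / e)) *
      (d ^ (e - 1 / 2) * ((k * d) ^ e * (Λ / (k * d)) ^ (1 + (e - 1 / 2 + (2 + 3 / e - 1 / 2))))) ^ 2 ≤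
      x ^ (9 * e) * (K * ((Λ / k) ^ 2 * x ^ e / R)) * j ^ (2 * e - 1) * d ^ (-2 : ℝ) := by
  obtain ⟨x, rfl⟩ : ∃ u, x = Real.exp u := ⟨_, (Real.exp_log (by linarith)).symm⟩
  obtain ⟨Λ, rfl⟩ : ∃ u, Λ = Real.exp u := ⟨_, (Real.exp_log hΛ).symm⟩
  obtain ⟨R, rfl⟩ : ∃ u, R = Real.exp u := ⟨_, (Real.exp_log hR).symm⟩
  obtain ⟨K, rfl⟩ : ∃ u, K = Real.exp u := ⟨_, (Real.exp_log (by linarith)).symm⟩
  obtain ⟨k, rfl⟩ : ∃ u, k = Real.exp u := ⟨_, (Real.exp_log hk).symm⟩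
  obtain ⟨d, rfl⟩ : ∃ u, d = Real.exp u := ⟨_, (Real.exp_log (by linarith)).symm⟩
  obtain ⟨j, rfl⟩ : ∃ u, j = Real.exp u := ⟨_, (Real.exp_log (by linarith)).symm⟩
  rw [Real.one_le_exp_iff] at hx hK hd hj
  simp only [← Real.exp_mul, ← Real.exp_nat_mul, ← Real.exp_add, ← Real.exp_sub,
    Real.exp_le_exp] at hΛx hRx hjx ⊢
  push_cast at hΛx ⊢
  have h1 : x * e * (3 / e) = 3 * x := by field_simp
  nlinarith [mul_nonneg he.le (sub_nonneg.2 hΛx), mul_nonneg he.le hx, mul_nonneg he.le hj,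
    mul_nonneg hd (sub_nonneg.2 he1)]

theorem s4d_alg5 {k : ℝ} (hx : 1 ≤ x) (hR : 0 < R) (hK : 1 ≤ K) (hΛ : 0 < Λ)
    (hΛx : Λ ≤ x ^ 3) (hk : 1 ≤ k) (he : 0 < e) (he1 : e ≤ 1 / 8) :
    R ^ (1 - (2 + 3 / e)) * ((Λ / k) ^ 2 * x ^ e / R) ^ (1 - (2 + 3 / e)) *
      (k ^ e * (Λ / k) ^ (1 + (2 + 3 / e - 1 / 2))) ^ 2 ≤
      x ^ (20 * e) * (K ^ (5 / 6 : ℝ) * Λ ^ 2) * k ^ (-(1 + 4 * e)) := by
  obtain ⟨x, rfl⟩ : ∃ u, x = Real.exp u := ⟨_, (Real.exp_log (by linarith)).symm⟩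
  obtain ⟨Λ, rfl⟩ : ∃ u, Λ = Real.exp u := ⟨_, (Real.exp_log hΛ).symm⟩
  obtain ⟨R, rfl⟩ : ∃ u, R = Real.exp u := ⟨_, (Real.exp_log hR).symm⟩
  obtain ⟨K, rfl⟩ : ∃ u, K = Real.exp u := ⟨_, (Real.exp_log (by linarith)).symm⟩
  obtain ⟨k, rfl⟩ : ∃ u, k = Real.exp u := ⟨_, (Real.exp_log (by linarith)).symm⟩
  rw [Real.one_le_exp_iff] at hx hK hk
  simp only [← Real.exp_mul, ← Real.exp_nat_mul, ← Real.exp_add, ← Real.exp_sub,
    Real.exp_le_exp] at hΛx ⊢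
  push_cast at hΛx ⊢
  have h1 : x * e * (3 / e) = 3 * x := by field_simp
  nlinarith [mul_nonneg he.le hx, mul_nonneg hk (sub_nonneg.2 he1)]

theorem s4d_alg6 {k : ℝ} (hx : 1 ≤ x) (hΛ : 0 < Λ) (hΛx : Λ ≤ x ^ 3) (hk : 0 < k) (he : 0 < e) :
    k ^ e * (k ^ e * (Λ / k) ^ (1 + (5 * e + e))) ≤ x ^ (20 * e) * Λ * k ^ (-(1 + 4 * e)) := by
  obtain ⟨x, rfl⟩ : ∃ u, x = Real.exp u := ⟨_, (Real.exp_log (by linarith)).symm⟩
  obtain ⟨Λ, rfl⟩ : ∃ u, Λ = Real.exp u := ⟨_, (Real.exp_log hΛ).symm⟩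
  obtain ⟨k, rfl⟩ : ∃ u, k = Real.exp u := ⟨_, (Real.exp_log hk).symm⟩
  rw [Real.one_le_exp_iff] at hx
  simp only [← Real.exp_mul, ← Real.exp_nat_mul, ← Real.exp_add, ← Real.exp_sub,
    Real.exp_le_exp] at hΛx ⊢
  push_cast at hΛx ⊢
  nlinarith [mul_nonneg he.le hx, mul_nonneg he.le (sub_nonneg.2 hΛx)]

theorem s4d_alg7 {k : ℝ} (hx : 1 ≤ x) (hR : 1 ≤ R) (hΛ : 0 < Λ) (hk : 1 ≤ k) (he : 0 < e)
    (he1 : e ≤ 1 / 8) (hY : 0 ≤ Y) :
    R ^ (1 - e) * (x ^ (19 * e) * ((Λ / k) ^ 2 * x ^ e / R) * (1 + Y * k ^ (1 - 4 * e))) ≤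
      x ^ (20 * e) * (Λ ^ 2 * (1 + Y)) * k ^ (-(1 + 4 * e)) := by
  have hx0 : 0 < x := by linarith
  have hR0 : 0 < R := by linarith
  have hk0 : 0 < k := by linarith
  have h1 : R ^ (1 - e) ≤ R := by
    simpa using Real.rpow_le_rpow_of_exponent_le hR (show 1 - e ≤ 1 by linarith)
  have h2 : 1 + Y * k ^ (1 - 4 * e) ≤ (1 + Y) * k ^ (1 - 4 * e) := by
    have := Real.one_le_rpow hk (show 0 ≤ 1 - 4 * e by linarith)
    linarith
  have h3 : k ^ (1 - 4 * e) = k ^ (-(1 + 4 * e)) * k ^ 2 := by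
    rw [← Real.rpow_two, ← Real.rpow_add hk0]; congr 1; ring
  calc _ ≤ R * (x ^ (19 * e) * ((Λ / k) ^ 2 * x ^ e / R) * ((1 + Y) * k ^ (1 - 4 * e))) := by gcongr
    _ = _ := by
      rw [h3, show 20 * e = 19 * e + e by ring, Real.rpow_add hx0]
      field_simp

end

theorem s4d_one_add (u v C : ℝ) (hC : 0 ≤ C) :
    (1 + |u + v|) ^ C ≤ (1 + |u|) ^ C * (1 + |v|) ^ C := by
  rw [← Real.mul_rpow (by positivity) (by positivity)]
  refine Real.rpow_le_rpow (by positivity) ?_ hC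
  have := abs_add_le u v
  nlinarith [mul_nonneg (abs_nonneg u) (abs_nonneg v)]

theorem s4d_inner {Q : O} (h6 : (6 : O) ∣ Q) (CA : ℝ → ℝ) {M C₁ e : ℝ} (hM : 0 ≤ M)
    (hC₁ : 0 ≤ C₁) (he : 0 < e) (he1 : e ≤ 1 / 8) : ∃ C : ℝ, 0 ≤ C ∧
    ∀ (t : O) (x R K Λ Y : ℝ) (G : O → ℂ), s4_Abs Q t CA M C₁ e x R K Λ Y G →
    ∀ (k c j : O) (u : ℝ), Prim k → Adm Q j → (j = 1 ∨ Prime j) → Nr j ≤ x →
    NS (K * ((Λ / Nr k) ^ 2 * x ^ e / R)) (colF (s4d_g G k c j e u)) ≤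
      C * (x ^ (9 * e) * (K * ((Λ / Nr k) ^ 2 * x ^ e / R)) * Nr j ^ (2 * e - 1) *
        ((1 + |u|) ^ C₁ * (1 + Y * Nr k ^ (1 - 4 * e)))) := by
  classical
  have hA' : (2 : ℝ) ≤ 2 + 3 / e := le_add_of_nonneg_right (by positivity)
  obtain ⟨C₀, h₀0, h₀⟩ := dstep he hA'
  have hI := integrable_Gamma_mul he C₁
  obtain ⟨J, hJ⟩ : ∃ J, J = ∫ t : ℝ, ‖Complex.Gamma (e + t * I)‖ * (1 + |t|) ^ C₁ := ⟨_, rfl⟩
  have hJ0 : 0 ≤ J := hJ ▸ integral_nonneg fun t => by positivity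
  obtain ⟨S, hS⟩ : ∃ S, S = ∑' d : O, Nr d ^ (-2 : ℝ) := ⟨_, rfl⟩
  have hS0 : 0 ≤ S := hS ▸ tsum_nonneg fun d => Real.rpow_nonneg (Nr_nonneg _) _
  obtain ⟨S', hS'⟩ : ∃ S, S = ∑' d : O, Nr d ^ (-(1 + 2 * e)) := ⟨_, rfl⟩
  have hS'0 : 0 ≤ S' := hS' ▸ tsum_nonneg fun d => Real.rpow_nonneg (Nr_nonneg _) _
  have hs' := summable_Nr_rpow (σ := 1 + 2 * e) (by linarith)
  obtain ⟨c₁, hc₁⟩ : ∃ c, c = |CA (e - 1 / 2 + (2 + 3 / e - 1 / 2))| := ⟨_, rfl⟩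
  have hc₁0 : 0 ≤ c₁ := hc₁ ▸ abs_nonneg _
  refine ⟨C₀ * (M * |CA (2 * e - 1 + e)| + J * (2 * S') + c₁ ^ 2 * S), by positivity,
    fun t x R K Λ Y G h k c j u hk hj hj' hjx => ?_⟩
  have hx := h.hx
  have hx0 : 0 < x := by linarith
  have hR0 : 0 < R := lt_of_lt_of_le one_pos h.hR
  have hK0 : 0 < K := lt_of_lt_of_le one_pos h.hK
  have hΛ := h.hΛ
  have hY := h.hY
  have kk := Nr_pos hk.ne_zero
  have kj := one_le_Nr hj.1.ne_zero
  have kj0 : 0 < Nr j := by linarith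
  have a4 := fun d (hd : 1 ≤ d) => s4d_alg4 hx hR0 h.hRx h.hK hΛ h.hΛx kk hd kj hjx he he1
  obtain ⟨H, hH⟩ : ∃ H, H = K * ((Λ / Nr k) ^ 2 * x ^ e / R) := ⟨_, rfl⟩
  have hH0 : 0 < H := by rw [hH]; positivity
  rw [← hH] at a4 ⊢
  rcases lt_or_ge H 1 with hH1 | hH1
  · rw [NS, box_eq_empty hH1, Finset.sum_empty]
    positivity
  have hw : ∀ d : O, 0 ≤ Nr d ^ (-(1 + 2 * e)) := fun d => Real.rpow_nonneg (Nr_nonneg _) _
  have hw1 : Summable (fun d : O => if j ∣ d then Nr d ^ (-(1 + 2 * e)) else 0) :=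
    Summable.of_nonneg_of_le (fun d => by split_ifs; exacts [hw d, le_rfl])
      (fun d => by split_ifs; exacts [le_rfl, hw d]) hs'
  have hw2 := hw1.add (hs'.mul_left (Nr j)⁻¹)
  obtain ⟨U, hU⟩ : ∃ U, U = H * (Y * (1 + |u|) ^ C₁ * Nr k ^ (1 - 4 * e)) * J := ⟨_, rfl⟩
  have hU0 : 0 ≤ U := by rw [hU]; positivity
  obtain ⟨V, hV⟩ : ∃ V, V = c₁ ^ 2 * (x ^ (9 * e) * H * Nr j ^ (2 * e - 1)) := ⟨_, rfl⟩
  have hV0 : 0 ≤ V := by rw [hV]; positivity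
  have hB1 := hw2.mul_left U
  have hB2 := l3_summable_two.mul_left V
  have key := h₀ Q H (fun d => if d = 0 then 1 else R / (K * Nr d ^ 2)) (s4d_g G k c j e u) h6 hH0
    (fun d => by
      split_ifs with hd
      · exact one_pos
      · have := Nr_pos hd
        positivity)
    (fun n hn => (s4d_supp h hk (s4d_ne hn)).1) (s4d_rap h6 h hk c j u)
    ⟨c, fun n hn => (s4d_supp h hk (s4d_ne hn)).2.2⟩ _ (hB1.add hB2)
    (fun d => by
      have := hw d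
      have := Real.rpow_nonneg (Nr_nonneg d) (-2)
      split_ifs <;> positivity) fun d hd => by
      have hd0 : d ≠ 0 := hd.1.ne_zero
      have kd := one_le_Nr hd0
      have := hw d
      simp only [if_neg hd0]
      refine add_le_add ?_ ?_
      · have h1 : H ^ (1 - e) ≤ H := by
          simpa using Real.rpow_le_rpow_of_exponent_le hH1 (show 1 - e ≤ 1 by linarith)
        obtain ⟨w, hwd⟩ : ∃ w, w = (if j ∣ d then Nr d ^ (-(1 + 2 * e)) else 0) +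
          (Nr j)⁻¹ * Nr d ^ (-(1 + 2 * e)) := ⟨_, rfl⟩
        have hw0 : 0 ≤ w := by rw [hwd]; split_ifs <;> positivity
        have hw3 : Nr d ^ (-(1 + 2 * e)) * (if j ∣ d then 1 else (Nr j)⁻¹) ≤ w := by
          rw [hwd]
          split_ifs
          · rw [mul_one]; exact le_add_of_nonneg_right (by positivity)
          · rw [zero_add, mul_comm]
        rw [← hwd]
        calc _ ≤ H * ∫ v : ℝ, (Y * (1 + |u|) ^ C₁ * Nr k ^ (1 - 4 * e) * w) *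
              (‖Complex.Gamma (e + v * I)‖ * (1 + |v|) ^ C₁) := by
              refine mul_le_mul h1 (integral_mono_of_nonneg (ae_of_all _ fun v => ?_)
                (hI.const_mul _) (ae_of_all _ fun v => ?_))
                (integral_nonneg fun v => mul_nonneg (norm_nonneg _) (l4_nonneg _ _)) hH0.le
              · exact mul_nonneg (norm_nonneg _) (l4_nonneg _ _)
              · refine (mul_le_mul_of_nonneg_left (s4d_child h6 h hk c hj hj' hd u v)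
                  (norm_nonneg _)).trans ?_
                have h2 := s4d_one_add u v C₁ hC₁
                calc _ ≤ ‖Complex.Gamma (e + v * I)‖ * (Y * ((1 + |u|) ^ C₁ * (1 + |v|) ^ C₁) *
                      (Nr k ^ (1 - 4 * e) * w)) := by
                      rw [mul_assoc (Nr k ^ (1 - 4 * e))]
                      gcongr
                  _ = _ := by ring
          _ = _ := by rw [integral_const_mul, ← hJ, hU]; ring
      · have h1 := pow_le_pow_left₀ (tsum_nonneg fun n =>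
          mul_nonneg (norm_nonneg _) (Real.rpow_nonneg (Nr_nonneg _) _))
          (s4d_tail h6 h he hk c j hd u hA') 2
        rw [← hc₁] at h1
        refine (mul_le_mul_of_nonneg_left h1 (by positivity)).trans ?_
        refine le_trans (le_of_eq ?_) ((mul_le_mul_of_nonneg_left (a4 _ kd) (sq_nonneg c₁)).trans
          (le_of_eq ?_))
        · ring
        · rw [hV]; ring
  refine key.trans ?_
  rw [hB1.tsum_add hB2, tsum_mul_left, tsum_mul_left, hw1.tsum_add (hs'.mul_left _), tsum_mul_left,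
    s4d_dvd hj.1.ne_zero, ← hS, ← hS', mul_assoc C₀]
  refine mul_le_mul_of_nonneg_left ?_ h₀0
  have h1 : ∑' n : O, Nr (j * n) ^ (-(1 + 2 * e)) = Nr j ^ (-(1 + 2 * e)) * S' := by
    rw [hS', ← tsum_mul_left]
    exact tsum_congr fun n => by rw [Nr_mul, Real.mul_rpow kj0.le (Nr_nonneg _)]
  have h2 : Nr j ^ (-(1 + 2 * e)) ≤ Nr j ^ (2 * e - 1) :=
    Real.rpow_le_rpow_of_exponent_le kj (by linarith)
  have h3 : (Nr j)⁻¹ ≤ Nr j ^ (2 * e - 1) := by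
    rw [← Real.rpow_neg_one]
    exact Real.rpow_le_rpow_of_exponent_le kj (by linarith)
  have h4 := s4d_diag h6 h hM he hk c hj u
  have h5 : 1 ≤ x ^ (9 * e) := Real.one_le_rpow hx (by positivity)
  have h7 : 1 ≤ (1 + |u|) ^ C₁ := Real.one_le_rpow (le_add_of_nonneg_right (abs_nonneg _)) hC₁
  obtain ⟨z, hz⟩ : ∃ z, z = (1 + |u|) ^ C₁ * (1 + Y * Nr k ^ (1 - 4 * e)) := ⟨_, rfl⟩
  have hz1 : 1 ≤ z := hz ▸ one_le_mul_of_one_le_of_one_le h7 (le_add_of_nonneg_right (by positivity))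
  have hz2 : Y * (1 + |u|) ^ C₁ * Nr k ^ (1 - 4 * e) ≤ z := by rw [hz]; nlinarith
  rw [h1, ← hz, add_mul, add_mul, add_assoc]
  refine add_le_add ?_ (add_le_add ?_ ?_)
  · calc _ ≤ H * (M * |CA (2 * e - 1 + e)| * (x ^ (9 * e) * Nr j ^ (2 * e - 1))) * 1 := by
          rw [mul_one]; gcongr
      _ ≤ H * (M * |CA (2 * e - 1 + e)| * (x ^ (9 * e) * Nr j ^ (2 * e - 1))) * z := by gcongr
      _ = _ := by ring
  · calc _ ≤ (H * z * J) * (Nr j ^ (2 * e - 1) * S' + Nr j ^ (2 * e - 1) * S') * 1 := by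
          rw [mul_one, hU]; gcongr
      _ ≤ (H * z * J) * (Nr j ^ (2 * e - 1) * S' + Nr j ^ (2 * e - 1) * S') * x ^ (9 * e) := by gcongr
      _ = _ := by ring
  · calc _ = V * S * 1 := by ring
      _ ≤ V * S * z := by gcongr
      _ = _ := by rw [hV]; ring

theorem s4d_mid {Q : O} (hQ : Q ≠ 0) (h6 : (6 : O) ∣ Q) (CA : ℝ → ℝ) {M C₁ e : ℝ} (hM : 0 ≤ M)
    (hC₁ : 0 ≤ C₁) (he : 0 < e) (he1 : e ≤ 1 / 8) : ∃ C : ℝ, 0 ≤ C ∧
    ∀ (t : O) (x R K Λ Y : ℝ) (G : O → ℂ), s4_Abs Q t CA M C₁ e x R K Λ Y G →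
    ∀ (k c : O) (u : ℝ), Prim k →
    NS ((Λ / Nr k) ^ 2 * x ^ e / R) (colF (fun n => s4_ga G k c n * g6 n *
      (Nr n : ℂ) ^ (((e - 1 / 2 : ℝ) : ℂ) + u * I))) ≤
      C * K ^ (5 / 6 : ℝ) * (x ^ (19 * e) * ((Λ / Nr k) ^ 2 * x ^ e / R) *
        (1 + Y * Nr k ^ (1 - 4 * e))) * (1 + |u|) ^ C₁ := by
  classical
  obtain ⟨C, hC, hin⟩ := s4d_inner h6 CA hM hC₁ he he1
  obtain ⟨Cg, hCg, hg⟩ := gain_col hQ h6 he
  obtain ⟨Cb, hb⟩ := sum_box_rpow_le (σ := 1 - 2 * e) (by linarith)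
  refine ⟨Cg * 2 * (C * (1 + |Cb|)), by positivity, fun t x R K Λ Y G h k c u hk => ?_⟩
  have hx := h.hx
  have hx0 : 0 < x := by linarith
  have hR0 : 0 < R := lt_of_lt_of_le one_pos h.hR
  have hK0 : 0 < K := lt_of_lt_of_le one_pos h.hK
  have hΛ := h.hΛ
  have hY := h.hY
  have kk := one_le_Nr hk.ne_zero
  have kk0 : 0 < Nr k := by linarith
  have e1 : (fun n => s4_ga G k c n * g6 n * (Nr n : ℂ) ^ (((e - 1 / 2 : ℝ) : ℂ) + u * I)) =
      s4d_g G k c 1 e u := by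
    funext n; simp [s4d_g]
  have hin' := fun j => hin t x R K Λ Y G h k c j u hk
  obtain ⟨H, hH⟩ : ∃ H, H = (Λ / Nr k) ^ 2 * x ^ e / R := ⟨_, rfl⟩
  have hH0 : 0 < H := by rw [hH]; positivity
  have hHx : H ≤ x ^ 7 := by
    rw [hH]
    have h1 : Λ / Nr k ≤ x ^ 3 := (div_le_self hΛ.le kk).trans h.hΛx
    have h2 : x ^ e ≤ x := by
      simpa using Real.rpow_le_rpow_of_exponent_le hx (show e ≤ 1 by linarith)
    calc _ ≤ (Λ / Nr k) ^ 2 * x ^ e := div_le_self (by positivity) h.hR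
      _ ≤ (x ^ 3) ^ 2 * x := by gcongr
      _ = _ := by ring
  rw [← hH] at hin' ⊢
  rw [e1]
  obtain ⟨J, hJ, hle⟩ := hg H K (s4d_g G k c 1 e u) hH0 h.hK
    (fun n hn => (s4d_supp h hk (s4d_ne hn)).1) (s4d_rap h6 h hk c 1 u)
  refine hle.trans ?_
  have hJK : ∀ j ∈ J, Nr j ≤ K := fun j hj => le_trans
    (le_self_pow₀ (one_le_Nr (hJ j hj).1.ne_zero) (by norm_num)) (hJ j hj).2.2
  obtain ⟨z, hz⟩ : ∃ z, z = (1 + |u|) ^ C₁ * (1 + Y * Nr k ^ (1 - 4 * e)) := ⟨_, rfl⟩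
  have hz0 : 0 ≤ z := by rw [hz]; positivity
  rw [← hz] at hin'
  have h1 := hin' 1 ⟨prim_one, squarefree_one, isCoprime_one_left⟩ (Or.inl rfl)
    (by rw [Nr_one]; exact hx)
  rw [Nr_one, Real.one_rpow] at h1
  have h2 : ∑ j ∈ J, NS (K * H) (colF (fun n => if j ∣ n then s4d_g G k c 1 e u n else 0)) ≤
      ∑ j ∈ J, C * (x ^ (9 * e) * (K * H) * z) * Nr j ^ (-(1 - 2 * e)) := by
    refine Finset.sum_le_sum fun j hj => ?_
    have e2 : (fun n => if j ∣ n then s4d_g G k c 1 e u n else 0) = s4d_g G k c j e u := by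
      funext n; simp [s4d_g]
    rw [e2]
    refine (hin' j (hJ j hj).2.1 (Or.inr (hJ j hj).1) ((hJK j hj).trans h.hKx)).trans (le_of_eq ?_)
    rw [neg_sub]; ring
  rw [← Finset.mul_sum] at h2
  have h3 : ∑ j ∈ J, Nr j ^ (-(1 - 2 * e)) ≤ |Cb| * x ^ (2 * e) := by
    calc _ ≤ ∑ j ∈ box K, Nr j ^ (-(1 - 2 * e)) :=
          Finset.sum_le_sum_of_subset_of_nonneg
            (fun j hj => mem_box.2 ⟨(hJ j hj).1.ne_zero, hJK j hj⟩)
            fun j _ _ => Real.rpow_nonneg (Nr_nonneg _) _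
      _ ≤ Cb * K ^ (1 - (1 - 2 * e)) := hb K h.hK
      _ ≤ |Cb| * x ^ (2 * e) := by
          rw [sub_sub_cancel]
          exact mul_le_mul (le_abs_self _) (Real.rpow_le_rpow hK0.le h.hKx (by positivity))
            (by positivity) (abs_nonneg _)
  have h4 : (K * (1 + H)) ^ e ≤ 2 * x ^ (8 * e) := by
    have h5 : K * (1 + H) ≤ 2 * x ^ 8 := by
      have : 1 ≤ x ^ 7 := one_le_pow₀ hx
      calc K * (1 + H) ≤ x * (x ^ 7 + x ^ 7) := by gcongr; exact h.hKx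
        _ = _ := by ring
    refine (Real.rpow_le_rpow (by positivity) h5 he.le).trans ?_
    rw [Real.mul_rpow (by norm_num) (by positivity), ← Real.rpow_natCast, ← Real.rpow_mul hx0.le]
    refine mul_le_mul_of_nonneg_right ?_ (by positivity)
    simpa using Real.rpow_le_rpow_of_exponent_le (show (1 : ℝ) ≤ 2 by norm_num)
      (show e ≤ 1 by linarith)
  have h5 : 1 ≤ x ^ (2 * e) := Real.one_le_rpow hx (by positivity)
  have h7 : K ^ (5 / 6 : ℝ) = K ^ (-(1 / 6 : ℝ)) * K := by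
    rw [← Real.rpow_add_one hK0.ne']; norm_num
  calc _ ≤ Cg * (2 * x ^ (8 * e)) * K ^ (-(1 / 6 : ℝ)) * (C * (x ^ (9 * e) * (K * H) * x ^ (2 * e) * z) +
        C * (x ^ (9 * e) * (K * H) * z) * (|Cb| * x ^ (2 * e))) := by
        refine mul_le_mul (by gcongr) (add_le_add (h1.trans (by gcongr))
          (h2.trans (by gcongr))) (add_nonneg (l4_nonneg _ _)
            (Finset.sum_nonneg fun _ _ => l4_nonneg _ _)) (by positivity)
    _ = _ := by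
        rw [h7, hz, show 19 * e = 8 * e + 9 * e + 2 * e by ring, Real.rpow_add hx0, Real.rpow_add hx0]
        ring

theorem s4_slice {Q : O} (hQ : Q ≠ 0) (h6 : (6 : O) ∣ Q) (CA : ℝ → ℝ) {M C₁ e : ℝ} (hM : 0 ≤ M)
    (hC₁ : 0 ≤ C₁) (he : 0 < e) (he1 : e ≤ 1 / 8) : ∃ C : ℝ, 0 ≤ C ∧
    ∀ (t : O) (x R K Λ Y : ℝ) (G : O → ℂ), s4_Abs Q t CA M C₁ e x R K Λ Y G →
    ∀ s c : O, Prim s → NS R (rowF (s4_ga G s c)) ≤
      C * x ^ (20 * e) * (R * Λ + K ^ (5 / 6 : ℝ) * Λ ^ 2 * (1 + Y)) * Nr s ^ (-(1 + 4 * e)) := by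
  classical
  have hA' : (2 : ℝ) ≤ 2 + 3 / e := le_add_of_nonneg_right (by positivity)
  obtain ⟨C₀, h₀0, h₀⟩ := pstep he hA'
  obtain ⟨C, hC, hmid⟩ := s4d_mid hQ h6 CA hM hC₁ he he1
  have hI := integrable_Gamma_mul he C₁
  obtain ⟨J, hJ⟩ : ∃ J, J = ∫ t : ℝ, ‖Complex.Gamma (e + t * I)‖ * (1 + |t|) ^ C₁ := ⟨_, rfl⟩
  have hJ0 : 0 ≤ J := hJ ▸ integral_nonneg fun t => by positivity
  obtain ⟨S, hS⟩ : ∃ S, S = ∑' d : O, Nr d ^ (-(1 + 4 * e)) := ⟨_, rfl⟩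
  have hS0 : 0 ≤ S := hS ▸ tsum_nonneg fun d => Real.rpow_nonneg (Nr_nonneg _) _
  have hs' := summable_Nr_rpow (σ := 1 + 4 * e) (by linarith)
  obtain ⟨c₁, hc₁⟩ : ∃ c, c = |CA (2 + 3 / e - 1 / 2)| := ⟨_, rfl⟩
  have hc₁0 : 0 ≤ c₁ := hc₁ ▸ abs_nonneg _
  refine ⟨C₀ * (M * |CA (5 * e + e)| + (C * J + c₁ ^ 2) * S), by positivity,
    fun t x R K Λ Y G h s c hs => ?_⟩
  have hx := h.hx
  have hx0 : 0 < x := by linarith
  have hR0 : 0 < R := lt_of_lt_of_le one_pos h.hR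
  have hK0 : 0 < K := lt_of_lt_of_le one_pos h.hK
  have hΛ := h.hΛ
  have hY := h.hY
  have ks := Nr_pos hs.ne_zero
  obtain ⟨V, hV⟩ : ∃ V, V = x ^ (20 * e) * (K ^ (5 / 6 : ℝ) * Λ ^ 2 * (1 + Y)) * Nr s ^ (-(1 + 4 * e)) :=
    ⟨_, rfl⟩
  have hV0 : 0 ≤ V := by rw [hV]; positivity
  have key := h₀ Q R (fun d => if d = 0 then 1 else (Λ / Nr (s * d)) ^ 2 * x ^ e / R) (s4_ga G s c) h6
    hR0 (fun d => by
      split_ifs with hd
      · exact one_pos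
      · have := Nr_pos (mul_ne_zero hs.ne_zero hd)
        positivity)
    (fun n hn => (s4d_supp h hs hn).1) (fun A => h.summ A s c hs)
    ⟨c, fun n hn => (s4d_supp h hs hn).2.2⟩
    (fun d => (C * J + c₁ ^ 2) * V * Nr d ^ (-(1 + 4 * e))) (hs'.mul_left _)
    (fun d => mul_nonneg (by positivity) (Real.rpow_nonneg (Nr_nonneg _) _)) fun d hd => by
      have hd0 : d ≠ 0 := hd.1.ne_zero
      have kd := Nr_pos hd0
      have hsd := hs.mul hd.1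
      have ksd := one_le_Nr hsd.ne_zero
      obtain ⟨c', hc'⟩ := s4_ga_shift G s c hd.1 (s4d_odd h6 hd)
      simp only [if_neg hd0, hc']
      by_cases hcond : Squarefree d ∧ IsCoprime d s
      swap
      · simp only [if_neg hcond, zero_mul, NS, colF, tsum_zero, norm_zero, ne_eq,
          OfNat.ofNat_ne_zero, not_false_eq_true, zero_pow, Finset.sum_const_zero, mul_zero,
          integral_zero, add_zero]
        positivity
      simp only [if_pos hcond]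
      have e1 : Nr (s * d) ^ (-(1 + 4 * e)) = Nr s ^ (-(1 + 4 * e)) * Nr d ^ (-(1 + 4 * e)) := by
        rw [Nr_mul, Real.mul_rpow ks.le kd.le]
      rw [add_mul, add_mul]
      refine add_le_add ?_ ?_
      · have a7 := s4d_alg7 hx h.hR hΛ ksd he he1 hY
        calc _ ≤ R ^ (1 - e) * ∫ v : ℝ, (C * K ^ (5 / 6 : ℝ) * (x ^ (19 * e) *
              ((Λ / Nr (s * d)) ^ 2 * x ^ e / R) * (1 + Y * Nr (s * d) ^ (1 - 4 * e)))) *
              (‖Complex.Gamma (e + v * I)‖ * (1 + |v|) ^ C₁) := by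
              refine mul_le_mul_of_nonneg_left (integral_mono_of_nonneg (ae_of_all _ fun v => ?_)
                (hI.const_mul _) (ae_of_all _ fun v => ?_)) (by positivity)
              · exact mul_nonneg (norm_nonneg _) (l4_nonneg _ _)
              · refine (mul_le_mul_of_nonneg_left (hmid t x R K Λ Y G h (s * d) c' v hsd)
                  (norm_nonneg _)).trans (le_of_eq ?_)
                ring
          _ = C * J * K ^ (5 / 6 : ℝ) * (R ^ (1 - e) * (x ^ (19 * e) *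
              ((Λ / Nr (s * d)) ^ 2 * x ^ e / R) * (1 + Y * Nr (s * d) ^ (1 - 4 * e)))) := by
              rw [integral_const_mul, ← hJ]; ring
          _ ≤ C * J * K ^ (5 / 6 : ℝ) * (x ^ (20 * e) * (Λ ^ 2 * (1 + Y)) *
              Nr (s * d) ^ (-(1 + 4 * e))) := by gcongr
          _ = _ := by rw [hV, e1]; ring
      · have a5 := s4d_alg5 hx hR0 h.hK hΛ h.hΛx ksd he he1
        have h1 := pow_le_pow_left₀ (tsum_nonneg fun n =>
          mul_nonneg (norm_nonneg _) (Real.rpow_nonneg (Nr_nonneg _) _))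
          (s4d_mom h hsd c' (A := 2 + 3 / e - 1 / 2) (by linarith)) 2
        rw [← hc₁] at h1
        refine (mul_le_mul_of_nonneg_left h1 (by positivity)).trans ?_
        refine le_trans (le_of_eq ?_) ((mul_le_mul_of_nonneg_left a5 (sq_nonneg c₁)).trans ?_)
        · ring
        · calc _ = c₁ ^ 2 * (x ^ (20 * e) * (K ^ (5 / 6 : ℝ) * Λ ^ 2 * 1) *
              Nr (s * d) ^ (-(1 + 4 * e))) := by ring
            _ ≤ c₁ ^ 2 * (x ^ (20 * e) * (K ^ (5 / 6 : ℝ) * Λ ^ 2 * (1 + Y)) *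
              Nr (s * d) ^ (-(1 + 4 * e))) := by gcongr; linarith
            _ = _ := by rw [hV, e1]; ring
  refine key.trans ?_
  rw [tsum_mul_left, ← hS, mul_assoc C₀, mul_assoc C₀, mul_assoc C₀]
  refine mul_le_mul_of_nonneg_left ?_ h₀0
  obtain ⟨h1, h2⟩ := s4d_sq h hM hs c (A := 5 * e) (by linarith)
  have h3 : ∑' n, ‖s4_ga G s c n‖ ^ 2 ≤ ∑' n, ‖s4_ga G s c n‖ ^ 2 * Nr n ^ (5 * e) := by
    refine Summable.tsum_le_tsum (fun n => ?_) (l3_summable_sq fun A => h.summ A s c hs) h1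
    by_cases h0 : s4_ga G s c n = 0
    · simp [h0]
    exact le_mul_of_one_le_right (by positivity) (Real.one_le_rpow
      (one_le_Nr (s4d_supp h hs h0).1.1.ne_zero) (by positivity))
  have a6 := s4d_alg6 hx hΛ h.hΛx ks he
  obtain ⟨U, hU⟩ : ∃ U, U = x ^ (20 * e) * (R * Λ) * Nr s ^ (-(1 + 4 * e)) := ⟨_, rfl⟩
  have hU0 : 0 ≤ U := by rw [hU]; positivity
  have h4 : R * ∑' n, ‖s4_ga G s c n‖ ^ 2 ≤ M * |CA (5 * e + e)| * U := by
    calc _ ≤ R * (M * |CA (5 * e + e)| * (x ^ (20 * e) * Λ * Nr s ^ (-(1 + 4 * e)))) :=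
          mul_le_mul_of_nonneg_left ((h3.trans h2).trans
            (mul_le_mul_of_nonneg_left a6 (by positivity))) hR0.le
      _ = _ := by rw [hU]; ring
  calc _ ≤ M * |CA (5 * e + e)| * (U + V) + (C * J + c₁ ^ 2) * S * (U + V) := by
        refine add_le_add (h4.trans (by gcongr; linarith)) ?_
        rw [mul_right_comm]
        gcongr
        linarith
    _ = _ := by rw [hU, hV]; ring

end Crest.Agent.R017

end
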