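import Crest.Agent.R017.T4StepAuxA

/-! # Row 17, `step4`: the trilinear coefficient -/

set_option autoImplicit false

noncomputable section

open scoped BigOperators ComplexConjugate
open Complex MeasureTheory

namespace Crest.Agent.R017

theorem s4t_W {a : ℝ} (ha : 0 < a) {A : ℝ} (hA : -1 < A) : ∃ C : ℝ, 0 ≤ C ∧
    ∀ (X : ℝ) (k : O), 0 < X → Prim k →
      Summable (fun n => if Prim n then Nr n ^ A * W a (Nr (k * n) / X) else 0) ∧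
      (∑' n, if Prim n then Nr n ^ A * W a (Nr (k * n) / X) else 0) ≤ C * (X / Nr k) ^ (1 + A) := by
  obtain ⟨C, hC⟩ := tsum_W_le ha A hA
  refine ⟨|C|, abs_nonneg _, fun X k hX hk => ?_⟩
  have k1 := Nr_pos hk.ne_zero
  have hX' := div_pos hX k1
  have hle : ∀ n, (if Prim n then Nr n ^ A * W a (Nr (k * n) / X) else 0) ≤
      if n = 0 then 0 else Nr n ^ A * W a (Nr n / (X / Nr k)) := fun n => by
    split_ifs with h1 h2
    · exact absurd h2 h1.ne_zero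
    · rw [Nr_mul, show Nr k * Nr n / X = Nr n / (X / Nr k) by field_simp]
    · exact le_rfl
    · exact mul_nonneg (Real.rpow_nonneg (Nr_nonneg _) _) (W_pos _ _).le
  have hs := summable_W ha hX' A
  have h1 := Summable.of_nonneg_of_le (fun n => by
    split_ifs
    · exact mul_nonneg (Real.rpow_nonneg (Nr_nonneg _) _) (W_pos _ _).le
    · exact le_rfl) hle hs
  exact ⟨h1, (Summable.tsum_le_tsum hle h1 hs).trans ((hC _ hX').trans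
    (mul_le_mul_of_nonneg_right (le_abs_self _) (by positivity)))⟩

theorem s4t_al {A : ℝ} (hA : -1 < A) : ∃ C : ℝ, 0 ≤ C ∧
    ∀ (α : O → ℂ) (Z : ℝ) (k : O), 0 < Z → (∀ b, ‖α b‖ ≤ 1) → (∀ b, α b ≠ 0 → Nr b ≤ Z) → Prim k →
      Summable (fun n => if Prim n then ‖α (k * n)‖ * Nr n ^ A else 0) ∧
      (∑' n, if Prim n then ‖α (k * n)‖ * Nr n ^ A else 0) ≤ C * (Z / Nr k) ^ (1 + A) := by
  obtain ⟨C, hC⟩ := sum_box_rpow_le (σ := -A) (by linarith)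
  refine ⟨|C|, abs_nonneg _, fun α Z k hZ hα hαs hk => ?_⟩
  have k1 := Nr_pos hk.ne_zero
  have h0 : ∀ n ∉ box (Z / Nr k), (if Prim n then ‖α (k * n)‖ * Nr n ^ A else 0) = 0 := by
    intro n hn
    split_ifs with hp
    · have : α (k * n) = 0 := by
        by_contra h
        refine hn (mem_box.2 ⟨hp.ne_zero, ?_⟩)
        rw [le_div_iff₀ k1, mul_comm, ← Nr_mul]
        exact hαs _ h
      rw [this, norm_zero, zero_mul]
    · rfl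
  refine ⟨summable_of_ne_finset_zero h0, ?_⟩
  rw [tsum_eq_sum h0]
  rcases lt_or_ge (Z / Nr k) 1 with h | h
  · rw [box_eq_empty h, Finset.sum_empty]
    positivity
  have h1 := hC _ h
  rw [neg_neg, sub_neg_eq_add] at h1
  refine le_trans (Finset.sum_le_sum fun n _ => ?_) (h1.trans
    (mul_le_mul_of_nonneg_right (le_abs_self _) (by positivity)))
  have := Real.rpow_nonneg (Nr_nonneg n) A
  split_ifs
  · exact mul_le_of_le_one_left this (hα _)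
  · exact this

theorem s4t_prod {c₁ c₂ c₃ : O → ℝ} (h₁ : Summable (fun n => if Prim n then c₁ n else 0))
    (h₂ : Summable (fun n => if Prim n then c₂ n else 0))
    (h₃ : Summable (fun n => if Prim n then c₃ n else 0)) :
    HasSum (fun m : O3 => if s4_P m then c₁ m.1 * c₂ m.2.1 * c₃ m.2.2 else 0)
      ((∑' n, if Prim n then c₁ n else 0) * (∑' n, if Prim n then c₂ n else 0) *
        (∑' n, if Prim n then c₃ n else 0)) := by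
  have e : ∀ c : O → ℝ, (fun n => if Prim n then (c n : ℂ) else 0) =
      fun n => (((if Prim n then c n else 0 : ℝ)) : ℂ) := fun c => by
    funext n; split_ifs <;> simp
  have h := s4_prod (c₁ := fun n => c₁ n) (c₂ := fun n => c₂ n) (c₃ := fun n => c₃ n)
    (by rw [e]; exact Complex.summable_ofReal.2 h₁) (by rw [e]; exact Complex.summable_ofReal.2 h₂)
    (by rw [e]; exact Complex.summable_ofReal.2 h₃)
  rw [e, e, e, ← Complex.ofReal_tsum, ← Complex.ofReal_tsum, ← Complex.ofReal_tsum,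
    ← Complex.ofReal_mul, ← Complex.ofReal_mul] at h
  refine Complex.hasSum_ofReal.1 ?_
  convert h using 2 with m
  split_ifs <;> simp

theorem s4_T_norm {Q : O} {ψ α : O → ℂ} (hψ : IsCh Q ψ) {a₁ a₂ N₁ N₂ l τ : ℝ} {c : ℂ}
    (hc : c = 0 ∨ c = 1) (t : O) {m : O3} (hm : s4_P m) :
    ‖s4_T a₁ a₂ N₁ N₂ l τ c ψ α t m‖ ≤ ‖α m.2.2‖ *
      (W a₁ (Nr m.1 / N₁) * W a₂ (Nr m.2.1 / N₂) +
        W a₁ (Nr m.1 / (N₁ / l)) * W a₂ (Nr m.2.1 / (N₂ * l))) := by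
  unfold s4_T
  have w := fun (a y : ℝ) => (W_pos a y).le
  have h1 : ‖(W a₁ (Nr m.1 / N₁) : ℂ) * (W a₂ (Nr m.2.1 / N₂) : ℂ) -
      c * ((W a₁ (Nr m.1 / (N₁ / l)) : ℂ) * (W a₂ (Nr m.2.1 / (N₂ * l)) : ℂ))‖ ≤
      W a₁ (Nr m.1 / N₁) * W a₂ (Nr m.2.1 / N₂) +
        W a₁ (Nr m.1 / (N₁ / l)) * W a₂ (Nr m.2.1 / (N₂ * l)) := by
    refine (norm_sub_le _ _).trans ?_
    simp only [norm_mul, Complex.norm_real, Real.norm_of_nonneg (w _ _)]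
    refine add_le_add le_rfl (mul_le_of_le_one_left (mul_nonneg (w _ _) (w _ _)) ?_)
    rcases hc with rfl | rfl <;> simp
  rw [norm_mul]
  refine mul_le_mul ?_ h1 (norm_nonneg _) (norm_nonneg _)
  simp only [norm_mul, sv_norm_cpow hm.1.ne_zero, sv_norm_cpow hm.2.1.ne_zero, mul_one]
  calc _ ≤ 1 * 1 * ‖α m.2.2‖ * 1 := by
        gcongr
        exacts [hψ.norm_le _, hψ.norm_le _, norm_chi_le _ _]
    _ = _ := by ring

theorem s4_T_dec {Q : O} {ψ α : O → ℂ} (hψ : IsCh Q ψ) {a₁ a₂ N₁ N₂ l τ Z : ℝ} (ha₁ : 0 < a₁)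
    (ha₂ : 0 < a₂) (hN₁ : 0 < N₁) (hN₂ : 0 < N₂) (hl : 0 < l) {c : ℂ} (hc : c = 0 ∨ c = 1)
    (hα : ∀ b, ‖α b‖ ≤ 1) (hαs : ∀ b, α b ≠ 0 → Nr b ≤ Z) (t : O) :
    s4_Dec (s4_T a₁ a₂ N₁ N₂ l τ c ψ α t) := by
  intro A
  have hw : ∀ {a X : ℝ}, 0 < a → 0 < X → ∀ {n : O}, Prim n →
      W a (Nr n / X) ≤ (Real.exp (a * A ^ 2) * X ^ A) * Nr n ^ (-A) := by
    intro a X ha hX n hn
    have h1 := Nr_pos hn.ne_zero
    refine (W_le_rpow ha (div_pos h1 hX) (-A)).trans (le_of_eq ?_)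
    rw [Real.div_rpow h1.le hX.le, Real.rpow_neg hX.le, neg_sq]
    field_simp
  have hb : ∀ {n : O}, Prim n → ‖α n‖ ≤ max 1 (|Z| ^ |A|) * Nr n ^ (-A) := by
    intro n hn
    have h1 := one_le_Nr hn.ne_zero
    by_cases h0 : α n = 0
    · rw [h0, norm_zero]; positivity
    refine (hα n).trans ?_
    rw [Real.rpow_neg (by linarith), ← div_eq_mul_inv, one_le_div (by positivity)]
    calc Nr n ^ A ≤ Nr n ^ |A| := Real.rpow_le_rpow_of_exponent_le h1 (le_abs_self _)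
      _ ≤ |Z| ^ |A| := Real.rpow_le_rpow (by linarith) ((hαs n h0).trans (le_abs_self _))
          (abs_nonneg _)
      _ ≤ _ := le_max_right _ _
  refine ⟨max 1 (|Z| ^ |A|) * ((Real.exp (a₁ * A ^ 2) * N₁ ^ A) * (Real.exp (a₂ * A ^ 2) * N₂ ^ A) +
    (Real.exp (a₁ * A ^ 2) * (N₁ / l) ^ A) * (Real.exp (a₂ * A ^ 2) * (N₂ * l) ^ A)),
    fun m hm => (s4_T_norm hψ hc t hm).trans ?_⟩
  have w := fun (a y : ℝ) => (W_pos a y).le
  have h1 := Nr_pos hm.1.ne_zero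
  have h2 := Nr_pos hm.2.1.ne_zero
  have h3 := Nr_pos hm.2.2.ne_zero
  refine (mul_le_mul (hb hm.2.2) (add_le_add
    (mul_le_mul (hw ha₁ hN₁ hm.1) (hw ha₂ hN₂ hm.2.1) (w _ _) (by positivity))
    (mul_le_mul (hw ha₁ (div_pos hN₁ hl) hm.1) (hw ha₂ (mul_pos hN₂ hl) hm.2.1) (w _ _)
      (by positivity)))
    (add_nonneg (mul_nonneg (w _ _) (w _ _)) (mul_nonneg (w _ _) (w _ _))) (by positivity)).trans
    (le_of_eq ?_)
  rw [s4_pr, Nr_mul, Nr_mul, Real.mul_rpow (by positivity) h3.le, Real.mul_rpow h1.le h2.le]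
  ring

theorem s4_T_mom {a₁ a₂ : ℝ} (ha₁ : 0 < a₁) (ha₂ : 0 < a₂) {A : ℝ} (hA : -1 < A) :
    ∃ C : ℝ, 0 ≤ C ∧ ∀ (Q : O) (ψ α : O → ℂ) (N₁ N₂ l τ Z : ℝ) (c : ℂ) (t : O) (κ : O3),
    IsCh Q ψ → 0 < N₁ → 0 < N₂ → 0 < l → 0 < Z → (c = 0 ∨ c = 1) → (∀ b, ‖α b‖ ≤ 1) →
    (∀ b, α b ≠ 0 → Nr b ≤ Z) → s4_P κ →
    ∑' m, (if s4_P m then ‖s4_T a₁ a₂ N₁ N₂ l τ c ψ α t (κ * m)‖ * Nr (s4_pr m) ^ A else 0) ≤
      C * (N₁ * N₂ * Z / Nr (s4_pr κ)) ^ (1 + A) := by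
  obtain ⟨C₁, h₁0, h₁⟩ := s4t_W ha₁ hA
  obtain ⟨C₂, h₂0, h₂⟩ := s4t_W ha₂ hA
  obtain ⟨C₃, h₃0, h₃⟩ := s4t_al hA
  refine ⟨2 * (C₁ * C₂ * C₃), by positivity,
    fun Q ψ α N₁ N₂ l τ Z c t κ hψ hN₁ hN₂ hl hZ hc hα hαs hκ => ?_⟩
  have k1 := Nr_pos hκ.1.ne_zero
  have k2 := Nr_pos hκ.2.1.ne_zero
  have k3 := Nr_pos hκ.2.2.ne_zero
  obtain ⟨s₃, b₃⟩ := h₃ α Z κ.2.2 hZ hα hαs hκ.2.2
  have key : ∀ X₁ X₂ : ℝ, 0 < X₁ → 0 < X₂ → X₁ * X₂ = N₁ * N₂ → ∃ S : ℝ,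
      HasSum (fun m : O3 => if s4_P m then (Nr m.1 ^ A * W a₁ (Nr (κ.1 * m.1) / X₁)) *
        (Nr m.2.1 ^ A * W a₂ (Nr (κ.2.1 * m.2.1) / X₂)) * (‖α (κ.2.2 * m.2.2)‖ * Nr m.2.2 ^ A)
        else 0) S ∧ S ≤ C₁ * C₂ * C₃ * (N₁ * N₂ * Z / Nr (s4_pr κ)) ^ (1 + A) := by
    intro X₁ X₂ hX₁ hX₂ hX
    obtain ⟨s₁, b₁⟩ := h₁ X₁ κ.1 hX₁ hκ.1
    obtain ⟨s₂, b₂⟩ := h₂ X₂ κ.2.1 hX₂ hκ.2.1
    refine ⟨_, s4t_prod s₁ s₂ s₃, ?_⟩
    have n₂ : 0 ≤ ∑' n, if Prim n then Nr n ^ A * W a₂ (Nr (κ.2.1 * n) / X₂) else 0 :=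
      tsum_nonneg fun n => by
        have := Nr_nonneg n
        have := W_pos a₂ (Nr (κ.2.1 * n) / X₂)
        split_ifs <;> positivity
    have n₃ : 0 ≤ ∑' n, if Prim n then ‖α (κ.2.2 * n)‖ * Nr n ^ A else 0 :=
      tsum_nonneg fun n => by
        have := Nr_nonneg n
        split_ifs <;> positivity
    refine (mul_le_mul (mul_le_mul b₁ b₂ n₂ (by positivity)) b₃ n₃ (by positivity)).trans
      (le_of_eq ?_)
    rw [← hX, s4_pr, Nr_mul, Nr_mul, show X₁ * X₂ * Z / (Nr κ.1 * Nr κ.2.1 * Nr κ.2.2) =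
      X₁ / Nr κ.1 * (X₂ / Nr κ.2.1) * (Z / Nr κ.2.2) by field_simp,
      Real.mul_rpow (by positivity) (by positivity), Real.mul_rpow (by positivity) (by positivity)]
    ring
  obtain ⟨S, hS, bS⟩ := key N₁ N₂ hN₁ hN₂ rfl
  obtain ⟨S', hS', bS'⟩ := key (N₁ / l) (N₂ * l) (div_pos hN₁ hl) (mul_pos hN₂ hl) (by field_simp)
  have hle : ∀ m : O3, (if s4_P m then ‖s4_T a₁ a₂ N₁ N₂ l τ c ψ α t (κ * m)‖ * Nr (s4_pr m) ^ A
      else 0) ≤ (if s4_P m then (Nr m.1 ^ A * W a₁ (Nr (κ.1 * m.1) / N₁)) *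
        (Nr m.2.1 ^ A * W a₂ (Nr (κ.2.1 * m.2.1) / N₂)) * (‖α (κ.2.2 * m.2.2)‖ * Nr m.2.2 ^ A)
        else 0) + (if s4_P m then (Nr m.1 ^ A * W a₁ (Nr (κ.1 * m.1) / (N₁ / l))) *
        (Nr m.2.1 ^ A * W a₂ (Nr (κ.2.1 * m.2.1) / (N₂ * l))) * (‖α (κ.2.2 * m.2.2)‖ * Nr m.2.2 ^ A)
        else 0) := by
    intro m
    split_ifs with hm
    · refine (mul_le_mul_of_nonneg_right (s4_T_norm hψ hc t (hκ.mul hm))
        (Real.rpow_nonneg (Nr_nonneg _) _)).trans (le_of_eq ?_)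
      rw [s4_pr, Nr_mul, Nr_mul, Real.mul_rpow (mul_nonneg (Nr_nonneg _) (Nr_nonneg _))
        (Nr_nonneg _), Real.mul_rpow (Nr_nonneg _) (Nr_nonneg _)]
      simp only [Prod.fst_mul, Prod.snd_mul]
      ring
    · simp
  have hs := hS.add hS'
  refine (hasSum_le hle (Summable.of_nonneg_of_le (fun m => ?_) hle hs.summable).hasSum hs).trans
    (by linarith)
  have := Nr_nonneg (s4_pr m)
  split_ifs <;> positivity

theorem s4_eval {Q : O} {ψ α : O → ℂ} (hψ : IsCh Q ψ) {a₁ a₂ N₁ N₂ l τ Z : ℝ} (ha₁ : 0 < a₁)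
    (ha₂ : 0 < a₂) (hN₁ : 0 < N₁) (hN₂ : 0 < N₂) (hl : 0 < l) (c : ℂ)
    (hαs : ∀ b, α b ≠ 0 → Nr b ≤ Z) (t : O) {κ : O3} (hκ : s4_P κ) {u : O → ℂ} {K B : ℝ}
    (hu : ∀ x y, Prim x → Prim y → u (x * y) = u x * u y) (hub : ∀ n, Prim n → ‖u n‖ ≤ K * Nr n ^ B) :
    ∑' m, (if s4_P m then s4_T a₁ a₂ N₁ N₂ l τ c ψ α t (κ * m) * u (s4_pr m) else 0) =
      (ψ κ.1 * ψ κ.2.1 * chi (s4_pr κ) t *
        ((Nr κ.1 : ℂ) ^ (-(τ * I)) * (Nr κ.2.1 : ℂ) ^ (-(τ * I)))) *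
      (s4_br a₁ a₂ l c (fun n => ψ n * chi n t * u n) (N₁ / Nr κ.1) (N₂ / Nr κ.2.1) τ *
        ∑ b ∈ (box Z).filter Prim, α (κ.2.2 * b) * (chi b t * u b)) := by
  have k1 := Nr_pos hκ.1.ne_zero
  have k2 := Nr_pos hκ.2.1.ne_zero
  have hb : ∀ n, Prim n → ‖ψ n * chi n t * u n‖ ≤ K * Nr n ^ B := fun n hn => by
    rw [norm_mul, norm_mul]
    exact (mul_le_of_le_one_left (norm_nonneg _)
      (mul_le_one₀ (hψ.norm_le n) (norm_nonneg _) (norm_chi_le _ _))).trans (hub n hn)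
  have h0 : ∀ b ∉ (box Z).filter Prim,
      (if Prim b then α (κ.2.2 * b) * (chi b t * u b) else 0) = 0 := by
    intro b hb
    split_ifs with hp
    · have : α (κ.2.2 * b) = 0 := by
        by_contra h
        refine hb (Finset.mem_filter.2 ⟨mem_box.2 ⟨hp.ne_zero, le_trans ?_ (hαs _ h)⟩, hp⟩)
        rw [Nr_mul]
        exact le_mul_of_one_le_left (Nr_nonneg _) (one_le_Nr hκ.2.2.ne_zero)
      rw [this, zero_mul]
    · rfl
  have s₃ : Summable (fun b => if Prim b then α (κ.2.2 * b) * (chi b t * u b) else 0) :=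
    summable_of_ne_finset_zero h0
  have e₃ : (∑' b, if Prim b then α (κ.2.2 * b) * (chi b t * u b) else 0) =
      ∑ b ∈ (box Z).filter Prim, α (κ.2.2 * b) * (chi b t * u b) := by
    rw [tsum_eq_sum h0]
    exact Finset.sum_congr rfl fun b hb => if_pos (Finset.mem_filter.1 hb).2
  have h1 := s4_prod (summable_sm ha₁ (div_pos hN₁ k1) hb τ) (summable_sm ha₂ (div_pos hN₂ k2) hb τ) s₃
  have h2 := s4_prod (summable_sm ha₁ (div_pos (div_pos hN₁ k1) hl) hb τ)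
    (summable_sm ha₂ (mul_pos (div_pos hN₂ k2) hl) hb τ) s₃
  rw [e₃] at h1 h2
  have h3 := (h1.sub (h2.mul_left c)).mul_left (ψ κ.1 * ψ κ.2.1 * chi (s4_pr κ) t *
        ((Nr κ.1 : ℂ) ^ (-(τ * I)) * (Nr κ.2.1 : ℂ) ^ (-(τ * I))))
  refine Eq.trans (tsum_congr fun m => ?_) (h3.tsum_eq.trans ?_)
  · split_ifs with hm
    · have e1 : Nr κ.1 * Nr m.1 / N₁ = Nr m.1 / (N₁ / Nr κ.1) := by field_simp
      have e2 : Nr κ.2.1 * Nr m.2.1 / N₂ = Nr m.2.1 / (N₂ / Nr κ.2.1) := by field_simp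
      have e3 : Nr κ.1 * Nr m.1 / (N₁ / l) = Nr m.1 / (N₁ / Nr κ.1 / l) := by field_simp
      have e4 : Nr κ.2.1 * Nr m.2.1 / (N₂ * l) = Nr m.2.1 / (N₂ / Nr κ.2.1 * l) := by field_simp
      unfold s4_T
      rw [s4_pr_mul, chi_mul_left hκ.pr.ne_zero hm.pr.ne_zero]
      simp only [Prod.fst_mul, Prod.snd_mul, hψ.mul, Nr_mul, e1, e2, e3, e4, Complex.ofReal_mul,
        Complex.mul_cpow_ofReal_nonneg (Nr_nonneg _) (Nr_nonneg _)]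
      rw [show s4_pr m = m.1 * m.2.1 * m.2.2 from rfl,
        chi_mul_left (hm.1.mul hm.2.1).ne_zero hm.2.2.ne_zero,
        chi_mul_left hm.1.ne_zero hm.2.1.ne_zero, hu _ _ (hm.1.mul hm.2.1) hm.2.2,
        hu _ _ hm.1 hm.2.1]
      ring
    · simp
  · unfold s4_br sm
    ring

end Crest.Agent.R017

end
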