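import Crest.Agent.R017.ThRes3

/-! # Row 17, cubic theta: relations at a prime -/

set_option autoImplicit false

noncomputable section

open scoped BigOperators ComplexConjugate Topology ENNReal
open Complex MeasureTheory Filter Set

namespace Crest.Agent.R017.Theta

theorem a1t_N_ne {p : O} (hp : Prime p) : (Nr p : ℂ) ≠ 0 := by
  exact_mod_cast (Nr_pos hp.ne_zero).ne'

theorem a1t_N1_ne (p : O) : (Nr p : ℂ) + 1 ≠ 0 := by
  have := Nr_nonneg p
  exact_mod_cast (show Nr p + 1 ≠ 0 by positivity)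

theorem a1t_pg {a : O → ℂ} (ha : PG a) (P : O → Prop) {_ : ∀ c, Decidable (P c)} :
    PG (fun c => if P c then a c else 0) := by
  obtain ⟨C, hC⟩ := ha
  refine ⟨C, fun c => ?_⟩
  dsimp only
  split_ifs
  · exact hC c
  · rw [norm_zero]; exact (norm_nonneg _).trans (hC c)

theorem a1t_cop {p c : O} (hp : Prime p) (h : ¬ p ∣ c) : IsCoprime p c :=
  hp.irreducible.coprime_iff_not_dvd.2 h

theorem a1t_kap9 {p : O} (hp' : Prim p) : kap p 9 ≠ 0 := by
  rw [Ne, kap_eq_zero hp'.ne_zero, not_or, not_not]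
  refine ⟨hp'.not_lam_dvd, ?_⟩
  obtain ⟨k, hk⟩ := hp'
  have h3 : IsCoprime p 3 := ⟨1, -k, by linear_combination hk⟩
  rw [show (9 : O) = 3 * 3 by norm_num]
  exact h3.mul_right h3

theorem a1t_mul_conj {z : ℂ} (h : ‖z‖ = 1) : z * conj z = 1 := by
  rw [Complex.mul_conj, Complex.normSq_eq_norm_sq, h]; simp

theorem a1t_op_one {B : O × O → ℂ} (hB : Per B) : Op 1 B = B := by
  simpa using hB.op_cube prim_one

open Classical in
/-- The moduli prime to `p`. -/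
theorem res_cop {B : O × O → ℂ} (hB : Per B) {p : O} (hp : Prime p) (hp' : Prim p) {h : O}
    (hh : h ≠ 0) : Res (fun c => if p ∣ c then 0 else Ac B c h)
      (rs B h * ((Nr p : ℂ) / ((Nr p : ℂ) + 1))) := by
  have h1 := (res_rs hB hh).sub (pg_Ac hB.bd h) (pg_Ac (hB.wt.bp p).bd h) (res_Bp hB hp hp' hh)
  have e : rs B h - rs B h / ((Nr p : ℂ) + 1) = rs B h * ((Nr p : ℂ) / ((Nr p : ℂ) + 1)) := by
    have := a1t_N1_ne p
    field_simp
    ring
  rw [e] at h1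
  refine h1.congr fun c _ => ?_
  rw [Ac_Bp]
  split_ifs <;> simp
/-- `Ac_cube`. -/
theorem rs_cube {B : O × O → ℂ} (hB : Per B) {p : O} (hp : Prime p) (hp' : Prim p) {h : O}
    (hh : h ≠ 0) : rs B (p ^ 3 * h) = rs B h := by
  have h1 := res_cop hB hp hp' (mul_ne_zero (pow_ne_zero 3 hp.ne_zero) hh)
  have h2 := res_cop hB hp hp' hh
  have h3 := (h1.congr fun c hc => by
    split_ifs with hd
    · rfl
    · exact Ac_cube hB hp' hc (a1t_cop hp hd) h).unique h2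
  exact mul_right_cancel₀ (div_ne_zero (a1t_N_ne hp) (a1t_N1_ne p)) h3
open Classical in
/-- The moduli exactly divisible by `p^k` (`Ac_mul`, `Res.scale`). -/
theorem res_pow {B : O × O → ℂ} (hB : Per B) {p : O} (hp : Prime p) (hp' : Prim p) {h : O}
    (hh : h ≠ 0) (k : ℕ) :
    Res (fun c => if p ^ k ∣ c ∧ ¬ p ^ (k + 1) ∣ c then Ac B c h else 0)
      ((((Nr p ^ k) ^ (-(4 / 3) : ℝ) : ℝ) : ℂ) * (kap (p ^ k) 9 * gs (kap (p ^ k)) (p ^ k) h *
        (rs (Op (p ^ k) B) (p ^ k * h) * ((Nr p : ℂ) / ((Nr p : ℂ) + 1))))) := by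
  have hpk : p ^ k ≠ 0 := pow_ne_zero k hp.ne_zero
  have h1 := (res_cop (hB.op (p ^ k)) hp hp' (mul_ne_zero hpk hh)).const_mul
    (kap (p ^ k) 9 * gs (kap (p ^ k)) (p ^ k) h)
  rw [← Nr_pow]
  refine Res.scale hpk h1 (fun c => ?_) (fun c hc => if_neg fun h' => hc h'.1)
  by_cases hd : p ∣ c
  · rw [if_pos hd, mul_zero, if_neg]
    exact fun h' => h'.2 (by rw [pow_succ]; exact mul_dvd_mul_left _ hd)
  · have hc : c ≠ 0 := fun h0 => hd (h0 ▸ dvd_zero p)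
    rw [if_neg hd, if_pos, Ac_mul hB (hp'.pow k) hc (a1t_cop hp hd).pow_left]
    refine ⟨dvd_mul_right _ _, fun h' => hd ?_⟩
    rw [pow_succ] at h'
    exact (mul_dvd_mul_iff_left hpk).1 h'
/-- If `p^m ∤ h` then only `k ≤ m` contribute (`gs_kap_pow_of_not_dvd`). -/
theorem rs_eq_sum {B : O × O → ℂ} (hB : Per B) {p : O} (hp : Prime p) (hp' : Prim p) {h : O}
    {m : ℕ} (hm : ¬ p ^ m ∣ h) :
    rs B h = ∑ k ∈ Finset.range (m + 1),
      (((Nr p ^ k) ^ (-(4 / 3) : ℝ) : ℝ) : ℂ) * (kap (p ^ k) 9 * gs (kap (p ^ k)) (p ^ k) h *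
        (rs (Op (p ^ k) B) (p ^ k * h) * ((Nr p : ℂ) / ((Nr p : ℂ) + 1)))) := by
  classical
  have hh : h ≠ 0 := fun h0 => hm (h0 ▸ dvd_zero _)
  have key : ∀ j : ℕ, Res (fun c => if ¬ p ^ j ∣ c then Ac B c h else 0)
      (∑ k ∈ Finset.range j, (((Nr p ^ k) ^ (-(4 / 3) : ℝ) : ℝ) : ℂ) *
        (kap (p ^ k) 9 * gs (kap (p ^ k)) (p ^ k) h *
          (rs (Op (p ^ k) B) (p ^ k * h) * ((Nr p : ℂ) / ((Nr p : ℂ) + 1))))) := by
    intro j
    induction j with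
    | zero => exact res_zero.congr fun c _ => by simp
    | succ j ih =>
      rw [Finset.sum_range_succ]
      refine (ih.add (a1t_pg (pg_Ac hB.bd h) (fun c => ¬ p ^ j ∣ c))
        (a1t_pg (pg_Ac hB.bd h) (fun c => p ^ j ∣ c ∧ ¬ p ^ (j + 1) ∣ c))
        (res_pow hB hp hp' hh j)).congr fun c _ => ?_
      by_cases h1 : p ^ j ∣ c
      · by_cases h2 : p ^ (j + 1) ∣ c <;> simp [h1, h2]
      · have h2 : ¬ p ^ (j + 1) ∣ c := fun h' => h1 ((pow_dvd_pow p (Nat.le_succ j)).trans h')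
        simp [h1, h2]
  refine (res_rs hB hh).unique ((key (m + 1)).congr fun c hc => ?_)
  split_ifs with hd
  · obtain ⟨k, c', hc', rfl⟩ := WfDvdMonoid.max_power_factor hc hp.irreducible
    have hc0 : c' ≠ 0 := right_ne_zero_of_mul hc
    have hk : m + 1 ≤ k := by
      by_contra hlt
      have h1 : p ^ (k + 1) ∣ p ^ k * c' := (pow_dvd_pow p (by omega)).trans hd
      rw [pow_succ] at h1
      exact hc' ((mul_dvd_mul_iff_left (pow_ne_zero k hp.ne_zero)).1 h1)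
    obtain ⟨k, rfl⟩ : ∃ k', k = k' + 1 := ⟨k - 1, by omega⟩
    rw [Ac_mul hB (hp'.pow _) hc0 (a1t_cop hp hc').pow_left,
      gs_kap_pow_of_not_dvd hp fun h' => hm ((pow_dvd_pow p (by omega)).trans h')]
    simp
  · rfl
theorem Tc_cube {B : O × O → ℂ} (hB : Per B) {p : O} (hp : Prime p) (hp' : Prim p) {h : O}
    (hh : h ≠ 0) : Tc B (p ^ 3 * h) = (‖emb p‖ : ℂ) * Tc B h := by
  have hN := Nr_nonneg p
  have e : Nr (p ^ 3 * h) ^ (1 / 6 : ℝ) = ‖emb p‖ * Nr h ^ (1 / 6 : ℝ) := by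
    rw [Nr_mul, Nr_pow, Real.mul_rpow (by positivity) (Nr_nonneg h), norm_emb, Real.sqrt_eq_rpow,
      ← Real.rpow_natCast, ← Real.rpow_mul hN]
    norm_num
  unfold Tc
  rw [rs_cube hB hp hp' hh, e]
  push_cast
  ring
/-- `rs_eq_sum` with `m = 1`. -/
theorem Tc_prime {B : O × O → ℂ} (hB : Per B) {p : O} (hp : Prime p) (hp' : Prim p) {h : O}
    (hh : ¬ p ∣ h) :
    Tc (Op p B) (p * h) = conj (kap p 9) * kap p h * conj (g3 p) * Tc B h := by
  have hN := Nr_pos hp.ne_zero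
  have h1 := rs_eq_sum hB hp hp' (h := h) (m := 1) (by rwa [pow_one])
  simp only [Finset.sum_range_succ, Finset.range_zero, Finset.sum_empty, zero_add, pow_zero,
    pow_one, Real.one_rpow, Complex.ofReal_one, one_mul, gs_kap_one, a1t_op_one hB,
    kap_unit_left isUnit_one, gs_kap_prime hp hp'] at h1
  have e1 : Nr p ^ (-(4 / 3) : ℝ) * Real.sqrt (Nr p) * Nr p = Nr p ^ (1 / 6 : ℝ) := by
    rw [Real.sqrt_eq_rpow, ← Real.rpow_add hN, ← Real.rpow_add_one hN.ne']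
    norm_num
  have e2 : ((Nr p ^ (-(4 / 3) : ℝ) : ℝ) : ℂ) * (Real.sqrt (Nr p) : ℂ) * (Nr p : ℂ) =
      ((Nr p ^ (1 / 6 : ℝ) : ℝ) : ℂ) := by exact_mod_cast e1
  have h2 : rs B h = ((Nr p ^ (1 / 6 : ℝ) : ℝ) : ℂ) * (kap p 9 * conj (kap p h) * g3 p) *
      rs (Op p B) (p * h) := by
    have := a1t_N1_ne p
    rw [← e2]
    field_simp at h1
    linear_combination h1
  have k1 := a1t_mul_conj (norm_kap (a1t_kap9 hp'))
  have k2 : kap p h * conj (kap p h) = 1 := by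
    refine a1t_mul_conj (norm_kap ?_)
    rw [Ne, kap_eq_zero hp.ne_zero, not_or, not_not]
    exact ⟨hp'.not_lam_dvd, a1t_cop hp hh⟩
  have k3 := a1t_mul_conj (norm_g3 hp'.not_lam_dvd hp.irreducible.squarefree)
  unfold Tc
  rw [h2, Nr_mul, Real.mul_rpow hN.le (Nr_nonneg h), Complex.ofReal_mul]
  calc _ = (kap p 9 * conj (kap p 9)) * (kap p h * conj (kap p h)) * (g3 p * conj (g3 p)) *
        (rs (Op p B) (p * h) / Me F0 *
          (((Nr p ^ (1 / 6 : ℝ) : ℝ) : ℂ) * ((Nr h ^ (1 / 6 : ℝ) : ℝ) : ℂ))) := by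
        rw [k1, k2, k3]; ring
    _ = _ := by ring
/-- `rs_eq_sum` with `m = 3` for `p² h`, and `rs_cube`. -/
theorem Tc_sq {B : O × O → ℂ} (hB : Per B) {p : O} (hp : Prime p) (hp' : Prim p) {h : O}
    (hh : ¬ p ∣ h) : Tc B (p ^ 2 * h) = 0 := by
  have hN := Nr_pos hp.ne_zero
  have hh0 : h ≠ 0 := fun h0 => hh (h0 ▸ dvd_zero p)
  have h0 : p ^ 2 * h ≠ 0 := mul_ne_zero (pow_ne_zero 2 hp.ne_zero) hh0
  have h1 := rs_eq_sum hB hp hp' (h := p ^ 2 * h) (m := 3) (fun h' => hh (by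
    rw [pow_succ] at h'
    exact (mul_dvd_mul_iff_left (pow_ne_zero 2 hp.ne_zero)).1 h'))
  have e1 : (Nr p ^ 3) ^ (-(4 / 3) : ℝ) = (Nr p ^ 4)⁻¹ := by
    rw [← Real.rpow_natCast, ← Real.rpow_mul hN.le, ← Real.rpow_natCast, ← Real.rpow_neg hN.le]
    norm_num
  have e2 : kap (p ^ 3) 9 = 1 := by rw [kap_pow_left hp.ne_zero, kap_cube (a1t_kap9 hp')]
  simp only [Finset.sum_range_succ, Finset.range_zero, Finset.sum_empty, zero_add, pow_zero,
    pow_one, Real.one_rpow, Complex.ofReal_one, one_mul, gs_kap_one, a1t_op_one hB,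
    kap_unit_left isUnit_one, gs_kap_one_sq hp hp', gs_kap_two_sq hp hp',
    gs_kap_three_sq hp hp' hh, mul_zero, zero_mul, add_zero, hB.op_cube hp', rs_cube hB hp hp' h0,
    e1, e2] at h1
  have h2 : rs B (p ^ 2 * h) = 0 := by
    have hN1 := a1t_N1_ne p
    have hN0 := a1t_N_ne hp
    push_cast at h1
    field_simp at h1
    have h3 : rs B (p ^ 2 * h) * ((Nr p : ℂ) + 1) = 0 := by linear_combination h1
    exact (mul_eq_zero.1 h3).resolve_right hN1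
  unfold Tc
  rw [h2]
  simp

end Crest.Agent.R017.Theta

end
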