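import Crest.Agent.R017.ThDefs

/-! # Row 17, cubic theta: lattice point asymptotics -/

set_option autoImplicit false

noncomputable section

open scoped BigOperators ComplexConjugate Topology ENNReal
open Complex MeasureTheory Filter Set

namespace Crest.Agent.R017.Theta

open Classical in
/-- The plain sum over primary elements. -/
def lat (x : ℝ) : ℝ := x * ∑' j : O, if Prim j then Phi ((x * Nr j) ^ 3) else 0
theorem c1t_Phi_sub (y a : ℝ) : Phi (y - a) = Real.exp (c0 * a) * Phi y := by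
  rw [Phi, Phi, ← Real.exp_add]
  congr 1
  ring

theorem c1t_cube {q : ℝ} (hq : 0 ≤ q) : Phi (q ^ 3) ≤ Phi (q - 1) := by
  refine p1_anti ?_
  rcases le_total q 1 with h | h
  · linarith [pow_nonneg hq 3]
  · nlinarith [mul_nonneg hq (mul_nonneg (sub_nonneg.2 h) (by linarith : 0 ≤ q + 1))]

open Classical in
theorem c1t_term_nonneg (x : ℝ) (j : O) : 0 ≤ if Prim j then Phi ((x * Nr j) ^ 3) else 0 := by
  split_ifs
  exacts [(Phi_pos _).le, le_rfl]

open Classical in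
theorem c1t_term_le {x : ℝ} (hx : 0 < x) (j : O) :
    (if Prim j then Phi ((x * Nr j) ^ 3) else 0) ≤ Real.exp c0 * Phi (x * Nr j) := by
  split_ifs
  · simpa [c1t_Phi_sub] using c1t_cube (mul_nonneg hx.le (Nr_nonneg j))
  · exact mul_nonneg (Real.exp_pos _).le (Phi_pos _).le

open Classical in
theorem summable_lat {x : ℝ} (hx : 0 < x) :
    Summable (fun j : O => if Prim j then Phi ((x * Nr j) ^ 3) else 0) :=
  Summable.of_nonneg_of_le (c1t_term_nonneg x) (c1t_term_le hx) ((p1_summable0' hx).mul_left _)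
theorem lat_nonneg {x : ℝ} (hx : 0 < x) : 0 ≤ lat x :=
  mul_nonneg hx.le (tsum_nonneg (c1t_term_nonneg x))
/-- E.g. `Φ(s³) ≤ C Φ(s)`, and `∑_{j ≠ 0} Φ(x N j) ≤ C / x` (`tsum_Phi_le` for `x ≤ 1`,
`Phi_le_rpow` for `x ≥ 1`). -/
theorem lat_le : ∃ C : ℝ, ∀ x : ℝ, 0 < x → lat x ≤ C := by
  classical
  obtain ⟨C, hC⟩ := tsum_Phi_le
  have s1 : Summable fun x : O => Phi (Nr x) := by simpa using p1_summable0 one_pos
  have hC0 : 0 ≤ C := by
    have := (tsum_nonneg fun x : O => (Phi_pos (Nr x / 1)).le).trans (hC 1 one_pos)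
    linarith
  have he := Real.exp_pos c0
  have hc := c0_pos
  refine ⟨max (Real.exp c0 * (2 * C)) (Real.exp c0 / c0 * ∑' j : O, Phi (Nr j)), fun x hx => ?_⟩
  rcases le_total x 1 with h | h
  · refine le_max_of_le_left ?_
    have h1 := (summable_lat hx).tsum_le_tsum (c1t_term_le hx) ((p1_summable0' hx).mul_left _)
    have h2 := hC x⁻¹ (inv_pos.2 hx)
    simp only [div_inv_eq_mul, mul_comm _ x] at h2
    rw [tsum_mul_left] at h1
    calc lat x ≤ x * (Real.exp c0 * (C * (1 + x⁻¹))) :=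
          mul_le_mul_of_nonneg_left (h1.trans (mul_le_mul_of_nonneg_left h2 he.le)) hx.le
      _ = Real.exp c0 * ((x + 1) * C) := by field_simp
      _ ≤ _ := by gcongr; linarith
  · refine le_max_of_le_right ?_
    rw [lat, ← tsum_mul_left, ← tsum_mul_left]
    refine ((summable_lat hx).mul_left _).tsum_le_tsum (fun j => ?_) (s1.mul_left _)
    have hp := Phi_pos (Nr j)
    split_ifs with hj
    · have h1 := one_le_Nr hj.ne_zero
      set t := x * Nr j with ht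
      have h2 : x ≤ t := le_mul_of_one_le_right hx.le h1
      have h3 : Nr j ≤ t := le_mul_of_one_le_left (by linarith) h
      have h4 : Phi (t ^ 3) ≤ Phi (Nr j + t - 1) := p1_anti (by
        have h5 : 1 ≤ t := h.trans h2
        nlinarith [mul_nonneg (sub_nonneg.2 h5) (by nlinarith : 0 ≤ t ^ 2 + t - 1)])
      have h5 : Phi (Nr j + t - 1) = Real.exp c0 * Phi (Nr j) * Real.exp (-(c0 * t)) := by
        rw [Phi, Phi, ← Real.exp_add, ← Real.exp_add]
        congr 1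
        ring
      have h6 : x * Real.exp (-(c0 * t)) ≤ 1 / c0 := by
        rw [Real.exp_neg, ← div_eq_mul_inv, div_le_div_iff₀ (Real.exp_pos _) hc]
        nlinarith [Real.add_one_le_exp (c0 * t)]
      calc x * Phi (t ^ 3) ≤ x * (Real.exp c0 * Phi (Nr j) * Real.exp (-(c0 * t))) :=
            mul_le_mul_of_nonneg_left (h4.trans h5.le) hx.le
        _ = Real.exp c0 * Phi (Nr j) * (x * Real.exp (-(c0 * t))) := by ring
        _ ≤ Real.exp c0 * Phi (Nr j) * (1 / c0) := by gcongr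
        _ = _ := by ring
    · rw [mul_zero]
      positivity
/-- The profile in real coordinates. -/
def c1t_G (u v : ℝ) : ℝ := Phi ((u ^ 2 - u * v + v ^ 2) ^ 3)

theorem c1t_G_cont : Continuous fun p : ℝ × ℝ => c1t_G p.1 p.2 := by
  unfold c1t_G Phi
  fun_prop

/-- The majorant. -/
def c1t_M (p : ℝ × ℝ) : ℝ :=
  Real.exp (c0 * 10) * (Real.exp (-c0 * p.1 ^ 2) * Real.exp (-c0 * p.2 ^ 2))

theorem c1t_M_int : Integrable c1t_M :=
  ((integrable_exp_neg_mul_sq c0_pos).mul_prod (integrable_exp_neg_mul_sq c0_pos)).const_mul _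

theorem c1t_G_le {u v : ℝ} (p : ℝ × ℝ) (h1 : |u - 3 * p.1| ≤ 3) (h2 : |v - 3 * p.2| ≤ 3) :
    ‖c1t_G u v‖ ≤ c1t_M p := by
  have h3 : (u - 3 * p.1) ^ 2 ≤ 9 := by nlinarith [abs_le.1 h1]
  have h4 : (v - 3 * p.2) ^ 2 ≤ 9 := by nlinarith [abs_le.1 h2]
  have h5 : 0 ≤ u ^ 2 - u * v + v ^ 2 := by nlinarith [sq_nonneg (u - v), sq_nonneg u, sq_nonneg v]
  rw [c1t_G, Real.norm_eq_abs, abs_of_pos (Phi_pos _)]
  refine (c1t_cube h5).trans ((p1_anti (x := p.1 ^ 2 + p.2 ^ 2 - 10) ?_).trans (le_of_eq ?_))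
  · nlinarith [sq_nonneg (u - v), sq_nonneg (2 * u - 3 * p.1), sq_nonneg (2 * v - 3 * p.2),
      sq_nonneg p.1, sq_nonneg p.2]
  · rw [c1t_Phi_sub, c1t_M, Phi, ← Real.exp_add (-c0 * p.1 ^ 2)]
    congr 2
    ring

/-- The step function. -/
def c1t_F (s : ℝ) (p : ℝ × ℝ) : ℝ := c1t_G (s * (1 + 3 * ⌊p.1 / s⌋)) (s * (3 * ⌊p.2 / s⌋))

theorem c1t_F_meas (s : ℝ) : Measurable (c1t_F s) := by
  have h1 : Measurable fun p : ℝ × ℝ => ((⌊p.1 / s⌋ : ℤ) : ℝ) :=
    (measurable_of_countable (fun n : ℤ => (n : ℝ))).comp (measurable_fst.div_const s).floor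
  have h2 : Measurable fun p : ℝ × ℝ => ((⌊p.2 / s⌋ : ℤ) : ℝ) :=
    (measurable_of_countable (fun n : ℤ => (n : ℝ))).comp (measurable_snd.div_const s).floor
  have h3 : Measurable fun p : ℝ × ℝ =>
      (s * (1 + 3 * ((⌊p.1 / s⌋ : ℤ) : ℝ)), s * (3 * ((⌊p.2 / s⌋ : ℤ) : ℝ))) :=
    (((h1.const_mul 3).const_add 1).const_mul s).prodMk ((h2.const_mul 3).const_mul s)
  have h4 := c1t_G_cont.measurable.comp h3
  exact h4

theorem c1t_floor {s : ℝ} (hs : 0 < s) (u : ℝ) : u - s ≤ s * ⌊u / s⌋ ∧ s * ⌊u / s⌋ ≤ u := by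
  have h1 := mul_le_mul_of_nonneg_left (Int.floor_le (u / s)) hs.le
  have h2 := mul_le_mul_of_nonneg_left (Int.lt_floor_add_one (u / s)).le hs.le
  rw [mul_div_cancel₀ _ hs.ne'] at h1 h2
  constructor <;> linarith

theorem c1t_F_le {s : ℝ} (hs : 0 < s) (hs1 : s ≤ 1) (p : ℝ × ℝ) : ‖c1t_F s p‖ ≤ c1t_M p := by
  have h1 := c1t_floor hs p.1
  have h2 := c1t_floor hs p.2
  refine c1t_G_le p (abs_le.2 ⟨?_, ?_⟩) (abs_le.2 ⟨?_, ?_⟩) <;> linarith [h1.1, h1.2, h2.1, h2.2]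

theorem c1t_int {s : ℝ} (hs : 0 < s) (hs1 : s ≤ 1) : ∫ p, c1t_F s p = lat (s ^ 2) := by
  classical
  have hI : Integrable (c1t_F s) :=
    c1t_M_int.mono' (c1t_F_meas s).aestronglyMeasurable (.of_forall (c1t_F_le hs hs1))
  set S : O → Set (ℝ × ℝ) := fun y =>
    Ico (s * y.re) (s * (y.re + 1)) ×ˢ Ico (s * y.im) (s * (y.im + 1)) with hS
  have hfl : ∀ (u : ℝ) (a : ℤ), u ∈ Ico (s * a) (s * (a + 1)) ↔ ⌊u / s⌋ = a := fun u a => by
    rw [Int.floor_eq_iff, le_div_iff₀ hs, div_lt_iff₀ hs, mem_Ico, mul_comm s, mul_comm s]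
  have hmem : ∀ (p : ℝ × ℝ) (y : O), p ∈ S y ↔ ⌊p.1 / s⌋ = y.re ∧ ⌊p.2 / s⌋ = y.im := fun p y => by
    rw [hS, mem_prod, hfl, hfl]
  have hm : ∀ y, MeasurableSet (S y) := fun y => measurableSet_Ico.prod measurableSet_Ico
  have hU : ⋃ y, S y = univ :=
    eq_univ_of_forall fun p => mem_iUnion.2 ⟨⟨⌊p.1 / s⌋, ⌊p.2 / s⌋⟩, (hmem _ _).2 ⟨rfl, rfl⟩⟩
  have h1 := hasSum_integral_iUnion (μ := volume) (f := c1t_F s) hm (fun y y' hy =>
    Set.disjoint_left.2 fun p h h' => hy (QuadraticAlgebra.ext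
      (((hmem _ _).1 h).1.symm.trans ((hmem _ _).1 h').1)
      (((hmem _ _).1 h).2.symm.trans ((hmem _ _).1 h').2))) hI.integrableOn
  rw [hU, setIntegral_univ] at h1
  have h2 : ∀ y : O, ∫ p in S y, c1t_F s p = s ^ 2 * Phi ((s ^ 2 * Nr (1 + 3 * y)) ^ 3) := by
    intro y
    rw [setIntegral_congr_fun (g := fun _ => Phi ((s ^ 2 * Nr (1 + 3 * y)) ^ 3)) (hm y),
      setIntegral_const, smul_eq_mul]
    · congr 1
      rw [measureReal_def, hS, Measure.volume_eq_prod, Measure.prod_prod, Real.volume_Ico,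
        Real.volume_Ico, ENNReal.toReal_mul, ENNReal.toReal_ofReal (by linarith),
        ENNReal.toReal_ofReal (by linarith)]
      ring
    · intro p hp
      obtain ⟨e1, e2⟩ := (hmem p y).1 hp
      have e3 : (1 + 3 * y).re = 1 + 3 * y.re := by
        simp [QuadraticAlgebra.re_one, show (3 : O).re = 3 from rfl, show (3 : O).im = 0 from rfl]
      have e4 : (1 + 3 * y).im = 3 * y.im := by
        simp [QuadraticAlgebra.im_one, show (3 : O).re = 3 from rfl, show (3 : O).im = 0 from rfl]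
      simp only [c1t_F, c1t_G, e1, e2, b1_Nr_eq, nz, e3, e4]
      push_cast
      congr 1
      ring
  have hinj : Function.Injective fun y : O => 1 + 3 * y := fun y y' h =>
    mul_left_cancel₀ (show (3 : O) ≠ 0 by decide) (add_left_cancel h)
  rw [← h1.tsum_eq, lat, ← hinj.tsum_eq
    (f := fun j : O => if Prim j then Phi ((s ^ 2 * Nr j) ^ 3) else 0), ← tsum_mul_left]
  · refine tsum_congr fun y => ?_
    rw [h2, if_pos ⟨y, by ring⟩]
  · intro j hj
    have hP : Prim j := by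
      by_contra h
      exact hj (if_neg h)
    obtain ⟨y, hy⟩ := hP
    exact ⟨y, by simp only; rw [← hy]; ring⟩

theorem c1t_floor_lim (u : ℝ) : Tendsto (fun s : ℝ => s * ⌊u / s⌋) (𝓝[>] 0) (𝓝 u) := by
  have h : Tendsto (fun s : ℝ => u - s) (𝓝[>] 0) (𝓝 u) := by
    have : Tendsto (fun s : ℝ => u - s) (𝓝 0) (𝓝 (u - 0)) := tendsto_const_nhds.sub tendsto_id
    rw [sub_zero] at this
    exact this.mono_left nhdsWithin_le_nhds
  refine tendsto_of_tendsto_of_tendsto_of_le_of_le' h tendsto_const_nhds ?_ ?_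
  · filter_upwards [self_mem_nhdsWithin] with s hs using (c1t_floor hs u).1
  · filter_upwards [self_mem_nhdsWithin] with s hs using (c1t_floor hs u).2

/-- Riemann sums of `Φ(|z|⁶)` over the class `1 + 3 O` (dominated convergence on the tiling of `ℂ` by
the translates of a parallelogram), or Gauss circle asymptotics and partial summation, or
Karamata/Weierstrass from `poisson_per`.  The value of the limit is irrelevant. -/
theorem lat_lim : ∃ β₁ : ℝ, 0 < β₁ ∧ Tendsto lat (𝓝[>] 0) (𝓝 β₁) := by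
  have hc : Continuous fun p : ℝ × ℝ => c1t_G (3 * p.1) (3 * p.2) :=
    c1t_G_cont.comp (f := fun p : ℝ × ℝ => (3 * p.1, 3 * p.2)) (by fun_prop)
  refine ⟨∫ p : ℝ × ℝ, c1t_G (3 * p.1) (3 * p.2), integral_pos_of_integrable_nonneg_nonzero
    (x := 0) hc (c1t_M_int.mono' hc.aestronglyMeasurable
      (.of_forall fun p => c1t_G_le p (by simp) (by simp)))
    (fun p => (Phi_pos _).le) (Phi_pos _).ne', ?_⟩
  have h1 : ∀ᶠ s : ℝ in 𝓝[>] 0, s ∈ Ioc (0 : ℝ) 1 := Ioc_mem_nhdsGT one_pos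
  have h2 : Tendsto (fun s => ∫ p, c1t_F s p) (𝓝[>] 0)
      (𝓝 (∫ p : ℝ × ℝ, c1t_G (3 * p.1) (3 * p.2))) := by
    refine tendsto_integral_filter_of_dominated_convergence c1t_M
      (.of_forall fun s => (c1t_F_meas s).aestronglyMeasurable)
      (h1.mono fun s hs => .of_forall (c1t_F_le hs.1 hs.2)) c1t_M_int (.of_forall fun p => ?_)
    have h0 : Tendsto (fun s : ℝ => s) (𝓝[>] 0) (𝓝 0) := tendsto_id.mono_left nhdsWithin_le_nhds
    have h3 := (c1t_G_cont.tendsto (0 + 3 * p.1, 3 * p.2)).comp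
      ((h0.add ((c1t_floor_lim p.1).const_mul 3)).prodMk_nhds ((c1t_floor_lim p.2).const_mul 3))
    rw [zero_add] at h3
    refine h3.congr fun s => ?_
    simp only [Function.comp, c1t_F]
    congr 1 <;> ring
  have h3 : Tendsto Real.sqrt (𝓝[>] 0) (𝓝[>] 0) := by
    refine tendsto_nhdsWithin_iff.2 ⟨?_, ?_⟩
    · have := Real.continuous_sqrt.tendsto 0
      rw [Real.sqrt_zero] at this
      exact this.mono_left nhdsWithin_le_nhds
    · filter_upwards [self_mem_nhdsWithin] with x hx using Real.sqrt_pos.2 hx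
  refine (h2.comp h3).congr' ?_
  filter_upwards [h1] with x hx
  simp only [Function.comp]
  rw [c1t_int (Real.sqrt_pos.2 hx.1) (Real.sqrt_le_one.2 hx.2), Real.sq_sqrt hx.1.le]

end Crest.Agent.R017.Theta

end
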