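import Crest.Agent.R017.ThSym1

/-! # Row 17, cubic theta: Gauss sums -/

set_option autoImplicit false

noncomputable section

open scoped BigOperators ComplexConjugate Topology ENNReal
open Complex MeasureTheory Filter Set

namespace Crest.Agent.R017.Theta

theorem ga_nine : (9 : O) ≠ 0 := by norm_num

theorem ga_Nr_nine : Nr 9 = 81 := by
  have := Nr_natCast 9
  norm_num at this
  exact this

theorem ga_cop_nine {n : O} (hn : Prim n) : IsCoprime n 9 := by
  rw [show (9 : O) = 3 * 3 by norm_num]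
  exact (coprime_three_iff.2 hn.not_lam_dvd).mul_right (coprime_three_iff.2 hn.not_lam_dvd)

theorem ga_gs_zero (f : O → ℂ) (n : O) : gs f n 0 = ∑ x ∈ reps n, f x :=
  Finset.sum_congr rfl fun x _ => by rw [eO_of_dvd (by simp), mul_one]

open Classical in
theorem ga_one {n : O} (hn : n ≠ 0) (a : O) :
    ∑ x ∈ reps n, (if n ∣ x - a then (1 : ℂ) else 0) = 1 := by
  obtain ⟨x, ⟨hx, hx'⟩, hu⟩ := reps_existsUnique hn a
  rw [Finset.sum_eq_single_of_mem x hx fun y hy hne => if_neg fun h => hne (hu y ⟨hy, h⟩),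
    if_pos hx']

theorem ga_tower_zero {n k : O} {f : O → ℂ} (hn : n ≠ 0) (hk : k ≠ 0)
    (hf : ∀ x y, n ∣ x - y → f x = f y) : gs f (n * k) 0 = (Nr k : ℂ) * gs f n 0 := by
  rw [gs_tower hn hk hf, if_pos (dvd_zero _), EuclideanDomain.zero_div]

open Classical in
theorem ga_kap_cube {j : O} (hj : Prim j) (x : O) :
    kap (j ^ 3) x = if IsCoprime j x then 1 else 0 := by
  rw [kap_pow_left hj.ne_zero]
  split_ifs with h
  · exact kap_cube (r3_kap_ne hj h)
  · rw [(kap_eq_zero hj.ne_zero).2 (Or.inr h)]; norm_num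

open Classical in
theorem ga_kap_cube_prime {p : O} (hp : Prime p) (hp' : Prim p) :
    kap (p ^ 3) = fun x => if p ∣ x then 0 else 1 := by
  funext x
  rw [ga_kap_cube hp']
  by_cases h : p ∣ x
  · rw [if_pos h, if_neg fun h' => hp.coprime_iff_not_dvd.1 h' h]
  · rw [if_neg h, if_pos (hp.coprime_iff_not_dvd.2 h)]

theorem ga_per {p : O} (hp : p ≠ 0) (k : ℕ) : ∀ x y, p ∣ x - y → kap (p ^ k) x = kap (p ^ k) y :=
  fun x y h => by rw [kap_pow_left hp, kap_pow_left hp, kap_congr' hp h]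

theorem ga_cf {B : O × O → ℂ} (hB : Per B) {n c : O} (hn : Prim n) (h : IsCoprime n c) (x y : O) :
    cf B (n * c, n * x * n + y * (9 * c)) = kap n 9 * kap n y * cf (Op n B) (c, x) := by
  have e1 : n * x * n + y * (9 * c) = n * (n * x) + c * (9 * y) := by ring
  have hcop : IsCoprime c (n * x * n + y * (9 * c)) ↔ IsCoprime c x := by
    rw [e1, IsCoprime.add_mul_left_right_iff, IsCoprime.mul_right_iff, IsCoprime.mul_right_iff]
    exact ⟨fun h' => h'.2.2, fun h' => ⟨h.symm, h.symm, h'⟩⟩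
  by_cases hx : IsCoprime c x
  · have hd := hcop.2 hx
    have h1 := sym_mul_left hn hd
    have h2 : cf B (n * c, n * x * n + y * (9 * c)) =
        B (n * c, n * x * n + y * (9 * c)) * sym (n * c) (n * x * n + y * (9 * c)) := by
      unfold cf
      split_ifs with hc
      · rfl
      · rw [h1, (kap_eq_zero hn.ne_zero).2 (Or.inr fun h' => hc (h'.mul_left hd))]
        simp
    have h3 : B (n * c, n * x * n + y * (9 * c)) = B (n * c, n ^ 2 * x) :=
      hB.wt.per _ _ _ ⟨y * c, by ring⟩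
    have h4 : kap n (n * x * n + y * (9 * c)) = kap n 9 * kap n y * kap n c := by
      rw [← kap_mul_right, ← kap_mul_right]
      exact kap_congr' hn.ne_zero ⟨x * n, by ring⟩
    have h5 : rc n (n * x * n + y * (9 * c)) = rc n x := by
      rw [rc, rc, un_congr (y := n * (n * x)) ⟨3 * y * c, by ring⟩, un_prim_mul hn, un_prim_mul hn]
    have h6 : rc' n (c, n * x) = rc' n (c, x) := by
      have : lam ∣ n * x ↔ lam ∣ x := by
        rw [prime_lam.dvd_mul, or_iff_right hn.not_lam_dvd]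
      unfold rc'
      by_cases h' : lam ∣ x
      · rw [if_pos h', if_pos (this.2 h')]
      · rw [if_neg h', if_neg fun h'' => h' (this.1 h'')]
    have h7 : sym c (n * x * n + y * (9 * c)) = kap n c ^ 2 * rc' n (c, x) ^ 2 * sym c x := by
      rw [sym_per (d' := n * (n * x)) ⟨y * c, by ring⟩ ⟨9 * y, by ring⟩,
        sym_mul_right hn (h.symm.mul_right hx), sym_mul_right hn hx, h6]
      ring
    have h8 := kap_cube (r3_kap_ne hn h)
    rw [h2, h1, h3, h4, h5, h7, cf, if_pos (show Cop (c, x) from hx)]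
    simp only [Op, sy]
    linear_combination
      (kap n 9 * kap n y * B (n * c, n ^ 2 * x) * rc n x * rc' n (c, x) ^ 2 * sym c x) * h8
  · unfold cf
    rw [if_neg (show ¬ Cop (c, x) from hx), mul_zero, if_neg]
    exact fun h' => hx (hcop.1 (IsCoprime.of_mul_left_right h'))

theorem norm_Ac_le {B : O × O → ℂ} (hB : ∀ x, ‖B x‖ ≤ 1) (c h : O) : ‖Ac B c h‖ ≤ 81 * Nr c := by
  rcases eq_or_ne c 0 with rfl | hc
  · have : Ac B 0 h = 0 := by
      refine Finset.sum_eq_zero fun x hx => ?_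
      rw [mul_zero, reps, Finset.mem_filter, Nr_zero, box_eq_empty zero_lt_one] at hx
      have hx0 : x = 0 := by simpa using hx.1
      have h0 : cf B (0, 0) = 0 := if_neg not_isCoprime_zero_zero
      rw [hx0]
      exact mul_eq_zero_of_left h0 _
    rw [this, norm_zero, Nr_zero, mul_zero]
  · have := norm_gs_le (mul_ne_zero ga_nine hc) (f := fun d => cf B (c, d))
      (fun x => norm_cf_le hB _) h
    rwa [Nr_mul, ga_Nr_nine] at this
theorem pg_Ac {B : O × O → ℂ} (hB : ∀ x, ‖B x‖ ≤ 1) (h : O) : PG (fun c => Ac B c h) := ⟨81, fun c => norm_Ac_le hB c h⟩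
open Classical in
theorem Ac_Bp (p : O) (B : O × O → ℂ) (c h : O) :
    Ac (Bp p B) c h = if p ∣ c then Ac B c h else 0 := by
  by_cases hp : p ∣ c
  · simp only [Ac, cf, Bp, hp, if_true]
  · simp [Ac, cf, Bp, hp, gs]
/-- Twisted multiplicativity: `d = n² d₁ + 9 c d₂`, `d₁ mod 9 c`, `d₂ mod n`
(`sum_reps_crt`, `sum_reps_affine`, `sym_mul_left`, `sym_per`, `sym_mul_right` twice). -/
theorem Ac_mul {B : O × O → ℂ} (hB : Per B) {n c : O} (hn : Prim n) (hc : c ≠ 0)
    (h : IsCoprime n c) (r : O) :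
    Ac B (n * c) r = kap n 9 * gs (kap n) n r * Ac (Op n B) c (n * r) := by
  have h9 : 9 * c ≠ 0 := mul_ne_zero ga_nine hc
  have hcop : IsCoprime n (9 * c) := (ga_cop_nine hn).mul_right h
  have hper : ∀ x y, 9 * c * n ∣ x - y → cf B (n * c, x) * eO (r * x) (9 * c * n) =
      cf B (n * c, y) * eO (r * y) (9 * c * n) :=
    g1_per (n := 9 * c * n) (fun x y hxy => hB.wt.cf_per (by rwa [mul_comm n, ← mul_assoc])
      (mul_ne_zero hn.ne_zero hc)) dvd_rfl r
  rw [Ac, show 9 * (n * c) = 9 * c * n by ring, gs, sum_reps_crt h9 hn.ne_zero hcop.symm _ hper,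
    ← sum_reps_affine h9 _ (fun x x' hx => Finset.sum_congr rfl fun y _ => hper _ _ (by
      rw [add_sub_add_right_eq_sub, ← sub_mul]; exact mul_dvd_mul_right hx n)) hcop 0,
    Ac, gs, gs, mul_assoc (kap n 9), Finset.sum_mul_sum, Finset.sum_comm, Finset.mul_sum]
  refine Finset.sum_congr rfl fun y _ => ?_
  rw [Finset.mul_sum]
  refine Finset.sum_congr rfl fun x _ => ?_
  rw [add_zero, ga_cf hB hn h, mul_add, eO_add,
    show r * (n * x * n) = n * (n * r * x) by ring, mul_comm (9 * c) n, eO_mul_cancel hn.ne_zero,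
    show r * (y * (9 * c)) = 9 * c * (r * y) by ring, mul_comm n (9 * c), eO_mul_cancel h9]
  ring
/-- Periodicity: substitute `d ↦ n³ d`. -/
theorem Ac_cube {B : O × O → ℂ} (hB : Per B) {n c : O} (hn : Prim n) (hc : c ≠ 0)
    (h : IsCoprime n c) (r : O) : Ac B c (n ^ 3 * r) = Ac B c r := by
  have h9 : 9 * c ≠ 0 := mul_ne_zero ga_nine hc
  have hcop : IsCoprime (n ^ 3) (9 * c) := ((ga_cop_nine hn).mul_right h).pow_left
  have key : ∀ d, cf B (c, n ^ 3 * d) = cf B (c, d) := fun d => by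
    by_cases hd : IsCoprime c d
    · have h1 : rc' (n ^ 3) (c, d) = 1 := by
        have := rc'_cube hn.not_lam_dvd (c, d)
        unfold rc' rc at this ⊢
        split_ifs at this ⊢
        · rwa [kap_pow_left hn.ne_zero, map_pow]
        · rfl
      rw [cf, cf, if_pos (show Cop (c, d) from hd),
        if_pos (show Cop (c, n ^ 3 * d) from h.symm.pow_right.mul_right hd),
        hB.wt.per c (n ^ 3 * d) d (by
          rw [show n ^ 3 * d - d = (n ^ 3 - 1) * d by ring]; exact (prim_cube_nine hn).mul_right d)]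
      simp only [sy]
      rw [sym_mul_right (hn.pow 3) hd, h1, ga_kap_cube hn, if_pos h, one_mul, one_mul]
    · rw [cf, cf, if_neg (show ¬ Cop (c, d) from hd), if_neg]
      exact fun h' => hd (IsCoprime.of_mul_right_right h')
  rw [Ac, Ac, gs, gs, ← sum_reps_affine h9 (fun x => cf B (c, x) * eO (r * x) (9 * c))
    (g1_per (fun x y hxy => hB.wt.cf_per hxy hc) dvd_rfl r) hcop 0]
  refine Finset.sum_congr rfl fun x _ => ?_
  rw [add_zero, key, show r * (n ^ 3 * x) = n ^ 3 * r * x by ring]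
theorem gs_kap_one (r : O) : gs (kap 1) 1 r = 1 := by
  rw [gs_congr (h' := 0) (one_dvd _), ga_gs_zero,
    Finset.sum_congr rfl fun x _ => kap_unit_left isUnit_one x, Finset.sum_const,
    card_reps one_ne_zero, a4_nm_unit.1 isUnit_one, one_smul]
theorem gs_kap_prime {p r : O} (hp : Prime p) (hp' : Prim p) :
    gs (kap p) p r = conj (kap p r) * g3 p * (Real.sqrt (Nr p) : ℂ) := by
  have h := gs_kap_pow hp'.not_lam_dvd hp.squarefree (k := 1) (by norm_num) r
  simp only [pow_one] at h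
  have h0 : (Real.sqrt (Nr p) : ℂ) ≠ 0 := by
    exact_mod_cast (Real.sqrt_pos.2 (Nr_pos hp.ne_zero)).ne'
  rw [g3, mul_assoc, div_mul_cancel₀ _ h0]
  exact h
/-- `gs_tower` with `n = p`, `k = p^(k-1)`. -/
theorem gs_kap_pow_of_not_dvd {p r : O} (hp : Prime p) {k : ℕ} (h : ¬ p ^ k ∣ r) :
    gs (kap (p ^ (k + 1))) (p ^ (k + 1)) r = 0 := by
  have := gs_tower hp.ne_zero (pow_ne_zero k hp.ne_zero) (ga_per hp.ne_zero (k + 1)) r
  rwa [if_neg h, ← pow_succ'] at this
theorem gs_kap_one_sq {p r : O} (hp : Prime p) (hp' : Prim p) : gs (kap p) p (p ^ 2 * r) = 0 := by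
  rw [gs_kap_prime hp hp', (kap_eq_zero hp.ne_zero).2 (Or.inr fun h =>
    hp.coprime_iff_not_dvd.1 h ⟨p * r, by ring⟩)]
  simp
theorem gs_kap_two_sq {p r : O} (hp : Prime p) (hp' : Prim p) :
    gs (kap (p ^ 2)) (p ^ 2) (p ^ 2 * r) = 0 := by
  have h := gs_tower hp.ne_zero hp.ne_zero (ga_per hp.ne_zero 2) (p * (p * r))
  rw [if_pos (dvd_mul_right _ _), mul_div_cancel_left₀ _ hp.ne_zero, ← mul_assoc, ← sq] at h
  have e : kap (p ^ 2) = fun x => kap p x ^ 2 := funext (kap_pow_left hp.ne_zero 2)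
  rw [h, e, gs_kap_pow hp'.not_lam_dvd hp.squarefree (k := 2) (by norm_num),
    (kap_eq_zero hp.ne_zero).2 (Or.inr fun h => hp.coprime_iff_not_dvd.1 h (dvd_mul_right _ _))]
  simp
theorem gs_kap_three_sq {p r : O} (hp : Prime p) (hp' : Prim p) (hr : ¬ p ∣ r) :
    gs (kap (p ^ 3)) (p ^ 3) (p ^ 2 * r) = -(Nr p : ℂ) ^ 2 := by
  have h := gs_tower hp.ne_zero (pow_ne_zero 2 hp.ne_zero) (ga_per hp.ne_zero 3) (p ^ 2 * r)
  rw [if_pos (dvd_mul_right _ _), mul_div_cancel_left₀ _ (pow_ne_zero 2 hp.ne_zero),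
    ← pow_succ'] at h
  have h2 := gs_coprime_prime hp r
  rw [if_neg hr] at h2
  rw [h, ga_kap_cube_prime hp hp', Nr_pow]
  push_cast
  rw [← mul_neg_one ((Nr p : ℂ) ^ 2)]
  congr 1
/-- The complete sum of a cubic symbol. -/
theorem gs_kap_zero_cube {j : O} (hj : Prim j) :
    gs (kap (j ^ 3)) (j ^ 3) 0 = (Nr j : ℂ) ^ 3 * ph j := by
  classical
  rw [ga_gs_zero, ph, Finset.mul_sum]
  simp only [ga_kap_cube hj, ← sum_pdiv_mu_dvd hj]
  rw [Finset.sum_comm]
  refine Finset.sum_congr rfl fun e he => ?_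
  obtain ⟨he1, k, hk⟩ := (mem_pdiv hj.ne_zero).1 he
  have hk0 : k * j ^ 2 ≠ 0 := mul_ne_zero (fun h => hj.ne_zero (by rw [hk, h, mul_zero]))
    (pow_ne_zero 2 hj.ne_zero)
  have e3 : j ^ 3 = e * (k * j ^ 2) := by rw [← mul_assoc, ← hk]; ring
  have h1 := ga_tower_zero (f := fun x => if e ∣ x - 0 then 1 else 0) he1.ne_zero hk0
    (fun x y h => by rw [sub_zero, sub_zero, dvd_iff_dvd_of_dvd_sub h])
  rw [ga_gs_zero, ga_gs_zero, ← e3] at h1
  have h2 := ga_one he1.ne_zero 0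
  have h3 : (Nr e : ℂ) ≠ 0 := by exact_mod_cast (Nr_pos he1.ne_zero).ne'
  have h4 : (Nr j : ℂ) ^ 3 = Nr e * Nr (k * j ^ 2) := by
    rw [← ofReal_mul, ← Nr_mul, ← e3, Nr_pow, ofReal_pow]
  calc _ = mu e * ∑ x ∈ reps (j ^ 3), (if e ∣ x - 0 then (1 : ℂ) else 0) := by
        rw [Finset.mul_sum]
        refine Finset.sum_congr rfl fun x _ => ?_
        rw [sub_zero, mul_ite, mul_one, mul_zero]
    _ = mu e * Nr (k * j ^ 2) := by
        rw [h1]
        congr 1
        rw [← mul_one (Nr (k * j ^ 2) : ℂ), mul_assoc, one_mul]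
        congr 1
    _ = _ := by rw [h4]; field_simp
theorem gs_kap_zero_of_not_cube {n : O} (hn : Prim n) (h : ¬ ∃ j : O, Prim j ∧ n = j ^ 3) :
    gs (kap n) n 0 = 0 := by
  obtain ⟨p, hp, hv⟩ : ∃ p : O, Prime p ∧ ¬ 3 ∣ multiplicity p n := by
    by_contra hc
    push Not at hc
    obtain ⟨m, hm0, hm, hm'⟩ := a3_build hn.ne_zero 1 (fun k _ => k / 3) (fun _ => rfl)
    refine h ⟨m, hm hn, a3_ext hn ((hm hn).pow 3) fun q hq => ?_⟩
    rw [a3_pow hq hm0, hm' q hq, Nat.mul_div_cancel' (hc q hq)]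
  obtain ⟨m, hm⟩ := (a3_pow_dvd hp hn.ne_zero _).2 (le_refl (multiplicity p n))
  have hpm : ¬ p ∣ m := fun ⟨k, hk⟩ => by
    have := (a3_pow_dvd hp hn.ne_zero (multiplicity p n + 1)).1
      ⟨k, by rw [pow_succ, mul_assoc, ← hk]; exact hm⟩
    omega
  generalize multiplicity p n = v at hv hm
  have hv0 : v ≠ 0 := fun h => hv (h ▸ dvd_zero 3)
  have hm0 : m ≠ 0 := fun h => hpm (h ▸ dvd_zero p)
  have hl : ¬ lam ∣ p := fun h =>
    hn.not_lam_dvd (hm ▸ (h.trans (dvd_pow_self p hv0)).mul_right m)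
  have hl' : ¬ lam ∣ m := fun h => hn.not_lam_dvd (hm ▸ h.mul_left _)
  obtain ⟨x, hx⟩ := kap_nontrivial hp hl
  obtain ⟨a, b, hab⟩ := hp.coprime_iff_not_dvd.2 hpm
  have hu : kap n (x * b * m + a * p) = omC ^ v := by
    rw [hm, kap_mul_left (pow_ne_zero _ hp.ne_zero) hm0, kap_pow_left hp.ne_zero,
      kap_congr' hp.ne_zero (y := x) ⟨a - x * a, by linear_combination x * hab⟩, hx,
      kap_congr' hm0 (y := 1) ⟨x * b - b, by linear_combination hab⟩, kap_one_right hl', mul_one]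
  have hcop : IsCoprime n (x * b * m + a * p) := by
    by_contra hc
    exact (g2_omC_pow hv).1 (hu ▸ (kap_eq_zero hn.ne_zero).2 (Or.inr hc))
  have H := (homog_kap_pow hn.not_lam_dvd 1).gs_mul hn.ne_zero hcop.symm 0
  simp only [pow_one, mul_zero, hu] at H
  have hne : conj (omC ^ v) ≠ 1 := fun h => (g2_omC_pow hv).2 (by
    have := congrArg conj h
    rwa [conj_conj, map_one] at this)
  by_contra h0
  exact hne (mul_right_cancel₀ h0 (H.symm.trans (one_mul _).symm))
theorem norm_ph_le {j : O} (hj : Prim j) : ‖ph j‖ ≤ 1 := by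
  have h := norm_gs_le (pow_ne_zero 3 hj.ne_zero) (norm_kap_le (j ^ 3)) 0
  have h0 := Nr_pos hj.ne_zero
  rw [gs_kap_zero_cube hj, norm_mul, norm_pow, Complex.norm_real, Real.norm_of_nonneg h0.le,
    Nr_pow] at h
  exact (mul_le_iff_le_one_right (pow_pos h0 3)).1 h
open Classical in
theorem ph_prime_mul {p j : O} (hp : Prime p) (hp' : Prim p) (hj : Prim j) :
    ph (p * j) = if p ∣ j then ph j else (1 - (Nr p : ℂ)⁻¹) * ph j := by
  have h0 : (Nr p : ℂ) ≠ 0 := by exact_mod_cast (Nr_pos hp.ne_zero).ne'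
  have h1 : (Nr j : ℂ) ≠ 0 := by exact_mod_cast (Nr_pos hj.ne_zero).ne'
  have h := gs_kap_zero_cube (hp'.mul hj)
  rw [Nr_mul, ofReal_mul] at h
  refine mul_left_cancel₀ (pow_ne_zero 3 (mul_ne_zero h0 h1)) ?_
  rw [← h]
  split_ifs with hd
  · have e : kap ((p * j) ^ 3) = kap (j ^ 3) := by
      funext x
      rw [ga_kap_cube (hp'.mul hj), ga_kap_cube hj, IsCoprime.mul_left_iff,
        and_iff_right_of_imp fun h => h.of_isCoprime_of_dvd_left hd]
    rw [e, mul_pow, mul_comm (p ^ 3), ga_tower_zero (pow_ne_zero 3 hj.ne_zero)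
      (pow_ne_zero 3 hp.ne_zero) (fun x y h => kap_congr' (pow_ne_zero 3 hj.ne_zero) h),
      gs_kap_zero_cube hj, Nr_pow]
    push_cast
    ring
  · have hc := hp.coprime_iff_not_dvd.2 hd
    have H := gs_mul_coprime (pow_ne_zero 3 hp.ne_zero) (pow_ne_zero 3 hj.ne_zero)
      (hc.pow (m := 3) (n := 3)) (homog_kap_pow (hp'.pow 3).not_lam_dvd 1)
      (homog_kap_pow (hj.pow 3).not_lam_dvd 1) 0
    simp only [pow_one] at H
    have e : kap (p ^ 3 * j ^ 3) = fun x => kap (p ^ 3) x * kap (j ^ 3) x :=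
      funext (kap_mul_left (pow_ne_zero 3 hp.ne_zero) (pow_ne_zero 3 hj.ne_zero))
    have h2 := ga_tower_zero hp.ne_zero (pow_ne_zero 2 hp.ne_zero) (ga_per hp.ne_zero 3)
    have h3 : gs (kap (p ^ 3)) p 0 = (Nr p : ℂ) - 1 := by
      have := gs_coprime_prime hp 0
      rw [if_pos (dvd_zero p)] at this
      rw [ga_kap_cube_prime hp hp']
      convert this
    rw [← pow_succ', h3, Nr_pow] at h2
    rw [mul_pow, e, H, ga_kap_cube hp', ga_kap_cube hj, if_pos hc.pow_right,
      if_pos hc.symm.pow_right]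
    change 1 * 1 * gs (kap (p ^ 3)) (p ^ 3) 0 * gs (kap (j ^ 3)) (j ^ 3) 0 = _
    rw [h2, gs_kap_zero_cube hj]
    push_cast
    field_simp
open Classical in
/-- The constant term of the class `(0,1)`: for `d ≡ 1 mod 9`, `(u λ^k n / d) = (d / n)`. -/
theorem Ac_Be (P : O) {u n : O} (hu : IsUnit u) (k : ℕ) (hn : Prim n) :
    Ac (Be P) (u * lam ^ k * n) 0 =
      if 4 ≤ k ∧ P ∣ u * lam ^ k * n then (3 : ℂ) ^ k * gs (kap n) n 0 else 0 := by
  have h9 : (9 : O) ∣ u * lam ^ k * n ↔ 4 ≤ k := by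
    have ha : Associated (lam ^ 4) (9 : O) := by
      have := associated_lam_sq.mul_mul associated_lam_sq
      rwa [← pow_add, show (3 : O) * 3 = 9 by norm_num] at this
    rw [← ha.dvd_iff_dvd_left, mul_assoc, hu.dvd_mul_left,
      ← pow_dvd_pow_iff prime_lam.ne_zero prime_lam.not_isUnit]
    exact ⟨(prime_lam.coprime_iff_not_dvd.2 hn.not_lam_dvd).pow_left.dvd_of_dvd_mul_right,
      fun h => h.mul_right n⟩
  rw [Ac, ga_gs_zero]
  split_ifs with hk
  · have key : ∀ d, cf (Be P) (u * lam ^ k * n, d) =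
        (if (9 : O) ∣ d - 1 then 1 else 0) * kap n d := fun d => by
      by_cases hd : (9 : O) ∣ d - 1
      · have hd' := r1_prim_of_nine hd
        have h1 : kap d (u * lam ^ k * n) = kap n d := by
          rw [kap_mul_right, kap_mul_right, kap_pow_right _ _ (by omega), r1_lam_one hd,
            kap_unit_per hu hd'.not_lam_dvd hd, kap_unit_left isUnit_one, cubic_recip hd' hn,
            one_pow, one_mul, one_mul]
        have h2 : Be P (u * lam ^ k * n, d) = 1 :=
          if_pos ⟨⟨by simpa [e1] using h9.2 hk.1, hd⟩, hk.2⟩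
        rw [if_pos hd, one_mul, ← h1, cf]
        split_ifs with hc
        · rw [h2, one_mul, sy, sym, if_neg hd'.not_lam_dvd]
        · exact ((kap_eq_zero hd'.ne_zero).2 (Or.inr fun h => hc h.symm)).symm
      · have h2 : Be P (u * lam ^ k * n, d) = 0 := if_neg fun h => hd h.1.2
        rw [if_neg hd, cf, h2]
        simp
    have hper : ∀ x y, 9 * n ∣ x - y → (if (9 : O) ∣ x - 1 then (1 : ℂ) else 0) * kap n x =
        (if (9 : O) ∣ y - 1 then 1 else 0) * kap n y := fun x y h => by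
      rw [kap_congr' hn.ne_zero ((dvd_mul_left n 9).trans h),
        dvd_iff_dvd_of_dvd_sub (a := 9) (b := x - 1) (c := y - 1) (by
          rw [sub_sub_sub_cancel_right]; exact (dvd_mul_right 9 n).trans h)]
    have h1 := ga_tower_zero (mul_ne_zero ga_nine hn.ne_zero)
      (mul_ne_zero hu.ne_zero (pow_ne_zero k prime_lam.ne_zero)) hper
    rw [ga_gs_zero, ga_gs_zero, Nr_mul, isUnit_iff_Nr.1 hu, Nr_pow, Nr_lam, one_mul,
      sum_reps_crt ga_nine hn.ne_zero (ga_cop_nine hn).symm _ hper] at h1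
    rw [Finset.sum_congr rfl fun d _ => key d,
      show 9 * (u * lam ^ k * n) = 9 * n * (u * lam ^ k) by ring, h1]
    push_cast
    congr 1
    have h2 := sum_reps_affine ga_nine (fun x => if (9 : O) ∣ x - 1 then (1 : ℂ) else 0)
      (fun x y h => by
        rw [dvd_iff_dvd_of_dvd_sub (a := 9) (b := x - 1) (c := y - 1) (by
          rwa [sub_sub_sub_cancel_right])]) (ga_cop_nine hn) 0
    have h3 := sum_reps_affine hn.ne_zero (kap n) (fun x y h => kap_congr' hn.ne_zero h)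
      (ga_cop_nine hn).symm 0
    have h4 : ∑ x ∈ reps 9, (if (9 : O) ∣ x - 1 then (1 : ℂ) else 0) = 1 := by
      convert ga_one ga_nine 1
    have h5 : gs (kap n) n 0 = (∑ x ∈ reps 9, if (9 : O) ∣ n * x + 0 - 1 then (1 : ℂ) else 0) *
        ∑ x ∈ reps n, kap n (9 * x + 0) := by rw [h2, h3, h4, one_mul, ga_gs_zero]
    rw [h5, Finset.sum_mul_sum]
    refine Finset.sum_congr rfl fun x _ => Finset.sum_congr rfl fun y _ => ?_
    rw [kap_congr' hn.ne_zero (y := 9 * y + 0) ⟨x, by ring⟩,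
      dvd_iff_dvd_of_dvd_sub (a := 9) (b := x * n + y * 9 - 1) (c := n * x + 0 - 1) ⟨y, by ring⟩]
  · refine Finset.sum_eq_zero fun d _ => ?_
    have h2 : Be P (u * lam ^ k * n, d) = 0 :=
      if_neg fun h => hk ⟨h9.1 (by simpa [e1] using h.1.1), h.2⟩
    rw [cf, h2]
    simp

end Crest.Agent.R017.Theta

end
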