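import Crest.Agent.R017.ThCnt1
import Crest.Agent.R017.ThGauss
import Crest.Agent.R017.LFun

/-! # Row 17, cubic theta: sums over cubes -/

set_option autoImplicit false

noncomputable section

open scoped BigOperators ComplexConjugate Topology ENNReal
open Complex MeasureTheory Filter Set

namespace Crest.Agent.R017.Theta

open Classical in
theorem c2t_norm_term (P : O) (x : ℝ) (j : O) :
    ‖(if Prim j ∧ P ∣ j then ph j * (Phi ((x * Nr j) ^ 3) : ℂ) else 0)‖ ≤
      if Prim j then Phi ((x * Nr j) ^ 3) else 0 := by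
  by_cases h : Prim j ∧ P ∣ j
  · rw [if_pos h, if_pos h.1, norm_mul, Complex.norm_real, Real.norm_of_nonneg (Phi_pos _).le]
    exact mul_le_of_le_one_left (Phi_pos _).le (norm_ph_le h.1)
  · rw [if_neg h, norm_zero]
    split_ifs
    · exact (Phi_pos _).le
    · exact le_rfl

open Classical in
theorem c2t_summable (P : O) {x : ℝ} (hx : 0 < x) :
    Summable (fun j : O => if Prim j ∧ P ∣ j then ph j * (Phi ((x * Nr j) ^ 3) : ℂ) else 0) :=
  Summable.of_norm_bounded (summable_lat hx) (c2t_norm_term P x)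

open Classical in
/-- Dirichlet convolution over primary elements, general form. -/
theorem c2t_conv (G : O → O → ℂ)
    (hG : Summable (fun z : O × O => if Prim z.1 ∧ Prim z.2 then G z.1 z.2 else 0)) :
    ∑' z : O × O, (if Prim z.1 ∧ Prim z.2 then G z.1 z.2 else 0) =
      ∑' n : O, if Prim n then ∑ d ∈ pdiv n, G d (n / d) else 0 := by
  have hs := hG.hasSum.tsum_fiberwise (fun z : O × O => z.1 * z.2)
  rw [← hs.tsum_eq]
  refine tsum_congr fun n => ?_
  rw [tsum_subtype ((fun z : O × O => z.1 * z.2) ⁻¹' {n}) (fun z : O × O =>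
    if Prim z.1 ∧ Prim z.2 then G z.1 z.2 else 0)]
  by_cases hn : Prim n
  · rw [if_pos hn, tsum_eq_sum (s := (pdiv n).image (fun d => (d, n / d)))]
    · rw [Finset.sum_image (fun a _ b _ h => congrArg Prod.fst h)]
      refine Finset.sum_congr rfl fun d hd => ?_
      obtain ⟨hd1, m, rfl⟩ := (mem_pdiv hn.ne_zero).1 hd
      have hm : Prim m := hd1.of_mul hn
      rw [mul_div_cancel_left₀ m hd1.ne_zero, Set.indicator_of_mem (by simp), if_pos ⟨hd1, hm⟩]
    · rintro ⟨a, b⟩ hab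
      by_cases h1 : a * b = n
      · rw [Set.indicator_of_mem (by simpa using h1)]
        by_cases ha : Prim a
        · exfalso
          refine hab (Finset.mem_image.2 ⟨a, (mem_pdiv hn.ne_zero).2 ⟨ha, b, h1.symm⟩, ?_⟩)
          rw [← h1, mul_div_cancel_left₀ b ha.ne_zero]
        · simp [ha]
      · exact Set.indicator_of_notMem (by simpa using h1) _
  · rw [if_neg hn]
    refine (tsum_congr fun z => ?_).trans tsum_zero
    by_cases h1 : z.1 * z.2 = n
    · rw [Set.indicator_of_mem (by simpa using h1)]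
      exact if_neg fun h => hn (h1 ▸ h.1.mul h.2)
    · exact Set.indicator_of_notMem (by simpa using h1) _

theorem c2t_scale {N : ℝ} (hN : 0 < N) :
    Tendsto (fun x : ℝ => x * N) (𝓝[>] 0) (𝓝[>] 0) := by
  refine tendsto_nhdsWithin_iff.2 ⟨?_, ?_⟩
  · have h : Tendsto (fun x : ℝ => x * N) (𝓝 0) (𝓝 (0 * N)) :=
      (continuous_id.mul continuous_const).tendsto 0
    rw [zero_mul] at h
    exact h.mono_left nhdsWithin_le_nhds
  · filter_upwards [self_mem_nhdsWithin] with x hx
    exact mul_pos hx hN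

theorem c2t_sq (e : O) : Nr e ^ (-(2 : ℝ)) = (Nr e ^ 2)⁻¹ := by
  rw [Real.rpow_neg (Nr_nonneg e), Real.rpow_two]

open Classical in
theorem c2t_summable_prod {x : ℝ} (hx : 0 < x) :
    Summable (fun z : O × O => if Prim z.1 ∧ Prim z.2 then
      mu z.1 / (Nr z.1 : ℂ) * (Phi ((x * Nr z.1 * Nr z.2) ^ 3) : ℂ) else 0) := by
  obtain ⟨C, hC⟩ := lat_le
  have hC0 : 0 ≤ C := (lat_nonneg one_pos).trans (hC 1 one_pos)
  set g : O × O → ℝ := fun z => if Prim z.1 then
    (Nr z.1)⁻¹ * (if Prim z.2 then Phi ((x * Nr z.1 * Nr z.2) ^ 3) else 0) else 0 with hg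
  have hg0 : 0 ≤ g := by
    intro z
    simp only [hg, Pi.zero_apply]
    have := Nr_nonneg z.1
    have := Phi_pos ((x * Nr z.1 * Nr z.2) ^ 3)
    split_ifs <;> positivity
  have hgs : Summable g := by
    refine (summable_prod_of_nonneg hg0).2 ⟨fun e => ?_, ?_⟩
    · by_cases he : Prim e
      · simp only [hg, if_pos he]
        exact (summable_lat (mul_pos hx (Nr_pos he.ne_zero))).mul_left _
      · simp only [hg, if_neg he]
        exact summable_zero
    · refine Summable.of_nonneg_of_le (fun e => tsum_nonneg fun j => hg0 (e, j)) (fun e => ?_)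
        ((summable_Nr_rpow (σ := 2) one_lt_two).mul_left (C / x))
      by_cases he : Prim e
      · simp only [hg, if_pos he]
        have h1 := Nr_pos he.ne_zero
        have h2 := hC _ (mul_pos hx h1)
        unfold lat at h2
        rw [tsum_mul_left, c2t_sq]
        set S := ∑' j : O, if Prim j then Phi ((x * Nr e * Nr j) ^ 3) else 0
        have h3 : S ≤ C / (x * Nr e) := by
          rw [le_div_iff₀ (mul_pos hx h1)]; linarith
        calc (Nr e)⁻¹ * S ≤ (Nr e)⁻¹ * (C / (x * Nr e)) :=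
              mul_le_mul_of_nonneg_left h3 (by positivity)
          _ = C / x * (Nr e ^ 2)⁻¹ := by field_simp
      · simp only [hg, if_neg he, tsum_zero]
        have := Nr_nonneg e
        positivity
  refine Summable.of_norm_bounded hgs fun z => ?_
  by_cases h : Prim z.1 ∧ Prim z.2
  · simp only [hg, if_pos h, if_pos h.1, if_pos h.2]
    rw [norm_mul, norm_div, Complex.norm_real, Complex.norm_real,
      Real.norm_of_nonneg (Phi_pos _).le, Real.norm_of_nonneg (Nr_nonneg _), div_eq_mul_inv]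
    refine mul_le_mul_of_nonneg_right ?_ (Phi_pos _).le
    exact mul_le_of_le_one_left (inv_nonneg.2 (Nr_nonneg _)) (norm_mu_le _)
  · rw [if_neg h, norm_zero]
    exact hg0 z

theorem norm_beta_le : ∃ C : ℝ, ∀ (P : O) (x : ℝ), 0 < x → ‖beta P x‖ ≤ C := by
  classical
  obtain ⟨C, hC⟩ := lat_le
  refine ⟨C, fun P x hx => le_trans ?_ (hC x hx)⟩
  unfold beta lat
  rw [norm_mul, Complex.norm_real, Real.norm_of_nonneg hx.le]
  exact mul_le_mul_of_nonneg_left
    (tsum_of_norm_bounded (summable_lat hx).hasSum (c2t_norm_term P x)) hx.le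
open Classical in
/-- Möbius expansion of `ph`, `j = e j'`. -/
theorem beta_one_eq {x : ℝ} (hx : 0 < x) :
    beta 1 x = ∑' e : O, if Prim e then mu e / (Nr e : ℂ) ^ 2 * (lat (x * Nr e) : ℂ) else 0 := by
  have hs := c2t_summable_prod hx
  have h1 := c2t_conv (fun e j => mu e / (Nr e : ℂ) * (Phi ((x * Nr e * Nr j) ^ 3) : ℂ)) hs
  have h2 : (∑' n : O, if Prim n then ∑ d ∈ pdiv n,
      mu d / (Nr d : ℂ) * (Phi ((x * Nr d * Nr (n / d)) ^ 3) : ℂ) else 0) =
      ∑' j : O, if Prim j ∧ 1 ∣ j then ph j * (Phi ((x * Nr j) ^ 3) : ℂ) else 0 := by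
    refine tsum_congr fun n => ?_
    by_cases hn : Prim n
    · rw [if_pos hn, if_pos ⟨hn, one_dvd n⟩, ph, Finset.sum_mul]
      refine Finset.sum_congr rfl fun d hd => ?_
      obtain ⟨hd1, m, rfl⟩ := (mem_pdiv hn.ne_zero).1 hd
      rw [mul_div_cancel_left₀ m hd1.ne_zero, Nr_mul, mul_assoc x]
    · rw [if_neg hn, if_neg fun h => hn h.1]
  unfold beta
  rw [← h2, ← h1, hs.tsum_prod, ← tsum_mul_left]
  refine tsum_congr fun e => ?_
  by_cases he : Prim e
  · have h3 : (Nr e : ℂ) ≠ 0 := by exact_mod_cast (Nr_pos he.ne_zero).ne'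
    have h4 : ∀ j : O, (if Prim e ∧ Prim j then
        mu e / (Nr e : ℂ) * (Phi ((x * Nr e * Nr j) ^ 3) : ℂ) else 0) = mu e / (Nr e : ℂ) *
          ((if Prim j then Phi ((x * Nr e * Nr j) ^ 3) else 0 : ℝ) : ℂ) := by
      intro j
      by_cases hj : Prim j
      · rw [if_pos ⟨he, hj⟩, if_pos hj]
      · rw [if_neg fun h => hj h.2, if_neg hj, Complex.ofReal_zero, mul_zero]
    simp only [h4]
    rw [if_pos he, tsum_mul_left, ← Complex.ofReal_tsum, lat]
    push_cast
    field_simp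
  · rw [if_neg he]
    simp only [he, false_and, if_false, tsum_zero, mul_zero]
/-- Dominated convergence; `∑ μ(e) / N e² ≠ 0` by `IsCh.Dser_mul_mu` for the trivial character
modulo `3`. -/
theorem beta_one_lim : ∃ β₀ : ℂ, β₀ ≠ 0 ∧ Tendsto (beta 1) (𝓝[>] 0) (𝓝 β₀) := by
  classical
  obtain ⟨β₁, hβ, hl⟩ := lat_lim
  obtain ⟨C, hC⟩ := lat_le
  have hC0 : 0 ≤ C := (lat_nonneg one_pos).trans (hC 1 one_pos)
  refine ⟨∑' e : O, if Prim e then mu e / (Nr e : ℂ) ^ 2 * (β₁ : ℂ) else 0, ?_, ?_⟩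
  · have h3 : (3 : O) ≠ 0 := by decide
    have h1 := (isCh_triv h3 dvd_rfl).Dser_mul_mu (s := 2) (by simp)
    have h2 : (∑' e : O, if Prim e then mu e / (Nr e : ℂ) ^ 2 * (β₁ : ℂ) else 0) =
        Dser (fun n => mu n * (if IsCoprime n (3 : O) then 1 else 0)) 2 * β₁ := by
      unfold Dser
      rw [← tsum_mul_right]
      refine tsum_congr fun e => ?_
      by_cases he : Prim e
      · beta_reduce
        rw [if_pos he, if_pos he, if_pos (coprime_three_iff.2 he.not_lam_dvd), mul_one,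
          Complex.cpow_neg, Complex.cpow_two, div_eq_mul_inv]
      · rw [if_neg he, if_neg he, zero_mul]
    rw [h2]
    exact mul_ne_zero (right_ne_zero_of_mul_eq_one h1) (by exact_mod_cast hβ.ne')
  · refine Tendsto.congr' (f₁ := fun x => ∑' e : O,
      if Prim e then mu e / (Nr e : ℂ) ^ 2 * (lat (x * Nr e) : ℂ) else 0) ?_ ?_
    · filter_upwards [self_mem_nhdsWithin] with x hx
      exact (beta_one_eq hx).symm
    · refine tendsto_tsum_of_dominated_convergence
        ((summable_Nr_rpow (σ := 2) one_lt_two).mul_left C) (fun e => ?_) ?_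
      · by_cases he : Prim e
        · simp only [if_pos he]
          exact ((Complex.continuous_ofReal.tendsto β₁).comp
            (hl.comp (c2t_scale (Nr_pos he.ne_zero)))).const_mul _
        · simp only [if_neg he]
          exact tendsto_const_nhds
      · filter_upwards [self_mem_nhdsWithin] with x hx e
        have h0 := Nr_nonneg e
        by_cases he : Prim e
        · have h1 := mul_pos hx (Nr_pos he.ne_zero)
          rw [if_pos he, norm_mul, norm_div, norm_pow, Complex.norm_real, Complex.norm_real,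
            Real.norm_of_nonneg (lat_nonneg h1), Real.norm_of_nonneg h0, c2t_sq, mul_comm C,
            div_eq_mul_inv]
          exact mul_le_mul (mul_le_of_le_one_left (by positivity) (norm_mu_le _)) (hC _ h1)
            (lat_nonneg h1) (by positivity)
        · rw [if_neg he, norm_zero]
          positivity
/-- `j = p j'` and `ph_prime_mul`. -/
theorem beta_rec {p : O} (hp : Prime p) (hp' : Prim p) {x : ℝ} (hx : 0 < x) :
    beta p x = (Nr p : ℂ)⁻¹ * ((1 - (Nr p : ℂ)⁻¹) * beta 1 (x * Nr p) +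
      (Nr p : ℂ)⁻¹ * beta p (x * Nr p)) := by
  classical
  have hN := Nr_pos hp'.ne_zero
  have hN' : (Nr p : ℂ) ≠ 0 := by exact_mod_cast hN.ne'
  have hxN := mul_pos hx hN
  have h1 : (∑' j : O, if Prim j ∧ p ∣ j then ph j * (Phi ((x * Nr j) ^ 3) : ℂ) else 0) =
      (1 - (Nr p : ℂ)⁻¹) *
        (∑' j : O, if Prim j ∧ 1 ∣ j then ph j * (Phi ((x * Nr p * Nr j) ^ 3) : ℂ) else 0) +
      (Nr p : ℂ)⁻¹ *
        ∑' j : O, if Prim j ∧ p ∣ j then ph j * (Phi ((x * Nr p * Nr j) ^ 3) : ℂ) else 0 := by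
    rw [← tsum_mul_left, ← tsum_mul_left,
      ← ((c2t_summable 1 hxN).mul_left _).tsum_add ((c2t_summable p hxN).mul_left _),
      ← (mul_right_injective₀ hp'.ne_zero).tsum_eq]
    · refine tsum_congr fun j => ?_
      by_cases hj : Prim j
      · rw [if_pos ⟨hp'.mul hj, dvd_mul_right p j⟩, if_pos ⟨hj, one_dvd j⟩,
          ph_prime_mul hp hp' hj, Nr_mul, ← mul_assoc x]
        by_cases hd : p ∣ j
        · rw [if_pos hd, if_pos ⟨hj, hd⟩]; ring
        · rw [if_neg hd, if_neg fun h => hd h.2]; ring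
      · rw [if_neg fun h => hj (hp'.of_mul h.1), if_neg fun h => hj h.1, if_neg fun h => hj h.1]
        ring
    · intro n hn
      by_contra h
      apply hn
      have : ¬ p ∣ n := fun ⟨m, hm⟩ => h ⟨m, hm.symm⟩
      simp [this]
  unfold beta
  rw [h1]
  push_cast
  field_simp
/-- A bounded `e` with `e(x) = o(1) + r e(N x)`, `|r| < 1`, tends to zero. -/
theorem tendsto_zero_of_rec {e o : ℝ → ℂ} {r : ℂ} {N C : ℝ} (hr : ‖r‖ < 1) (hN : 0 < N)
    (hb : ∀ x, 0 < x → ‖e x‖ ≤ C) (ho : Tendsto o (𝓝[>] 0) (𝓝 0))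
    (h : ∀ x, 0 < x → e x = o x + r * e (x * N)) : Tendsto e (𝓝[>] 0) (𝓝 0) := by
  have hC : 0 ≤ C := (norm_nonneg _).trans (hb 1 one_pos)
  have key : ∀ k : ℕ, ∀ ε : ℝ, 0 < ε → ∀ᶠ x in 𝓝[>] (0 : ℝ), ‖e x‖ ≤ ε + ‖r‖ ^ k * C := by
    intro k
    induction k with
    | zero =>
      intro ε hε
      filter_upwards [self_mem_nhdsWithin] with x hx
      have := hb x hx
      rw [pow_zero, one_mul]; linarith
    | succ k ih =>
      intro ε hε
      have h1 := (c2t_scale hN).eventually (ih (ε / 2) (half_pos hε))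
      have h2 := (Metric.tendsto_nhds.1 ho) (ε / 2) (half_pos hε)
      filter_upwards [self_mem_nhdsWithin, h1, h2] with x hx h1 h2
      rw [dist_zero_right] at h2
      rw [h x hx]
      have h3 : ‖r * e (x * N)‖ ≤ ‖r‖ * (ε / 2 + ‖r‖ ^ k * C) := by
        rw [norm_mul]
        exact mul_le_mul_of_nonneg_left h1 (norm_nonneg _)
      have h4 : ‖r‖ * (ε / 2) ≤ ε / 2 := mul_le_of_le_one_left (half_pos hε).le hr.le
      have h5 := norm_add_le (o x) (r * e (x * N))
      rw [pow_succ]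
      nlinarith
  refine Metric.tendsto_nhds.2 fun ε hε => ?_
  have h1 : Tendsto (fun k : ℕ => ‖r‖ ^ k * C) atTop (𝓝 (0 * C)) :=
    (tendsto_pow_atTop_nhds_zero_of_lt_one (norm_nonneg r) hr).mul_const C
  rw [zero_mul] at h1
  obtain ⟨k, hk⟩ := (h1.eventually (gt_mem_nhds (half_pos hε))).exists
  filter_upwards [key k (ε / 2) (half_pos hε)] with x hx
  rw [dist_zero_right]
  linarith
theorem beta_lim : ∃ β₀ : ℂ, β₀ ≠ 0 ∧ Tendsto (beta 1) (𝓝[>] 0) (𝓝 β₀) ∧
    ∀ p : O, Prime p → Prim p → Tendsto (beta p) (𝓝[>] 0) (𝓝 (β₀ / ((Nr p : ℂ) + 1))) := by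
  obtain ⟨β₀, h0, h1⟩ := beta_one_lim
  obtain ⟨C, hC⟩ := norm_beta_le
  refine ⟨β₀, h0, h1, fun p hp hp' => ?_⟩
  have hN := Nr_pos hp'.ne_zero
  have hN3 := three_le_Nr_prime hp
  have hN' : (Nr p : ℂ) ≠ 0 := by exact_mod_cast hN.ne'
  have hN1 : (Nr p : ℂ) + 1 ≠ 0 := by
    have : (Nr p + 1 : ℝ) ≠ 0 := by positivity
    exact_mod_cast this
  have h2 := tendsto_zero_of_rec (e := fun x => beta p x - β₀ / ((Nr p : ℂ) + 1))
    (o := fun x => (Nr p : ℂ)⁻¹ * (1 - (Nr p : ℂ)⁻¹) * (beta 1 (x * Nr p) - β₀))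
    (r := (Nr p : ℂ)⁻¹ * (Nr p : ℂ)⁻¹) (N := Nr p) (C := C + ‖β₀ / ((Nr p : ℂ) + 1)‖)
    (by
      rw [norm_mul, norm_inv, Complex.norm_real, Real.norm_of_nonneg hN.le]
      have : (Nr p)⁻¹ < 1 := inv_lt_one_of_one_lt₀ (by linarith)
      have h' : 0 < (Nr p)⁻¹ := inv_pos.2 hN
      nlinarith) hN
    (fun x hx => (norm_sub_le _ _).trans (add_le_add_left (hC p x hx) _))
    (by
      have h3 := ((h1.comp (c2t_scale hN)).sub_const β₀).const_mul
        ((Nr p : ℂ)⁻¹ * (1 - (Nr p : ℂ)⁻¹))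
      rw [sub_self, mul_zero] at h3
      exact h3)
    (fun x hx => by
      rw [beta_rec hp hp' hx]
      field_simp
      ring)
  have h3 := h2.add_const (β₀ / ((Nr p : ℂ) + 1))
  simpa using h3

end Crest.Agent.R017.Theta

end
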