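import Crest.Agent.R017.ThCnt2

/-! # Row 17, cubic theta: the constant term -/

set_option autoImplicit false

noncomputable section

open scoped BigOperators ComplexConjugate Topology ENNReal
open Complex MeasureTheory Filter Set

namespace Crest.Agent.R017.Theta

theorem c3t_le {u n u' n' : O} {k k' : ℕ} (hu : IsUnit u') (hn : Prim n')
    (h : u * lam ^ k * n = u' * lam ^ k' * n') : k ≤ k' := by
  by_contra hk
  have h1 : lam ^ k' * lam ∣ lam ^ k' * (u' * n') := by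
    rw [← pow_succ, show lam ^ k' * (u' * n') = u * lam ^ k * n by rw [h]; ring]
    exact ((pow_dvd_pow lam (not_le.1 hk)).mul_left u).mul_right n
  exact hn.not_lam_dvd (hu.dvd_mul_left.1
    ((mul_dvd_mul_iff_left (pow_ne_zero _ prime_lam.ne_zero)).1 h1))

theorem c3t_box {u : O} : u ∈ box 1 ↔ IsUnit u := by
  rw [mem_box, isUnit_iff_Nr]
  refine ⟨fun h => le_antisymm h.2 (one_le_Nr h.1), fun h => ⟨fun h0 => ?_, h.le⟩⟩
  rw [h0, Nr_zero] at h
  exact zero_ne_one h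

theorem c3t_card : (box 1).card = 6 := by
  have : box 1 = {1, -1, om, -om, om ^ 2, -om ^ 2} := by
    ext u
    simp only [c3t_box, isUnit_iff, Finset.mem_insert, Finset.mem_singleton]
  rw [this]
  decide

open Classical in
/-- Decomposition `c = u λ^k n` (`exists_decomp`, uniqueness). -/
theorem tsum_decomp {F : O → ℂ} (hF : Summable F) (h0 : F 0 = 0) :
    ∑' c, F c = ∑' k : ℕ, ∑' n : O, if Prim n then
      ∑ u ∈ box 1, F (u * lam ^ k * n) else 0 := by
  let S : Set (ℕ × O × O) := {p | Prim p.2.1 ∧ p.2.2 ∈ box 1}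
  let φ : ℕ × O × O → O := fun p => p.2.2 * lam ^ p.1 * p.2.1
  have hi : Function.Injective fun p : S => φ p.1 := by
    rintro ⟨⟨k, n, u⟩, hn, hu⟩ ⟨⟨k', n', u'⟩, hn', hu'⟩ h
    rw [c3t_box] at hu hu'
    change u * lam ^ k * n = u' * lam ^ k' * n' at h
    obtain rfl : k = k' := le_antisymm (c3t_le hu' hn' h) (c3t_le hu hn h.symm)
    have h1 : u * n = u' * n' :=
      mul_left_cancel₀ (pow_ne_zero k prime_lam.ne_zero) (by linear_combination h)
    obtain rfl : n = n' := Prim.eq_of_associated hn hn'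
      ((associated_unit_mul_right n u hu).trans (h1 ▸ (associated_unit_mul_right n' u' hu').symm))
    obtain rfl : u = u' := mul_right_cancel₀ (Prim.ne_zero hn) h1
    rfl
  have hs : Summable (S.indicator fun p => F (φ p)) :=
    summable_subtype_iff_indicator.1 (hF.comp_injective hi)
  rw [← hi.tsum_eq fun c hc => ?_, tsum_subtype S fun p => F (φ p), hs.tsum_prod]
  · refine tsum_congr fun k => ?_
    rw [(hs.prod_factor k).tsum_prod]
    refine tsum_congr fun n => ?_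
    rw [tsum_eq_sum (s := box 1) fun u hu => Set.indicator_of_notMem (fun h => hu h.2) _]
    split_ifs with hn
    · exact Finset.sum_congr rfl fun u hu => Set.indicator_of_mem (show _ ∈ S from ⟨hn, hu⟩) _
    · exact Finset.sum_eq_zero fun u _ => Set.indicator_of_notMem (fun h => hn h.1) _
  · obtain ⟨u, k, n, hu, hn, rfl⟩ := exists_decomp (x := c) fun h => hc (h ▸ h0)
    exact ⟨⟨(k, n, u), hn, c3t_box.2 hu⟩, rfl⟩

open Classical in
theorem c3t_bd (P c : O) {y y' : ℝ} (h : y ≤ y') :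
    ‖if c = 0 then 0 else Ac (Be P) c 0 / (Nr c : ℂ) * (Phi (y' * Nr c) : ℂ)‖ ≤
      81 * Phi (y * Nr c) := by
  have := Phi_pos (y * Nr c)
  split_ifs with hc
  · rw [norm_zero]
    positivity
  · rw [norm_mul, norm_div, Complex.norm_real, Complex.norm_real, Real.norm_of_nonneg (Nr_nonneg c),
      Real.norm_of_nonneg (Phi_pos _).le]
    exact mul_le_mul ((div_le_iff₀ (Nr_pos hc)).2 (norm_Ac_le (wt_Be P).bd c 0))
      (p1_anti (mul_le_mul_of_nonneg_right h (Nr_nonneg c))) (Phi_pos _).le (by norm_num)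

open Classical in
theorem c3t_cube (G : O → ℂ) (h : ∀ n, Prim n → (¬ ∃ j : O, Prim j ∧ n = j ^ 3) → G n = 0) :
    ∑' n : O, (if Prim n then G n else 0) = ∑' j : O, if Prim j then G (j ^ 3) else 0 := by
  have hi : Function.Injective fun j : {j : O | Prim j} => j.1 ^ 3 := fun a b hab =>
    Subtype.ext (a3_ext a.2 b.2 fun p hp => by
      have := congrArg (multiplicity p) hab
      simp only [a3_pow hp (Prim.ne_zero a.2), a3_pow hp (Prim.ne_zero b.2)] at this
      omega)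
  rw [← hi.tsum_eq (f := fun n => if Prim n then G n else 0) fun n hn => ?_,
    tsum_subtype {j : O | Prim j} fun j => if Prim (j ^ 3) then G (j ^ 3) else 0]
  · refine tsum_congr fun j => ?_
    by_cases hj : Prim j
    · rw [Set.indicator_of_mem (by exact hj), if_pos hj, if_pos (hj.pow 3)]
    · rw [Set.indicator_of_notMem (by exact hj), if_neg hj]
  · by_contra h1
    refine hn ?_
    simp only
    split_ifs with h2
    · exact h n h2 fun ⟨j, hj, e⟩ => h1 ⟨⟨j, hj⟩, e.symm⟩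
    · rfl

/-- `Ac_Be`, `gs_kap_zero_cube`, `gs_kap_zero_of_not_cube`; there are six units (`box 1`). -/
theorem alpha_eq {P : O} (hP : P = 1 ∨ (Prime P ∧ Prim P)) {y : ℝ} (hy : 0 < y) :
    alpha P y = (6 / 81 : ℂ) * ∑' k : ℕ, if 4 ≤ k then
      (((3 : ℝ) ^ (-(k : ℝ) / 3) : ℝ) : ℂ) * beta P ((3 ^ k * y) ^ (1 / 3 : ℝ)) else 0 := by
  classical
  have hd : ∀ (u : O) (k : ℕ) (n : O), IsUnit u → (P ∣ u * lam ^ k * n ↔ P ∣ n) := by
    intro u k n hu
    rcases hP with rfl | ⟨h1, h2⟩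
    · simp
    · rw [mul_assoc, hu.dvd_mul_left, h1.dvd_mul, or_iff_right]
      exact fun h => h2.not_lam_dvd
        (h1.associated_of_dvd prime_lam (h1.dvd_of_dvd_pow h)).symm.dvd
  have hd3 : ∀ j : O, P ∣ j ^ 3 ↔ P ∣ j := fun j => by
    rcases hP with rfl | ⟨h1, -⟩
    · simp
    · exact h1.dvd_pow_iff_dvd (by norm_num)
  rw [alpha, tsum_decomp (.of_norm_bounded ((p1_summable0' hy).mul_left 81)
    fun c => c3t_bd P c le_rfl) (if_pos rfl), ← tsum_mul_left, ← tsum_mul_left]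
  refine tsum_congr fun k => ?_
  have e : ∀ n : O, (if Prim n then ∑ u ∈ box 1, (if u * lam ^ k * n = 0 then 0 else
      Ac (Be P) (u * lam ^ k * n) 0 / (Nr (u * lam ^ k * n) : ℂ) *
        (Phi (y * Nr (u * lam ^ k * n)) : ℂ)) else 0) =
      if Prim n then (if 4 ≤ k ∧ P ∣ n then
        6 * (gs (kap n) n 0 / (Nr n : ℂ) * (Phi (3 ^ k * y * Nr n) : ℂ)) else 0) else 0 := by
    intro n
    refine if_ctx_congr Iff.rfl (fun hn => ?_) fun _ => rfl
    rw [Finset.sum_congr rfl (g := fun _ => if 4 ≤ k ∧ P ∣ n then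
      gs (kap n) n 0 / (Nr n : ℂ) * (Phi (3 ^ k * y * Nr n) : ℂ) else 0) fun u hu => ?_,
      Finset.sum_const, c3t_card]
    · split_ifs <;> simp
    · rw [c3t_box] at hu
      rw [if_neg (mul_ne_zero (mul_ne_zero hu.ne_zero (pow_ne_zero _ prime_lam.ne_zero))
        hn.ne_zero), Ac_Be P hu k hn, Nr_mul, Nr_mul, isUnit_iff_Nr.1 hu, Nr_pow, Nr_lam, one_mul,
        show y * (3 ^ k * Nr n) = 3 ^ k * y * Nr n by ring]
      simp only [hd u k n hu]
      split_ifs
      · push_cast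
        rw [mul_div_mul_left _ _ (pow_ne_zero _ three_ne_zero)]
      · rw [zero_div, zero_mul]
  rw [tsum_congr e, c3t_cube _ fun n hn h => by rw [gs_kap_zero_of_not_cube hn h]; simp]
  by_cases hk : 4 ≤ k
  · have h3 : (0 : ℝ) < 3 ^ k * y := by positivity
    have e1 : (3 : ℝ) ^ (-(k : ℝ) / 3) * (3 ^ k * y) ^ (1 / 3 : ℝ) = y ^ (1 / 3 : ℝ) := by
      rw [Real.mul_rpow (by positivity) hy.le, ← Real.rpow_natCast, ← Real.rpow_mul (by norm_num),
        ← mul_assoc, ← Real.rpow_add (by norm_num), show -(k : ℝ) / 3 + k * (1 / 3) = 0 by ring,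
        Real.rpow_zero, one_mul]
    have e2 : ∀ j : O, ((3 ^ k * y) ^ (1 / 3 : ℝ) * Nr j) ^ 3 = 3 ^ k * y * Nr (j ^ 3) := fun j => by
      rw [mul_pow, Nr_pow, ← Real.rpow_natCast _ 3, ← Real.rpow_mul h3.le]
      norm_num
    rw [if_pos hk, beta, ← mul_assoc (((3 : ℝ) ^ (-(k : ℝ) / 3) : ℝ) : ℂ), ← ofReal_mul, e1,
      ← tsum_mul_left, ← tsum_mul_left, ← tsum_mul_left]
    refine tsum_congr fun j => ?_
    simp only [hk, true_and, hd3, e2]
    by_cases hj : Prim j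
    · have : (Nr j : ℂ) ≠ 0 := by exact_mod_cast (Nr_pos hj.ne_zero).ne'
      simp only [hj, true_and, if_true]
      split_ifs
      · rw [gs_kap_zero_cube hj, Nr_pow]
        push_cast
        field_simp
      · simp
    · simp [hj]
  · simp [hk]

theorem c3t_geom : Summable fun k : ℕ => (3 : ℝ) ^ (-(k : ℝ) / 3) := by
  have h : (3 : ℝ) ^ (-(1 / 3) : ℝ) < 1 := Real.rpow_lt_one_of_one_lt_of_neg (by norm_num) (by norm_num)
  refine (summable_geometric_of_lt_one (by positivity) h).congr fun k => ?_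
  rw [← Real.rpow_natCast, ← Real.rpow_mul (by norm_num)]
  congr 1
  ring

theorem c3t_term {C : ℝ} {z : ℂ} (hz : ‖z‖ ≤ C) (k : ℕ) :
    ‖if 4 ≤ k then (((3 : ℝ) ^ (-(k : ℝ) / 3) : ℝ) : ℂ) * z else 0‖ ≤
      (3 : ℝ) ^ (-(k : ℝ) / 3) * C := by
  split_ifs
  · rw [norm_mul, Complex.norm_real, Real.norm_of_nonneg (by positivity)]
    gcongr
  · rw [norm_zero]
    exact mul_nonneg (by positivity) ((norm_nonneg _).trans hz)

theorem norm_alpha_le : ∃ C : ℝ, ∀ P : O, (P = 1 ∨ (Prime P ∧ Prim P)) → ∀ y : ℝ, 0 < y →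
    ‖alpha P y‖ ≤ C := by
  obtain ⟨C, hC⟩ := norm_beta_le
  refine ⟨‖(6 / 81 : ℂ)‖ * ∑' k : ℕ, (3 : ℝ) ^ (-(k : ℝ) / 3) * C, fun P hP y hy => ?_⟩
  rw [alpha_eq hP hy, norm_mul]
  exact mul_le_mul_of_nonneg_left (tsum_of_norm_bounded (c3t_geom.mul_right C).hasSum
    fun k => c3t_term (hC P _ (by positivity)) k) (norm_nonneg _)
theorem continuousOn_alpha (P : O) : ContinuousOn (alpha P) (Ioi 0) := by
  classical
  intro y hy
  have hy2 : 0 < y / 2 := half_pos hy
  have h1 : ContinuousOn (fun y : ℝ => ∑' c : O, if c = 0 then 0 else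
      Ac (Be P) c 0 / (Nr c : ℂ) * (Phi (y * Nr c) : ℂ)) (Ioi (y / 2)) := by
    refine continuousOn_tsum (fun c => Continuous.continuousOn ?_) ((p1_summable0' hy2).mul_left 81)
      fun c x hx => c3t_bd P c (le_of_lt hx)
    unfold Phi
    split_ifs <;> fun_prop
  have h2 : Continuous fun y : ℝ => ((y ^ (1 / 3 : ℝ) / 81 : ℝ) : ℂ) :=
    continuous_ofReal.comp ((Real.continuous_rpow_const (by norm_num)).div_const _)
  exact (h2.continuousAt.mul (h1.continuousAt (Ioi_mem_nhds (half_lt_self hy)))).continuousWithinAt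

theorem c3t_lim {P : O} (hP : P = 1 ∨ (Prime P ∧ Prim P)) {b : ℂ}
    (hb : Tendsto (beta P) (𝓝[>] 0) (𝓝 b)) : Tendsto (alpha P) (𝓝[>] 0)
      (𝓝 ((6 / 81 : ℂ) * ((∑' k : ℕ, if 4 ≤ k then (3 : ℝ) ^ (-(k : ℝ) / 3) else 0 : ℝ) * b))) := by
  obtain ⟨C, hC⟩ := norm_beta_le
  refine Tendsto.congr' (eventually_mem_nhdsWithin.mono fun y hy => (alpha_eq hP hy).symm)
    (Tendsto.const_mul _ ?_)
  rw [ofReal_tsum, ← tsum_mul_right]
  refine tendsto_tsum_of_dominated_convergence (c3t_geom.mul_right C) (fun k => ?_)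
    (eventually_mem_nhdsWithin.mono fun y (hy : 0 < y) k => c3t_term (hC P _ (by positivity)) k)
  split_ifs
  · refine (hb.comp (tendsto_nhdsWithin_iff.2 ⟨?_, eventually_mem_nhdsWithin.mono
      fun y (hy : 0 < y) => (by positivity : (0 : ℝ) < (3 ^ k * y) ^ (1 / 3 : ℝ))⟩)).const_mul _
    have : Continuous fun y : ℝ => (3 ^ k * y) ^ (1 / 3 : ℝ) :=
      (Real.continuous_rpow_const (by norm_num)).comp (by fun_prop)
    simpa using (this.tendsto 0).mono_left nhdsWithin_le_nhds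
  · simp

theorem alpha_lim : ∃ α₀ : ℂ, α₀ ≠ 0 ∧ Tendsto (alpha 1) (𝓝[>] 0) (𝓝 α₀) ∧
    ∀ p : O, Prime p → Prim p → Tendsto (alpha p) (𝓝[>] 0) (𝓝 (α₀ / ((Nr p : ℂ) + 1))) := by
  obtain ⟨b, hb, h1, h2⟩ := beta_lim
  refine ⟨_, mul_ne_zero (by norm_num) (mul_ne_zero ?_ hb), c3t_lim (Or.inl rfl) h1,
    fun p hp hp' => ?_⟩
  · refine ofReal_ne_zero.2 (Summable.tsum_pos (Summable.of_nonneg_of_le (fun k => ?_) (fun k => ?_)
      c3t_geom) (fun k => ?_) 4 (by rw [if_pos le_rfl]; positivity)).ne'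
    · positivity
    · split_ifs
      · exact le_rfl
      · positivity
    · positivity
  · rw [mul_div_assoc, mul_div_assoc]
    exact c3t_lim (Or.inr ⟨hp, hp'⟩) (h2 p hp hp')

end Crest.Agent.R017.Theta

end
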