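import Crest.Agent.R017.ThRes1

/-! # Row 17, cubic theta: test functions and weak limits -/

set_option autoImplicit false

noncomputable section

open scoped BigOperators ComplexConjugate Topology ENNReal
open Complex MeasureTheory Filter Set

namespace Crest.Agent.R017.Theta

/-- The test function attached to `ξ`. -/
def Fx (ν v₁ v₂ : ℝ) (ξ : ℝ → ℂ) (y : ℝ) : ℂ := ∫ v in v₁..v₂, (fk ν v y : ℂ) * ξ v
theorem r2t_bd {ν v₁ : ℝ} (v₂ : ℝ) (hν : 0 < ν) (h₁ : 0 < v₁) : ∃ C c : ℝ, 0 ≤ C ∧ 0 < c ∧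
    ∀ v ∈ Icc v₁ v₂, ∀ y : ℝ, 0 < y → ‖(fk ν v y : ℂ)‖ ≤ C * Real.exp (-(c * (y + y⁻¹))) := by
  have hc0 := c0_pos
  set m := min 1 (ν / 81) with hm
  have hm0 : 0 < m := lt_min one_pos (by positivity)
  have hm1 : m ≤ 1 := min_le_left _ _
  have hm2 : m ≤ ν / 81 := min_le_right _ _
  set c := c0 * v₁ * m / 2 with hc
  have hcp : 0 < c := by positivity
  refine ⟨|v₂| / (81 * c), c, by positivity, hcp, fun v hv y hy => ?_⟩
  have hv0 : 0 < v := h₁.trans_le hv.1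
  unfold fk Phi
  rw [Complex.norm_real, Real.norm_of_nonneg (by positivity), mul_assoc, ← Real.exp_add]
  have hyi : 0 < y⁻¹ := inv_pos.2 hy
  have h1 : c * (y + y⁻¹) ≤ Real.exp (c * (y + y⁻¹)) := by
    have := Real.add_one_le_exp (c * (y + y⁻¹)); linarith
  have h2 : v / (81 * y) ≤ |v₂| / (81 * c) * Real.exp (c * (y + y⁻¹)) := by
    calc v / (81 * y) = v / 81 * y⁻¹ := by field_simp
      _ ≤ |v₂| / 81 * (y + y⁻¹) := by
          gcongr
          · exact hv.2.trans (le_abs_self _)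
          · linarith
      _ = |v₂| / (81 * c) * (c * (y + y⁻¹)) := by field_simp
      _ ≤ _ := by gcongr
  have h3 : Real.exp (-(c0 * (v * y)) + -(c0 * (v * ν / (81 * y)))) ≤
      Real.exp (-(2 * c * (y + y⁻¹))) := by
    refine Real.exp_le_exp.2 ?_
    have e1 : v * ν / (81 * y) = v * (ν / 81) * y⁻¹ := by field_simp
    have e2 : v₁ * m * y ≤ v * 1 * y := by gcongr; exact hv.1
    have e3 : v₁ * m * y⁻¹ ≤ v * (ν / 81) * y⁻¹ := by gcongr; exact hv.1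
    have e4 : 2 * c * (y + y⁻¹) = c0 * (v₁ * m * y + v₁ * m * y⁻¹) := by rw [hc]; ring
    have e5 : c0 * (v₁ * m * y + v₁ * m * y⁻¹) ≤ c0 * (v * 1 * y + v * (ν / 81) * y⁻¹) := by
      gcongr
    rw [e1, e4]
    linarith
  calc _ ≤ (|v₂| / (81 * c) * Real.exp (c * (y + y⁻¹))) * Real.exp (-(2 * c * (y + y⁻¹))) := by
        gcongr
    _ = _ := by rw [mul_assoc, ← Real.exp_add]; congr 2; ring
theorem r2t_ext {v₁ v₂ : ℝ} (h₂ : v₁ ≤ v₂) {ξ : ℝ → ℂ} (hξ : ContinuousOn ξ (Icc v₁ v₂)) :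
    ∃ ξ' : ℝ → ℂ, Continuous ξ' ∧ ∀ v ∈ Icc v₁ v₂, ξ v = ξ' v :=
  ⟨IccExtend h₂ ((Icc v₁ v₂).domRestrict ξ),
    (continuousOn_iff_continuous_domRestrict.1 hξ).Icc_extend',
    fun v hv => by rw [IccExtend_of_mem h₂ _ hv]; rfl⟩
theorem r2t_bdξ {v₁ v₂ : ℝ} {ξ : ℝ → ℂ} (hξ : ContinuousOn ξ (Icc v₁ v₂)) :
    ∃ M : ℝ, 0 ≤ M ∧ ∀ v ∈ Icc v₁ v₂, ‖ξ v‖ ≤ M := by
  obtain ⟨M, hM⟩ := isCompact_Icc.exists_bound_of_continuousOn hξ
  exact ⟨max M 0, le_max_right _ _, fun v hv => (hM v hv).trans (le_max_left _ _)⟩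
theorem r2t_cont_v (ν y : ℝ) : Continuous fun v : ℝ => (fk ν v y : ℂ) := by
  unfold fk Phi
  fun_prop
theorem r2t_niceE (C : ℝ) {c : ℝ} (hc : 0 < c) :
    Nice (fun y : ℝ => ((C * Real.exp (-(c * (y + y⁻¹))) : ℝ) : ℂ)) := by
  refine ⟨Complex.continuous_ofReal.comp_continuousOn ?_, |C|, c, hc, fun y _ => ?_⟩
  · refine continuousOn_const.mul (Real.continuous_exp.comp_continuousOn ?_)
    exact (continuousOn_const.mul (continuousOn_id.add
      (continuousOn_inv₀.mono fun y hy => ne_of_gt hy))).neg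
  · rw [Complex.norm_real, norm_mul, Real.norm_eq_abs, Real.norm_of_nonneg (Real.exp_pos _).le]
theorem nice_fk {ν v : ℝ} (hν : 0 < ν) (hv : 0 < v) : Nice (fun y => (fk ν v y : ℂ)) := by
  obtain ⟨C, c, -, hc, h⟩ := r2t_bd v hν hv
  refine ⟨Complex.continuous_ofReal.comp_continuousOn ?_, C, c, hc,
    fun y hy => h v ⟨le_rfl, le_rfl⟩ y hy⟩
  intro y hy
  have hy' : y ≠ 0 := ne_of_gt hy
  refine ContinuousAt.continuousWithinAt ?_
  unfold fk Phi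
  fun_prop (disch := positivity)
theorem nice_Fx {ν v₁ v₂ : ℝ} (hν : 0 < ν) (h₁ : 0 < v₁) (h₂ : v₁ ≤ v₂) {ξ : ℝ → ℂ}
    (hξ : ContinuousOn ξ (Icc v₁ v₂)) : Nice (Fx ν v₁ v₂ ξ) := by
  obtain ⟨ξ', hξ', e⟩ := r2t_ext h₂ hξ
  obtain ⟨M, hM0, hM⟩ := r2t_bdξ hξ
  obtain ⟨C, c, hC, hc, h⟩ := r2t_bd v₂ hν h₁
  constructor
  · have h1 : Continuous (fun s : ℝ => ∫ v in v₁..v₂, (fk ν v (Real.exp s) : ℂ) * ξ' v) := by
      refine intervalIntegral.continuous_parametric_intervalIntegral_of_continuous' ?_ v₁ v₂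
      unfold fk Phi
      change Continuous fun p : ℝ × ℝ => ((p.2 / (81 * Real.exp p.1) *
        Real.exp (-(c0 * (p.2 * Real.exp p.1))) *
        Real.exp (-(c0 * (p.2 * ν / (81 * Real.exp p.1)))) : ℝ) : ℂ) * ξ' p.2
      fun_prop (disch := intros; positivity)
    have h2 : ContinuousOn
        (fun y : ℝ => ∫ v in v₁..v₂, (fk ν v (Real.exp (Real.log y)) : ℂ) * ξ' v) (Ioi 0) :=
      h1.comp_continuousOn (Real.continuousOn_log.mono fun y hy => ne_of_gt hy)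
    refine h2.congr fun y hy => ?_
    unfold Fx
    simp only [Real.exp_log (mem_Ioi.1 hy)]
    refine intervalIntegral.integral_congr fun v hv => ?_
    rw [uIcc_of_le h₂] at hv
    simp only [e v hv]
  · refine ⟨C * M * |v₂ - v₁|, c, hc, fun y hy => ?_⟩
    unfold Fx
    refine (intervalIntegral.norm_integral_le_of_norm_le_const
      (C := C * Real.exp (-(c * (y + y⁻¹))) * M) fun v hv => ?_).trans (le_of_eq (by ring))
    rw [uIoc_of_le h₂] at hv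
    have hv' : v ∈ Icc v₁ v₂ := Ioc_subset_Icc_self hv
    rw [norm_mul]
    exact mul_le_mul (h v hv' y hy) (hM v hv') (norm_nonneg _) (by positivity)
theorem Sm_Fx {a : O → ℂ} (ha : PG a) {ν v₁ v₂ : ℝ} (hν : 0 < ν) (h₁ : 0 < v₁) (h₂ : v₁ ≤ v₂)
    {ξ : ℝ → ℂ} (hξ : ContinuousOn ξ (Icc v₁ v₂)) {t : ℝ} (ht : 0 < t) :
    Sm a (Fx ν v₁ v₂ ξ) t = ∫ v in v₁..v₂, Sm a (fun y => (fk ν v y : ℂ)) t * ξ v := by
  classical
  obtain ⟨M, hM0, hM⟩ := r2t_bdξ hξ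
  obtain ⟨C, c, hC, hc, h⟩ := r2t_bd v₂ hν h₁
  have hE := (r2t_niceE C hc).summable ha ht
  have key := intervalIntegral.hasSum_integral_of_dominated_convergence (μ := volume)
    (a := v₁) (b := v₂)
    (F := fun (n : O) (v : ℝ) => (if n = 0 then 0 else a n * (fk ν v (t * Nr n) : ℂ)) * ξ v)
    (f := fun v => (∑' n : O, if n = 0 then 0 else a n * (fk ν v (t * Nr n) : ℂ)) * ξ v)
    (fun n _ => ‖if n = 0 then 0 else
      a n * ((C * Real.exp (-(c * (t * Nr n + (t * Nr n)⁻¹))) : ℝ) : ℂ)‖ * M)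
    (fun n => ?_) (fun n => Eventually.of_forall fun v hv => ?_)
    (Eventually.of_forall fun v _ => hE.mul_right M) intervalIntegrable_const
    (Eventually.of_forall fun v hv => ?_)
  · unfold Sm
    simp only [mul_assoc]
    rw [intervalIntegral.integral_const_mul, ← key.tsum_eq]
    congr 1
    refine tsum_congr fun n => ?_
    split_ifs
    · simp
    · unfold Fx
      rw [← intervalIntegral.integral_const_mul]
      simp only [mul_assoc]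
  · rw [uIoc_of_le h₂]
    refine ContinuousOn.aestronglyMeasurable (ContinuousOn.mul ?_ (hξ.mono Ioc_subset_Icc_self))
      measurableSet_Ioc
    split_ifs
    · exact continuousOn_const
    · exact (continuous_const.mul (r2t_cont_v ν _)).continuousOn
  · rw [uIoc_of_le h₂] at hv
    have hv' : v ∈ Icc v₁ v₂ := Ioc_subset_Icc_self hv
    rw [norm_mul]
    refine mul_le_mul ?_ (hM v hv') (norm_nonneg _) (norm_nonneg _)
    split_ifs with h0
    · exact le_rfl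
    · rw [norm_mul, norm_mul]
      refine mul_le_mul_of_nonneg_left ((h v hv' _ (mul_pos ht (Nr_pos h0))).trans ?_)
        (norm_nonneg _)
      rw [Complex.norm_real]
      exact le_abs_self _
  · rw [uIoc_of_le h₂] at hv
    exact ((nice_fk hν (h₁.trans hv.1)).summable ha ht).of_norm.hasSum.mul_right _
theorem Me_Fx {ν v₁ v₂ : ℝ} (hν : 0 < ν) (h₁ : 0 < v₁) (h₂ : v₁ ≤ v₂)
    {ξ : ℝ → ℂ} (hξ : ContinuousOn ξ (Icc v₁ v₂)) :
    Me (Fx ν v₁ v₂ ξ) = ∫ v in v₁..v₂, Me (fun y => (fk ν v y : ℂ)) * ξ v := by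
  obtain ⟨M, hM0, hM⟩ := r2t_bdξ hξ
  obtain ⟨C, c, hC, hc, h⟩ := r2t_bd v₂ hν h₁
  have hE := ((r2t_niceE C hc).integrableOn (1 / 3)).norm
  have hint : Integrable (Function.uncurry fun (y v : ℝ) =>
      (fk ν v y : ℂ) * ξ v * ((y ^ (1 / 3 : ℝ) : ℝ) : ℂ))
      ((volume.restrict (Ioi (0 : ℝ))).prod (volume.restrict (Ioc v₁ v₂))) := by
    have hb := hE.mul_prod (integrable_const (μ := volume.restrict (Ioc v₁ v₂)) M)
    refine Integrable.mono' hb ?_ ?_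
    · rw [Measure.prod_restrict]
      refine ContinuousOn.aestronglyMeasurable ?_ (measurableSet_Ioi.prod measurableSet_Ioc)
      refine ContinuousOn.mul (ContinuousOn.mul ?_ ?_) ?_
      · intro p hp
        have hy' : p.1 ≠ 0 := ne_of_gt hp.1
        refine ContinuousAt.continuousWithinAt ?_
        unfold fk Phi
        fun_prop (disch := positivity)
      · exact hξ.comp continuousOn_snd fun p hp => Ioc_subset_Icc_self hp.2
      · exact Complex.continuous_ofReal.comp_continuousOn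
          (continuousOn_fst.rpow_const fun p hp => Or.inl (ne_of_gt hp.1))
    · rw [Measure.prod_restrict]
      refine (ae_restrict_iff' (measurableSet_Ioi.prod measurableSet_Ioc)).2
        (Eventually.of_forall fun p hp => ?_)
      have hv' : p.2 ∈ Icc v₁ v₂ := Ioc_subset_Icc_self hp.2
      simp only [Function.uncurry]
      rw [norm_mul, norm_mul, norm_mul, mul_right_comm]
      refine mul_le_mul (mul_le_mul_of_nonneg_right ((h _ hv' _ hp.1).trans ?_) (norm_nonneg _))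
        (hM _ hv') (norm_nonneg _) (by positivity)
      rw [Complex.norm_real]
      exact le_abs_self _
  have key := integral_integral_swap hint
  unfold Me Fx
  simp only [intervalIntegral.integral_of_le h₂]
  simp only [← integral_mul_const]
  rw [key]
  refine integral_congr_ae (Eventually.of_forall fun v => ?_)
  refine integral_congr_ae (Eventually.of_forall fun y => ?_)
  simp only
  ring
/-- With `η = √ν / 9`: `Fx ν η⁻¹ (2 η⁻¹) 1 y = ν⁻¹ η⁻¹ F0 (y / η)` (`fk_eq`), hence: -/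
theorem Sm_F0 (a : O → ℂ) {ν : ℝ} (hν : 0 < ν) {t : ℝ} (ht : 0 < t) :
    Sm a F0 t = ((ν * (Real.sqrt ν / 9) ^ (-(1 / 3) : ℝ) : ℝ) : ℂ) *
      Sm a (Fx ν (Real.sqrt ν / 9)⁻¹ (2 * (Real.sqrt ν / 9)⁻¹) (fun _ => 1))
        (t * (Real.sqrt ν / 9)) := by
  have hs : 0 < Real.sqrt ν / 9 := by positivity
  set η := Real.sqrt ν / 9 with hη
  have h1 : ∀ y : ℝ, 0 < y →
      Fx ν η⁻¹ (2 * η⁻¹) (fun _ => 1) (y * η) = ((ν⁻¹ * η⁻¹ : ℝ) : ℂ) * F0 y := by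
    intro y hy
    unfold Fx F0
    simp only [mul_one]
    rw [intervalIntegral.integral_ofReal, ← Complex.ofReal_mul]
    congr 1
    simp only [fk_eq hν (mul_pos hy hs), ← hη, mul_div_cancel_right₀ y hs.ne']
    rw [intervalIntegral.integral_const_mul,
      intervalIntegral.integral_comp_mul_right (fun v => f1 v y) hs.ne', inv_mul_cancel₀ hs.ne',
      mul_assoc 2, inv_mul_cancel₀ hs.ne', mul_one, smul_eq_mul, mul_assoc]
  unfold Sm
  have h2 : (∑' c : O, if c = 0 then 0 else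
      a c * Fx ν η⁻¹ (2 * η⁻¹) (fun _ => 1) (t * η * Nr c)) =
      ((ν⁻¹ * η⁻¹ : ℝ) : ℂ) * ∑' c : O, if c = 0 then 0 else a c * F0 (t * Nr c) := by
    rw [← tsum_mul_left]
    refine tsum_congr fun c => ?_
    split_ifs with h0
    · simp
    · rw [mul_right_comm t, h1 _ (mul_pos ht (Nr_pos h0))]
      ring
  rw [h2, ← mul_assoc, ← mul_assoc]
  congr 1
  unfold pw
  rw [← Complex.ofReal_mul, ← Complex.ofReal_mul]
  congr 1
  rw [Real.mul_rpow ht.le hs.le, Real.rpow_neg hs.le, show (4 / 3 : ℝ) = 1 / 3 + 1 by norm_num,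
    Real.rpow_add hs, Real.rpow_one]
  have : 0 < η ^ (1 / 3 : ℝ) := by positivity
  field_simp
theorem nI_nonneg {v₁ v₂ : ℝ} (h₁ : 0 < v₁) (h₂ : v₁ ≤ v₂) (g : ℝ → ℂ) : 0 ≤ nI v₁ v₂ g :=
  intervalIntegral.integral_nonneg h₂ fun v hv => by
    have : 0 < v := h₁.trans_le hv.1
    positivity
theorem r2t_ii {E : Type*} [NormedAddCommGroup E] {v₁ v₂ : ℝ} (h₂ : v₁ ≤ v₂) {f : ℝ → E}
    (hf : ContinuousOn f (Icc v₁ v₂)) : IntervalIntegrable f volume v₁ v₂ :=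
  ContinuousOn.intervalIntegrable (by rwa [uIcc_of_le h₂])
theorem r2t_cw {v₁ v₂ : ℝ} (h₁ : 0 < v₁) {g : ℝ → ℂ} (hg : ContinuousOn g (Icc v₁ v₂)) :
    ContinuousOn (fun v => ‖g v‖ ^ 2 / v ^ 3) (Icc v₁ v₂) :=
  (hg.norm.pow 2).div (continuousOn_id.pow 3) fun _ hv => (pow_pos (h₁.trans_le hv.1) 3).ne'
theorem r2t_cs {v₁ v₂ : ℝ} (h₂ : v₁ ≤ v₂) {h : ℝ → ℝ} (hh : ContinuousOn h (Icc v₁ v₂)) :
    (∫ v in v₁..v₂, h v) ^ 2 ≤ (v₂ - v₁) * ∫ v in v₁..v₂, h v ^ 2 := by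
  rcases h₂.eq_or_lt with rfl | hlt
  · simp
  set X := ∫ v in v₁..v₂, h v with hX
  set L := v₂ - v₁ with hL
  have hL0 : 0 < L := sub_pos.2 hlt
  have i1 := r2t_ii h₂ hh
  have i2 := r2t_ii h₂ (hh.fun_pow 2)
  have h0 : 0 ≤ ∫ v in v₁..v₂, (L ^ 2 * h v ^ 2 - 2 * L * X * h v + X ^ 2) :=
    intervalIntegral.integral_nonneg h₂ fun v _ => by nlinarith [sq_nonneg (L * h v - X)]
  rw [intervalIntegral.integral_add ((i2.const_mul _).sub (i1.const_mul _))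
    intervalIntegrable_const, intervalIntegral.integral_sub (i2.const_mul _) (i1.const_mul _),
    intervalIntegral.integral_const_mul, intervalIntegral.integral_const_mul,
    intervalIntegral.integral_const, smul_eq_mul, ← hX, ← hL] at h0
  have h1 : 0 ≤ L * (L * (∫ v in v₁..v₂, h v ^ 2) - X ^ 2) := by nlinarith
  have h2 := nonneg_of_mul_nonneg_right h1 hL0
  have h3 := (mul_nonneg_iff_of_pos_left hL0).1 h1
  linarith
/-- Cauchy–Schwarz. -/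
theorem norm_integral_sq_le {v₁ v₂ : ℝ} (h₁ : 0 < v₁) (h₂ : v₁ ≤ v₂) {ξ : ℝ → ℂ}
    (hξ : ContinuousOn ξ (Icc v₁ v₂)) : ∃ C : ℝ, 0 ≤ C ∧ ∀ g : ℝ → ℂ, ContinuousOn g (Icc v₁ v₂) →
      ‖∫ v in v₁..v₂, g v * ξ v‖ ^ 2 ≤ C * nI v₁ v₂ g := by
  obtain ⟨M, hM0, hM⟩ := r2t_bdξ hξ
  have hv₂ : 0 < v₂ := h₁.trans_le h₂
  have hL : 0 ≤ v₂ - v₁ := sub_nonneg.2 h₂
  refine ⟨(v₂ - v₁) * (M ^ 2 * v₂ ^ 3), by positivity, fun g hg => ?_⟩
  have h1 := intervalIntegral.norm_integral_le_integral_norm (μ := volume)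
    (f := fun v => g v * ξ v) h₂
  have h2 := r2t_cs h₂ (hg.mul hξ).norm
  refine (pow_le_pow_left₀ (norm_nonneg _) h1 2).trans (h2.trans ?_)
  rw [mul_assoc]
  refine mul_le_mul_of_nonneg_left ?_ hL
  unfold nI
  rw [← intervalIntegral.integral_const_mul]
  refine intervalIntegral.integral_mono_on h₂ (r2t_ii h₂ ((hg.mul hξ).norm.pow 2))
    ((r2t_ii h₂ (r2t_cw h₁ hg)).const_mul _) fun v hv => ?_
  have hv0 : 0 < v := h₁.trans_le hv.1
  have h3 := hM v hv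
  have h4 := hv.2
  simp only [Pi.mul_apply]
  rw [norm_mul, mul_pow]
  calc ‖g v‖ ^ 2 * ‖ξ v‖ ^ 2 = ‖ξ v‖ ^ 2 * v ^ 3 * (‖g v‖ ^ 2 / v ^ 3) := by field_simp
    _ ≤ _ := by gcongr
theorem nI_add_le {v₁ v₂ : ℝ} (h₁ : 0 < v₁) (h₂ : v₁ ≤ v₂) {g g' : ℝ → ℂ}
    (hg : ContinuousOn g (Icc v₁ v₂)) (hg' : ContinuousOn g' (Icc v₁ v₂)) :
    nI v₁ v₂ (fun v => g v + g' v) ≤ 2 * nI v₁ v₂ g + 2 * nI v₁ v₂ g' := by
  have i1 := r2t_ii h₂ (r2t_cw h₁ hg)
  have i2 := r2t_ii h₂ (r2t_cw h₁ hg')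
  unfold nI
  rw [← intervalIntegral.integral_const_mul, ← intervalIntegral.integral_const_mul,
    ← intervalIntegral.integral_add (i1.const_mul _) (i2.const_mul _)]
  refine intervalIntegral.integral_mono_on h₂ (r2t_ii h₂ (r2t_cw h₁ (hg.add hg')))
    ((i1.const_mul _).add (i2.const_mul _)) fun v hv => ?_
  have hv0 : 0 < v := h₁.trans_le hv.1
  have h1 : ‖g v + g' v‖ ^ 2 ≤ 2 * ‖g v‖ ^ 2 + 2 * ‖g' v‖ ^ 2 := by
    have := pow_le_pow_left₀ (norm_nonneg _) (norm_add_le (g v) (g' v)) 2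
    nlinarith [sq_nonneg (‖g v‖ - ‖g' v‖)]
  calc ‖g v + g' v‖ ^ 2 / v ^ 3 ≤ (2 * ‖g v‖ ^ 2 + 2 * ‖g' v‖ ^ 2) / v ^ 3 := by gcongr
    _ = _ := by ring
/-- A Cauchy family converges weakly. -/
theorem exists_weak_lim {v₁ v₂ : ℝ} (h₁ : 0 < v₁) (h₂ : v₁ ≤ v₂) {g : ℝ → ℝ → ℂ}
    (hg : ∀ t, 0 < t → ContinuousOn (g t) (Icc v₁ v₂))
    (hc : ∀ ε : ℝ, 0 < ε → ∃ t₀ : ℝ, 0 < t₀ ∧ ∀ t t' : ℝ, 0 < t → t < t₀ → 0 < t' → t' < t₀ →
      nI v₁ v₂ (fun v => g t v - g t' v) ≤ ε)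
    {ξ : ℝ → ℂ} (hξ : ContinuousOn ξ (Icc v₁ v₂)) :
    ∃ L : ℂ, Tendsto (fun t => ∫ v in v₁..v₂, g t v * ξ v) (𝓝[>] 0) (𝓝 L) := by
  obtain ⟨C, hC0, hC⟩ := norm_integral_sq_le h₁ h₂ hξ
  refine cauchy_map_iff_exists_tendsto.1 (Metric.cauchy_iff.2 ⟨inferInstance, fun ε hε => ?_⟩)
  obtain ⟨t₀, ht₀, h⟩ := hc (ε ^ 2 / (C + 1)) (by positivity)
  refine ⟨(fun t => ∫ v in v₁..v₂, g t v * ξ v) '' Ioo 0 t₀,
    image_mem_map (Ioo_mem_nhdsGT ht₀), ?_⟩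
  rintro _ ⟨t, ht, rfl⟩ _ ⟨t', ht', rfl⟩
  have h1 := hC _ ((hg t ht.1).fun_sub (hg t' ht'.1))
  have h2 := h t t' ht.1 ht.2 ht'.1 ht'.2
  dsimp only
  rw [dist_eq_norm, ← intervalIntegral.integral_sub (r2t_ii h₂ ((hg t ht.1).fun_mul hξ))
    (r2t_ii h₂ ((hg t' ht'.1).fun_mul hξ))]
  simp only [← sub_mul]
  refine lt_of_pow_lt_pow_left₀ 2 hε.le (h1.trans_lt ?_)
  calc C * nI v₁ v₂ (fun v => g t v - g t' v) ≤ C * (ε ^ 2 / (C + 1)) := by gcongr
    _ < (C + 1) * (ε ^ 2 / (C + 1)) := by gcongr; linarith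
    _ = ε ^ 2 := by field_simp
/-- Weak lower semicontinuity: test against `ξ_i = conj (g i t - ℓ i) / v³`, so that
`X = lim_{t'} ∑ ∫ (g i t - g i t') ξ_i ≤ ε / 2 + X / 2`. -/
theorem weak_lsc {ι : Type} (S : Finset ι) {v₁ v₂ : ℝ} (h₁ : 0 < v₁) (h₂ : v₁ ≤ v₂)
    {g : ι → ℝ → ℝ → ℂ} {l : ι → ℝ → ℂ}
    (hg : ∀ i ∈ S, ∀ t, 0 < t → ContinuousOn (g i t) (Icc v₁ v₂))
    (hl : ∀ i ∈ S, ContinuousOn (l i) (Icc v₁ v₂))
    (hw : ∀ i ∈ S, ∀ ξ : ℝ → ℂ, ContinuousOn ξ (Icc v₁ v₂) →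
      Tendsto (fun t => ∫ v in v₁..v₂, g i t v * ξ v) (𝓝[>] 0) (𝓝 (∫ v in v₁..v₂, l i v * ξ v)))
    {t t₀ ε : ℝ} (ht : 0 < t) (ht₀ : 0 < t₀)
    (hc : ∀ t', 0 < t' → t' < t₀ → ∑ i ∈ S, nI v₁ v₂ (fun v => g i t v - g i t' v) ≤ ε) :
    ∑ i ∈ S, nI v₁ v₂ (fun v => g i t v - l i v) ≤ ε := by
  set ξ : ι → ℝ → ℂ := fun i v => conj (g i t v - l i v) / ((v ^ 3 : ℝ) : ℂ) with hξd
  have hξ : ∀ i ∈ S, ContinuousOn (ξ i) (Icc v₁ v₂) := fun i hi =>
    (Complex.continuous_conj.comp_continuousOn ((hg i hi t ht).sub (hl i hi))).div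
      (Complex.continuous_ofReal.comp_continuousOn (continuousOn_id.pow 3)) fun v hv => by
        exact_mod_cast (pow_pos (h₁.trans_le hv.1) 3).ne'
  set X := ∑ i ∈ S, nI v₁ v₂ (fun v => g i t v - l i v) with hX
  have h1 : Tendsto (fun t' => ∑ i ∈ S, ((∫ v in v₁..v₂, g i t v * ξ i v) -
      ∫ v in v₁..v₂, g i t' v * ξ i v)) (𝓝[>] 0) (𝓝 (X : ℂ)) := by
    rw [hX, Complex.ofReal_sum]
    refine tendsto_finsetSum _ fun i hi => ?_
    have e : ((nI v₁ v₂ (fun v => g i t v - l i v) : ℝ) : ℂ) =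
        (∫ v in v₁..v₂, g i t v * ξ i v) - ∫ v in v₁..v₂, l i v * ξ i v := by
      rw [← intervalIntegral.integral_sub (r2t_ii h₂ ((hg i hi t ht).fun_mul (hξ i hi)))
        (r2t_ii h₂ ((hl i hi).fun_mul (hξ i hi)))]
      unfold nI
      rw [← intervalIntegral.integral_ofReal]
      refine intervalIntegral.integral_congr fun v _ => ?_
      simp only [hξd]
      rw [← sub_mul, ← mul_div_assoc, Complex.mul_conj, Complex.normSq_eq_norm_sq]
      push_cast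
      rfl
    rw [e]
    exact tendsto_const_nhds.sub (hw i hi _ (hξ i hi))
  have h2 : ∀ᶠ t' in 𝓝[>] (0 : ℝ), ‖∑ i ∈ S, ((∫ v in v₁..v₂, g i t v * ξ i v) -
      ∫ v in v₁..v₂, g i t' v * ξ i v)‖ ≤ ε / 2 + X / 2 := by
    filter_upwards [Ioo_mem_nhdsGT ht₀] with t' ht'
    have h3 := hc t' ht'.1 ht'.2
    refine (norm_sum_le _ _).trans ?_
    have h4 : ∀ i ∈ S, ‖(∫ v in v₁..v₂, g i t v * ξ i v) - ∫ v in v₁..v₂, g i t' v * ξ i v‖ ≤
        nI v₁ v₂ (fun v => g i t v - g i t' v) / 2 + nI v₁ v₂ (fun v => g i t v - l i v) / 2 := by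
      intro i hi
      have c1 := (hg i hi t ht).fun_mul (hξ i hi)
      have c2 := (hg i hi t' ht'.1).fun_mul (hξ i hi)
      have i1 := r2t_ii h₂ (r2t_cw h₁ ((hg i hi t ht).fun_sub (hg i hi t' ht'.1)))
      have i2 := r2t_ii h₂ (r2t_cw h₁ ((hg i hi t ht).fun_sub (hl i hi)))
      rw [← intervalIntegral.integral_sub (r2t_ii h₂ c1) (r2t_ii h₂ c2)]
      refine (intervalIntegral.norm_integral_le_integral_norm h₂).trans ?_
      unfold nI
      rw [← intervalIntegral.integral_div, ← intervalIntegral.integral_div,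
        ← intervalIntegral.integral_add (i1.div_const _) (i2.div_const _)]
      refine intervalIntegral.integral_mono_on h₂ (r2t_ii h₂ (c1.fun_sub c2).norm)
        ((i1.div_const _).add (i2.div_const _)) fun v hv => ?_
      have hv0 : 0 < v := h₁.trans_le hv.1
      simp only [hξd]
      rw [← sub_mul, norm_mul, norm_div, Complex.norm_conj, Complex.norm_real,
        Real.norm_of_nonneg (by positivity), ← mul_div_assoc]
      have h5 : ‖g i t v - g i t' v‖ * ‖g i t v - l i v‖ ≤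
          (‖g i t v - g i t' v‖ ^ 2 + ‖g i t v - l i v‖ ^ 2) / 2 := by
        nlinarith [sq_nonneg (‖g i t v - g i t' v‖ - ‖g i t v - l i v‖)]
      calc _ ≤ ((‖g i t v - g i t' v‖ ^ 2 + ‖g i t v - l i v‖ ^ 2) / 2) / v ^ 3 := by gcongr
        _ = _ := by ring
    refine (Finset.sum_le_sum h4).trans ?_
    rw [Finset.sum_add_distrib, ← Finset.sum_div, ← Finset.sum_div, ← hX]
    linarith
  have h5 := le_of_tendsto h1.norm h2
  rw [Complex.norm_real] at h5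
  have h6 : X ≤ ‖X‖ := le_abs_self X
  linarith

end Crest.Agent.R017.Theta

end
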