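import Crest.Agent.R017.ThIP3
import Crest.Agent.R017.ThRes2

/-! # Row 17, cubic theta: estimates for the Fourier coefficients -/

set_option autoImplicit false

noncomputable section

open scoped BigOperators ComplexConjugate Topology ENNReal
open Complex MeasureTheory Filter Set

namespace Crest.Agent.R017.Theta

theorem co_nI_nonneg {v₁ v₂ : ℝ} (h₁ : 0 < v₁) (h₂ : v₁ ≤ v₂) (g : ℝ → ℂ) : 0 ≤ nI v₁ v₂ g := by
  refine intervalIntegral.integral_nonneg h₂ fun v hv => ?_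
  have hv0 : 0 < v := lt_of_lt_of_le h₁ hv.1
  positivity

/-- Parseval on a box (`lintegral_prod_muH`, `parseval`, `lintegral_tsum`). -/
theorem pars_box (z₀ : ℂ) {v₁ v₂ : ℝ} (h₁ : 0 < v₁) (h₂ : v₁ ≤ v₂) {D : ℂ × ℝ → ℂ}
    (hD : ContinuousOn D Hs) {a : O → ℝ → ℂ} (ha : ∀ h, ContinuousOn (a h) (Ioi 0))
    (hs : ∀ v, 0 < v → Summable fun h => ‖a h v‖)
    (he : ∀ z v, 0 < v → D (z, v) = ∑' h : O, a h v * eh h z) :
    ∫⁻ w in Fd z₀ ×ˢ Icc v₁ v₂, ‖D w‖ₑ ^ 2 ∂muH =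
      ENNReal.ofReal vF * ∑' h : O, ENNReal.ofReal (nI v₁ v₂ (a h)) := by
  have hf : AEMeasurable (fun w => ‖D w‖ₑ ^ 2) muH := (aesm_muH hD).enorm.pow_const 2
  have hsub : Icc v₁ v₂ ⊆ Ioi (0 : ℝ) := fun v hv => lt_of_lt_of_le h₁ hv.1
  rw [lintegral_prod_muH (measurableSet_Fd z₀) measurableSet_Icc hf, inter_eq_left.2 hsub]
  have hc : ∀ h, ContinuousOn (fun v : ℝ => ‖a h v‖ ^ 2 / v ^ 3) (Icc v₁ v₂) := fun h =>
    (((ha h).mono hsub).norm.pow 2).div (continuousOn_id.pow 3)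
      (fun v hv => (pow_pos (hsub hv) 3).ne')
  have e1 : ∀ v ∈ Icc v₁ v₂, (∫⁻ z in Fd z₀, ‖D (z, v)‖ₑ ^ 2) * ENNReal.ofReal (v ^ 3)⁻¹ =
      ENNReal.ofReal vF * ∑' h : O, ENNReal.ofReal (‖a h v‖ ^ 2 / v ^ 3) := by
    intro v hv
    have hv0 : 0 < v := hsub hv
    simp only [he _ v hv0]
    rw [parseval z₀ (hs v hv0), mul_assoc, ← ENNReal.tsum_mul_right]
    congr 2
    funext h
    rw [div_eq_mul_inv, ENNReal.ofReal_mul (by positivity), ENNReal.ofReal_pow (norm_nonneg _),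
      ofReal_norm]
  rw [setLIntegral_congr_fun measurableSet_Icc e1,
    lintegral_const_mul' _ _ ENNReal.ofReal_ne_top, lintegral_tsum]
  · congr 2
    funext h
    rw [nI, intervalIntegral.integral_of_le h₂, ← integral_Icc_eq_integral_Ioc,
      ofReal_integral_eq_lintegral_ofReal (hc h).integrableOn_Icc]
    filter_upwards [ae_restrict_mem measurableSet_Icc] with v hv
    have hv0 : 0 < v := hsub hv
    positivity
  · intro h
    exact ((hc h).aemeasurable measurableSet_Icc).ennreal_ofReal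
theorem sum_nI_le {v₁ v₂ M : ℝ} (h₁ : 0 < v₁) (h₂ : v₁ ≤ v₂) (hM : 0 ≤ M) {D : ℂ × ℝ → ℂ}
    (hD : ContinuousOn D Hs) {a : O → ℝ → ℂ} (ha : ∀ h, ContinuousOn (a h) (Ioi 0))
    (hs : ∀ v, 0 < v → Summable fun h => ‖a h v‖)
    (he : ∀ z v, 0 < v → D (z, v) = ∑' h : O, a h v * eh h z)
    (hle : ∫⁻ w in Fd 0 ×ˢ Ici v₁, ‖D w‖ₑ ^ 2 ∂muH ≤ ENNReal.ofReal M) (S : Finset O) :
    ∑ h ∈ S, nI v₁ v₂ (a h) ≤ M / vF := by
  have h3 : ∫⁻ w in Fd 0 ×ˢ Icc v₁ v₂, ‖D w‖ₑ ^ 2 ∂muH ≤ ENNReal.ofReal M :=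
    (lintegral_mono_set (prod_mono subset_rfl Icc_subset_Ici_self)).trans hle
  rw [pars_box 0 h₁ h₂ hD ha hs he] at h3
  have h4 : ENNReal.ofReal (vF * ∑ h ∈ S, nI v₁ v₂ (a h)) ≤ ENNReal.ofReal M := by
    refine le_trans ?_ h3
    rw [ENNReal.ofReal_mul vF_pos.le,
      ENNReal.ofReal_sum_of_nonneg (fun h _ => co_nI_nonneg h₁ h₂ (a h))]
    gcongr
    exact ENNReal.sum_le_tsum S
  rw [ENNReal.ofReal_le_ofReal_iff hM] at h4
  rw [le_div_iff₀ vF_pos, mul_comm]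
  exact h4

/-- The common form of the three estimates below. -/
theorem co_comb {B₁ B₂ : O × O → ℂ} (hB₁ : Wt B₁) (hB₂ : Wt B₂) (κ : ℂ) {t₁ t₂ : ℝ} (ht₁ : 0 < t₁)
    (ht₂ : 0 < t₂) {v₁ v₂ M : ℝ} (h₁ : 0 < v₁) (h₂ : v₁ ≤ v₂) (hM : 0 ≤ M)
    (hle : ∫⁻ w in Fd 0 ×ˢ Ici v₁, ‖U B₁ t₁ w - κ * U B₂ t₂ w‖ₑ ^ 2 ∂muH ≤ ENNReal.ofReal M)
    (S : Finset O) (hS : (0 : O) ∉ S) :
    ∑ h ∈ S, nI v₁ v₂ (fun v => ah B₁ h t₁ v - κ * ah B₂ h t₂ v) ≤ M / vF := by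
  have key := sum_nI_le h₁ h₂ hM (D := fun w => U B₁ t₁ w - κ * U B₂ t₂ w)
    (a := fun h v => ahf B₁ h t₁ v - κ * ahf B₂ h t₂ v) ?_ ?_ ?_ ?_ hle S
  · refine le_trans (le_of_eq (Finset.sum_congr rfl fun h hh => ?_)) key
    have h0 : h ≠ 0 := fun e => hS (e ▸ hh)
    rw [ahf_of_ne h0, ahf_of_ne h0]
  · exact (continuousOn_Uc (norm_cf_le hB₁.bd) ht₁).sub
      (continuousOn_const.mul (continuousOn_Uc (norm_cf_le hB₂.bd) ht₂))
  · intro h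
    exact (continuousOn_ahf hB₁.bd h ht₁).sub
      (continuousOn_const.mul (continuousOn_ahf hB₂.bd h ht₂))
  · intro v hv
    refine Summable.of_nonneg_of_le (fun _ => norm_nonneg _) (fun h => ?_)
      ((summable_ahf hB₁.bd ht₁ hv).add ((summable_ahf hB₂.bd ht₂ hv).mul_left ‖κ‖))
    refine (norm_sub_le _ _).trans (le_of_eq ?_)
    rw [norm_mul]
  · intro z v hv
    have s1 : Summable fun h => ahf B₁ h t₁ v * eh h z :=
      Summable.of_norm (by simpa only [norm_mul, norm_eh, mul_one] using summable_ahf hB₁.bd ht₁ hv)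
    have s2 : Summable fun h => ahf B₂ h t₂ v * eh h z :=
      Summable.of_norm (by simpa only [norm_mul, norm_eh, mul_one] using summable_ahf hB₂.bd ht₂ hv)
    show U B₁ t₁ (z, v) - κ * U B₂ t₂ (z, v) = _
    rw [U_fourier hB₁ ht₁ hv, U_fourier hB₂ ht₂ hv, ← tsum_mul_left, ← s1.tsum_sub (s2.mul_left κ)]
    congr 1
    funext h
    ring

theorem coef_cauchy {B : O × O → ℂ} (hB : Per B) {v₁ v₂ : ℝ} (h₁ : 0 < v₁) (h₂ : v₁ ≤ v₂) {ε : ℝ}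
    (hε : 0 < ε) : ∃ t₀ : ℝ, 0 < t₀ ∧ ∀ t t' : ℝ, 0 < t → t < t₀ → 0 < t' → t' < t₀ →
      ∀ S : Finset O, (0 : O) ∉ S →
        ∑ h ∈ S, nI v₁ v₂ (fun v => ah B h t v - ah B h t' v) ≤ ε := by
  obtain ⟨t₀, ht₀, H⟩ := strip_cauchy hB h₁ (mul_pos hε vF_pos)
  refine ⟨t₀, ht₀, fun t t' ht htt ht' htt' S hS => ?_⟩
  have key := co_comb hB.wt hB.wt 1 ht ht' h₁ h₂ (mul_pos hε vF_pos).le
    (by simpa only [one_mul] using H t t' ht htt ht' htt') S hS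
  rw [mul_div_assoc, div_self vF_pos.ne', mul_one] at key
  simpa only [one_mul] using key
theorem coef_bound : ∃ C t₀ : ℝ, 0 ≤ C ∧ 0 < t₀ ∧ ∀ B : O × O → ℂ, Per B → ∀ h : O, h ≠ 0 →
    ∀ δ t : ℝ, 0 < δ → 0 < t → t < t₀ → nI δ (2 * δ) (ah B h t) ≤ C * (1 + δ⁻¹ ^ 2) := by
  obtain ⟨C, t₀, hC, ht₀, H⟩ := strip_bound
  refine ⟨C / vF, t₀, div_nonneg hC vF_pos.le, ht₀, fun B hB h hh δ t hδ ht htt => ?_⟩
  have key := co_comb hB.wt hB.wt 0 ht ht hδ (show δ ≤ 2 * δ by linarith)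
    (show 0 ≤ C * (1 + δ⁻¹ ^ 2) by positivity)
    (by simpa only [zero_mul, sub_zero] using H B hB δ t hδ ht htt) {h}
    (by simpa using hh.symm)
  simp only [zero_mul, sub_zero, Finset.sum_singleton] at key
  rw [div_mul_eq_mul_div]
  exact key
theorem coef_null {B : O × O → ℂ} (hB : Per B) {p : O} (hp : Prime p) (hp' : Prim p) {h : O}
    (hh : h ≠ 0) {v₁ v₂ : ℝ} (h₁ : 0 < v₁) (h₂ : v₁ ≤ v₂) :
    Tendsto (fun t => nI v₁ v₂ (fun v => ah (Bp p B) h t v - ah B h t v / ((Nr p : ℂ) + 1)))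
      (𝓝[>] 0) (𝓝 0) := by
  have H := strip_null hB hp hp' h₁
  rw [Metric.tendsto_nhds]
  intro ε hε
  have hpos : 0 < ε / 2 * vF := mul_pos (half_pos hε) vF_pos
  have h3 := H.eventually (Iic_mem_nhds (ENNReal.ofReal_pos.2 hpos))
  filter_upwards [h3, self_mem_nhdsWithin] with t ht ht0
  have key := co_comb (hB.wt.bp p) hB.wt (((Nr p : ℂ) + 1)⁻¹) ht0 ht0 h₁ h₂ hpos.le
    (by simpa only [div_eq_inv_mul] using ht) {h} (by simpa using hh.symm)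
  rw [Finset.sum_singleton, mul_div_assoc, div_self vF_pos.ne', mul_one] at key
  rw [Real.dist_eq, sub_zero, abs_of_nonneg (co_nI_nonneg h₁ h₂ _)]
  simp only [div_eq_inv_mul]
  linarith

end Crest.Agent.R017.Theta

end
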