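import Crest.Agent.R017.Shift

/-! # Row 17, cubic theta: definitions -/

set_option autoImplicit false

noncomputable section

open scoped BigOperators ComplexConjugate Topology ENNReal
open Complex MeasureTheory Filter Set

namespace Crest.Agent.R017

open Classical in
/-- The cubic symbol attached to a primitive row `(c, d)`. -/
def sym (c d : O) : ℂ := if lam ∣ d then kap c d else kap d c

namespace Theta

/-! ## Rows and `SL₂(O)` -/

/-- `SL₂(O)`. -/
abbrev SG : Type := Matrix.SpecialLinearGroup (Fin 2) O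

instance : Countable SG := by
  unfold SG Matrix.SpecialLinearGroup Matrix
  infer_instance

/-- The matrix `(a b; c d)`. -/
def mkSG (a b c d : O) (h : a * d - b * c = 1) : SG :=
  ⟨!![a, b; c, d], by rw [Matrix.det_fin_two_of]; exact h⟩

/-- The translation `(1 b; 0 1)`. -/
def gT (b : O) : SG := mkSG 1 b 0 1 (by simp)

/-- The inversion `(0 -1; 1 0)`. -/
def gS : SG := mkSG 0 (-1) 1 0 (by simp)

/-- Right action on rows. -/
def ra (x : O × O) (g : SG) : O × O := (x.1 * g 0 0 + x.2 * g 1 0, x.1 * g 0 1 + x.2 * g 1 1)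

/-- The bottom row. -/
def bot (g : SG) : O × O := (g 1 0, g 1 1)

/-- The row `(0, 1)`. -/
def e1 : O × O := (0, 1)

/-- Primitive rows. -/
def Cop (x : O × O) : Prop := IsCoprime x.1 x.2

instance (x : O × O) : Decidable (Cop x) := Classical.propDecidable _

/-- Congruence of rows modulo `9`. -/
def Cg (x y : O × O) : Prop := (9 : O) ∣ x.1 - y.1 ∧ (9 : O) ∣ x.2 - y.2

/-- The symbol of a row. -/
def sy (x : O × O) : ℂ := sym x.1 x.2

open Classical in
/-- A matrix with prescribed bottom row. -/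
def lift (x : O × O) : SG := if h : ∃ g : SG, bot g = x then h.choose else 1

open Classical in
/-- The unit congruent to `x` modulo `3` (and `1` if there is none, i.e. if `λ ∣ x`). -/
def un (x : O) : O := if h : ∃ u : O, IsUnit u ∧ (3 : O) ∣ x - u then h.choose else 1

/-- The correction in cubic reciprocity: `(n / x) = (x / n) * rc n x` for primary `n`, `λ ∤ x`. -/
def rc (n x : O) : ℂ := conj (kap n (un x))

open Classical in
/-- The correction for the second entry of a row. -/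
def rc' (n : O) (x : O × O) : ℂ := if lam ∣ x.2 then rc n x.1 else 1

/-- Weights that are periodic modulo `9` in the second entry. -/
structure Wt (B : O × O → ℂ) : Prop where
  bd : ∀ x, ‖B x‖ ≤ 1
  per : ∀ c d d' : O, (9 : O) ∣ d - d' → B (c, d) = B (c, d')

/-- Weights that are periodic modulo `9`. -/
structure Per (B : O × O → ℂ) : Prop where
  bd : ∀ x, ‖B x‖ ≤ 1
  per : ∀ x y, Cg x y → B x = B y

/-- The coefficient of a row. -/
def cf (B : O × O → ℂ) (x : O × O) : ℂ := if Cop x then B x * sy x else 0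

/-- The operator attached to a primary `n`. -/
def Op (n : O) (B : O × O → ℂ) : O × O → ℂ :=
  fun x => B (n * x.1, n ^ 2 * x.2) * rc n x.2 * rc' n x ^ 2

open Classical in
/-- Restriction to the rows with `p ∣ c`. -/
def Bp (p : O) (B : O × O → ℂ) : O × O → ℂ := fun x => if p ∣ x.1 then B x else 0

open Classical in
/-- The class of `(0, 1)` modulo `9`, with `P ∣ c`. -/
def Be (P : O) : O × O → ℂ := fun x => if Cg x e1 ∧ P ∣ x.1 then 1 else 0

/-- The Gauss sums occurring in the Fourier expansion. -/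
def Ac (B : O × O → ℂ) (c h : O) : ℂ := gs (fun d => cf B (c, d)) (9 * c) h

/-- `φ(j) / N j`. -/
def ph (j : O) : ℂ := ∑ e ∈ pdiv j, mu e / (Nr e : ℂ)

/-! ## Hyperbolic space -/

/-- The upper half space. -/
def Hs : Set (ℂ × ℝ) := {w | 0 < w.2}

/-- `|c z + d|² + |c|² v²`. -/
def Dn (w : ℂ × ℝ) (x : O × O) : ℝ := ‖emb x.1 * w.1 + emb x.2‖ ^ 2 + Nr x.1 * w.2 ^ 2

/-- The Hermitian form attached to a point. -/
def Qf (w : ℂ × ℝ) (x : O × O) : ℝ := Dn w x / w.2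

/-- The action of `SL₂(O)`. -/
def mob (g : SG) (w : ℂ × ℝ) : ℂ × ℝ :=
  (((emb (g 0 0) * w.1 + emb (g 0 1)) * conj (emb (g 1 0) * w.1 + emb (g 1 1)) +
      emb (g 0 0) * conj (emb (g 1 0)) * ((w.2 ^ 2 : ℝ) : ℂ)) / ((Dn w (bot g) : ℝ) : ℂ),
    w.2 / Dn w (bot g))

/-- The rotation by `π` about the vertical geodesic over `z₀`. -/
def rfl' (z₀ : ℂ) (w : ℂ × ℝ) : ℂ × ℝ := (2 * z₀ - w.1, w.2)

/-- The invariant measure `dz dv / v³`. -/
def muH : Measure (ℂ × ℝ) :=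
  ((volume : Measure (ℂ × ℝ)).restrict Hs).withDensity (fun w => ENNReal.ofReal (w.2 ^ 3)⁻¹)

/-- A fundamental domain for `9 O` in `ℂ`: `z₀ + a + b ω` with `0 ≤ a, b < 9`. -/
def Fd (z₀ : ℂ) : Set ℂ :=
  {z | (z - z₀).re + (z - z₀).im / Real.sqrt 3 ∈ Ico (0 : ℝ) 9 ∧
    2 / Real.sqrt 3 * (z - z₀).im ∈ Ico (0 : ℝ) 9}

/-- The area of `Fd z₀`. -/
def vF : ℝ := 81 * (Real.sqrt 3 / 2)

/-- The additive character of frequency `h / 9`. -/
def eh (h : O) (z : ℂ) : ℂ := ec (emb h * z / 9)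

/-- The normalising sum. -/
def Ze (w : ℂ × ℝ) : ℝ≥0∞ := ∑' x : O × O, if Cop x then ENNReal.ofReal (Phi (Qf w x)) else 0

/-- The measure representing integration over the quotient (times `81`). -/
def nuH : Measure (ℂ × ℝ) :=
  muH.withDensity (fun w => (Fd 0).indicator (fun _ => ENNReal.ofReal (Phi w.2⁻¹) / Ze w) w.1)

/-- `t^{4/3}`. -/
def pw (t : ℝ) : ℂ := ((t ^ (4 / 3 : ℝ) : ℝ) : ℂ)

/-- The normalised Gaussian series with coefficients `a`. -/
def Uc (a : O × O → ℂ) (t : ℝ) (w : ℂ × ℝ) : ℂ :=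
  pw t * ∑' x : O × O, a x * (Phi (t * Qf w x) : ℂ)

/-- The normalised pseudo-Eisenstein series; `θ_B = lim_{t → 0} U B t`. -/
def U (B : O × O → ℂ) (t : ℝ) (w : ℂ × ℝ) : ℂ := Uc (cf B) t w

/-- Convergence to zero in `L²_loc(Hs)` as `t → 0⁺`. -/
structure L2z (f : ℝ → ℂ × ℝ → ℂ) : Prop where
  cont : ∀ t, 0 < t → ContinuousOn (f t) Hs
  lim : ∀ K : Set (ℂ × ℝ), IsCompact K → K ⊆ Hs →
    Tendsto (fun t => ∫⁻ w in K, ‖f t w‖ₑ ^ 2 ∂muH) (𝓝[>] 0) (𝓝 0)

/-! ## One-variable analysis -/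

/-- The kernel in the Fourier expansion (`ν = N h`, `y = t N c`). -/
def fk (ν v y : ℝ) : ℝ := v / (81 * y) * Phi (v * y) * Phi (v * ν / (81 * y))

/-- The scaled kernel. -/
def f1 (v y : ℝ) : ℝ := v / y * Phi (v * (y + y⁻¹))

/-- The fixed test function. -/
def F0 (y : ℝ) : ℂ := ((∫ v in (1 : ℝ)..2, f1 v y : ℝ) : ℂ)

open Classical in
/-- `t^{4/3} ∑_{c ≠ 0} a(c) F(t N c)`. -/
def Sm (a : O → ℂ) (F : ℝ → ℂ) (t : ℝ) : ℂ :=
  pw t * ∑' c : O, if c = 0 then 0 else a c * F (t * Nr c)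

/-- The Mellin transform at `4/3`. -/
def Me (F : ℝ → ℂ) : ℂ := ∫ y in Ioi (0 : ℝ), F y * ((y ^ (1 / 3 : ℝ) : ℝ) : ℂ)

/-- Admissible test functions. -/
structure Nice (F : ℝ → ℂ) : Prop where
  cont : ContinuousOn F (Ioi 0)
  bd : ∃ C c : ℝ, 0 < c ∧ ∀ y : ℝ, 0 < y → ‖F y‖ ≤ C * Real.exp (-(c * (y + y⁻¹)))

/-- Linear growth. -/
def PG (a : O → ℂ) : Prop := ∃ C : ℝ, ∀ c, ‖a c‖ ≤ C * Nr c

/-- The "residue at `4/3`" of `∑ a(c) N(c)^{-s}` exists and is (a fixed multiple of) `L`. -/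
def Res (a : O → ℂ) (L : ℂ) : Prop := Tendsto (Sm a F0) (𝓝[>] 0) (𝓝 L)

/-- The part of the `h`-th Fourier coefficient of `U B t` coming from the rows with `c ≠ 0`. -/
def ah (B : O × O → ℂ) (h : O) (t v : ℝ) : ℂ :=
  Sm (fun c => Ac B c h) (fun y => (fk (Nr h) v y : ℂ)) t

/-- The contribution of the rows with `c = 0`. -/
def e0 (B : O × O → ℂ) : ℂ := ∑' d : O, cf B (0, d)

open Classical in
/-- The `h`-th Fourier coefficient of `U B t`. -/
def ahf (B : O × O → ℂ) (h : O) (t v : ℝ) : ℂ :=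
  ah B h t v + if h = 0 then pw t * e0 B * (Phi (t / v) : ℂ) else 0

/-- The weighted `L²` norm on an interval. -/
def nI (v₁ v₂ : ℝ) (g : ℝ → ℂ) : ℝ := ∫ v in v₁..v₂, ‖g v‖ ^ 2 / v ^ 3

/-- The residue of the Gauss sum series. -/
def rs (B : O × O → ℂ) (h : O) : ℂ := limUnder (𝓝[>] (0 : ℝ)) (Sm (fun c => Ac B c h) F0)

/-- The normalised Fourier coefficient of `θ_B`. -/
def Tc (B : O × O → ℂ) (h : O) : ℂ := rs B h / Me F0 * ((Nr h ^ (1 / 6 : ℝ) : ℝ) : ℂ)

/-- The Bessel function `2 K_{1/3}(2 c₀ x)`. -/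
def K1 (x : ℝ) : ℝ := ∫ y in Ioi (0 : ℝ), y ^ (-(2 / 3) : ℝ) * Phi (x * (y + y⁻¹))

/-- The `h`-th Fourier coefficient of `θ_B`. -/
def th (B : O × O → ℂ) (h : O) (v : ℝ) : ℂ :=
  Tc B h * (((9 : ℝ) ^ (-(7 / 3) : ℝ) * v * K1 (v * ‖emb h‖ / 9) : ℝ) : ℂ)

open Classical in
/-- The non-constant part of `θ_B`. -/
def Th (B : O × O → ℂ) (w : ℂ × ℝ) : ℂ := ∑' h : O, if h = 0 then 0 else th B h w.2 * eh h w.1

/-! ## The constant term -/

open Classical in
/-- The sum over cubes. -/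
def beta (P : O) (x : ℝ) : ℂ :=
  (x : ℂ) * ∑' j : O, if Prim j ∧ P ∣ j then ph j * (Phi ((x * Nr j) ^ 3) : ℂ) else 0

open Classical in
/-- The normalised constant term of `U (Be P)`. -/
def alpha (P : O) (y : ℝ) : ℂ :=
  ((y ^ (1 / 3 : ℝ) / 81 : ℝ) : ℂ) *
    ∑' c : O, if c = 0 then 0 else Ac (Be P) c 0 / (Nr c : ℂ) * (Phi (y * Nr c) : ℂ)

/-- The function to be unfolded. -/
def hh (P : O) (t t' : ℝ) (w : ℂ × ℝ) : ℂ := pw t * (Phi (t / w.2) : ℂ) * conj (U (Be P) t' w)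

/-- The unfolded inner product. -/
def IPv (P : O) (t t' : ℝ) : ℂ := ∫ w in Fd 0 ×ˢ (univ : Set ℝ), hh P t t' w ∂muH

/-- The indicator of a class. -/
def ind {ι : Type} [DecidableEq ι] (cl : O × O → ι) (κ : ι) : O × O → ℂ :=
  fun x => if cl x = κ then 1 else 0

/-- An invariant classification of primitive rows refining congruence modulo `9`. -/
structure Clf {ι : Type} (cl : O × O → ι) (P : O) : Prop where
  inv : ∀ x y g, Cop x → Cop y → cl x = cl y → cl (ra x g) = cl (ra y g)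
  cg : ∀ x y, Cop x → Cop y → cl x = cl y → Cg x y
  base : ∀ x, Cop x → (cl x = cl e1 ↔ Cg x e1 ∧ P ∣ x.1)

/-- The invariant sesquilinear combination. -/
def Kc {ι : Type} [Fintype ι] [DecidableEq ι] (cl : O × O → ι) (t t' : ℝ) (w : ℂ × ℝ) : ℂ :=
  ∑ κ, U (ind cl κ) t w * conj (U (ind cl κ) t' w)

/-! ## The dual weight -/

/-- The gamma factor of the functional equation. -/
def gam (w : ℂ) : ℂ :=
  ((9 / c0 : ℝ) : ℂ) ^ (4 * w - 2) * (Complex.Gamma (w + 2 / 3) * Complex.Gamma (w + 1 / 3)) *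
    ((Complex.Gamma (5 / 3 - w))⁻¹ * (Complex.Gamma (4 / 3 - w))⁻¹)

/-- The Mellin density of the dual weight. -/
def mV (A τ t : ℝ) : ℂ :=
  (1 / (2 * Real.pi) : ℂ) * gam (1 / 2 + t * I) * Wh A (1 - (1 / 2 + t * I) - τ * I)

/-- The dual weight. -/
def VV (A τ y : ℝ) : ℂ := ∫ t : ℝ, mV A τ t * (y : ℂ) ^ (-(1 / 2 + t * I))

open Classical in
/-- The Bessel series along a vertical geodesic. -/
def Jb (a : O → ℂ) (v : ℝ) : ℂ :=
  ∑' c : O, if c = 0 then 0 else a c * ((‖emb c‖ * K1 (v * ‖emb c‖ / 9) : ℝ) : ℂ)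

end Theta

end Crest.Agent.R017

end
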