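import Crest.Agent.R017.ThGeo1

/-! # Row 17, cubic theta: the Gaussian series -/

set_option autoImplicit false

noncomputable section

open scoped BigOperators ComplexConjugate Topology ENNReal
open Complex MeasureTheory Filter Set

namespace Crest.Agent.R017.Theta

theorem e1t_Phi_add (a b : ℝ) : Phi (a + b) = Phi a * Phi b := by
  unfold Phi
  rw [← Real.exp_add]
  congr 1
  ring

theorem e1t_dom {c : ℝ} (hc : 0 < c) : Summable (fun x : O × O => Phi (c * (Nr x.1 + Nr x.2))) := by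
  refine ((p1_summable0' hc).mul_of_nonneg (p1_summable0' hc) (fun _ => (Phi_pos _).le)
    fun _ => (Phi_pos _).le).congr fun x => ?_
  rw [mul_add, e1t_Phi_add]

theorem e1t_cont : Continuous Phi := by
  unfold Phi
  fun_prop

theorem e1t_norm {a : O × O → ℂ} {M : ℝ} (ha : ∀ x, ‖a x‖ ≤ M) (x : O × O) (y : ℝ) :
    ‖a x * (Phi y : ℂ)‖ ≤ M * Phi y := by
  rw [norm_mul, Complex.norm_real, Real.norm_of_nonneg (Phi_pos _).le]
  exact mul_le_mul_of_nonneg_right (ha x) (Phi_pos _).le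

theorem summable_Phi_Qf {t : ℝ} (ht : 0 < t) {w : ℂ × ℝ} (hw : w ∈ Hs) :
    Summable (fun x : O × O => Phi (t * Qf w x)) := by
  obtain ⟨c, hc, H⟩ := exists_Qf_ge (isCompact_singleton (x := w)) (singleton_subset_iff.2 hw)
  refine (e1t_dom (mul_pos ht hc)).of_nonneg_of_le (fun _ => (Phi_pos _).le) fun x => p1_anti ?_
  rw [mul_assoc]
  exact mul_le_mul_of_nonneg_left (H w rfl x) ht.le
/-- Shifted Gaussian sums are largest at the origin (`poisson_gauss`, `tsum_Phi_le`). -/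
theorem tsum_Phi_shift_le : ∃ C : ℝ, 0 ≤ C ∧ ∀ R : ℝ, 0 < R → ∀ z : ℂ,
    ∑' x : O, Phi (‖emb x + z‖ ^ 2 / R) ≤ C * (1 + R) := by
  obtain ⟨C, H⟩ := tsum_Phi_le
  refine ⟨max C 0, le_max_right _ _, fun R hR z => ?_⟩
  have h1 := poisson_gauss hR z 0
  simp only [mul_zero, p1_ec_zero, mul_one, sub_zero, norm_emb_sq] at h1
  rw [← Complex.ofReal_tsum] at h1
  have h2 := congrArg norm h1
  rw [Complex.norm_real, norm_mul, Complex.norm_real, Real.norm_of_nonneg hR.le] at h2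
  have h3 : ‖∑' h : O, (Phi (R * Nr h) : ℂ) * ec (emb h * z)‖ ≤ ∑' h : O, Phi (R * Nr h) :=
    tsum_of_norm_bounded (p1_summable0' hR).hasSum fun h => by
      rw [norm_mul, norm_ec, mul_one, Complex.norm_real, Real.norm_of_nonneg (Phi_pos _).le]
  have h4 := H R⁻¹ (inv_pos.2 hR)
  simp only [div_inv_eq_mul, mul_comm _ R] at h4
  refine (le_abs_self _).trans (h2.le.trans ?_)
  calc _ ≤ R * (C * (1 + R⁻¹)) := mul_le_mul_of_nonneg_left (h3.trans h4) hR.le
    _ = C * (1 + R) := by field_simp; ring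
    _ ≤ _ := mul_le_mul_of_nonneg_right (le_max_left _ _) (by linarith)
theorem tsum_Phi_Qf_le : ∃ C : ℝ, 0 ≤ C ∧ ∀ t : ℝ, 0 < t → ∀ w ∈ Hs,
    ∑' x : O × O, Phi (t * Qf w x) ≤ C * (1 + (t * w.2)⁻¹) * (1 + w.2 / t) := by
  obtain ⟨C, hC, H⟩ := tsum_Phi_shift_le
  refine ⟨C * C, mul_nonneg hC hC, fun t ht w hw => ?_⟩
  have hv : 0 < w.2 := hw
  have hs := summable_Phi_Qf ht hw
  have e : ∀ c d : O, Phi (t * Qf w (c, d)) =
      Phi (‖emb d + emb c * w.1‖ ^ 2 / (w.2 / t)) * Phi (Nr c / (t * w.2)⁻¹) := fun c d => by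
    rw [← e1t_Phi_add, Qf, Dn, add_comm (emb d)]
    congr 1
    field_simp
  have h0 := H (t * w.2)⁻¹ (by positivity) 0
  simp only [add_zero, norm_emb_sq] at h0
  rw [hs.tsum_prod]
  refine le_trans (hs.prod.tsum_le_tsum (g := fun c => C * (1 + w.2 / t) * Phi (Nr c / (t * w.2)⁻¹))
    (fun c => ?_) ((p1_summable0 (by positivity)).mul_left _)) ?_
  · simp only [e]
    rw [tsum_mul_right]
    exact mul_le_mul_of_nonneg_right (H _ (by positivity) _) (Phi_pos _).le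
  · rw [tsum_mul_left]
    refine (mul_le_mul_of_nonneg_left h0 (by positivity)).trans (le_of_eq ?_)
    ring
theorem summable_Uc {a : O × O → ℂ} {M : ℝ} (ha : ∀ x, ‖a x‖ ≤ M) {t : ℝ} (ht : 0 < t) {w : ℂ × ℝ}
    (hw : w ∈ Hs) : Summable (fun x : O × O => ‖a x * (Phi (t * Qf w x) : ℂ)‖) := by
  exact ((summable_Phi_Qf ht hw).mul_left M).of_nonneg_of_le (fun _ => norm_nonneg _)
    fun x => e1t_norm ha x _
theorem norm_Uc_le {a : O × O → ℂ} {M : ℝ} (ha : ∀ x, ‖a x‖ ≤ M) {t : ℝ} (ht : 0 < t) {w : ℂ × ℝ}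
    (hw : w ∈ Hs) : ‖Uc a t w‖ ≤ M * t ^ (4 / 3 : ℝ) * ∑' x : O × O, Phi (t * Qf w x) := by
  have h1 : ‖∑' x : O × O, a x * (Phi (t * Qf w x) : ℂ)‖ ≤ M * ∑' x : O × O, Phi (t * Qf w x) :=
    tsum_of_norm_bounded ((summable_Phi_Qf ht hw).hasSum.mul_left M) fun x => e1t_norm ha x _
  have h2 : 0 ≤ t ^ (4 / 3 : ℝ) := Real.rpow_nonneg ht.le _
  rw [Uc, norm_mul, pw, Complex.norm_real, Real.norm_of_nonneg h2]
  refine (mul_le_mul_of_nonneg_left h1 h2).trans (le_of_eq ?_)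
  ring
theorem continuousOn_Uc {a : O × O → ℂ} {M : ℝ} (ha : ∀ x, ‖a x‖ ≤ M) {t : ℝ} (ht : 0 < t) :
    ContinuousOn (Uc a t) Hs := by
  intro w hw
  obtain ⟨K, hK, h1, h2⟩ := exists_compact_subset isOpen_Hs hw
  obtain ⟨c, hc, H⟩ := exists_Qf_ge hK h2
  have hM : 0 ≤ M := (norm_nonneg _).trans (ha 0)
  have h3 : ContinuousOn (Uc a t) K := by
    refine continuousOn_const.mul (continuousOn_tsum (fun x => ?_)
      ((e1t_dom (mul_pos ht hc)).mul_left M) fun x y hy => (e1t_norm ha x _).trans ?_)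
    · exact continuousOn_const.mul (Complex.continuous_ofReal.comp_continuousOn
        (e1t_cont.comp_continuousOn (continuousOn_const.mul ((continuousOn_Qf x).mono h2))))
    · refine mul_le_mul_of_nonneg_left (p1_anti ?_) hM
      rw [mul_assoc]
      exact mul_le_mul_of_nonneg_left (H y hy x) ht.le
  exact (h3.continuousAt (mem_interior_iff_mem_nhds.1 h1)).continuousWithinAt
theorem Uc_mob {a a' : O × O → ℂ} {κ : ℂ} {g : SG} (h : ∀ x, a x = κ * a' (ra x g)) (t : ℝ)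
    {w : ℂ × ℝ} (hw : w ∈ Hs) : Uc a t (mob g w) = κ * Uc a' t w := by
  unfold Uc
  rw [mul_left_comm, ← (raE g).tsum_eq (fun x => a' x * (Phi (t * Qf w x) : ℂ))]
  congr 1
  rw [← tsum_mul_left]
  refine tsum_congr fun x => ?_
  rw [h x, Qf_mob g hw, mul_assoc]
  rfl
theorem Uc_sum {ι : Type} (S : Finset ι) (κ : ι → ℂ) {a : ι → O × O → ℂ} {M : ℝ}
    (ha : ∀ i x, ‖a i x‖ ≤ M) {t : ℝ} (ht : 0 < t) {w : ℂ × ℝ} (hw : w ∈ Hs) :
    Uc (fun x => ∑ i ∈ S, κ i * a i x) t w = ∑ i ∈ S, κ i * Uc (a i) t w := by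
  unfold Uc
  simp only [Finset.sum_mul, mul_assoc]
  rw [Summable.tsum_finsetSum fun i _ => (summable_Uc (ha i) ht hw).of_norm.mul_left (κ i),
    Finset.mul_sum]
  refine Finset.sum_congr rfl fun i _ => ?_
  rw [tsum_mul_left, mul_left_comm]
theorem Ze_ne_zero {w : ℂ × ℝ} (hw : w ∈ Hs) : Ze w ≠ 0 := by
  intro h
  unfold Ze at h
  have h1 := ENNReal.tsum_eq_zero.1 h e1
  rw [if_pos (show Cop e1 from isCoprime_one_right), ENNReal.ofReal_eq_zero] at h1
  exact absurd (Phi_pos _) (not_lt.2 h1)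
theorem Ze_ne_top {w : ℂ × ℝ} (hw : w ∈ Hs) : Ze w ≠ ⊤ := by
  have hs := summable_Phi_Qf one_pos hw
  simp only [one_mul] at hs
  refine ne_top_of_le_ne_top (ENNReal.ofReal_ne_top (r := ∑' x : O × O, Phi (Qf w x))) ?_
  rw [ENNReal.ofReal_tsum_of_nonneg (fun _ => (Phi_pos _).le) hs]
  refine ENNReal.tsum_le_tsum fun x => ?_
  split_ifs
  · exact le_rfl
  · exact zero_le
theorem Ze_mob (g : SG) {w : ℂ × ℝ} (hw : w ∈ Hs) : Ze (mob g w) = Ze w := by
  unfold Ze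
  rw [← (raE g).tsum_eq (fun x => if Cop x then ENNReal.ofReal (Phi (Qf w x)) else 0)]
  refine tsum_congr fun x => ?_
  rw [Qf_mob g hw]
  exact if_congr (cop_ra g).symm rfl rfl
theorem measurable_Ze : Measurable Ze := by
  refine Measurable.tsum fun x => ?_
  split_ifs
  · exact (e1t_cont.measurable.comp (measurable_Qf x)).ennreal_ofReal
  · exact measurable_const

end Crest.Agent.R017.Theta

end
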