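import Crest.Agent.R017.ThDefs

/-! # Row 17, cubic theta: the fundamental parallelogram -/

set_option autoImplicit false

noncomputable section

open scoped BigOperators ComplexConjugate Topology ENNReal
open Complex MeasureTheory Filter Set

namespace Crest.Agent.R017.Theta

theorem fd_mem {z₀ : ℂ} (a b : ℝ) :
    z₀ + (a + b * omC) ∈ Fd z₀ ↔ a ∈ Ico (0 : ℝ) 9 ∧ b ∈ Ico (0 : ℝ) 9 := by
  have h : Real.sqrt 3 ≠ 0 := by positivity
  have h1 : ((a : ℂ) + b * omC).re + ((a : ℂ) + b * omC).im / Real.sqrt 3 = a := by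
    simp only [omC, add_re, add_im, ofReal_re, mul_re, mul_im, ofReal_im]
    field_simp
    ring
  have h2 : 2 / Real.sqrt 3 * ((a : ℂ) + b * omC).im = b := by
    simp only [omC, add_im, ofReal_re, mul_im, ofReal_im]
    field_simp
    ring
  simp only [Fd, mem_ofPred_eq, add_sub_cancel_left, h1, h2]

theorem fd_mem' {z₀ z : ℂ} {u v : ℝ} (h : z - z₀ = u + v * omC) (c : ℤ) (y : O) :
    z + c * emb y ∈ Fd z₀ ↔ u + y.re * c ∈ Ico (0 : ℝ) 9 ∧ v + y.im * c ∈ Ico (0 : ℝ) 9 := by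
  rw [← fd_mem (z₀ := z₀), sub_eq_iff_eq_add.1 h]
  refine iff_of_eq (congrArg (· ∈ Fd z₀) ?_)
  change _ + c * ((y.re : ℂ) + (y.im : ℂ) * omC) = _
  push_cast
  ring

theorem fd_map (z₀ : ℂ) : (volume : Measure ℂ) = ENNReal.ofReal (Real.sqrt 3 / 2) •
    Measure.map (fun p : ℝ × ℝ => z₀ + (p.1 + p.2 * omC)) volume := by
  let f : ℂ →ₗ[ℝ] ℂ := basisOneI.constr ℝ ![1, omC]
  have hf : ∀ z, f z = z.re + z.im * omC := fun z => by
    simp [f, Module.Basis.constr_apply_fintype, Fin.sum_univ_two]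
  have hd : LinearMap.det f = Real.sqrt 3 / 2 := by
    rw [← LinearMap.det_toMatrix basisOneI, Matrix.det_fin_two]
    simp [LinearMap.toMatrix_apply, hf, omC]
  have h3 : 0 < Real.sqrt 3 / 2 := by positivity
  have h1 := Measure.map_linearMap_addHaar_eq_smul_addHaar (volume : Measure ℂ)
    (f := f) (by rw [hd]; exact h3.ne')
  have hm : Measurable f := f.continuous_of_finiteDimensional.measurable
  have h2 : (fun p : ℝ × ℝ => z₀ + (p.1 + p.2 * omC)) =
      (fun z => z₀ + z) ∘ f ∘ measurableEquivRealProd.symm := by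
    funext p
    simp [hf]
  rw [h2, ← Measure.map_map (by fun_prop) (hm.comp (MeasurableEquiv.measurable _)),
    ← Measure.map_map hm (MeasurableEquiv.measurable _),
    (volume_preserving_equiv_real_prod.symm _).map_eq, h1, Measure.map_smul, map_add_left_eq_self,
    smul_smul, hd, abs_of_pos (inv_pos.2 h3), ← ENNReal.ofReal_mul h3.le, mul_inv_cancel₀ h3.ne',
    ENNReal.ofReal_one, one_smul]

theorem fd_pre (z₀ : ℂ) : (fun p : ℝ × ℝ => z₀ + (p.1 + p.2 * omC)) ⁻¹' Fd z₀ =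
    Ico (0 : ℝ) 9 ×ˢ Ico (0 : ℝ) 9 := Set.ext fun p => fd_mem p.1 p.2

theorem fd_tsum {M : Type} [Semiring M] [TopologicalSpace M] (z₀ z : ℂ) (a : M) :
    ∑' b : O, (Fd z₀).indicator (fun _ => a) (z + emb b) = 81 * a := by
  obtain ⟨u, v, h⟩ := p1_coord (z - z₀)
  have h1 : ∀ (u : ℝ) (n : ℤ), u + n * (1 : ℤ) ∈ Ico (0 : ℝ) 9 ↔
      n ∈ Finset.Ico ⌈-u⌉ (⌈-u⌉ + 9) := fun u n => by
    rw [Finset.mem_Ico, ← sub_lt_iff_lt_add, Int.ceil_le, Int.lt_ceil, mem_Ico]
    push_cast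
    constructor <;> rintro ⟨h1, h2⟩ <;> constructor <;> linarith
  set S := (Finset.Ico ⌈-u⌉ (⌈-u⌉ + 9) ×ˢ Finset.Ico ⌈-v⌉ (⌈-v⌉ + 9)).map
    (QuadraticAlgebra.equivProd (-1 : ℤ) (-1)).symm.toEmbedding with hS
  have h2 : ∀ b : O, z + emb b ∈ Fd z₀ ↔ b ∈ S := fun b => by
    have := fd_mem' h 1 b
    rw [Int.cast_one, one_mul, h1, h1] at this
    rw [this, hS, Finset.mem_map_equiv, Finset.mem_product]
    rfl
  rw [tsum_eq_sum (s := S) fun b hb => indicator_of_notMem (fun h => hb ((h2 b).1 h)) _,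
    Finset.sum_congr rfl fun b hb => indicator_of_mem ((h2 b).2 hb) _, Finset.sum_const,
    nsmul_eq_mul, hS, Finset.card_map, Finset.card_product, Int.card_Ico, Int.card_Ico]
  simp only [add_sub_cancel_left]
  exact congrArg (· * a) (Nat.cast_ofNat (n := 81))

theorem fd_int (n : ℤ) : ∫ a in Ico (0 : ℝ) 9, cexp (2 * Real.pi * I * n / 9 * a) =
    if n = 0 then 9 else 0 := by
  split_ifs with h
  · simp [h]
  · have hn : (n : ℂ) ≠ 0 := Int.cast_ne_zero.2 h
    have hp : (Real.pi : ℂ) ≠ 0 := ofReal_ne_zero.2 Real.pi_ne_zero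
    rw [integral_Ico_eq_integral_Ioc, ← intervalIntegral.integral_of_le (by norm_num),
      integral_exp_mul_complex (by simp [hn, hp]),
      show 2 * Real.pi * I * n / 9 * ((9 : ℝ) : ℂ) = n * (2 * Real.pi * I) by push_cast; ring,
      exp_int_mul_two_pi_mul_I]
    simp

theorem fd_eh_add (h h' : O) (z : ℂ) : eh (h + h') z = eh h z * eh h' z := by
  rw [eh, eh, eh, ← ec_add, map_add, add_mul, add_div]

theorem fd_eh_neg (h : O) (z : ℂ) : eh (-h) z = conj (eh h z) := by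
  rw [eh, eh, ← ec_neg, map_neg, neg_mul, neg_div]

theorem vF_pos : 0 < vF := by
  unfold vF
  positivity
theorem measurableSet_Fd (z₀ : ℂ) : MeasurableSet (Fd z₀) := by
  exact (measurableSet_Ico.preimage (by fun_prop)).inter
    (measurableSet_Ico.preimage (f := fun z : ℂ => 2 / Real.sqrt 3 * (z - z₀).im) (by fun_prop))
theorem volume_Fd (z₀ : ℂ) : volume (Fd z₀) = ENNReal.ofReal vF := by
  rw [fd_map z₀, Measure.smul_apply, Measure.map_apply (by fun_prop) (measurableSet_Fd z₀), fd_pre,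
    Measure.volume_eq_prod, Measure.prod_prod, Real.volume_Ico, smul_eq_mul,
    ← ENNReal.ofReal_mul (by norm_num), ← ENNReal.ofReal_mul (by positivity), vF]
  congr 1
  ring
theorem existsUnique_Fd (z₀ z : ℂ) : ∃! y : O, z + 9 * emb y ∈ Fd z₀ := by
  obtain ⟨u, v, h⟩ := p1_coord (z - z₀)
  obtain ⟨m, hm, hm'⟩ := existsUnique_add_zsmul_mem_Ico (by norm_num : (0 : ℝ) < 9) u 0
  obtain ⟨n, hn, hn'⟩ := existsUnique_add_zsmul_mem_Ico (by norm_num : (0 : ℝ) < 9) v 0
  have h1 := fd_mem' h 9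
  simp only [zsmul_eq_mul, zero_add, Int.cast_ofNat] at h1 hm hm' hn hn'
  exact ⟨⟨m, n⟩, (h1 _).2 ⟨hm, hn⟩, fun y hy =>
    QuadraticAlgebra.ext (hm' _ ((h1 y).1 hy).1) (hn' _ ((h1 y).1 hy).2)⟩
/-- The translates by `O` cover the plane `81` times. -/
theorem tsum_indicator_Fd (z₀ z : ℂ) (a : ℝ≥0∞) :
    ∑' b : O, (Fd z₀).indicator (fun _ => a) (z + emb b) = 81 * a := by
  exact fd_tsum z₀ z a
theorem tsum_indicator_Fd' (z₀ z a : ℂ) :
    ∑' b : O, (Fd z₀).indicator (fun _ => a) (z + emb b) = 81 * a := by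
  exact fd_tsum z₀ z a
/-- Compact sets are covered by finitely many boxes. -/
theorem exists_cover {K : Set (ℂ × ℝ)} (hK : IsCompact K) (hK' : K ⊆ Hs) :
    ∃ (S : Finset ℂ) (v₁ v₂ : ℝ), 0 < v₁ ∧ v₁ < v₂ ∧ K ⊆ ⋃ z₀ ∈ S, Fd z₀ ×ˢ Icc v₁ v₂ := by
  classical
  rcases K.eq_empty_or_nonempty with rfl | hne
  · exact ⟨∅, 1, 2, one_pos, one_lt_two, empty_subset _⟩
  obtain ⟨w₁, h₁, h₁'⟩ := hK.exists_isMinOn hne continuous_snd.continuousOn
  obtain ⟨w₂, h₂, h₂'⟩ := hK.exists_isMaxOn hne continuous_snd.continuousOn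
  have hn : ∀ z : ℂ, Fd (z - (1 + omC)) ∈ 𝓝 z := fun z => by
    have h : Real.sqrt 3 ≠ 0 := by positivity
    refine inter_mem (ContinuousAt.preimage_mem_nhds (f := fun w : ℂ => (w - (z - (1 + omC))).re +
      (w - (z - (1 + omC))).im / Real.sqrt 3) (by fun_prop) (Ico_mem_nhds ?_ ?_))
      (ContinuousAt.preimage_mem_nhds (f := fun w : ℂ => 2 / Real.sqrt 3 *
        (w - (z - (1 + omC))).im) (by fun_prop) (Ico_mem_nhds ?_ ?_)) <;>
    · simp only [sub_sub_cancel, omC, add_re, add_im, one_re, one_im]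
      field_simp
      linarith [Real.sqrt_pos.2 (by norm_num : (0 : ℝ) < 3)]
  obtain ⟨t, -, ht⟩ := hK.elim_nhds_subcover (fun w => Prod.fst ⁻¹' Fd (w.1 - (1 + omC)))
    fun w _ => continuous_fst.continuousAt.preimage_mem_nhds (hn w.1)
  refine ⟨t.image fun w => w.1 - (1 + omC), w₁.2, w₂.2 + 1, hK' h₁,
    (lt_add_one _).trans_le' (h₁' h₂), fun w hw => ?_⟩
  obtain ⟨w', hw', h⟩ := mem_iUnion₂.1 (ht hw)
  exact mem_iUnion₂.2 ⟨_, Finset.mem_image_of_mem _ hw', h, h₁' hw,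
    (le_add_of_nonneg_right zero_le_one).trans' (h₂' hw)⟩
theorem norm_eh (h : O) (z : ℂ) : ‖eh h z‖ = 1 := by
  exact norm_ec _
theorem eh_zero (z : ℂ) : eh 0 z = 1 := by
  simp [eh, ec]
theorem eh_add (h : O) (z z' : ℂ) : eh h (z + z') = eh h z * eh h z' := by
  rw [eh, eh, eh, ← ec_add, mul_add, add_div]
theorem continuous_eh (h : O) : Continuous (eh h) := by
  unfold eh ec
  fun_prop
theorem eh_div (h a q : O) : eh h (emb a / emb q) = eO (h * a) (9 * q) := by
  rw [eh, eO, map_mul, map_mul, map_ofNat]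
  congr 1
  ring
open Classical in
/-- Orthogonality (coordinates `z = z₀ + a + b ω`). -/
theorem integral_eh (z₀ : ℂ) (h : O) :
    ∫ z in Fd z₀, eh h z = if h = 0 then (vF : ℂ) else 0 := by
  have h1 : ∀ p : ℝ × ℝ, eh h (z₀ + (p.1 + p.2 * omC)) = eh h z₀ *
      (cexp (2 * Real.pi * I * h.im / 9 * p.1) *
        cexp (2 * Real.pi * I * (h.re - h.im : ℤ) / 9 * p.2)) := fun p => by
    have h2 : emb h * (p.1 + p.2 * omC) / 9 = ((h.re * p.1 - h.im * p.2) / 9 : ℝ) +
        ((h.im * p.1 + (h.re - h.im) * p.2) / 9 : ℝ) * omC := by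
      change ((h.re : ℂ) + (h.im : ℂ) * omC) * _ / 9 = _
      push_cast
      linear_combination (h.im * p.2 / 9 : ℂ) * omC_sq
    rw [eh_add, eh, eh, h2, p3_ec, ← Complex.exp_add]
    congr 2
    push_cast
    ring
  rw [fd_map z₀, Measure.restrict_smul, integral_smul_measure,
    setIntegral_map (measurableSet_Fd z₀) (continuous_eh h).aestronglyMeasurable (by fun_prop),
    fd_pre]
  simp only [h1]
  rw [integral_const_mul, Measure.volume_eq_prod,
    setIntegral_prod_mul (fun a : ℝ => cexp (2 * Real.pi * I * h.im / 9 * a))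
      (fun a : ℝ => cexp (2 * Real.pi * I * (h.re - h.im : ℤ) / 9 * a)), fd_int, fd_int]
  by_cases h0 : h = 0
  · rw [if_pos h0, if_pos (by simp [h0]), if_pos (by simp [h0]), h0, eh_zero,
      ENNReal.toReal_ofReal (by positivity), vF, real_smul]
    push_cast
    ring
  rw [if_neg h0]
  split_ifs with h2 h3
  · exact absurd (QuadraticAlgebra.ext (by rw [h2, sub_zero] at h3; exact h3) h2) h0
  all_goals simp
theorem fd_hasSum (z₀ : ℂ) {a : O → ℂ} (ha : Summable fun h => ‖a h‖) {g : ℂ → ℂ}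
    (hg : Continuous g) {M : ℝ} (hM : ∀ z, ‖g z‖ ≤ M) :
    HasSum (fun h => a h * ∫ z in Fd z₀, eh h z * g z)
      (∫ z in Fd z₀, (∑' h : O, a h * eh h z) * g z) := by
  have : IsFiniteMeasure (volume.restrict (Fd z₀)) :=
    isFiniteMeasure_restrict.2 (by rw [volume_Fd]; exact ENNReal.ofReal_ne_top)
  have h1 : ∀ h z, ‖a h * (eh h z * g z)‖ ≤ ‖a h‖ * M := fun h z => by
    rw [norm_mul, norm_mul, norm_eh, one_mul]
    exact mul_le_mul_of_nonneg_left (hM z) (norm_nonneg _)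
  have h2 : ∀ h, Integrable (fun z => a h * (eh h z * g z)) (volume.restrict (Fd z₀)) := fun h =>
    Integrable.of_bound (((continuous_eh h).mul hg).const_mul _).aestronglyMeasurable _
      (.of_forall (h1 h))
  have := hasSum_integral_of_summable_integral_norm h2 (Summable.of_nonneg_of_le
    (fun h => integral_nonneg fun z => norm_nonneg _)
    (fun h => integral_mono (h2 h).norm (integrable_const _) (h1 h))
    (by simpa using (ha.mul_right M).mul_left _))
  simp only [integral_const_mul] at this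
  simpa only [← mul_assoc, tsum_mul_right] using this

theorem integral_tsum_eh (z₀ : ℂ) {a : O → ℂ} (ha : Summable fun h => ‖a h‖) :
    ∫ z in Fd z₀, ∑' h : O, a h * eh h z = (vF : ℂ) * a 0 := by
  classical
  have := fd_hasSum z₀ ha continuous_const (g := fun _ => 1) (M := 1) fun _ => norm_one.le
  simp only [mul_one, integral_eh, mul_ite, mul_zero] at this
  rw [← this.tsum_eq, tsum_ite_eq, mul_comm]
/-- Parseval for absolutely convergent series. -/
theorem parseval (z₀ : ℂ) {a : O → ℂ} (ha : Summable fun h => ‖a h‖) :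
    ∫⁻ z in Fd z₀, ‖∑' h : O, a h * eh h z‖ₑ ^ 2 = ENNReal.ofReal vF * ∑' h : O, ‖a h‖ₑ ^ 2 := by
  set S : ℂ → ℂ := fun z => ∑' h : O, a h * eh h z with hS
  have h0 : ∀ h z, ‖a h * eh h z‖ ≤ ‖a h‖ := fun h z => by rw [norm_mul, norm_eh, mul_one]
  have hc : Continuous S := continuous_tsum (fun h => (continuous_eh h).const_mul _) ha h0
  have hM : ∀ z, ‖S z‖ ≤ ∑' h, ‖a h‖ := fun z => tsum_of_norm_bounded ha.hasSum (h0 · z)
  have h1 := fd_hasSum z₀ ha (g := fun z => conj (S z)) (continuous_conj.comp hc)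
    fun z => (norm_conj _).trans_le (hM z)
  have h2 : ∀ h, ∫ z in Fd z₀, eh h z * conj (S z) = vF * conj (a h) := fun h => by
    have := integral_tsum_eh z₀ (a := fun k => a (k + h)) ((Equiv.addRight h).summable_iff.2 ha)
    rw [zero_add] at this
    rw [← conj_ofReal, ← map_mul, ← this, ← integral_conj]
    refine integral_congr_ae (.of_forall fun z => ?_)
    simp only [hS]
    rw [← conj_conj (eh h z), ← map_mul, ← fd_eh_neg, ← tsum_mul_left,
      ← (Equiv.addRight h).tsum_eq]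
    congr 1
    refine tsum_congr fun k => ?_
    rw [mul_left_comm, ← fd_eh_add, Equiv.coe_addRight]
    simp
  have h3 : HasSum (fun h => vF * ‖a h‖ ^ 2) (∫ z in Fd z₀, ‖S z‖ ^ 2) := by
    rw [← hasSum_ofReal, ← integral_complex_ofReal]
    simp only [h2, mul_left_comm (a _), mul_conj', show ∀ z, ∑' h : O, a h * eh h z = S z from
      fun _ => rfl] at h1
    simpa only [ofReal_mul, ofReal_pow] using h1
  have : IsFiniteMeasure (volume.restrict (Fd z₀)) :=
    isFiniteMeasure_restrict.2 (by rw [volume_Fd]; exact ENNReal.ofReal_ne_top)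
  have h4 : Integrable (fun z => ‖S z‖ ^ 2) (volume.restrict (Fd z₀)) :=
    Integrable.of_bound (hc.norm.pow 2).aestronglyMeasurable ((∑' h, ‖a h‖) ^ 2)
      (.of_forall fun z => by
        rw [norm_pow, norm_norm]
        exact pow_le_pow_left₀ (norm_nonneg _) (hM z) 2)
  have h5 : ∀ x : ℂ, ‖x‖ₑ ^ 2 = ENNReal.ofReal (‖x‖ ^ 2) := fun x => by
    rw [ENNReal.ofReal_pow (norm_nonneg _), ofReal_norm_eq_enorm]
  simp only [h5]
  rw [← ofReal_integral_eq_lintegral_ofReal h4 (.of_forall fun z => sq_nonneg _), ← h3.tsum_eq,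
    ENNReal.ofReal_tsum_of_nonneg (fun h => mul_nonneg vF_pos.le (sq_nonneg _)) h3.summable,
    ← ENNReal.tsum_mul_left]
  exact tsum_congr fun h => ENNReal.ofReal_mul vF_pos.le

end Crest.Agent.R017.Theta

end
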