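import Crest.Agent.R017.ThE1
import Crest.Agent.R017.ThGauss
import Crest.Agent.R017.ThFd

/-! # Row 17, cubic theta: the Fourier expansion -/

set_option autoImplicit false

noncomputable section

open scoped BigOperators ComplexConjugate Topology ENNReal
open Complex MeasureTheory Filter Set

namespace Crest.Agent.R017.Theta

theorem fk_nonneg {ν v y : ℝ} (hv : 0 < v) (hy : 0 < y) : 0 ≤ fk ν v y := by
  have := Phi_pos (v * y)
  have := Phi_pos (v * ν / (81 * y))
  unfold fk
  positivity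

theorem e2t_fk {t v : ℝ} (ht : 0 < t) (hv : 0 < v) {c : O} (hc : c ≠ 0) (ν : ℝ) :
    Nr c * fk ν v (t * Nr c) =
      v / (81 * t) * Phi (v * t * Nr c) * Phi (ν / (81 * t * Nr c / v)) := by
  have hN := Nr_pos hc
  unfold fk
  rw [show v * (t * Nr c) = v * t * Nr c by ring,
    show v * ν / (81 * (t * Nr c)) = ν / (81 * t * Nr c / v) by field_simp]
  field_simp

open Classical in
/-- Absolute convergence of the double series (`N c · fk ≤ (v / 81 t) Φ(v t N c) Φ(v N h / (81 t N c))`,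
and `∑_h Φ(R N h) ≤ C (1 + R⁻¹)`). -/
theorem summable_fk {t v : ℝ} (ht : 0 < t) (hv : 0 < v) :
    Summable (fun p : O × O => if p.1 = 0 then 0 else Nr p.1 * fk (Nr p.2) v (t * Nr p.1)) := by
  obtain ⟨C, hC⟩ := tsum_Phi_le
  have hnn : ∀ p : O × O,
      0 ≤ if p.1 = 0 then 0 else Nr p.1 * fk (Nr p.2) v (t * Nr p.1) := fun p => by
    split_ifs with h
    · exact le_rfl
    · exact mul_nonneg (Nr_nonneg _) (fk_nonneg hv (mul_pos ht (Nr_pos h)))
  have hvt : 0 < v * t := mul_pos hv ht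
  have s1 : Summable fun c : O => Phi (v * t * Nr c) := p1_summable0' hvt
  have s2 : Summable fun c : O => Nr c * Phi (v * t * Nr c) := by
    simpa only [Real.rpow_one, add_zero, norm_emb_sq, div_inv_eq_mul, mul_comm (Nr _) (v * t)]
      using summable_Phi (inv_pos.2 hvt) 1 0
  refine (summable_prod_of_nonneg hnn).2 ⟨fun c => ?_, ?_⟩
  · by_cases hc : c = 0
    · simpa only [hc, if_true] using summable_zero
    · have hN := Nr_pos hc
      simp only [hc, if_false, e2t_fk ht hv hc]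
      exact (p1_summable0 (by positivity)).mul_left _
  · refine Summable.of_nonneg_of_le (fun c => tsum_nonneg fun h => hnn (c, h)) (fun c => ?_)
      ((s1.mul_left (v / (81 * t) * |C|)).add (s2.mul_left |C|))
    have h1 := Phi_pos (v * t * Nr c)
    have h2 := Nr_nonneg c
    by_cases hc : c = 0
    · simp only [hc, if_true, tsum_zero]
      rw [hc] at h1 h2
      positivity
    · have hN := Nr_pos hc
      simp only [hc, if_false, e2t_fk ht hv hc]
      rw [tsum_mul_left]
      have h3 : ∑' h : O, Phi (Nr h / (81 * t * Nr c / v)) ≤ |C| * (1 + 81 * t * Nr c / v) :=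
        (hC _ (by positivity)).trans (mul_le_mul_of_nonneg_right (le_abs_self C) (by positivity))
      refine (mul_le_mul_of_nonneg_left h3 (by positivity)).trans (le_of_eq ?_)
      field_simp

open Classical in
/-- The terms of the double series. -/
def e2t_G (B : O × O → ℂ) (t v : ℝ) (p : O × O) : ℂ :=
  if p.1 = 0 then 0 else Ac B p.1 p.2 * (fk (Nr p.2) v (t * Nr p.1) : ℂ)

theorem e2t_ah (B : O × O → ℂ) (h : O) (t v : ℝ) :
    ah B h t v = pw t * ∑' c : O, e2t_G B t v (c, h) := rfl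

theorem e2t_norm_G {B : O × O → ℂ} (hB : ∀ x, ‖B x‖ ≤ 1) {t v : ℝ} (ht : 0 < t) (hv : 0 < v)
    (p : O × O) : ‖e2t_G B t v p‖ ≤
      81 * if p.1 = 0 then 0 else Nr p.1 * fk (Nr p.2) v (t * Nr p.1) := by
  unfold e2t_G
  split_ifs with h
  · simp
  · have h1 : 0 ≤ fk (Nr p.2) v (t * Nr p.1) := fk_nonneg hv (mul_pos ht (Nr_pos h))
    rw [norm_mul, Complex.norm_real, Real.norm_of_nonneg h1, ← mul_assoc]
    exact mul_le_mul_of_nonneg_right (norm_Ac_le hB _ _) h1

theorem e2t_summable_G {B : O × O → ℂ} (hB : ∀ x, ‖B x‖ ≤ 1) {t v : ℝ} (ht : 0 < t) (hv : 0 < v)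
    (z : ℂ) : Summable fun p : O × O => e2t_G B t v p * eh p.2 z :=
  Summable.of_norm_bounded ((summable_fk ht hv).mul_left 81) fun p => by
    rw [norm_mul, norm_eh, mul_one]
    exact e2t_norm_G hB ht hv p

theorem e2t_summable_ah {B : O × O → ℂ} (hB : ∀ x, ‖B x‖ ≤ 1) {t v : ℝ} (ht : 0 < t) (hv : 0 < v)
    (z : ℂ) : Summable fun h : O => ah B h t v * eh h z := by
  have h1 := ((e2t_summable_G hB ht hv z).prod_symm.prod).mul_left (pw t)
  refine h1.congr fun h => ?_
  simp only [Prod.swap_prod_mk]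
  rw [tsum_mul_right, e2t_ah, mul_assoc]

theorem e2t_ahf (B : O × O → ℂ) (h : O) (t v : ℝ) (z : ℂ) :
    ahf B h t v * eh h z =
      ah B h t v * eh h z + if h = 0 then pw t * e0 B * (Phi (t / v) : ℂ) else 0 := by
  unfold ahf
  split_ifs with h0
  · rw [h0, eh_zero, mul_one, mul_one]
  · rw [add_zero, add_zero]

theorem summable_ahf {B : O × O → ℂ} (hB : ∀ x, ‖B x‖ ≤ 1) {t v : ℝ} (ht : 0 < t) (hv : 0 < v) :
    Summable (fun h => ‖ahf B h t v‖) := by
  have h1 := ((e2t_summable_ah hB ht hv 0).add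
    (hasSum_ite_eq (0 : O) (pw t * e0 B * (Phi (t / v) : ℂ))).summable).norm
  refine h1.congr fun h => ?_
  rw [← e2t_ahf, norm_mul, norm_eh, mul_one]
/-- Poisson summation in `d` for fixed `c ≠ 0`: `d = a + 9 c y`, `poisson_gauss` with
`R = v / (81 t N c)` and shift `(c z + a) / (9 c)`. -/
theorem tsum_row {B : O × O → ℂ} (hB : Wt B) {c : O} (hc : c ≠ 0) {t v : ℝ} (ht : 0 < t) (hv : 0 < v)
    (z : ℂ) : ∑' d : O, cf B (c, d) * (Phi (t * Qf (z, v) (c, d)) : ℂ) =
      ∑' h : O, Ac B c h * (fk (Nr h) v (t * Nr c) : ℂ) * eh h z := by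
  have hN := Nr_pos hc
  have hn : (9 * c : O) ≠ 0 := mul_ne_zero (by norm_num) hc
  have hne : emb c ≠ 0 := fun h => hc (emb_injective (h.trans (map_zero emb).symm))
  have h9 : emb 9 = 9 := map_ofNat emb 9
  set R : ℝ := v / (81 * (t * Nr c)) with hR
  have hR' : 0 < R := by positivity
  have s1 : Summable fun d : O => cf B (c, d) * (Phi (t * Qf (z, v) (c, d)) : ℂ) :=
    (summable_Uc (norm_cf_le hB.bd) ht (w := (z, v)) hv).of_norm.prod_factor c
  have s2 : ∀ a : O, Summable fun h : O =>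
      cf B (c, a) * eO (h * a) (9 * c) * (fk (Nr h) v (t * Nr c) : ℂ) * eh h z := fun a => by
    refine Summable.of_norm_bounded
      ((p1_summable0' hR').mul_left (‖cf B (c, a)‖ * (R * Phi (v * (t * Nr c))))) fun h => ?_
    rw [norm_mul, norm_mul, norm_mul, norm_eO, norm_eh, mul_one, mul_one, Complex.norm_real,
      Real.norm_of_nonneg (fk_nonneg hv (mul_pos ht hN)), fk, ← hR,
      show v * Nr h / (81 * (t * Nr c)) = R * Nr h by rw [hR]; ring, ← mul_assoc]
  have e1 : ∀ a : O, ∑' y : O, cf B (c, a + 9 * c * y) * (Phi (t * Qf (z, v) (c, a + 9 * c * y)) : ℂ) =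
      ∑' h : O, cf B (c, a) * eO (h * a) (9 * c) * (fk (Nr h) v (t * Nr c) : ℂ) * eh h z := by
    intro a
    have h := poisson_gauss hR' ((emb c * z + emb a) / (9 * emb c)) 0
    simp only [sub_zero, mul_zero, p1_ec_zero, mul_one, norm_emb_sq] at h
    have a1 : ∀ y : O, cf B (c, a + 9 * c * y) * (Phi (t * Qf (z, v) (c, a + 9 * c * y)) : ℂ) =
        cf B (c, a) * (Phi (v * (t * Nr c)) : ℂ) *
          (Phi (‖emb y + (emb c * z + emb a) / (9 * emb c)‖ ^ 2 / R) : ℂ) := fun y => by
      have b1 : emb y + (emb c * z + emb a) / (9 * emb c) =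
          (emb c * z + emb (a + 9 * c * y)) / (9 * emb c) := by
        rw [map_add, map_mul, map_mul, h9]; field_simp; ring
      have b2 : ‖(9 : ℂ) * emb c‖ ^ 2 = 81 * Nr c := by
        rw [norm_mul, mul_pow, norm_emb_sq]; norm_num
      rw [hB.cf_per (d' := a) ⟨y, by ring⟩ hc, b1, norm_div, div_pow, b2,
        mul_assoc (cf B (c, a)), ← Complex.ofReal_mul]
      congr 2
      simp only [Phi, Qf, Dn, ← Real.exp_add, hR]
      congr 1
      field_simp
      ring
    have a2 : ∀ h : O, cf B (c, a) * eO (h * a) (9 * c) * (fk (Nr h) v (t * Nr c) : ℂ) * eh h z =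
        cf B (c, a) * (Phi (v * (t * Nr c)) : ℂ) * ((R : ℂ) *
          ((Phi (R * Nr h) : ℂ) * ec (emb h * ((emb c * z + emb a) / (9 * emb c))))) := fun h => by
      have b1 : emb h * ((emb c * z + emb a) / (9 * emb c)) =
          emb h * z / 9 + emb (h * a) / emb (9 * c) := by
        rw [map_mul, map_mul, h9]; field_simp
      rw [b1, ec_add, fk, ← hR, show v * Nr h / (81 * (t * Nr c)) = R * Nr h by rw [hR]; ring, eO,
        eh]
      push_cast
      ring
    simp only [a1, a2]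
    rw [tsum_mul_left, tsum_mul_left, tsum_mul_left, h]
  rw [tsum_eq_sum_reps hn _ s1]
  simp only [e1]
  rw [← Summable.tsum_finsetSum fun a _ => s2 a]
  simp only [Ac, gs, Finset.sum_mul]

theorem e2t_row0 (B : O × O → ℂ) (t : ℝ) {v : ℝ} (z : ℂ) :
    ∑' d : O, cf B (0, d) * (Phi (t * Qf (z, v) (0, d)) : ℂ) = e0 B * (Phi (t / v) : ℂ) := by
  rw [e0, ← tsum_mul_right]
  refine tsum_congr fun d => ?_
  by_cases h : Cop (0, d)
  · have h1 : Nr d = 1 := isUnit_iff_Nr.1 (isCoprime_zero_left.1 h)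
    simp only [Qf, Dn, map_zero, zero_mul, zero_add, norm_emb_sq, h1, Nr_zero, add_zero,
      mul_one_div]
  · simp only [cf, if_neg h, zero_mul]

theorem U_fourier {B : O × O → ℂ} (hB : Wt B) {t v : ℝ} (ht : 0 < t) (hv : 0 < v) (z : ℂ) :
    U B t (z, v) = ∑' h : O, ahf B h t v * eh h z := by
  have s1 := (summable_Uc (norm_cf_le hB.bd) ht (w := (z, v)) hv).of_norm
  have s2 := e2t_summable_G hB.bd ht hv z
  have e1 : ∀ c : O, ∑' d : O, cf B (c, d) * (Phi (t * Qf (z, v) (c, d)) : ℂ) =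
      (∑' h : O, e2t_G B t v (c, h) * eh h z) +
        if c = 0 then e0 B * (Phi (t / v) : ℂ) else 0 := fun c => by
    by_cases hc : c = 0
    · simp only [hc, e2t_G, if_true, zero_mul, tsum_zero, zero_add]
      exact e2t_row0 B t z
    · simp only [hc, e2t_G, if_false, add_zero]
      exact tsum_row hB hc ht hv z
  simp only [e2t_ahf]
  rw [(e2t_summable_ah hB.bd ht hv z).tsum_add (hasSum_ite_eq (0 : O) _).summable, tsum_ite_eq,
    U, Uc, s1.tsum_prod]
  simp only [e1]
  rw [s2.prod.tsum_add (hasSum_ite_eq (0 : O) _).summable, tsum_ite_eq, mul_add, mul_assoc,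
    ← s2.tsum_comm, ← tsum_mul_left]
  congr 1
  refine tsum_congr fun h => ?_
  simp only
  rw [tsum_mul_right, e2t_ah, mul_assoc]
theorem continuousOn_ah {B : O × O → ℂ} (hB : ∀ x, ‖B x‖ ≤ 1) (h : O) {t : ℝ} (ht : 0 < t) :
    ContinuousOn (ah B h t) (Ioi 0) := by
  intro v₀ hv₀
  have hv₀' : 0 < v₀ := hv₀
  have hc : ContinuousOn (fun v => ∑' c : O, e2t_G B t v (c, h)) (Ioo (v₀ / 2) (2 * v₀)) := by
    refine continuousOn_tsum (u := fun c : O => 81 * (2 * v₀ / (81 * t) * Phi (v₀ / 2 * t * Nr c)))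
      (fun c => ?_) (((p1_summable0' (by positivity)).mul_left _).mul_left _) fun c v hv => ?_
    · unfold e2t_G fk Phi
      split_ifs
      · exact continuousOn_const
      · fun_prop
    · have hv' : 0 < v := lt_trans (by positivity) hv.1
      refine (e2t_norm_G hB ht hv' _).trans (mul_le_mul_of_nonneg_left ?_ (by norm_num))
      have h1 := Phi_pos (v₀ / 2 * t * Nr c)
      split_ifs with h0
      · positivity
      · have hN := Nr_pos h0
        have h2 := Nr_nonneg h
        rw [e2t_fk ht hv' h0]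
        refine (mul_le_of_le_one_right (mul_nonneg (by positivity) (Phi_pos _).le)
          (Phi_le_one (by positivity))).trans ?_
        refine mul_le_mul (div_le_div_of_nonneg_right hv.2.le (by positivity)) (p1_anti ?_)
          (Phi_pos _).le (by positivity)
        exact mul_le_mul_of_nonneg_right (mul_le_mul_of_nonneg_right hv.1.le ht.le) hN.le
  exact (continuousAt_const.mul
    (hc.continuousAt (Ioo_mem_nhds (by linarith) (by linarith)))).continuousWithinAt
theorem continuousOn_ahf {B : O × O → ℂ} (hB : ∀ x, ‖B x‖ ≤ 1) (h : O) {t : ℝ} (ht : 0 < t) :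
    ContinuousOn (ahf B h t) (Ioi 0) := by
  refine (continuousOn_ah hB h ht).add ?_
  split_ifs
  · refine continuousOn_const.mul (Complex.continuous_ofReal.comp_continuousOn ?_)
    unfold Phi
    exact Real.continuous_exp.comp_continuousOn (continuousOn_const.mul
      (continuousOn_const.div continuousOn_id fun v hv => ne_of_gt hv)).neg
  · exact continuousOn_const
theorem ahf_of_ne {B : O × O → ℂ} {h : O} (hh : h ≠ 0) (t : ℝ) : ahf B h t = ah B h t := by
  funext v
  rw [ahf, if_neg hh, add_zero]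
/-- The constant term of the class `(0,1)`. -/
theorem ahf_Be (P : O) {t v : ℝ} (ht : 0 < t) (hv : 0 < v) :
    ahf (Be P) 0 t v =
      ((v ^ (2 / 3 : ℝ) : ℝ) : ℂ) * alpha P (t * v) + pw t * (Phi (t / v) : ℂ) := by
  rw [ahf, if_pos rfl, e0_Be, mul_one, ah, Sm, alpha, ← mul_assoc, ← tsum_mul_left,
    ← tsum_mul_left]
  congr 1
  refine tsum_congr fun c => ?_
  split_ifs with hc
  · rw [mul_zero, mul_zero]
  · have hN := Nr_pos hc
    have h1 : t ^ (4 / 3 : ℝ) = t * t ^ (1 / 3 : ℝ) := by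
      rw [show (4 / 3 : ℝ) = 1 + 1 / 3 by norm_num, Real.rpow_add ht, Real.rpow_one]
    have h2 : v ^ (2 / 3 : ℝ) * v ^ (1 / 3 : ℝ) = v := by
      rw [← Real.rpow_add hv]; norm_num
    have h3 : t ^ (4 / 3 : ℝ) * fk (Nr 0) v (t * Nr c) =
        v ^ (2 / 3 : ℝ) * ((t * v) ^ (1 / 3 : ℝ) / 81) * (Phi (t * v * Nr c) / Nr c) := by
      rw [fk, Nr_zero, mul_zero, zero_div, Real.mul_rpow ht.le hv.le, h1,
        show v * (t * Nr c) = t * v * Nr c by ring, show Phi 0 = 1 by simp [Phi]]
      field_simp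
      linear_combination (-(Phi (t * v * Nr c))) * h2
    have h4 := congrArg (fun x : ℝ => Ac (Be P) c 0 * (x : ℂ)) h3
    simp only [Complex.ofReal_mul, Complex.ofReal_div] at h4
    rw [pw, Complex.ofReal_div]
    linear_combination h4

end Crest.Agent.R017.Theta

end
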