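import Crest.Agent.R017.ThRow

/-! # Row 17, cubic theta: the action on hyperbolic space -/

set_option autoImplicit false

noncomputable section

open scoped BigOperators ComplexConjugate Topology ENNReal
open Complex MeasureTheory Filter Set

namespace Crest.Agent.R017.Theta

theorem isOpen_Hs : IsOpen Hs := isOpen_lt continuous_const continuous_snd
theorem measurableSet_Hs : MeasurableSet Hs := isOpen_Hs.measurableSet
theorem Dn_pos {w : ℂ × ℝ} (hw : w ∈ Hs) {x : O × O} (hx : x ≠ 0) : 0 < Dn w x := by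
  have hv : 0 < w.2 := hw
  unfold Dn
  by_cases h1 : x.1 = 0
  · have h2 : x.2 ≠ 0 := fun h2 => hx (Prod.ext h1 h2)
    rw [h1, map_zero, zero_mul, zero_add, Nr_zero, zero_mul, add_zero, norm_emb_sq]
    exact Nr_pos h2
  · have := Nr_pos h1
    positivity
theorem Cop.ne_zero {x : O × O} (hx : Cop x) : x ≠ 0 := by
  rintro rfl
  exact not_isCoprime_zero_zero hx
theorem Qf_nonneg {w : ℂ × ℝ} (hw : w ∈ Hs) (x : O × O) : 0 ≤ Qf w x := by
  have hv : 0 < w.2 := hw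
  have := Nr_nonneg x.1
  unfold Qf Dn
  positivity
theorem Qf_pos {w : ℂ × ℝ} (hw : w ∈ Hs) {x : O × O} (hx : x ≠ 0) : 0 < Qf w x := div_pos (Dn_pos hw hx) hw
theorem Qf_e1 (w : ℂ × ℝ) : Qf w e1 = w.2⁻¹ := by
  simp [Qf, Dn, e1, Nr_zero]
theorem mob_mem (g : SG) {w : ℂ × ℝ} (hw : w ∈ Hs) : mob g w ∈ Hs := div_pos hw (Dn_pos hw (cop_bot g).ne_zero)
theorem mob_snd (g : SG) (w : ℂ × ℝ) : (mob g w).2 = (Qf w (bot g))⁻¹ := (inv_div _ _).symm
theorem g1t_id (R E Q C : ℂ) (v : ℝ) :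
    ‖R * conj Q + E * conj C * ((v ^ 2 : ℝ) : ℂ)‖ ^ 2 + ‖E * Q - R * C‖ ^ 2 * v ^ 2 =
      (‖R‖ ^ 2 + ‖E‖ ^ 2 * v ^ 2) * (‖Q‖ ^ 2 + ‖C‖ ^ 2 * v ^ 2) := by
  simp only [Complex.sq_norm, normSq_apply, add_re, add_im, sub_re, sub_im, mul_re, mul_im, conj_re,
    conj_im, ofReal_re, ofReal_im]
  ring
theorem g1t_det (g : SG) : emb (g 0 0) * emb (g 1 1) - emb (g 0 1) * emb (g 1 0) = 1 := by
  rw [← map_mul, ← map_mul, ← map_sub, SG.det', map_one]
theorem g1t_Dn_cast (w : ℂ × ℝ) (x : O × O) : ((Dn w x : ℝ) : ℂ) =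
    (emb x.1 * w.1 + emb x.2) * conj (emb x.1 * w.1 + emb x.2) +
      emb x.1 * conj (emb x.1) * ((w.2 ^ 2 : ℝ) : ℂ) := by
  rw [Dn, ← norm_emb_sq, mul_conj, mul_conj, Complex.sq_norm, Complex.sq_norm]
  push_cast
  ring
theorem Qf_mob (g : SG) {w : ℂ × ℝ} (hw : w ∈ Hs) (x : O × O) :
    Qf (mob g w) x = Qf w (ra x g) := by
  have hv : 0 < w.2 := hw
  have hD := Dn_pos hw (cop_bot g).ne_zero
  have hD' : ((Dn w (bot g) : ℝ) : ℂ) ≠ 0 := by exact_mod_cast hD.ne'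
  have hdet := g1t_det g
  have h1 : emb x.1 * (mob g w).1 + emb x.2 =
      ((emb (ra x g).1 * w.1 + emb (ra x g).2) * conj (emb (g 1 0) * w.1 + emb (g 1 1)) +
        emb (ra x g).1 * conj (emb (g 1 0)) * ((w.2 ^ 2 : ℝ) : ℂ)) / ((Dn w (bot g) : ℝ) : ℂ) := by
    rw [eq_div_iff hD', add_mul, mob, mul_assoc, div_mul_cancel₀ _ hD', g1t_Dn_cast]
    simp only [ra, bot, map_add emb, map_mul emb]
    ring
  have h2 := g1t_id (emb (ra x g).1 * w.1 + emb (ra x g).2) (emb (ra x g).1)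
    (emb (g 1 0) * w.1 + emb (g 1 1)) (emb (g 1 0)) w.2
  have h3 : emb (ra x g).1 * (emb (g 1 0) * w.1 + emb (g 1 1)) -
      (emb (ra x g).1 * w.1 + emb (ra x g).2) * emb (g 1 0) = emb x.1 := by
    simp only [ra, map_add emb, map_mul emb]
    linear_combination emb x.1 * hdet
  rw [h3, norm_emb_sq, norm_emb_sq, norm_emb_sq] at h2
  change _ = Dn w (ra x g) * Dn w (bot g) at h2
  have h4 : Dn (mob g w) x = Dn w (ra x g) / Dn w (bot g) := by
    rw [Dn, h1, norm_div, div_pow, Complex.norm_real, Real.norm_of_nonneg hD.le,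
      show (mob g w).2 = w.2 / Dn w (bot g) from rfl, div_pow, ← mul_div_assoc, ← add_div, h2]
    field_simp
  rw [Qf, h4, show (mob g w).2 = w.2 / Dn w (bot g) from rfl, Qf]
  field_simp
/-- A point is determined by its form (use the rows `(0,1), (1,0), (1,1), (1,ω)`). -/
theorem eq_of_Qf {w w' : ℂ × ℝ} (hw : w ∈ Hs) (hw' : w' ∈ Hs) (h : ∀ x, Qf w x = Qf w' x) :
    w = w' := by
  have hv : 0 < w.2 := hw
  have h0 : w.2 = w'.2 := by
    have := h e1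
    rwa [Qf_e1, Qf_e1, inv_inj] at this
  have hD : ∀ d : O, ‖w.1 + emb d‖ ^ 2 = ‖w'.1 + emb d‖ ^ 2 := by
    intro d
    have := h (1, d)
    simp only [Qf, Dn, map_one, one_mul, ← h0] at this
    rw [div_left_inj' hv.ne'] at this
    linarith
  have h1 := hD 0
  have h2 := hD 1
  have h3 := hD om
  simp only [map_zero, map_one, emb_om, omC, Complex.sq_norm, normSq_apply, add_re, add_im,
    one_re, one_im, add_zero] at h1 h2 h3
  have hre : w.1.re = w'.1.re := by linarith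
  have hs : 0 < Real.sqrt 3 := by positivity
  have him : w.1.im = w'.1.im := by
    refine mul_left_cancel₀ hs.ne' ?_
    linarith
  exact Prod.ext (Complex.ext hre him) h0
theorem mob_one (w : ℂ × ℝ) : mob 1 w = w := by
  simp [mob, Dn, bot, Nr_zero]
theorem mob_mul (g h : SG) {w : ℂ × ℝ} (hw : w ∈ Hs) : mob (g * h) w = mob g (mob h w) := 
  eq_of_Qf (mob_mem _ hw) (mob_mem _ (mob_mem _ hw)) fun x => by
    rw [Qf_mob _ hw, Qf_mob _ (mob_mem _ hw), Qf_mob _ hw, ra_mul]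
theorem mob_gT (b : O) (w : ℂ × ℝ) : mob (gT b) w = (w.1 + emb b, w.2) := by
  simp [mob, Dn, bot, gT, Nr_zero]
theorem mob_gS (w : ℂ × ℝ) :
    mob gS w = (-conj w.1 / ((‖w.1‖ ^ 2 + w.2 ^ 2 : ℝ) : ℂ), w.2 / (‖w.1‖ ^ 2 + w.2 ^ 2)) := by
  simp [mob, Dn, bot, gS, Nr_one]
/-- The action near the geodesic over `-d/q`. -/
theorem mob_geod (g : SG) (hq : g 1 0 ≠ 0) (ζ : ℂ) {v : ℝ} (hv : 0 < v) :
    mob g (-(emb (g 1 1) / emb (g 1 0)) + ζ, v) =
      (emb (g 0 0) / emb (g 1 0) - conj ζ / (emb (g 1 0) ^ 2 * ((‖ζ‖ ^ 2 + v ^ 2 : ℝ) : ℂ)),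
        v / (Nr (g 1 0) * (‖ζ‖ ^ 2 + v ^ 2))) := by
  have hC : emb (g 1 0) ≠ 0 := fun h => hq (emb_injective (h.trans (map_zero emb).symm))
  have hC' : conj (emb (g 1 0)) ≠ 0 := by simpa using hC
  have hdet := g1t_det g
  have e1 : emb (g 1 0) * (-(emb (g 1 1) / emb (g 1 0)) + ζ) + emb (g 1 1) = emb (g 1 0) * ζ := by
    field_simp; ring
  have e2 : Dn (-(emb (g 1 1) / emb (g 1 0)) + ζ, v) (bot g) = Nr (g 1 0) * (‖ζ‖ ^ 2 + v ^ 2) := by
    simp only [Dn, bot]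
    rw [e1, norm_mul, mul_pow, norm_emb_sq]; ring
  have e3 : ((Nr (g 1 0) : ℝ) : ℂ) = emb (g 1 0) * conj (emb (g 1 0)) := by
    rw [← norm_emb_sq, mul_conj, Complex.sq_norm]
  have e4 : ((‖ζ‖ ^ 2 + v ^ 2 : ℝ) : ℂ) = ζ * conj ζ + ((v ^ 2 : ℝ) : ℂ) := by
    rw [mul_conj, Complex.sq_norm, ofReal_add]
  have e5 : ((‖ζ‖ ^ 2 + v ^ 2 : ℝ) : ℂ) ≠ 0 := by
    have : 0 < ‖ζ‖ ^ 2 + v ^ 2 := by positivity
    exact_mod_cast this.ne'
  refine Prod.ext ?_ ?_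
  · simp only [mob]
    rw [e2, e1, ofReal_mul, e3, map_mul]
    generalize ((‖ζ‖ ^ 2 + v ^ 2 : ℝ) : ℂ) = T at e4 e5
    generalize ((v ^ 2 : ℝ) : ℂ) = V at e4
    field_simp
    rw [e4]
    linear_combination (-conj ζ) * hdet
  · simp only [mob]
    rw [e2]
theorem g1t_cont_Dn (x : O × O) : Continuous (fun w => Dn w x) := by
  unfold Dn
  fun_prop
theorem g1t_cont_num (g : SG) : Continuous (fun w : ℂ × ℝ =>
    (emb (g 0 0) * w.1 + emb (g 0 1)) * conj (emb (g 1 0) * w.1 + emb (g 1 1)) +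
      emb (g 0 0) * conj (emb (g 1 0)) * ((w.2 ^ 2 : ℝ) : ℂ)) := by
  fun_prop
theorem measurable_mob (g : SG) : Measurable (mob g) := 
  ((g1t_cont_num g).measurable.div (continuous_ofReal.comp (g1t_cont_Dn _)).measurable).prodMk
    (measurable_snd.div (g1t_cont_Dn _).measurable)
theorem continuousOn_mob (g : SG) : ContinuousOn (mob g) Hs := 
  ((g1t_cont_num g).continuousOn.div (continuous_ofReal.comp (g1t_cont_Dn _)).continuousOn
    fun _ hw => ofReal_ne_zero.2 (Dn_pos hw (cop_bot g).ne_zero).ne').prodMk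
    (continuous_snd.continuousOn.div (g1t_cont_Dn _).continuousOn
      fun _ hw => (Dn_pos hw (cop_bot g).ne_zero).ne')
theorem measurable_Qf (x : O × O) : Measurable (fun w => Qf w x) := 
  (g1t_cont_Dn x).measurable.div measurable_snd
theorem continuousOn_Qf (x : O × O) : ContinuousOn (fun w => Qf w x) Hs := 
  (g1t_cont_Dn x).continuousOn.div continuous_snd.continuousOn fun _ hw => ne_of_gt hw
/-- Locally uniform lower bound. -/
theorem exists_Qf_ge {K : Set (ℂ × ℝ)} (hK : IsCompact K) (hK' : K ⊆ Hs) :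
    ∃ c : ℝ, 0 < c ∧ ∀ w ∈ K, ∀ x : O × O, c * (Nr x.1 + Nr x.2) ≤ Qf w x := by
  have hc : Continuous fun w : ℂ × ℝ => w.2 / (2 * w.2 ^ 2 + 1 + 2 * ‖w.1‖ ^ 2) :=
    continuous_snd.div (by fun_prop) fun w => by positivity
  obtain ⟨c, hc0, hc1⟩ := hK.exists_forall_le' hc.continuousOn (a := 0) fun w hw => by
    have hv : 0 < w.2 := hK' hw
    positivity
  refine ⟨c, hc0, fun w hw x => ?_⟩
  have hv : 0 < w.2 := hK' hw
  have h1 := Nr_nonneg x.1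
  have h2 := Nr_nonneg x.2
  refine (mul_le_mul_of_nonneg_right (hc1 w hw) (by positivity)).trans ?_
  rw [Qf, div_mul_eq_mul_div, div_le_div_iff₀ (by positivity) hv]
  have h3 : ‖emb x.2‖ ≤ ‖emb x.1 * w.1 + emb x.2‖ + ‖emb x.1‖ * ‖w.1‖ := by
    rw [← norm_mul]
    refine le_trans (le_of_eq ?_) (norm_sub_le _ _)
    rw [add_sub_cancel_left]
  have h4 : Nr x.2 ≤ 2 * ‖emb x.1 * w.1 + emb x.2‖ ^ 2 + 2 * (Nr x.1 * ‖w.1‖ ^ 2) := by
    rw [← norm_emb_sq, ← norm_emb_sq, ← mul_pow]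
    nlinarith [sq_nonneg (‖emb x.1 * w.1 + emb x.2‖ - ‖emb x.1‖ * ‖w.1‖), norm_nonneg (emb x.2),
      pow_le_pow_left₀ (norm_nonneg _) h3 2]
  unfold Dn
  have h5 := sq_nonneg ‖emb x.1 * w.1 + emb x.2‖
  have h6 := sq_nonneg ‖w.1‖
  generalize ‖emb x.1 * w.1 + emb x.2‖ ^ 2 = A at h4 h5 ⊢
  generalize ‖w.1‖ ^ 2 = Z at h4 h6 ⊢
  have h7 := mul_le_mul_of_nonneg_left h4 (sq_nonneg w.2)
  have h8 : 0 ≤ Nr x.1 * w.2 ^ 2 * w.2 ^ 2 := by positivity
  nlinarith [mul_nonneg h5 h6]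
theorem g1t_fiber (c : O) (u : ℂ) {R : ℝ} (hR : 0 ≤ R) (T : Finset (O × O))
    (hT : ∀ x ∈ T, x.1 = c ∧ ‖u + emb x.2‖ ^ 2 ≤ R) : (T.card : ℝ) ≤ 44 * R + 1 := by
  classical
  rcases T.eq_empty_or_nonempty with rfl | ⟨y, hy⟩
  · simp; positivity
  have hinj : Set.InjOn (fun x : O × O => x.2 - y.2) T := fun a ha b hb h =>
    Prod.ext ((hT a ha).1.trans (hT b hb).1.symm) (sub_left_injective h)
  rw [← Finset.card_image_of_injOn hinj]
  refine (b2_card_le (Z := 4 * R) (by positivity) fun d hd => ?_).trans (le_of_eq (by ring))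
  obtain ⟨x, hx, rfl⟩ := Finset.mem_image.1 hd
  have h1 : ‖emb (x.2 - y.2)‖ ≤ ‖u + emb x.2‖ + ‖u + emb y.2‖ := by
    refine le_trans (le_of_eq ?_) (norm_sub_le _ _)
    rw [map_sub, add_sub_add_left_eq_sub]
  rw [← norm_emb_sq]
  nlinarith [(hT x hx).2, (hT y hy).2, pow_le_pow_left₀ (norm_nonneg _) h1 2,
    sq_nonneg (‖u + emb x.2‖ - ‖u + emb y.2‖)]
theorem g1t_count {w : ℂ × ℝ} (hw : w ∈ Hs) {Y : ℝ} (hY : w.2⁻¹ ≤ Y) (S : Finset (O × O))
    (hS : ∀ x ∈ S, Cop x ∧ Qf w x ≤ Y) : (S.card : ℝ) ≤ 1200 * (1 + Y ^ 2) := by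
  classical
  have hv : 0 < w.2 := hw
  have hY0 : 0 < Y := (inv_pos.2 hv).trans_le hY
  have hYv : 1 ≤ Y * w.2 := by rwa [← div_le_iff₀ hv, one_div]
  have hD : ∀ x ∈ S, ‖emb x.1 * w.1 + emb x.2‖ ^ 2 + Nr x.1 * w.2 ^ 2 ≤ Y * w.2 := fun x hx =>
    (div_le_iff₀ hv).1 (hS x hx).2
  have h0 : ((S.filter fun x => x.1 = 0).card : ℝ) ≤ 44 * 1 + 1 := by
    refine g1t_fiber 0 0 zero_le_one _ fun x hx => ?_
    obtain ⟨hx, hx0⟩ := Finset.mem_filter.1 hx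
    have h1 : IsCoprime x.1 x.2 := (hS x hx).1
    rw [hx0, isCoprime_zero_left, isUnit_iff_Nr] at h1
    exact ⟨hx0, by rw [zero_add, norm_emb_sq, h1]⟩
  have h1 : ((S.filter fun x => ¬ x.1 = 0).card : ℝ) ≤ 25 * (Y / w.2) * (45 * (Y * w.2)) := by
    have hmap : Set.MapsTo Prod.fst (S.filter fun x => ¬ x.1 = 0 : Set (O × O))
        (box (Y / w.2) : Set O) := by
      intro x hx
      obtain ⟨hx, hx0⟩ := Finset.mem_filter.1 hx
      refine mem_box.2 ⟨hx0, ?_⟩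
      rw [le_div_iff₀ hv]
      refine le_of_mul_le_mul_right ?_ hv
      nlinarith [hD x hx, sq_nonneg ‖emb x.1 * w.1 + emb x.2‖]
    rw [Finset.card_eq_sum_card_fiberwise hmap, Nat.cast_sum]
    refine (Finset.sum_le_card_nsmul _ _ (45 * (Y * w.2)) fun c _ => ?_).trans ?_
    · refine (g1t_fiber c (emb c * w.1) (R := Y * w.2) (by positivity) _ fun x hx => ?_).trans
        (by linarith)
      obtain ⟨hx, hxc⟩ := Finset.mem_filter.1 hx
      have h2 := hD x (Finset.mem_filter.1 hx).1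
      have h3 : 0 ≤ Nr x.1 * w.2 ^ 2 := mul_nonneg (Nr_nonneg _) (sq_nonneg _)
      exact ⟨hxc, by rw [← hxc]; linarith⟩
    · rw [nsmul_eq_mul]
      exact mul_le_mul_of_nonneg_right (card_box_le (by positivity)) (by positivity)
  have h2 : 25 * (Y / w.2) * (45 * (Y * w.2)) = 1125 * Y ^ 2 := by field_simp; norm_num
  rw [← Finset.card_filter_add_card_filter_not (s := S) (fun x => x.1 = 0), Nat.cast_add]
  nlinarith [sq_nonneg Y]
/-- Counting primitive rows: if the set is not empty move one of its members to `(0,1)`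
(so that `v⁻¹ ≤ Y`), then count `c` (`N c ≤ Y / v`) and `d` (`|c z + d|² ≤ Y v`). -/
theorem card_Qf_le : ∃ C : ℝ, 0 ≤ C ∧ ∀ w ∈ Hs, ∀ (Y : ℝ) (S : Finset (O × O)),
    (∀ x ∈ S, Cop x ∧ Qf w x ≤ Y) → (S.card : ℝ) ≤ C * (1 + Y ^ 2) := by
  classical
  refine ⟨1200, by norm_num, fun w hw Y S hS => ?_⟩
  rcases S.eq_empty_or_nonempty with rfl | ⟨y, hy⟩
  · simp; positivity
  have hinj : Function.Injective fun x => ra x (lift y)⁻¹ := (raE (lift y)⁻¹).injective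
  rw [← Finset.card_image_of_injective S hinj]
  refine g1t_count (mob_mem (lift y) hw) ?_ _ fun x hx => ?_
  · rw [mob_snd, inv_inv, bot_lift (hS y hy).1]
    exact (hS y hy).2
  · obtain ⟨x', hx', rfl⟩ := Finset.mem_image.1 hx
    rw [cop_ra, Qf_mob _ hw, ← ra_mul, inv_mul_cancel, ra_one]
    exact hS x' hx'

end Crest.Agent.R017.Theta

end
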