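import Crest.Agent.R017.ThGeo1

/-! # Row 17, cubic theta: the invariant measure -/

set_option autoImplicit false

noncomputable section

open scoped BigOperators ComplexConjugate Topology ENNReal
open Complex MeasureTheory Filter Set

namespace Crest.Agent.R017.Theta

theorem g2t_meas : Measurable fun v : ℝ => ENNReal.ofReal (v ^ 3)⁻¹ := by fun_prop

theorem g2t_ac : muH ≪ (volume : Measure (ℂ × ℝ)).restrict Hs := withDensity_absolutelyContinuous _ _

/-- The vertical measure. -/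
def g2t_nu : Measure ℝ := (volume.restrict (Ioi 0)).withDensity fun v => ENNReal.ofReal (v ^ 3)⁻¹

instance : SFinite g2t_nu := by unfold g2t_nu; infer_instance

theorem g2t_prod : muH = (volume : Measure ℂ).prod g2t_nu := by
  have e : Hs = (univ : Set ℂ) ×ˢ Ioi (0 : ℝ) := by
    ext w; simp [Hs]
  rw [muH, g2t_nu, prod_withDensity_right g2t_meas, e, Measure.volume_eq_prod,
    ← Measure.prod_restrict, Measure.restrict_univ]

theorem g2t_lint {g : ℂ × ℝ → ℝ≥0∞} (hg : Measurable g) :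
    ∫⁻ w, g w ∂muH = ∫⁻ w in Hs, ENNReal.ofReal (w.2 ^ 3)⁻¹ * g w :=
  lintegral_withDensity_eq_lintegral_mul _ (g2t_meas.comp measurable_snd) hg

/-- Coordinates. -/
def g2t_e : (ℂ × ℝ) ≃ₗ[ℝ] (Fin 3 → ℝ) where
  toFun w := ![w.1.re, w.1.im, w.2]
  invFun x := (⟨x 0, x 1⟩, x 2)
  map_add' w w' := by funext i; fin_cases i <;> simp
  map_smul' c w := by funext i; fin_cases i <;> simp
  left_inv w := by simp
  right_inv x := by funext i; fin_cases i <;> simp

theorem g2t_det (A : (ℂ × ℝ) →ₗ[ℝ] (ℂ × ℝ)) : LinearMap.det A =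
    Matrix.det !![(A (1, 0)).1.re, (A (I, 0)).1.re, (A (0, 1)).1.re;
      (A (1, 0)).1.im, (A (I, 0)).1.im, (A (0, 1)).1.im; (A (1, 0)).2, (A (I, 0)).2, (A (0, 1)).2] := by
  rw [← LinearMap.det_toMatrix (Module.Basis.ofEquivFun g2t_e)]
  congr 1
  have e0 : g2t_e.symm (Pi.single 0 1) = (1, 0) := rfl
  have e1 : g2t_e.symm (Pi.single 1 1) = (I, 0) := rfl
  have e2 : g2t_e.symm (Pi.single 2 1) = (0, 1) := rfl
  ext i j
  rw [LinearMap.toMatrix_apply, Module.Basis.ofEquivFun_repr_apply, Module.Basis.coe_ofEquivFun]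
  fin_cases j
  · simp only [Fin.zero_eta, e0]
    fin_cases i <;> rfl
  · simp only [Fin.mk_one, e1]
    fin_cases i <;> rfl
  · simp only [Fin.reduceFinMk, e2]
    fin_cases i <;> rfl

def g2t_L : (ℂ × ℝ) →L[ℝ] (ℂ × ℝ) :=
  (-(conjCLE : ℂ →L[ℝ] ℂ)).prodMap (ContinuousLinearMap.id ℝ ℝ)

def g2t_r (w : ℂ × ℝ) : ℝ := w.1.re ^ 2 + w.1.im ^ 2 + w.2 ^ 2

def g2t_dr (w : ℂ × ℝ) : (ℂ × ℝ) →L[ℝ] ℝ :=
  (2 * w.1.re) • (reCLM.comp (ContinuousLinearMap.fst ℝ ℂ ℝ)) +
    (2 * w.1.im) • (imCLM.comp (ContinuousLinearMap.fst ℝ ℂ ℝ)) +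
    (2 * w.2) • ContinuousLinearMap.snd ℝ ℂ ℝ

theorem g2t_r_pos {w : ℂ × ℝ} (hw : w ∈ Hs) : 0 < g2t_r w := by
  have : 0 < w.2 := hw
  unfold g2t_r
  positivity

theorem g2t_mob (w : ℂ × ℝ) : mob gS w = (g2t_r w)⁻¹ • g2t_L w := by
  have e : ‖w.1‖ ^ 2 + w.2 ^ 2 = g2t_r w := by
    rw [g2t_r, Complex.sq_norm, Complex.normSq_apply]; ring
  rw [mob_gS, e]
  refine Prod.ext ?_ ?_
  · simp [g2t_L, div_eq_inv_mul]
  · simp [g2t_L, div_eq_inv_mul]

theorem g2t_hasr (w : ℂ × ℝ) : HasFDerivAt g2t_r (g2t_dr w) w := by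
  have h1 := (reCLM.comp (ContinuousLinearMap.fst ℝ ℂ ℝ)).hasFDerivAt (x := w)
  have h2 := (imCLM.comp (ContinuousLinearMap.fst ℝ ℂ ℝ)).hasFDerivAt (x := w)
  have h3 := (ContinuousLinearMap.snd ℝ ℂ ℝ).hasFDerivAt (x := w)
  have h := ((h1.pow 2).fun_add (h2.pow 2)).fun_add (h3.pow 2)
  refine h.congr_fderiv ?_
  simp [g2t_dr]

def g2t_D (w : ℂ × ℝ) : (ℂ × ℝ) →L[ℝ] (ℂ × ℝ) :=
  (g2t_r w)⁻¹ • g2t_L + ((-(g2t_r w ^ 2)⁻¹) • g2t_dr w).smulRight (g2t_L w)

theorem g2t_hasD {w : ℂ × ℝ} (hw : w ∈ Hs) : HasFDerivAt (mob gS) (g2t_D w) w := by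
  have h1 : HasFDerivAt (fun w => (g2t_r w)⁻¹) ((-(g2t_r w ^ 2)⁻¹) • g2t_dr w) w :=
    (hasDerivAt_inv (g2t_r_pos hw).ne').comp_hasFDerivAt w (g2t_hasr w)
  rw [funext g2t_mob]
  exact h1.fun_smul g2t_L.hasFDerivAt

theorem g2t_detD {w : ℂ × ℝ} (hw : w ∈ Hs) : (g2t_D w).det = (g2t_r w ^ 3)⁻¹ := by
  have h := (g2t_r_pos hw).ne'
  have key : ∀ a b : ℝ, (a • g2t_L + (b • g2t_dr w).smulRight (g2t_L w)).det =
      a ^ 2 * -(a + 2 * b * g2t_r w) := fun a b => by
    rw [ContinuousLinearMap.det, g2t_det, Matrix.det_fin_three]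
    simp [g2t_L, g2t_dr, g2t_r]
    ring
  rw [g2t_D, key]
  field_simp
  ring

theorem g2t_invol {w : ℂ × ℝ} (hw : w ∈ Hs) : mob gS (mob gS w) = w := by
  have h := (g2t_r_pos hw).ne'
  have e : g2t_r ((g2t_r w)⁻¹ • g2t_L w) = (g2t_r w)⁻¹ := by
    have : g2t_r ((g2t_r w)⁻¹ • g2t_L w) = (g2t_r w)⁻¹ ^ 2 * g2t_r w := by
      generalize (g2t_r w)⁻¹ = c
      simp [g2t_r, g2t_L]
      ring
    rw [this]
    field_simp
  rw [g2t_mob, g2t_mob, e, map_smul, smul_smul, inv_inv, mul_inv_cancel₀ h, one_smul]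
  ext <;> simp [g2t_L]

theorem ae_mem_Hs : ∀ᵐ w ∂muH, w ∈ Hs := g2t_ac.ae_le (ae_restrict_mem measurableSet_Hs)
instance : SFinite muH := by unfold muH; infer_instance
theorem muH_compact_lt_top {K : Set (ℂ × ℝ)} (hK : IsCompact K) (hK' : K ⊆ Hs) : muH K < ⊤ := by
  rw [muH, withDensity_apply _ hK.measurableSet, Measure.restrict_restrict hK.measurableSet,
    inter_eq_left.2 hK']
  have h : ContinuousOn (fun w : ℂ × ℝ => (w.2 ^ 3)⁻¹) K :=
    ContinuousOn.inv₀ (by fun_prop) fun w hw => (pow_pos (hK' hw) 3).ne'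
  exact (h.integrableOn_compact hK).lintegral_lt_top
/-- Non-empty open subsets of `Hs` have positive measure. -/
theorem muH_open_pos {V : Set (ℂ × ℝ)} (hV : IsOpen V) (hV' : V ⊆ Hs) (h : V.Nonempty) :
    0 < muH V := by
  refine pos_iff_ne_zero.2 fun h0 => ?_
  have h1 : (volume : Measure (ℂ × ℝ)).restrict Hs ≪ muH :=
    withDensity_absolutelyContinuous' (g2t_meas.comp measurable_snd).aemeasurable
      ((ae_restrict_mem measurableSet_Hs).mono fun w hw =>
        (ENNReal.ofReal_pos.2 (inv_pos.2 (pow_pos hw 3))).ne')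
  have h2 := h1 h0
  rw [Measure.restrict_apply hV.measurableSet, inter_eq_left.2 hV'] at h2
  exact (hV.measure_pos volume h).ne' h2
theorem aesm_muH {f : ℂ × ℝ → ℂ} (hf : ContinuousOn f Hs) :
    AEStronglyMeasurable f muH := (hf.aestronglyMeasurable measurableSet_Hs).mono_ac g2t_ac
theorem mp_translate (z : ℂ) : MeasurePreserving (fun w : ℂ × ℝ => (w.1 + z, w.2)) muH muH := by
  rw [g2t_prod]
  exact (measurePreserving_add_right volume z).prod (MeasurePreserving.id g2t_nu)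
theorem mp_rfl' (z₀ : ℂ) : MeasurePreserving (rfl' z₀) muH muH := by
  rw [g2t_prod]
  exact (Measure.measurePreserving_sub_left volume (2 * z₀)).prod (MeasurePreserving.id g2t_nu)
/-- Inversion: change of variables, the Jacobian is `(|z|² + v²)^{-3}`
(`lintegral_image_eq_lintegral_abs_det_fderiv_mul`). -/
theorem mp_gS : MeasurePreserving (mob gS) muH muH := by
  refine ⟨measurable_mob gS, Measure.ext_of_lintegral _ fun g hg => ?_⟩
  have him : mob gS '' Hs = Hs := by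
    refine Subset.antisymm ?_ fun w hw => ⟨mob gS w, mob_mem gS hw, g2t_invol hw⟩
    rintro _ ⟨w, hw, rfl⟩
    exact mob_mem gS hw
  have hinj : InjOn (mob gS) Hs := fun w hw w' hw' e => by
    rw [← g2t_invol hw, e, g2t_invol hw']
  rw [lintegral_map hg (measurable_mob gS), g2t_lint (g := fun w => g (mob gS w))
    (hg.comp (measurable_mob gS)), g2t_lint hg]
  conv_rhs => rw [← him]
  have : (volume : Measure (ℂ × ℝ)).IsAddHaarMeasure := Measure.prod.instIsAddHaarMeasure _ _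
  rw [lintegral_image_eq_lintegral_abs_det_fderiv_mul volume measurableSet_Hs
    (fun w hw => (g2t_hasD hw).hasFDerivWithinAt) hinj]
  refine setLIntegral_congr_fun measurableSet_Hs fun w hw => ?_
  have hr := g2t_r_pos hw
  have hv : 0 < w.2 := hw
  have e : (mob gS w).2 = (g2t_r w)⁻¹ * w.2 := by rw [g2t_mob]; rfl
  rw [← mul_assoc, ← ENNReal.ofReal_mul (abs_nonneg _), g2t_detD hw, abs_of_pos (by positivity), e]
  congr 2
  field_simp
theorem mp_mob (g : SG) : MeasurePreserving (mob g) muH muH := by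
  have key : ∀ g h : SG, MeasurePreserving (mob g) muH muH → MeasurePreserving (mob h) muH muH →
      MeasurePreserving (mob (g * h)) muH muH := fun g h h1 h2 =>
    (h1.comp h2).congr (measurable_mob _) (ae_mem_Hs.mono fun w hw => (mob_mul g h hw).symm)
  refine SG.induction (P := fun g => MeasurePreserving (mob g) muH muH) ?_
    (fun g b h => key _ _ h ?_) (fun g h => key _ _ h mp_gS) g
  · rw [funext mob_one]
    exact MeasurePreserving.id muH
  · rw [funext (mob_gT b)]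
    exact mp_translate _
/-- Integration over a product set. -/
theorem lintegral_prod_muH {A : Set ℂ} (hA : MeasurableSet A) {I : Set ℝ} (hI : MeasurableSet I)
    {f : ℂ × ℝ → ℝ≥0∞} (hf : AEMeasurable f muH) :
    ∫⁻ w in A ×ˢ I, f w ∂muH =
      ∫⁻ v in I ∩ Ioi 0, (∫⁻ z in A, f (z, v)) * ENNReal.ofReal (v ^ 3)⁻¹ := by
  have _ := hA
  have h1 := hf.restrict (s := A ×ˢ I)
  rw [g2t_prod, ← Measure.prod_restrict] at h1 ⊢
  rw [lintegral_prod_symm _ h1, g2t_nu, restrict_withDensity hI, Measure.restrict_restrict hI,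
    lintegral_withDensity_eq_lintegral_mul_non_measurable _ g2t_meas
      (.of_forall fun _ => ENNReal.ofReal_lt_top)]
  exact lintegral_congr fun v => mul_comm _ _
theorem integral_prod_muH {A : Set ℂ} (hA : MeasurableSet A) {f : ℂ × ℝ → ℂ}
    (hf : IntegrableOn f (A ×ˢ (univ : Set ℝ)) muH) :
    ∫ w in A ×ˢ (univ : Set ℝ), f w ∂muH =
      ∫ v in Ioi (0 : ℝ), (∫ z in A, f (z, v)) * (((v ^ 3)⁻¹ : ℝ) : ℂ) := by
  have _ := hA
  rw [IntegrableOn, g2t_prod, ← Measure.prod_restrict, Measure.restrict_univ] at hf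
  rw [g2t_prod, ← Measure.prod_restrict, Measure.restrict_univ, integral_prod_symm _ hf, g2t_nu,
    integral_withDensity_eq_integral_toReal_smul g2t_meas (.of_forall fun _ => ENNReal.ofReal_lt_top)]
  refine setIntegral_congr_fun measurableSet_Ioi fun v hv => ?_
  rw [ENNReal.toReal_ofReal (inv_nonneg.2 (pow_pos hv 3).le), Complex.real_smul, mul_comm]

end Crest.Agent.R017.Theta

end
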