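import Crest.Agent.R017.ThE2
import Crest.Agent.R017.ThGeo2
import Crest.Agent.R017.ThCnt3

/-! # Row 17, cubic theta: the unfolded inner product -/

set_option autoImplicit false

noncomputable section

open scoped BigOperators ComplexConjugate Topology ENNReal
open Complex MeasureTheory Filter Set

namespace Crest.Agent.R017.Theta

theorem i1t_pt {c s v : ℝ} (hv : 0 < v) :
    v ^ ((-1 : ℝ) - 1) * ((v ^ (-1 : ℝ)) ^ (-s - 2) * Real.exp (-(c0 * c) * (v ^ (-1 : ℝ)) ^ (1 : ℝ))) =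
      Phi (c / v) * v ^ s := by
  rw [← Real.rpow_mul hv.le, ← mul_assoc, ← Real.rpow_add hv, Real.rpow_one, Real.rpow_neg_one,
    mul_comm]
  unfold Phi
  congr 2
  · rw [div_eq_mul_inv]; ring
  · ring

theorem i1t_int {c s : ℝ} (hc : 0 < c) (hs : s < -1) :
    IntegrableOn (fun v : ℝ => Phi (c / v) * v ^ s) (Ioi 0) := by
  have h := (integrableOn_Ioi_comp_rpow_iff' _ (p := -1) (by norm_num)).2
    (integrableOn_rpow_mul_exp_neg_mul_rpow (s := -s - 2) (p := 1) (by linarith) one_pos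
      (mul_pos c0_pos hc))
  exact h.congr_fun (fun v hv => i1t_pt hv) measurableSet_Ioi

theorem i1t_val {c : ℝ} (hc : 0 < c) :
    ∫ v in Ioi (0 : ℝ), Phi (c / v) * v ^ (-3 : ℝ) = ((c0 * c) ^ 2)⁻¹ := by
  have hb := mul_pos c0_pos hc
  have h := integral_comp_rpow_Ioi
    (fun x : ℝ => x ^ (-(-3 : ℝ) - 2) * Real.exp (-(c0 * c) * x ^ (1 : ℝ))) (p := -1) (by norm_num)
  rw [integral_rpow_mul_exp_neg_mul_rpow one_pos (by norm_num) hb] at h
  rw [← setIntegral_congr_fun measurableSet_Ioi (fun v hv => i1t_pt (c := c) (s := -3) hv)]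
  simp only [abs_neg, abs_one, one_mul, smul_eq_mul] at h
  rw [h]
  norm_num

theorem i1t_cf (P : O) (x : O × O) : ‖cf (Be P) x‖ ≤ 1 := norm_cf_le (wt_Be P).bd x

theorem i1t_cont_Phi : Continuous Phi := by unfold Phi; fun_prop

theorem i1t_inv3 {v : ℝ} (hv : 0 < v) : (v ^ 3)⁻¹ = v ^ (-3 : ℝ) := by
  rw [Real.rpow_neg hv.le, ← Real.rpow_natCast]; norm_num

theorem continuousOn_hh (P : O) {t t' : ℝ} (ht : 0 < t) (ht' : 0 < t') :
    ContinuousOn (hh P t t') Hs := by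
  unfold hh
  refine (continuousOn_const.mul ?_).mul
    (continuous_conj.comp_continuousOn (continuousOn_Uc (i1t_cf P) ht'))
  exact (continuous_ofReal.comp i1t_cont_Phi).comp_continuousOn
    (continuousOn_const.div continuous_snd.continuousOn fun w hw => ne_of_gt hw)

/-- `norm_Uc_le`, `tsum_Phi_Qf_le`, `lintegral_prod_muH`:
`Φ(t/v) (1 + 1/v)(1 + v) v⁻³` is integrable on `(0, ∞)`. -/
theorem integrableOn_hh (P : O) {t t' : ℝ} (ht : 0 < t) (ht' : 0 < t') :
    IntegrableOn (hh P t t') (Fd 0 ×ˢ (univ : Set ℝ)) muH := by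
  refine ⟨(aesm_muH (continuousOn_hh P ht ht')).restrict, ?_⟩
  obtain ⟨C, hC, hb⟩ := tsum_Phi_Qf_le
  set K : ℝ := t ^ (4 / 3 : ℝ) * t' ^ (4 / 3 : ℝ) * C with hK
  have hK0 : 0 ≤ K := by positivity
  let G : ℝ → ℝ := fun v => K * Phi (t / v) * ((1 + (t' * v)⁻¹) * (1 + v / t'))
  have hGm : Measurable G := by
    have := i1t_cont_Phi.measurable
    fun_prop
  have h1 : ∀ w ∈ Hs, ‖hh P t t' w‖ₑ ≤ ENNReal.ofReal (G w.2) := by
    intro w hw
    rw [← ofReal_norm]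
    refine ENNReal.ofReal_le_ofReal ?_
    have h2 := norm_Uc_le (i1t_cf P) ht' hw
    have h3 := hb t' ht' w hw
    have h4 := Phi_pos (t / w.2)
    unfold hh U pw
    rw [norm_mul, norm_mul, RCLike.norm_conj, norm_real, norm_real, Real.norm_of_nonneg h4.le,
      Real.norm_of_nonneg (by positivity)]
    calc _ ≤ t ^ (4 / 3 : ℝ) * Phi (t / w.2) * (1 * t' ^ (4 / 3 : ℝ) *
          (C * (1 + (t' * w.2)⁻¹) * (1 + w.2 / t'))) := by
          refine mul_le_mul_of_nonneg_left (h2.trans ?_) (by positivity)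
          exact mul_le_mul_of_nonneg_left h3 (by positivity)
      _ = _ := by simp only [G, hK]; ring
  have hI : IntegrableOn (fun v => G v * vF * (v ^ 3)⁻¹) (Ioi 0) := by
    have h := ((((i1t_int ht (s := -3) (by norm_num)).const_mul (1 + t'⁻¹ * t'⁻¹)).add
      ((i1t_int ht (s := -2) (by norm_num)).const_mul t'⁻¹)).add
      ((i1t_int ht (s := -4) (by norm_num)).const_mul t'⁻¹)).const_mul (K * vF)
    refine IntegrableOn.congr_fun h (fun v hv => ?_) measurableSet_Ioi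
    have hv' : (0 : ℝ) < v := hv
    simp only [G, Pi.add_apply, Real.rpow_neg hv'.le, Real.rpow_ofNat]
    field_simp
    ring
  refine lt_of_le_of_lt (lintegral_mono_ae ((ae_restrict_of_ae ae_mem_Hs).mono h1)) ?_
  rw [lintegral_prod_muH (measurableSet_Fd 0) MeasurableSet.univ
    (f := fun w => ENNReal.ofReal (G w.2)) (by fun_prop), univ_inter]
  refine lt_of_le_of_lt (setLIntegral_mono' measurableSet_Ioi fun v hv => ?_) hI.2
  have hv' : (0 : ℝ) < v := hv
  have h4 := Phi_pos (t / v)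
  have h5 := vF_pos
  have hG : 0 ≤ G v := by simp only [G]; positivity
  dsimp only
  rw [setLIntegral_const, volume_Fd, ← ENNReal.ofReal_mul hG, ← ENNReal.ofReal_mul (by positivity),
    Real.enorm_eq_ofReal (by positivity)]

theorem i1t_int_alpha {P : O} (hP : P = 1 ∨ (Prime P ∧ Prim P)) {c d : ℝ} (hc : 0 < c)
    (hd : 0 < d) : IntegrableOn (fun v : ℝ =>
      ((Phi (c / v) * v ^ (-(7 / 3) : ℝ) : ℝ) : ℂ) * conj (alpha P (d * v))) (Ioi 0) := by
  obtain ⟨C, hC⟩ := norm_alpha_le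
  refine Integrable.mul_bdd (c := C) (i1t_int hc (s := -(7 / 3)) (by norm_num)).ofReal ?_ ?_
  · refine ContinuousOn.aestronglyMeasurable ?_ measurableSet_Ioi
    exact continuous_conj.comp_continuousOn ((continuousOn_alpha P).comp (by fun_prop)
      fun v hv => mul_pos hd hv)
  · filter_upwards [ae_restrict_mem measurableSet_Ioi] with v hv
    rw [RCLike.norm_conj]
    exact hC P hP _ (mul_pos hd hv)

/-- `integral_prod_muH`, `U_fourier`, `integral_tsum_eh`, `ahf_Be`, and `v = t u`. -/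
theorem IPv_eq {P : O} (hP : P = 1 ∨ (Prime P ∧ Prim P)) {t t' : ℝ} (ht : 0 < t) (ht' : 0 < t') :
    IPv P t t' = (vF : ℂ) * ((∫ u in Ioi (0 : ℝ),
        ((Phi u⁻¹ * u ^ (-(7 / 3) : ℝ) : ℝ) : ℂ) * conj (alpha P (t * t' * u))) +
      (((t * t') ^ (4 / 3 : ℝ) / (c0 * (t + t')) ^ 2 : ℝ) : ℂ)) := by
  unfold IPv
  rw [integral_prod_muH (measurableSet_Fd 0) (integrableOn_hh P ht ht')]
  have h1 : ∀ v ∈ Ioi (0 : ℝ), (∫ z in Fd 0, hh P t t' (z, v)) * (((v ^ 3)⁻¹ : ℝ) : ℂ) =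
      (vF : ℂ) * (pw t * (((Phi (t / v) * v ^ (-(7 / 3) : ℝ) : ℝ) : ℂ) * conj (alpha P (t' * v))) +
        (((t * t') ^ (4 / 3 : ℝ) * (Phi ((t + t') / v) * v ^ (-3 : ℝ)) : ℝ) : ℂ)) := by
    intro v hv
    have hv' : (0 : ℝ) < v := hv
    unfold hh
    dsimp only
    rw [integral_const_mul, integral_conj]
    simp_rw [U_fourier (wt_Be P) ht' hv']
    rw [integral_tsum_eh 0 (summable_ahf (wt_Be P).bd ht' hv'), ahf_Be P ht' hv', i1t_inv3 hv']
    have e1 : v ^ (-(7 / 3) : ℝ) = v ^ (2 / 3 : ℝ) * v ^ (-3 : ℝ) := by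
      rw [← Real.rpow_add hv']; norm_num
    have e2 : Phi ((t + t') / v) = Phi (t / v) * Phi (t' / v) := by
      unfold Phi; rw [← Real.exp_add]; congr 1; ring
    rw [e1, e2, Real.mul_rpow ht.le ht'.le]
    unfold pw
    simp only [map_mul, map_add, conj_ofReal]
    push_cast
    ring
  have hi : IntegrableOn (fun v : ℝ =>
      (((t * t') ^ (4 / 3 : ℝ) * (Phi ((t + t') / v) * v ^ (-3 : ℝ)) : ℝ) : ℂ)) (Ioi 0) :=
    ((i1t_int (add_pos ht ht') (s := -3) (by norm_num)).const_mul _).ofReal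
  rw [setIntegral_congr_fun measurableSet_Ioi h1, integral_const_mul,
    integral_add ((i1t_int_alpha hP ht ht').const_mul _) hi,
    integral_const_mul, integral_complex_ofReal, integral_const_mul, i1t_val (add_pos ht ht'),
    ← div_eq_mul_inv]
  congr 2
  have h2 := integral_comp_mul_left_Ioi' (fun v : ℝ =>
    ((Phi (t / v) * v ^ (-(7 / 3) : ℝ) : ℝ) : ℂ) * conj (alpha P (t' * v))) 0 ht
  rw [mul_zero] at h2
  rw [← h2, real_smul, ← integral_const_mul, ← integral_const_mul]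
  refine setIntegral_congr_fun measurableSet_Ioi fun u hu => ?_
  have hu' : (0 : ℝ) < u := hu
  have e1 : t ^ (4 / 3 : ℝ) * (t * t ^ (-(7 / 3) : ℝ)) = 1 := by
    rw [← Real.rpow_one_add' ht.le (by norm_num), ← Real.rpow_add ht]; norm_num
  have e2 : t / (t * u) = u⁻¹ := by field_simp
  have e3 := congrArg (fun x : ℝ => (x : ℂ)) e1
  rw [e2, Real.mul_rpow ht.le hu'.le, show t' * (t * u) = t * t' * u by ring]
  unfold pw
  simp only [ofReal_mul, ofReal_one] at e3 ⊢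
  linear_combination (↑(Phi u⁻¹) * ↑(u ^ (-(7 / 3) : ℝ)) * conj (alpha P (t * t' * u))) * e3

theorem i1t_lim {P : O} (hP : P = 1 ∨ (Prime P ∧ Prim P)) {a : ℂ}
    (ha : Tendsto (alpha P) (𝓝[>] 0) (𝓝 a)) {ι : Type} {l : Filter ι} [l.IsCountablyGenerated]
    {τ τ' : ι → ℝ} (h : Tendsto τ l (𝓝[>] 0)) (h' : Tendsto τ' l (𝓝[>] 0)) :
    Tendsto (fun i => IPv P (τ i) (τ' i)) l (𝓝 ((vF : ℂ) *
      (∫ u in Ioi (0 : ℝ), ((Phi u⁻¹ * u ^ (-(7 / 3) : ℝ) : ℝ) : ℂ)) * conj a)) := by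
  obtain ⟨C, hC⟩ := norm_alpha_le
  have hp : ∀ᶠ i in l, 0 < τ i := h.eventually self_mem_nhdsWithin
  have hp' : ∀ᶠ i in l, 0 < τ' i := h'.eventually self_mem_nhdsWithin
  have hm : Tendsto (fun i => τ i * τ' i) l (𝓝 0) := by
    simpa using (h.mono_right nhdsWithin_le_nhds).mul (h'.mono_right nhdsWithin_le_nhds)
  have h1 : Tendsto (fun i => ∫ u in Ioi (0 : ℝ),
      ((Phi u⁻¹ * u ^ (-(7 / 3) : ℝ) : ℝ) : ℂ) * conj (alpha P (τ i * τ' i * u))) l
      (𝓝 (∫ u in Ioi (0 : ℝ), ((Phi u⁻¹ * u ^ (-(7 / 3) : ℝ) : ℝ) : ℂ) * conj a)) := by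
    refine tendsto_integral_filter_of_dominated_convergence
      (fun u => Phi (1 / u) * u ^ (-(7 / 3) : ℝ) * C) ?_ ?_
      ((i1t_int one_pos (s := -(7 / 3)) (by norm_num)).mul_const C) ?_
    · filter_upwards [hp, hp'] with i hi hi'
      simpa only [one_div] using (i1t_int_alpha hP one_pos (mul_pos hi hi')).1
    · filter_upwards [hp, hp'] with i hi hi'
      filter_upwards [ae_restrict_mem measurableSet_Ioi] with u hu
      have hu' : (0 : ℝ) < u := hu
      have := Phi_pos u⁻¹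
      rw [norm_mul, RCLike.norm_conj, norm_real, Real.norm_of_nonneg (by positivity), one_div]
      exact mul_le_mul_of_nonneg_left (hC P hP _ (by positivity)) (by positivity)
    · filter_upwards [ae_restrict_mem measurableSet_Ioi] with u hu
      have hu' : (0 : ℝ) < u := hu
      refine Tendsto.const_mul _ ((continuous_conj.tendsto a).comp (ha.comp ?_))
      refine tendsto_nhdsWithin_iff.2 ⟨by simpa using hm.mul_const u, ?_⟩
      filter_upwards [hp, hp'] with i hi hi'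
      exact mul_pos (mul_pos hi hi') hu'
  have h2 : Tendsto (fun i => (τ i * τ' i) ^ (4 / 3 : ℝ) / (c0 * (τ i + τ' i)) ^ 2) l (𝓝 0) := by
    have h3 : Tendsto (fun i => (τ i * τ' i) ^ (1 / 3 : ℝ) / c0 ^ 2) l (𝓝 0) := by
      simpa using (hm.rpow_const (p := 1 / 3) (Or.inr (by norm_num))).div_const (c0 ^ 2)
    have hc := c0_pos
    refine squeeze_zero' ?_ ?_ h3
    · filter_upwards [hp, hp'] with i hi hi'
      positivity
    · filter_upwards [hp, hp'] with i hi hi'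
      have hx := mul_pos hi hi'
      rw [show (4 / 3 : ℝ) = 1 + 1 / 3 by norm_num, Real.rpow_add hx, Real.rpow_one, mul_pow,
        div_le_div_iff₀ (by positivity) (by positivity)]
      have h4 : τ i * τ' i ≤ (τ i + τ' i) ^ 2 := by nlinarith [sq_nonneg (τ i), sq_nonneg (τ' i)]
      have h5 : 0 ≤ (τ i * τ' i) ^ (1 / 3 : ℝ) * c0 ^ 2 := by positivity
      nlinarith
  have h3 := (h1.add ((continuous_ofReal.tendsto 0).comp h2)).const_mul (vF : ℂ)
  rw [integral_mul_const, ofReal_zero, add_zero, ← mul_assoc] at h3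
  refine h3.congr' ?_
  filter_upwards [hp, hp'] with i hi hi'
  exact (IPv_eq hP hi hi').symm

/-- Dominated convergence; `(t t')^{4/3} / (t + t')² ≤ (t t')^{1/3} / 4`. -/
theorem IPv_lim : ∃ ρ : ℂ,
    Tendsto (fun p : ℝ × ℝ => IPv 1 p.1 p.2) (𝓝[>] 0 ×ˢ 𝓝[>] 0) (𝓝 ρ) ∧
    ∀ p : O, Prime p → Prim p →
      Tendsto (fun t : ℝ => IPv p t t) (𝓝[>] 0) (𝓝 (ρ / ((Nr p : ℂ) + 1))) := by
  obtain ⟨a, -, h1, h2⟩ := alpha_lim
  refine ⟨_, i1t_lim (Or.inl rfl) h1 tendsto_fst tendsto_snd, fun p hp hp' => ?_⟩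
  have h := i1t_lim (Or.inr ⟨hp, hp'⟩) (h2 p hp hp') tendsto_id tendsto_id
  rw [map_div₀, map_add, conj_ofReal, map_one, ← mul_div_assoc] at h
  exact h

end Crest.Agent.R017.Theta

end
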