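import Crest.Agent.R017.ThDefs

/-! # Row 17, cubic theta: rows and matrices -/

set_option autoImplicit false

noncomputable section

open scoped BigOperators ComplexConjugate Topology ENNReal
open Complex MeasureTheory Filter Set

namespace Crest.Agent.R017.Theta

@[simp] theorem mkSG_00 (a b c d : O) (h : a * d - b * c = 1) : mkSG a b c d h 0 0 = a := rfl
@[simp] theorem mkSG_01 (a b c d : O) (h : a * d - b * c = 1) : mkSG a b c d h 0 1 = b := rfl
@[simp] theorem mkSG_10 (a b c d : O) (h : a * d - b * c = 1) : mkSG a b c d h 1 0 = c := rfl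
@[simp] theorem mkSG_11 (a b c d : O) (h : a * d - b * c = 1) : mkSG a b c d h 1 1 = d := rfl
theorem SG.det' (g : SG) : g 0 0 * g 1 1 - g 0 1 * g 1 0 = 1 := by
  have := g.det_coe
  rw [Matrix.det_fin_two] at this
  exact this
theorem SG.ext' {g h : SG} (h00 : g 0 0 = h 0 0) (h01 : g 0 1 = h 0 1) (h10 : g 1 0 = h 1 0)
    (h11 : g 1 1 = h 1 1) : g = h := by
  refine Matrix.SpecialLinearGroup.ext _ _ fun i j => ?_
  fin_cases i <;> fin_cases j
  · exact h00
  · exact h01
  · exact h10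
  · exact h11
theorem SG.mul_apply' (g h : SG) (i j : Fin 2) : (g * h) i j = g i 0 * h 0 j + g i 1 * h 1 j := by
  show ((g * h : SG) : Matrix (Fin 2) (Fin 2) O) i j = _
  rw [Matrix.SpecialLinearGroup.coe_mul, Matrix.mul_apply, Fin.sum_univ_two]
theorem SG.inv_eq (g : SG) :
    g⁻¹ 0 0 = g 1 1 ∧ g⁻¹ 0 1 = -g 0 1 ∧ g⁻¹ 1 0 = -g 1 0 ∧ g⁻¹ 1 1 = g 0 0 := by
  rw [Matrix.SpecialLinearGroup.SL2_inv_expl]
  exact ⟨rfl, rfl, rfl, rfl⟩
theorem rw_one : (1 : SG) 0 0 = 1 ∧ (1 : SG) 0 1 = 0 ∧ (1 : SG) 1 0 = 0 ∧ (1 : SG) 1 1 = 1 :=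
  ⟨rfl, rfl, rfl, rfl⟩
theorem ra_one (x : O × O) : ra x 1 = x := by
  obtain ⟨h1, h2, h3, h4⟩ := rw_one
  simp only [ra, h1, h2, h3, h4]
  ext1 <;> simp
theorem ra_mul (x : O × O) (g h : SG) : ra x (g * h) = ra (ra x g) h := by
  simp only [ra, SG.mul_apply']
  ext1 <;> (dsimp only; ring)
theorem ra_e1 (g : SG) : ra e1 g = bot g := by
  simp only [ra, e1, bot, zero_mul, one_mul, zero_add]
theorem bot_mul (g h : SG) : bot (g * h) = ra (bot g) h := by
  rw [← ra_e1, ra_mul, ra_e1]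
theorem bot_gT (b : O) : bot (gT b) = e1 := rfl
theorem ra_gT (x : O × O) (b : O) : ra x (gT b) = (x.1, x.2 + x.1 * b) := by
  simp only [ra, gT, mkSG_00, mkSG_01, mkSG_10, mkSG_11]
  ext1 <;> (dsimp only; ring)
theorem ra_gS (x : O × O) : ra x gS = (x.2, -x.1) := by
  simp only [ra, gS, mkSG_00, mkSG_01, mkSG_10, mkSG_11]
  ext1 <;> (dsimp only; ring)
theorem gT_add (a b : O) : gT (a + b) = gT a * gT b := by
  apply SG.ext' <;> simp only [SG.mul_apply', gT, mkSG_00, mkSG_01, mkSG_10, mkSG_11] <;> ring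
theorem gT_zero : gT 0 = 1 := SG.ext' rfl rfl rfl rfl
/-- `x ↦ x g` as a permutation of the rows. -/
def raE (g : SG) : O × O ≃ O × O where
  toFun x := ra x g
  invFun x := ra x g⁻¹
  left_inv x := (ra_mul x g g⁻¹).symm.trans (by rw [mul_inv_cancel, ra_one])
  right_inv x := (ra_mul x g⁻¹ g).symm.trans (by rw [inv_mul_cancel, ra_one])
theorem cop_bot (g : SG) : Cop (bot g) :=
  ⟨-g 0 1, g 0 0, by simp only [bot]; linear_combination SG.det' g⟩
theorem rw_cop_ra {x : O × O} (g : SG) (hx : Cop x) : Cop (ra x g) := by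
  obtain ⟨u, v, h⟩ := hx
  refine ⟨u * g 1 1 - v * g 0 1, -u * g 1 0 + v * g 0 0, ?_⟩
  simp only [ra]
  linear_combination (u * x.1 + v * x.2) * SG.det' g + h
theorem cop_ra {x : O × O} (g : SG) : Cop (ra x g) ↔ Cop x := by
  refine ⟨fun h => ?_, rw_cop_ra g⟩
  have := rw_cop_ra g⁻¹ h
  rwa [← ra_mul, mul_inv_cancel, ra_one] at this
theorem bot_lift {x : O × O} (hx : Cop x) : bot (lift x) = x := by
  obtain ⟨u, v, h⟩ := hx
  have he : ∃ g : SG, bot g = x := ⟨mkSG v (-u) x.1 x.2 (by linear_combination h), rfl⟩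
  unfold lift
  rw [dif_pos he]
  exact he.choose_spec
theorem exists_gT_of_bot_eq {g h : SG} (e : bot g = bot h) : ∃ b : O, g = gT b * h := by
  have h1 : bot (g * h⁻¹) = e1 := by
    rw [bot_mul, e, ← bot_mul, mul_inv_cancel]; rfl
  have h10 : (g * h⁻¹) 1 0 = 0 := congrArg Prod.fst h1
  have h11 : (g * h⁻¹) 1 1 = 1 := congrArg Prod.snd h1
  have h00 : (g * h⁻¹) 0 0 = 1 := by
    have := SG.det' (g * h⁻¹)
    rw [h10, h11] at this
    linear_combination this
  refine ⟨(g * h⁻¹) 0 1, ?_⟩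
  have : g * h⁻¹ = gT ((g * h⁻¹) 0 1) := SG.ext' h00 rfl h10 h11
  rw [← this, inv_mul_cancel_right]
theorem Cg.ra {x y : O × O} (h : Cg x y) (g : SG) : Cg (ra x g) (ra y g) := by
  obtain ⟨⟨a, ha⟩, ⟨b, hb⟩⟩ := h
  refine ⟨⟨a * g 0 0 + b * g 1 0, ?_⟩, ⟨a * g 0 1 + b * g 1 1, ?_⟩⟩
  · show x.1 * g 0 0 + x.2 * g 1 0 - (y.1 * g 0 0 + y.2 * g 1 0) = _
    linear_combination g 0 0 * ha + g 1 0 * hb
  · show x.1 * g 0 1 + x.2 * g 1 1 - (y.1 * g 0 1 + y.2 * g 1 1) = _
    linear_combination g 0 1 * ha + g 1 1 * hb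
theorem det_ra (x y : O × O) (g : SG) :
    (ra x g).1 * (ra y g).2 - (ra x g).2 * (ra y g).1 = x.1 * y.2 - x.2 * y.1 := by
  simp only [ra]
  linear_combination (x.1 * y.2 - x.2 * y.1) * SG.det' g
theorem rw_S4 : gS * gS * gS * gS = 1 := by
  obtain ⟨h1, h2, h3, h4⟩ := rw_one
  apply SG.ext' <;>
    simp only [SG.mul_apply', gS, mkSG_00, mkSG_01, mkSG_10, mkSG_11, h1, h2, h3, h4] <;> ring
/-- Upper triangular matrices as words in the generators. -/
theorem rw_tri (g : SG) (h0 : g 1 0 = 0) :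
    g = gT (-g 0 0) * gS * gT (-g 1 1) * gS * gT (-g 0 0) * gS * gT (g 1 1 * g 0 1) := by
  have hd := SG.det' g
  rw [h0, mul_zero, sub_zero] at hd
  apply SG.ext' <;>
    simp only [SG.mul_apply', gS, gT, mkSG_00, mkSG_01, mkSG_10, mkSG_11, h0]
  · linear_combination (g 0 0) * hd
  · linear_combination (g 0 0 * g 1 1 * g 0 1 - g 0 1 + 1) * hd
  · linear_combination (-1) * hd
  · linear_combination (-(g 1 1 * g 0 1)) * hd
/-- `SL₂(O)` is generated by the translations and the inversion (Euclid on the bottom row: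
strong induction on `nm (g 1 0)`; `S⁴ = 1`, so `P (g * S)` gives back `P g`). -/
theorem SG.induction {P : SG → Prop} (h1 : P 1) (hT : ∀ g b, P g → P (g * gT b))
    (hS : ∀ g, P g → P (g * gS)) (g : SG) : P g := by
  have hS' : ∀ g, P (g * gS) → P g := fun g hg => by
    have := hS _ (hS _ (hS _ hg))
    rwa [mul_assoc, mul_assoc, mul_assoc, ← mul_assoc gS, ← mul_assoc (gS * gS), rw_S4,
      mul_one] at this
  have hT' : ∀ g b, P (g * gT b) → P g := fun g b hg => by
    have := hT _ (-b) hg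
    rwa [mul_assoc, ← gT_add, add_neg_cancel, gT_zero, mul_one] at this
  induction hn : nm (g 1 0) using Nat.strong_induction_on generalizing g with
  | _ n ih =>
    by_cases h0 : g 1 0 = 0
    · rw [rw_tri g h0]
      have h2 := hT _ (-g 0 0) h1
      rw [one_mul] at h2
      exact hT _ _ (hS _ (hT _ _ (hS _ (hT _ _ (hS _ h2)))))
    · refine hT' g (-(ediv (g 1 1) (g 1 0))) (hS' _ (ih _ ?_ _ rfl))
      have h2 : (g * gT (-(ediv (g 1 1) (g 1 0))) * gS) 1 0 =
          g 1 1 - g 1 0 * ediv (g 1 1) (g 1 0) := by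
        simp only [SG.mul_apply', gS, gT, mkSG_00, mkSG_01, mkSG_10, mkSG_11]; ring
      rw [h2, ← hn]
      have := nz_mod_lt (g 1 1) h0
      rw [← nm_cast, ← nm_cast] at this
      exact_mod_cast this
/-- The group as a set of rows and translations. -/
def rw_equiv : {x : O × O // Cop x} × O ≃ SG :=
  Equiv.ofBijective (fun q => gT q.2 * lift q.1.1) ⟨by
    rintro ⟨⟨x, hx⟩, a⟩ ⟨⟨y, hy⟩, b⟩ h
    have h' : gT a * lift x = gT b * lift y := h
    have h1 := congrArg bot h'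
    rw [bot_mul, bot_mul, bot_gT, bot_gT, ra_e1, ra_e1, bot_lift hx, bot_lift hy] at h1
    subst h1
    have h2 : gT a = gT b := mul_right_cancel h'
    have h3 : a = b := congrArg (fun g : SG => g 0 1) h2
    rw [h3], fun g => by
    obtain ⟨b, hb⟩ := exists_gT_of_bot_eq (bot_lift (cop_bot g)).symm
    exact ⟨(⟨bot g, cop_bot g⟩, b), hb.symm⟩⟩
theorem rw_equiv_apply (x : {x : O × O // Cop x}) (b : O) : rw_equiv (x, b) = gT b * lift x.1 := rfl
/-- Sums over the group as sums over rows and translations. -/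
theorem tsum_SG (F : SG → ℝ≥0∞) :
    ∑' g, F g = ∑' x : O × O, if Cop x then ∑' b : O, F (gT b * lift x) else 0 := by
  rw [← rw_equiv.tsum_eq, ENNReal.tsum_prod']
  simp only [rw_equiv_apply]
  refine (tsum_subtype {x : O × O | Cop x} (fun x => ∑' b : O, F (gT b * lift x))).trans
    (tsum_congr fun x => ?_)
  by_cases hx : Cop x <;> simp [indicator, hx]
theorem tsum_SG' {F : SG → ℂ} (hF : Summable F) :
    ∑' g, F g = ∑' x : O × O, if Cop x then ∑' b : O, F (gT b * lift x) else 0 := by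
  rw [← rw_equiv.tsum_eq]
  refine (rw_equiv.summable_iff.2 hF).tsum_prod.trans ?_
  simp only [Function.comp_apply, rw_equiv_apply]
  refine (tsum_subtype {x : O × O | Cop x} (fun x => ∑' b : O, F (gT b * lift x))).trans
    (tsum_congr fun x => ?_)
  by_cases hx : Cop x <;> simp [indicator, hx]
/-- Classes modulo `9`. -/
theorem exists_cl9 : ∃ (ι : Type) (_ : Fintype ι) (_ : DecidableEq ι) (cl : O × O → ι),
    ∀ x y, cl x = cl y ↔ Cg x y := by
  have h9 : (9 : O) ≠ 0 := fun h => by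
    have : ((9 : O)).re = (0 : O).re := by rw [h]
    exact absurd this (by decide)
  have := s1_finite h9
  refine ⟨(O ⧸ Ideal.span {(9 : O)}) × (O ⧸ Ideal.span {(9 : O)}), Fintype.ofFinite _,
    Classical.decEq _, fun x => (Ideal.Quotient.mk _ x.1, Ideal.Quotient.mk _ x.2), fun x y => ?_⟩
  simp only [Prod.mk.injEq, Ideal.Quotient.eq, Ideal.mem_span_singleton, Cg]
/-- Points of the projective line modulo a prime. -/
theorem exists_line {p : O} (hp : Prime p) :
    ∃ (L : Type) (_ : Fintype L) (_ : DecidableEq L) (ln : O × O → L), Fintype.card L = nm p + 1 ∧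
      ∀ x y, Cop x → Cop y → (ln x = ln y ↔ p ∣ x.1 * y.2 - x.2 * y.1) := by
  classical
  have := s1_finite hp.ne_zero
  have := s1_max hp
  let _ : Field (O ⧸ Ideal.span {p}) := Ideal.Quotient.field _
  let _ : Fintype (O ⧸ Ideal.span {p}) := Fintype.ofFinite _
  set π := Ideal.Quotient.mk (Ideal.span {p}) with hπ
  have hz : ∀ a : O, p ∣ a ↔ π a = 0 := fun a => by
    rw [hπ, Ideal.Quotient.eq_zero_iff_mem, Ideal.mem_span_singleton]
  have hne : ∀ x : O × O, Cop x → π x.1 = 0 → π x.2 ≠ 0 := fun x hx h1 h2 => by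
    obtain ⟨u, v, h⟩ := hx
    have := congrArg π h
    rw [map_add, map_mul, map_mul, h1, h2, map_one, mul_zero, mul_zero, add_zero] at this
    exact zero_ne_one this
  refine ⟨Option (O ⧸ Ideal.span {p}), inferInstance, inferInstance,
    fun x => if π x.1 = 0 then none else some (π x.2 / π x.1), ?_, fun x y hx hy => ?_⟩
  · rw [Fintype.card_option, ← card_quot hp.ne_zero, Nat.card_eq_fintype_card]
  · rw [hz, map_sub, map_mul, map_mul]
    by_cases h1 : π x.1 = 0 <;> by_cases h2 : π y.1 = 0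
    · simp [h1, h2]
    · simp [h1, h2, hne x hx h1]
    · simp [h1, h2, hne y hy h2]
    · simp only [h1, h2, if_false, Option.some.injEq]
      rw [div_eq_div_iff h1 h2, sub_eq_zero, eq_comm, mul_comm (π y.2)]

end Crest.Agent.R017.Theta

end
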