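import Crest.Agent.R017.ThSym1
import Crest.Agent.R017.ThRow

/-! # Row 17, cubic theta: the cocycle -/

set_option autoImplicit false

noncomputable section

open scoped BigOperators ComplexConjugate Topology ENNReal
open Complex MeasureTheory Filter Set

namespace Crest.Agent.R017.Theta

theorem s2t_lam_nine : lam ∣ (9 : O) := lam_dvd_three.trans ⟨3, by norm_num⟩

theorem s2t_ne {x : O} (h : ¬ lam ∣ x) : x ≠ 0 := fun h0 => h (h0 ▸ dvd_zero _)

theorem s2t_lam_iff {x y : O} (h : (9 : O) ∣ x - y) : lam ∣ x ↔ lam ∣ y :=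
  (dvd_iff_dvd_of_dvd_sub (s2t_lam_nine.trans h))

theorem s2t_not_lam {c d : O} (h : IsCoprime c d) (hc : lam ∣ c) : ¬ lam ∣ d := fun hd =>
  prime_lam.not_isUnit (h.isUnit_of_dvd' hc hd)

/-- The factor in the general reciprocity law. -/
def s2t_r (x y : O) : ℂ := kap x (un y) * conj (kap y (un x))

theorem s2t_recip {x y : O} (hx : ¬ lam ∣ x) (hy : ¬ lam ∣ y) : kap x y = kap y x * s2t_r x y := by
  obtain ⟨u, hu⟩ := isUnit_un y
  have hp : Prim (y * ((u⁻¹ : Oˣ) : O)) := by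
    have := (un_spec hy).mul_right ((u⁻¹ : Oˣ) : O)
    rw [← hu, sub_mul, Units.mul_inv] at this
    exact this
  have ha : Associated y (y * ((u⁻¹ : Oˣ) : O)) := ⟨u⁻¹, rfl⟩
  have e : y = un y * (y * ((u⁻¹ : Oˣ) : O)) := by
    rw [← hu, mul_left_comm, Units.mul_inv, mul_one]
  conv_lhs => rw [e]
  rw [kap_mul_right, kap_recip hp hx]
  unfold rc s2t_r
  rw [← kap_associated ha, ← kap_associated ha]
  ring

theorem s2t_r_per {x y x' y' : O} (hx : ¬ lam ∣ x) (hy : ¬ lam ∣ y) (h1 : (9 : O) ∣ x - x')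
    (h2 : (9 : O) ∣ y - y') : s2t_r x y = s2t_r x' y' := by
  have h39 : (3 : O) ∣ 9 := ⟨3, by norm_num⟩
  unfold s2t_r
  rw [← un_congr (h39.trans h1), ← un_congr (h39.trans h2), kap_unit_per (isUnit_un y) hx h1,
    kap_unit_per (isUnit_un x) hy h2]

open Classical in
/-- The correction for `λ ∤ c`. -/
def s2t_psi (c d : O) : ℂ := if lam ∣ d then 1 else s2t_r d c

theorem s2t_sym {c : O} (hc : ¬ lam ∣ c) (d : O) : sym c d = kap c d * s2t_psi c d := by
  unfold sym s2t_psi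
  split_ifs with hd
  · rw [mul_one]
  · exact s2t_recip hd hc

theorem s2t_psi_per {c c' d d' : O} (hc : ¬ lam ∣ c) (h1 : (9 : O) ∣ c - c')
    (h2 : (9 : O) ∣ d - d') : s2t_psi c d = s2t_psi c' d' := by
  unfold s2t_psi
  by_cases hd : lam ∣ d
  · rw [if_pos hd, if_pos ((s2t_lam_iff h2).1 hd)]
  · rw [if_neg hd, if_neg (fun h => hd ((s2t_lam_iff h2).2 h)), s2t_r_per hd hc h2 h1]

theorem s2t_one_add {c : O} (hc : lam ∣ c) (y : O) : ¬ lam ∣ 1 + y * c := fun h =>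
  prime_lam.not_dvd_one ((dvd_add_left (hc.mul_left y)).1 h)

theorem s2t_T {c d : O} (h : Cop (c, d)) (hc : lam ∣ c) (b : O) :
    ∃ e : O, (9 : O) ∣ d * e - 1 ∧ sym c (d + c * b) = sym c d * kap (1 + b * e * c) c := by
  have hd : ¬ lam ∣ d := s2t_not_lam h hc
  have hd' : ¬ lam ∣ d + c * b := fun h' => hd ((dvd_add_left (hc.mul_right b)).1 h')
  have h3 : IsCoprime d 3 := coprime_three_iff.2 hd
  have h9 : IsCoprime d (3 * 3 * c) := (h3.mul_right h3).mul_right (IsCoprime.symm h)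
  obtain ⟨e, k, hk⟩ := h9
  refine ⟨e, ⟨-(k * c), by linear_combination hk⟩, ?_⟩
  unfold sym
  rw [if_neg hd, if_neg hd', ← kap_mul_left (s2t_ne hd) (s2t_ne (s2t_one_add hc (b * e)))]
  exact kap_per9 hd' ⟨b * c * k * c, by linear_combination (-(b * c)) * hk⟩
    ⟨b * 9 * k * c, by linear_combination (-(b * c)) * hk⟩

theorem s2t_inv {c : O} (hc : lam ∣ c) (y : O) : kap (1 + y * c) y * kap (1 + y * c) c = 1 := by
  have hn := s2t_one_add hc y
  rw [← kap_mul_right, kap_congr' (y := -1) (s2t_ne hn) ⟨1, by ring⟩,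
    kap_neg_right, kap_one_right hn]

theorem s2t_phi {c c' y y' : O} (hc : lam ∣ c) (h1 : (9 : O) ∣ c - c') (h2 : (9 : O) ∣ y - y') :
    kap (1 + y * c) c = kap (1 + y' * c') c' := by
  have hc' : lam ∣ c' := (s2t_lam_iff h1).1 hc
  have e1 : kap (1 + y * c) c = kap (1 + y' * c) c :=
    kap_per9 (s2t_one_add hc y) ((h2.mul_right c).trans ⟨1, by ring⟩) ⟨y - y', by ring⟩
  have e2 : kap (1 + y' * c) y' = kap (1 + y' * c') y' :=
    kap_per9 (s2t_one_add hc y') ((h1.mul_left y').trans ⟨1, by ring⟩) ⟨c - c', by ring⟩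
  have e3 := s2t_inv hc y'
  have e4 := s2t_inv hc' y'
  rw [e1]
  rw [e2] at e3
  linear_combination (-kap (1 + y' * c) c) * e4 + kap (1 + y' * c') c' * e3

/-- Translations.  If `λ ∤ c`, `sym c d = kap c d * (function of c, d mod 9)` (`kap_recip` twice,
`kap_unit_per`).  If `λ ∣ c`, `c ≠ 0`: choose `e` with `9 c ∣ d e - 1`, `y = b e`; the ratio is
`kap (1 + y c) c = conj (kap (1 + y c) y)`, which is `9`-periodic in `y` and in `c` (`kap_per9`). -/
theorem sy_gT {x y : O × O} (hx : Cop x) (hy : Cop y) (h : Cg x y) (b : O) :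
    sy (ra x (gT b)) * sy y = sy x * sy (ra y (gT b)) := by
  obtain ⟨c, d⟩ := x
  obtain ⟨c', d'⟩ := y
  obtain ⟨h1, h2⟩ := h
  simp only at h1 h2
  rw [ra_gT, ra_gT]
  unfold sy
  simp only
  have h3 : (9 : O) ∣ (d + c * b) - (d' + c' * b) := by
    have := h2.add (h1.mul_right b)
    convert this using 1; ring
  by_cases hc : lam ∣ c
  · have hc' : lam ∣ c' := (s2t_lam_iff h1).1 hc
    obtain ⟨e, he, hk⟩ := s2t_T hx hc b
    obtain ⟨e', he', hk'⟩ := s2t_T hy hc' b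
    have hee : (9 : O) ∣ e - e' := by
      have := ((he.mul_left e').sub (he'.mul_left e)).sub (h2.mul_left (e * e'))
      convert this using 1; ring
    rw [hk, hk', s2t_phi hc h1 (hee.mul_left b |>.trans (by rw [mul_sub]))]
    ring
  · have hc' : ¬ lam ∣ c' := fun h => hc ((s2t_lam_iff h1).2 h)
    have hc0 : c ≠ 0 := fun h => hc (h ▸ dvd_zero _)
    have hc0' : c' ≠ 0 := fun h => hc' (h ▸ dvd_zero _)
    rw [s2t_sym hc, s2t_sym hc, s2t_sym hc', s2t_sym hc', s2t_psi_per hc h1 h2,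
      s2t_psi_per hc h1 h3, kap_congr' (x := d + c * b) (y := d) hc0 ⟨b, by ring⟩,
      kap_congr' (x := d' + c' * b) (y := d') hc0' ⟨b, by ring⟩]
    ring
open Classical in
/-- The correction for the inversion. -/
def s2t_psi2 (x : O × O) : ℂ := if lam ∣ x.1 ∨ lam ∣ x.2 then 1 else s2t_r x.1 x.2

theorem s2t_S {x : O × O} (hx : Cop x) : sy (ra x gS) = sy x * s2t_psi2 x := by
  obtain ⟨c, d⟩ := x
  rw [ra_gS]
  unfold sy sym s2t_psi2
  simp only
  have hneg : kap (-c) d = kap c d := kap_associated (Associated.refl c).neg_left d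
  by_cases hc : lam ∣ c
  · rw [if_pos (dvd_neg.2 hc), if_neg (s2t_not_lam hx hc), if_pos (Or.inl hc), kap_neg_right, mul_one]
  · rw [if_neg (fun h => hc (dvd_neg.1 h)), hneg]
    by_cases hd : lam ∣ d
    · rw [if_pos hd, if_pos (Or.inr hd), mul_one]
    · rw [if_neg hd, if_neg (not_or.2 ⟨hc, hd⟩)]
      exact s2t_recip hc hd

theorem sy_gS {x y : O × O} (hx : Cop x) (hy : Cop y) (h : Cg x y) :
    sy (ra x gS) * sy y = sy x * sy (ra y gS) := by
  rw [s2t_S hx, s2t_S hy]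
  have : s2t_psi2 x = s2t_psi2 y := by
    unfold s2t_psi2
    by_cases h1 : lam ∣ x.1 ∨ lam ∣ x.2
    · rw [if_pos h1, if_pos (by rwa [← s2t_lam_iff h.1, ← s2t_lam_iff h.2])]
    · rw [if_neg h1, if_neg (by rwa [← s2t_lam_iff h.1, ← s2t_lam_iff h.2])]
      rw [not_or] at h1
      exact s2t_r_per h1.1 h1.2 h.1 h.2
  rw [this]
  ring
/-- The cocycle only depends on the row modulo `9` (`SG.induction`). -/
theorem sy_ra {x y : O × O} (hx : Cop x) (hy : Cop y) (h : Cg x y) (g : SG) :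
    sy (ra x g) * sy y = sy x * sy (ra y g) := by
  have hne : ∀ {z : O × O}, Cop z → sy z ≠ 0 := fun hz h0 => by
    have := norm_sy hz
    rw [h0, norm_zero] at this
    exact zero_ne_one this
  induction g using SG.induction with
  | h1 => rw [ra_one, ra_one]
  | hT g b ih =>
    have h1 := sy_gT ((cop_ra g).2 hx) ((cop_ra g).2 hy) (h.ra g) b
    rw [ra_mul, ra_mul]
    apply mul_left_cancel₀ (hne ((cop_ra g).2 hy))
    linear_combination sy y * h1 + sy (ra (ra y g) (gT b)) * ih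
  | hS g ih =>
    have h1 := sy_gS ((cop_ra g).2 hx) ((cop_ra g).2 hy) (h.ra g)
    rw [ra_mul, ra_mul]
    apply mul_left_cancel₀ (hne ((cop_ra g).2 hy))
    linear_combination sy y * h1 + sy (ra (ra y g) gS) * ih
/-- `g ≡ 1 mod 9`. -/
def One9 (g : SG) : Prop :=
  (9 : O) ∣ g 0 0 - 1 ∧ (9 : O) ∣ g 0 1 ∧ (9 : O) ∣ g 1 0 ∧ (9 : O) ∣ g 1 1 - 1
theorem One9.conj {g : SG} (h : One9 g) (s : SG) : One9 (s * g * s⁻¹) := by
  obtain ⟨⟨a, ha⟩, ⟨b, hb⟩, ⟨c, hc⟩, ⟨d, hd⟩⟩ := h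
  obtain ⟨i1, i2, i3, i4⟩ := SG.inv_eq s
  have hdet := SG.det' s
  have ha' : g 0 0 = 1 + 9 * a := by linear_combination ha
  have hd' : g 1 1 = 1 + 9 * d := by linear_combination hd
  unfold One9
  simp only [SG.mul_apply', i1, i2, i3, i4, ha', hb, hc, hd']
  refine ⟨⟨(s 0 0 * a + s 0 1 * c) * s 1 1 - (s 0 0 * b + s 0 1 * d) * s 1 0, ?_⟩,
    ⟨-(s 0 0 * a + s 0 1 * c) * s 0 1 + (s 0 0 * b + s 0 1 * d) * s 0 0, ?_⟩,
    ⟨(s 1 0 * a + s 1 1 * c) * s 1 1 - (s 1 0 * b + s 1 1 * d) * s 1 0, ?_⟩,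
    ⟨-(s 1 0 * a + s 1 1 * c) * s 0 1 + (s 1 0 * b + s 1 1 * d) * s 0 0, ?_⟩⟩
  · linear_combination hdet
  · ring
  · ring
  · linear_combination hdet
/-- The Kubota character is invariant under conjugation.  Induction on `s` (for all `g`).
For `T^b`: `kap_per9`.  For `S`: `(b/a) = conj (c/a) = (c/d)` because `a d - b c = 1`. -/
theorem sy_bot_conj {g : SG} (h : One9 g) (s : SG) : sy (bot (s * g * s⁻¹)) = sy (bot g) := by
  induction s using SG.induction generalizing g with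
  | h1 => rw [one_mul, inv_one, mul_one]
  | hT s b ih =>
    have e : s * gT b * g * (s * gT b)⁻¹ = s * (gT b * g * (gT b)⁻¹) * s⁻¹ := by group
    have e2 : (gT b)⁻¹ = gT (-b) := by
      rw [inv_eq_iff_mul_eq_one, ← gT_add, add_neg_cancel, gT_zero]
    rw [e, ih (h.conj _), bot_mul, bot_mul, bot_gT, ra_e1, e2, ra_gT]
    unfold sy bot
    exact sym_per ((h.2.2.1.mul_right (-b)).trans ⟨1, by ring⟩) ⟨-b, by ring⟩
  | hS s ih =>
    have e : s * gS * g * (s * gS)⁻¹ = s * (gS * g * gS⁻¹) * s⁻¹ := by group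
    rw [e, ih (h.conj _)]
    obtain ⟨i1, i2, i3, i4⟩ := SG.inv_eq gS
    have e2 : bot (gS * g * gS⁻¹) = (-g 0 1, g 0 0) := by
      unfold bot
      simp only [SG.mul_apply', i1, i2, i3, i4]
      simp [gS]
    have ha : ¬ lam ∣ g 0 0 := fun h' => prime_lam.not_dvd_one ((s2t_lam_iff h.1).1 h')
    have hd : ¬ lam ∣ g 1 1 := fun h' => prime_lam.not_dvd_one ((s2t_lam_iff h.2.2.2).1 h')
    have ha0 : g 0 0 ≠ 0 := fun h0 => ha (h0 ▸ dvd_zero _)
    have hd0 : g 1 1 ≠ 0 := fun h0 => hd (h0 ▸ dvd_zero _)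
    have hdet := SG.det' g
    rw [e2]
    unfold sy sym bot
    simp only
    rw [if_neg ha, if_neg hd, kap_neg_right]
    have e3 : kap (g 0 0) (g 0 1) * kap (g 0 0) (g 1 0) = 1 := by
      rw [← kap_mul_right, kap_congr' (y := -1) ha0 ⟨g 1 1, by linear_combination -hdet⟩,
        kap_neg_right, kap_one_right ha]
    have e4 : kap (g 0 0) (g 1 0) * kap (g 1 1) (g 1 0) = 1 := by
      rw [← kap_mul_left ha0 hd0, ← kap_unit_left isUnit_one (g 1 0)]
      refine kap_per9 (fun h' => (prime_lam.dvd_or_dvd h').elim ha hd)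
        ((h.2.2.1.mul_left (g 0 1)).trans ⟨1, by linear_combination hdet⟩)
        ⟨g 0 1, by linear_combination hdet⟩
    linear_combination (-kap (g 0 0) (g 0 1)) * e4 + kap (g 1 1) (g 1 0) * e3
theorem sy_ra_one9 {g : SG} (h : One9 g) {x : O × O} (hx : Cop x) :
    sy (ra x g) = sy x * sy (bot g) := by
  have h1 : One9 (lift x * g * (lift x)⁻¹) := h.conj _
  have h2 : Cg (bot (lift x * g * (lift x)⁻¹)) e1 :=
    ⟨by simpa [bot, e1] using h1.2.2.1, by simpa [bot, e1] using h1.2.2.2⟩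
  have h3 := sy_ra (cop_bot _) cop_e1 h2 (lift x)
  rw [← bot_mul, inv_mul_cancel_right, bot_mul, bot_lift hx, sy_e1, mul_one, ra_e1, bot_lift hx,
    sy_bot_conj h] at h3
  rw [h3, mul_comm]
theorem s2t_conj_mul {x : O × O} (hx : Cop x) : conj (sy x) * sy x = 1 := by
  rw [mul_comm, Complex.mul_conj', norm_sy hx]; simp

theorem s2t_cg_one9 {g : SG} (h : One9 g) (x : O × O) : Cg (ra x g) x := by
  refine ⟨((h.1.mul_left x.1).add (h.2.2.1.mul_left x.2)).trans ⟨1, ?_⟩,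
    ((h.2.1.mul_left x.1).add (h.2.2.2.mul_left x.2)).trans ⟨1, ?_⟩⟩
  · unfold ra; ring
  · unfold ra; ring

theorem s2t_one9 {g g₀ : SG} (h1 : (9 : O) ∣ g₀ 0 0 - g 0 0) (h2 : (9 : O) ∣ g₀ 0 1 - g 0 1)
    (h3 : (9 : O) ∣ g₀ 1 0 - g 1 0) (h4 : (9 : O) ∣ g₀ 1 1 - g 1 1) : One9 (g₀⁻¹ * g) := by
  obtain ⟨a, ha⟩ := h1
  obtain ⟨b, hb⟩ := h2
  obtain ⟨c, hc⟩ := h3
  obtain ⟨d, hd⟩ := h4
  obtain ⟨i1, i2, i3, i4⟩ := SG.inv_eq g₀
  have hdet := SG.det' g₀
  have ha' : g 0 0 = g₀ 0 0 - 9 * a := by linear_combination -ha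
  have hb' : g 0 1 = g₀ 0 1 - 9 * b := by linear_combination -hb
  have hc' : g 1 0 = g₀ 1 0 - 9 * c := by linear_combination -hc
  have hd' : g 1 1 = g₀ 1 1 - 9 * d := by linear_combination -hd
  unfold One9
  simp only [SG.mul_apply', i1, i2, i3, i4, ha', hb', hc', hd']
  refine ⟨⟨-(g₀ 1 1 * a) + g₀ 0 1 * c, ?_⟩, ⟨-(g₀ 1 1 * b) + g₀ 0 1 * d, ?_⟩,
    ⟨g₀ 1 0 * a - g₀ 0 0 * c, ?_⟩, ⟨g₀ 1 0 * b - g₀ 0 0 * d, ?_⟩⟩
  · linear_combination hdet
  · ring
  · ring
  · linear_combination hdet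

/-- The action on weights.  For a quadruple congruent modulo `9` to some `g₀ ∈ SL₂(O)` (chosen from
the class) and a row congruent to some primitive `y` (chosen from the class) put
`act B (y) = B (y g₀⁻¹) sy (y g₀⁻¹) conj (sy y) sy (bot g₀)`. -/
theorem exists_act : ∃ act : (O × O → ℂ) → O → O → O → O → (O × O → ℂ),
    (∀ B a b q d, Per B → Per (act B a b q d)) ∧
    (∀ B a b q d a' b' q' d', (9 : O) ∣ a - a' → (9 : O) ∣ b - b' → (9 : O) ∣ q - q' →
      (9 : O) ∣ d - d' → act B a b q d = act B a' b' q' d') ∧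
    ∀ B (g : SG), Per B → ∀ x,
      cf B x = conj (sy (bot g)) * cf (act B (g 0 0) (g 0 1) (g 1 0) (g 1 1)) (ra x g) := by
  classical
  let Q : O → O → O → O → SG → Prop := fun a b q d g =>
    (9 : O) ∣ g 0 0 - a ∧ (9 : O) ∣ g 0 1 - b ∧ (9 : O) ∣ g 1 0 - q ∧ (9 : O) ∣ g 1 1 - d
  let G : O → O → O → O → SG := fun a b q d => Classical.epsilon (Q a b q d)
  let Y : O × O → O × O := fun y => Classical.epsilon (fun z => Cop z ∧ Cg z y)
  have hY : ∀ y y', Cg y y' → Y y = Y y' := by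
    intro y y' h
    have : (fun z => Cop z ∧ Cg z y) = (fun z => Cop z ∧ Cg z y') := by
      funext z
      exact propext ⟨fun h' => ⟨h'.1, h'.2.trans h⟩, fun h' => ⟨h'.1, h'.2.trans h.symm⟩⟩
    simp only [Y, this]
  have hiff : ∀ {u a a' : O}, (9 : O) ∣ a - a' → ((9 : O) ∣ u - a ↔ (9 : O) ∣ u - a') := by
    intro u a a' h
    refine dvd_iff_dvd_of_dvd_sub ?_
    have := h.neg_right
    convert this using 1; ring
  refine ⟨fun B a b q d y => B (ra (Y y) (G a b q d)⁻¹) * sy (ra (Y y) (G a b q d)⁻¹) *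
    conj (sy (Y y)) * sy (bot (G a b q d)), fun B a b q d hB => ⟨fun y => ?_, fun y y' h => ?_⟩,
    fun B a b q d a' b' q' d' h1 h2 h3 h4 => ?_, fun B g hB x => ?_⟩
  · rw [norm_mul, norm_mul, norm_mul, RCLike.norm_conj]
    exact mul_le_one₀ (mul_le_one₀ (mul_le_one₀ (hB.bd _) (norm_nonneg _) (norm_sy_le _))
      (norm_nonneg _) (norm_sy_le _)) (norm_nonneg _) (norm_sy_le _)
  · simp only [hY y y' h]
  · have : Q a b q d = Q a' b' q' d' := by
      funext g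
      simp only [Q, hiff h1, hiff h2, hiff h3, hiff h4]
    simp only [G, this]
  · unfold cf
    by_cases hx : Cop x
    · have hy : Cop (ra x g) := (cop_ra g).2 hx
      rw [if_pos hx, if_pos hy]
      have hG : Q (g 0 0) (g 0 1) (g 1 0) (g 1 1) (G (g 0 0) (g 0 1) (g 1 0) (g 1 1)) :=
        Classical.epsilon_spec (p := Q (g 0 0) (g 0 1) (g 1 0) (g 1 1)) ⟨g, by simp [Q]⟩
      have hY' : Cop (Y (ra x g)) ∧ Cg (Y (ra x g)) (ra x g) :=
        Classical.epsilon_spec (p := fun z => Cop z ∧ Cg z (ra x g)) ⟨ra x g, hy, Cg.refl _⟩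
      simp only
      generalize G (g 0 0) (g 0 1) (g 1 0) (g 1 1) = g₀ at hG ⊢
      generalize Y (ra x g) = y₀ at hY' ⊢
      have hγ : One9 (g₀⁻¹ * g) := s2t_one9 hG.1 hG.2.1 hG.2.2.1 hG.2.2.2
      have hγ' : One9 (g * g₀⁻¹) := by
        have := hγ.conj g₀
        rwa [mul_inv_cancel_left] at this
      have hx₀ : Cop (ra y₀ g₀⁻¹) := (cop_ra _).2 hY'.1
      have hcg : Cg x (ra y₀ g₀⁻¹) := by
        refine Cg.symm ((hY'.2.ra g₀⁻¹).trans ?_)
        rw [← ra_mul]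
        exact s2t_cg_one9 hγ' x
      have e1 := sy_ra hx hx₀ hcg g₀
      rw [← ra_mul, inv_mul_cancel, ra_one] at e1
      have e2 := sy_ra_one9 hγ ((cop_ra g₀).2 hx)
      rw [← ra_mul, mul_inv_cancel_left] at e2
      have e3 := sy_ra_one9 hγ (cop_bot g₀)
      rw [← bot_mul, mul_inv_cancel_left] at e3
      have e4 := s2t_conj_mul (cop_bot g)
      have e5 := s2t_conj_mul hY'.1
      rw [← hB.per _ _ hcg]
      have e6 : sy x * sy (bot g) * sy y₀ = sy (ra y₀ g₀⁻¹) * sy (bot g₀) * sy (ra x g) := by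
        rw [e2, e3]
        linear_combination (-(sy (bot g₀) * sy (bot (g₀⁻¹ * g)))) * e1
      linear_combination (B x * conj (sy (bot g)) * conj (sy y₀)) * e6 -
        (B x * sy x) * e4 - (B x * sy x * (conj (sy (bot g)) * sy (bot g))) * e5
    · rw [if_neg hx, if_neg (fun h' => hx ((cop_ra g).1 h')), mul_zero]
/-- The class of `(0,1)` is transported to the class of the bottom row. -/
theorem Clf.cf_eq {ι : Type} [DecidableEq ι] {cl : O × O → ι} {P : O} (h : Clf cl P) (g : SG)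
    (x : O × O) : cf (Be P) x = conj (sy (bot g)) * cf (ind cl (cl (bot g))) (ra x g) := by
  unfold cf
  by_cases hx : Cop x
  · have hy : Cop (ra x g) := (cop_ra g).2 hx
    rw [if_pos hx, if_pos hy]
    have hiff : cl (ra x g) = cl (bot g) ↔ Cg x e1 ∧ P ∣ x.1 := by
      rw [← h.base x hx, ← ra_e1]
      refine ⟨fun h' => ?_, fun h' => h.inv _ _ g hx cop_e1 h'⟩
      have := h.inv _ _ g⁻¹ hy ((cop_ra g).2 cop_e1) h'
      rwa [← ra_mul, ← ra_mul, mul_inv_cancel, ra_one, ra_one] at this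
    unfold Be ind
    by_cases h1 : Cg x e1 ∧ P ∣ x.1
    · rw [if_pos h1, if_pos (hiff.2 h1)]
      have e1' := sy_ra hx cop_e1 h1.1 g
      rw [sy_e1, mul_one, ra_e1] at e1'
      rw [e1']
      linear_combination (-sy x) * s2t_conj_mul (cop_bot g)
    · rw [if_neg h1, if_neg (fun h' => h1 (hiff.1 h'))]; simp
  · rw [if_neg hx, if_neg (fun h' => hx ((cop_ra g).1 h')), mul_zero]
theorem cf_Be_gT (P b : O) (x : O × O) : cf (Be P) x = cf (Be P) (ra x (gT b)) := by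
  unfold cf
  by_cases hx : Cop x
  · rw [if_pos hx, if_pos ((cop_ra _).2 hx), ra_gT]
    unfold Be
    by_cases h1 : Cg x e1 ∧ P ∣ x.1
    · have h9 : (9 : O) ∣ x.1 := by simpa [e1] using h1.1.1
      rw [if_pos h1, if_pos ⟨⟨h1.1.1, (h1.1.2.add (h9.mul_right b)).trans ⟨1, by simp only; ring⟩⟩,
        h1.2⟩]
      unfold sy
      simp only
      rw [sym_per (c := x.1) (d := x.2 + x.1 * b) (d' := x.2)
        ((h9.mul_right b).trans ⟨1, by ring⟩) ⟨b, by ring⟩]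
    · rw [if_neg h1, if_neg, zero_mul, zero_mul]
      rintro ⟨⟨h2, h3⟩, h4⟩
      have h9 : (9 : O) ∣ x.1 := by simpa [e1] using h2
      exact h1 ⟨⟨h2, (h3.sub (h9.mul_right b)).trans ⟨1, by simp only; ring⟩⟩, h4⟩
  · rw [if_neg hx, if_neg (fun h' => hx ((cop_ra _).1 h'))]
/-- Invariance under `(1 0; 9 1)`. -/
theorem cf_Be_low (x : O × O) : cf (Be 1) x = cf (Be 1) (ra x (mkSG 1 0 9 1 (by simp))) := by
  have h9 : One9 (mkSG 1 0 9 1 (by simp)) := by simp [One9]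
  unfold cf
  by_cases hx : Cop x
  · rw [if_pos hx, if_pos ((cop_ra _).2 hx), per_Be.per _ _ (s2t_cg_one9 h9 x), sy_ra_one9 h9 hx]
    have : sy (bot (mkSG 1 0 9 1 (by simp))) = 1 := by
      unfold sy bot sym
      simp only [mkSG_10, mkSG_11]
      rw [if_neg prime_lam.not_dvd_one, kap_unit_left isUnit_one]
    rw [this, mul_one]
  · rw [if_neg hx, if_neg (fun h' => hx ((cop_ra _).1 h'))]

end Crest.Agent.R017.Theta

end
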