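import Crest.Agent.R017.ThE1
import Crest.Agent.R017.ThGeo2
import Crest.Agent.R017.ThFd

/-! # Row 17, cubic theta: unfolding -/

set_option autoImplicit false

noncomputable section

open scoped BigOperators ComplexConjugate Topology ENNReal
open Complex MeasureTheory Filter Set

namespace Crest.Agent.R017.Theta

/-- The density of `nuH`. -/
def dens (w : ℂ × ℝ) : ℝ≥0∞ := (Fd 0).indicator (fun _ => ENNReal.ofReal (Phi w.2⁻¹) / Ze w) w.1
theorem nuH_eq : nuH = muH.withDensity dens := rfl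
theorem measurable_dens : Measurable dens := by
  have h1 : Measurable (fun w : ℂ × ℝ => ENNReal.ofReal (Phi w.2⁻¹) / Ze w) := by
    refine Measurable.div ?_ measurable_Ze
    refine ENNReal.measurable_ofReal.comp ?_
    unfold Phi
    fun_prop
  have h2 : dens = (Fd 0 ×ˢ (univ : Set ℝ)).indicator
      (fun w : ℂ × ℝ => ENNReal.ofReal (Phi w.2⁻¹) / Ze w) := by
    funext w
    unfold dens
    by_cases h : w.1 ∈ Fd 0
    · rw [indicator_of_mem h, indicator_of_mem (by simpa using h)]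
    · rw [indicator_of_notMem h, indicator_of_notMem (by simpa using h)]
  rw [h2]
  exact h1.indicator ((measurableSet_Fd 0).prod MeasurableSet.univ)
theorem dens_ne_top {w : ℂ × ℝ} (hw : w ∈ Hs) : dens w ≠ ⊤ := by
  unfold dens
  by_cases h : w.1 ∈ Fd 0
  · rw [indicator_of_mem h]
    exact ENNReal.div_ne_top ENNReal.ofReal_ne_top (Ze_ne_zero hw)
  · rw [indicator_of_notMem h]; exact ENNReal.zero_ne_top
/-- `tsum_SG`, `mob_gT`, `tsum_indicator_Fd`, `mob_snd`, `Ze_mob`. -/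
theorem tsum_dens {w : ℂ × ℝ} (hw : w ∈ Hs) : ∑' g : SG, dens (mob g w) = 81 := by
  rw [tsum_SG]
  have key : ∀ x : O × O, (if Cop x then ∑' b : O, dens (mob (gT b * lift x) w) else 0) =
      81 * (Ze w)⁻¹ * (if Cop x then ENNReal.ofReal (Phi (Qf w x)) else 0) := by
    intro x
    by_cases hx : Cop x
    · rw [if_pos hx, if_pos hx]
      have h1 : ∀ b : O, dens (mob (gT b * lift x) w) =
          (Fd 0).indicator (fun _ => ENNReal.ofReal (Phi (Qf w x)) / Ze w)
            ((mob (lift x) w).1 + emb b) := by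
        intro b
        unfold dens
        rw [Ze_mob _ hw, mob_snd, inv_inv, bot_mul, bot_gT, ra_e1, bot_lift hx, mob_mul _ _ hw,
          mob_gT]
      simp_rw [h1]
      rw [tsum_indicator_Fd, div_eq_mul_inv]
      ring
    · rw [if_neg hx, if_neg hx, mul_zero]
  simp_rw [key]
  rw [ENNReal.tsum_mul_left]
  change 81 * (Ze w)⁻¹ * Ze w = 81
  rw [mul_assoc, ENNReal.inv_mul_cancel (Ze_ne_zero hw) (Ze_ne_top hw), mul_one]
theorem lintegral_mob (g : SG) {f : ℂ × ℝ → ℝ≥0∞} (hf : AEMeasurable f muH) :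
    ∫⁻ w, f (mob g w) ∂muH = ∫⁻ w, f w ∂muH := by
  have h := (mp_mob g).map_eq
  conv_rhs => rw [← h]
  rw [lintegral_map' (by rw [h]; exact hf) (measurable_mob g).aemeasurable]

theorem integral_mob (g : SG) {f : ℂ × ℝ → ℂ} (hf : AEStronglyMeasurable f muH) :
    ∫ w, f (mob g w) ∂muH = ∫ w, f w ∂muH := by
  have h := (mp_mob g).map_eq
  conv_rhs => rw [← h]
  rw [integral_map (measurable_mob g).aemeasurable (by rw [h]; exact hf)]

/-- The symmetry behind unfolding. -/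
theorem lintegral_symm {f₁ f₂ : ℂ × ℝ → ℝ≥0∞} (h₁ : AEMeasurable f₁ muH) (h₂ : AEMeasurable f₂ muH) :
    ∫⁻ w, f₁ w * ∑' g : SG, f₂ (mob g w) ∂muH = ∫⁻ w, (∑' g : SG, f₁ (mob g w)) * f₂ w ∂muH := by
  have hm : ∀ {f : ℂ × ℝ → ℝ≥0∞}, AEMeasurable f muH → ∀ g : SG,
      AEMeasurable (fun w => f (mob g w)) muH := fun hf g =>
    hf.comp_quasiMeasurePreserving (mp_mob g).quasiMeasurePreserving
  simp_rw [← ENNReal.tsum_mul_left, ← ENNReal.tsum_mul_right]
  rw [lintegral_tsum (f := fun g w => f₁ w * f₂ (mob g w)) (fun g => h₁.mul (hm h₂ g)),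
    lintegral_tsum (f := fun g w => f₁ (mob g w) * f₂ w) (fun g => (hm h₁ g).mul h₂),
    ← (Equiv.inv SG).tsum_eq]
  refine tsum_congr fun g => ?_
  have h3 : AEMeasurable (fun w => f₁ w * f₂ (mob g⁻¹ w)) muH := h₁.mul (hm h₂ _)
  rw [Equiv.inv_apply, ← lintegral_mob g h3]
  refine lintegral_congr_ae ?_
  filter_upwards [ae_mem_Hs] with w hw
  rw [← mob_mul _ _ hw, inv_mul_cancel, mob_one]
/-- Sums over rows of translation invariant functions are invariant. -/
theorem rowsum_mob {E : Type} [AddCommMonoid E] [TopologicalSpace E] {h : ℂ × ℝ → E}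
    (hN : ∀ (b : O), ∀ w ∈ Hs, h (w.1 + emb b, w.2) = h w) (g : SG) {w : ℂ × ℝ} (hw : w ∈ Hs) :
    (∑' x : O × O, if Cop x then h (mob (lift x) (mob g w)) else 0) =
      ∑' x : O × O, if Cop x then h (mob (lift x) w) else 0 := by
  rw [← (raE g).tsum_eq (fun x => if Cop x then h (mob (lift x) w) else 0)]
  refine tsum_congr fun x => ?_
  change _ = if Cop (ra x g) then h (mob (lift (ra x g)) w) else 0
  by_cases hx : Cop x
  · have hx' : Cop (ra x g) := (cop_ra g).2 hx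
    rw [if_pos hx, if_pos hx', ← mob_mul _ _ hw]
    obtain ⟨b, hb⟩ := exists_gT_of_bot_eq (g := lift x * g) (h := lift (ra x g))
      (by rw [bot_mul, bot_lift hx, bot_lift hx'])
    rw [hb, mob_mul _ _ hw, mob_gT, hN b _ (mob_mem _ hw)]
  · rw [if_neg hx, if_neg (fun h' => hx ((cop_ra g).1 h'))]
theorem aemeasurable_rowsum {h : ℂ × ℝ → ℝ≥0∞} (hm : AEMeasurable h muH) :
    AEMeasurable (fun w => ∑' x : O × O, if Cop x then h (mob (lift x) w) else 0) muH := by
  refine AEMeasurable.tsum fun x => ?_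
  by_cases hx : Cop x
  · simp only [if_pos hx]
    exact hm.comp_quasiMeasurePreserving (mp_mob _).quasiMeasurePreserving
  · simp only [if_neg hx]; exact aemeasurable_const

theorem indicator_prod_univ {E : Type} [Zero E] (h : ℂ × ℝ → E) (w : ℂ × ℝ) :
    (Fd 0 ×ˢ (univ : Set ℝ)).indicator h w = (Fd 0).indicator (fun _ => h w) w.1 := by
  by_cases hw : w.1 ∈ Fd 0
  · rw [indicator_of_mem hw, indicator_of_mem (by simpa using hw)]
  · rw [indicator_of_notMem hw, indicator_of_notMem (by simpa using hw)]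

theorem ind_mob {E : Type} [Zero E] {h : ℂ × ℝ → E}
    (hN : ∀ (b : O), ∀ w ∈ Hs, h (w.1 + emb b, w.2) = h w) {w : ℂ × ℝ} (hw : w ∈ Hs) (g : SG)
    (b : O) : (Fd 0 ×ˢ (univ : Set ℝ)).indicator h (mob (gT b * g) w) =
      (Fd 0).indicator (fun _ => h (mob g w)) ((mob g w).1 + emb b) := by
  rw [indicator_prod_univ, mob_mul _ _ hw, mob_gT, hN b _ (mob_mem g hw)]

theorem tsum_ind_eq {h : ℂ × ℝ → ℝ≥0∞}
    (hN : ∀ (b : O), ∀ w ∈ Hs, h (w.1 + emb b, w.2) = h w) {w : ℂ × ℝ} (hw : w ∈ Hs) :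
    ∑' g : SG, (Fd 0 ×ˢ (univ : Set ℝ)).indicator h (mob g w) =
      81 * ∑' x : O × O, if Cop x then h (mob (lift x) w) else 0 := by
  rw [tsum_SG, ← ENNReal.tsum_mul_left]
  refine tsum_congr fun x => ?_
  by_cases hx : Cop x
  · rw [if_pos hx, if_pos hx]
    simp_rw [ind_mob hN hw]
    rw [tsum_indicator_Fd]
  · rw [if_neg hx, if_neg hx, mul_zero]

theorem tsum_ind_eq' {h : ℂ × ℝ → ℂ}
    (hN : ∀ (b : O), ∀ w ∈ Hs, h (w.1 + emb b, w.2) = h w) {w : ℂ × ℝ} (hw : w ∈ Hs)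
    (hs : Summable fun g : SG => (Fd 0 ×ˢ (univ : Set ℝ)).indicator h (mob g w)) :
    ∑' g : SG, (Fd 0 ×ˢ (univ : Set ℝ)).indicator h (mob g w) =
      81 * ∑' x : O × O, if Cop x then h (mob (lift x) w) else 0 := by
  rw [tsum_SG' hs, ← tsum_mul_left]
  refine tsum_congr fun x => ?_
  by_cases hx : Cop x
  · rw [if_pos hx, if_pos hx]
    simp_rw [ind_mob hN hw]
    rw [tsum_indicator_Fd']
  · rw [if_neg hx, if_neg hx, mul_zero]

theorem unfold_lintegral {h : ℂ × ℝ → ℝ≥0∞} (hm : AEMeasurable h muH)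
    (hN : ∀ (b : O), ∀ w ∈ Hs, h (w.1 + emb b, w.2) = h w) :
    ∫⁻ w, (∑' x : O × O, if Cop x then h (mob (lift x) w) else 0) ∂nuH =
      ∫⁻ w in Fd 0 ×ˢ (univ : Set ℝ), h w ∂muH := by
  have hS : MeasurableSet (Fd 0 ×ˢ (univ : Set ℝ)) := (measurableSet_Fd 0).prod MeasurableSet.univ
  set R : ℂ × ℝ → ℝ≥0∞ := fun w => ∑' x : O × O, if Cop x then h (mob (lift x) w) else 0 with hR
  have hRm : AEMeasurable R muH := aemeasurable_rowsum hm
  have h2 : AEMeasurable ((Fd 0 ×ˢ (univ : Set ℝ)).indicator h) muH := hm.indicator hS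
  have key := lintegral_symm measurable_dens.aemeasurable h2
  have e1 : ∫⁻ w, dens w * ∑' g : SG, (Fd 0 ×ˢ (univ : Set ℝ)).indicator h (mob g w) ∂muH =
      81 * ∫⁻ w, dens w * R w ∂muH := by
    rw [← lintegral_const_mul' _ _ (by norm_num)]
    refine lintegral_congr_ae ?_
    filter_upwards [ae_mem_Hs] with w hw
    rw [tsum_ind_eq hN hw]
    ring
  have e2 : ∫⁻ w, (∑' g : SG, dens (mob g w)) * (Fd 0 ×ˢ (univ : Set ℝ)).indicator h w ∂muH =
      81 * ∫⁻ w in Fd 0 ×ˢ (univ : Set ℝ), h w ∂muH := by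
    rw [← lintegral_indicator hS, ← lintegral_const_mul' _ _ (by norm_num)]
    refine lintegral_congr_ae ?_
    filter_upwards [ae_mem_Hs] with w hw
    rw [tsum_dens hw]
  rw [e1, e2] at key
  have key' := (ENNReal.mul_right_inj (by norm_num) (by norm_num)).1 key
  rw [← key', nuH_eq, lintegral_withDensity_eq_lintegral_mul₀ measurable_dens.aemeasurable hRm]
  rfl
/-- Unfolding. -/
theorem unfold {h : ℂ × ℝ → ℂ} (hm : AEStronglyMeasurable h muH)
    (hN : ∀ (b : O), ∀ w ∈ Hs, h (w.1 + emb b, w.2) = h w)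
    (hi : IntegrableOn h (Fd 0 ×ˢ (univ : Set ℝ)) muH) :
    Integrable (fun w => ∑' x : O × O, if Cop x then h (mob (lift x) w) else 0) nuH ∧
      ∫ w, (∑' x : O × O, if Cop x then h (mob (lift x) w) else 0) ∂nuH =
        ∫ w in Fd 0 ×ˢ (univ : Set ℝ), h w ∂muH := by
  have hS : MeasurableSet (Fd 0 ×ˢ (univ : Set ℝ)) := (measurableSet_Fd 0).prod MeasurableSet.univ
  set R : ℂ × ℝ → ℂ := fun w => ∑' x : O × O, if Cop x then h (mob (lift x) w) else 0 with hR
  have hRm : AEStronglyMeasurable R muH := by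
    refine (AEMeasurable.tsum fun x => ?_).aestronglyMeasurable
    by_cases hx : Cop x
    · simp only [if_pos hx]
      exact hm.aemeasurable.comp_quasiMeasurePreserving (mp_mob _).quasiMeasurePreserving
    · simp only [if_neg hx]; exact aemeasurable_const
  have hac : nuH ≪ muH := withDensity_absolutelyContinuous _ _
  have hNe : ∀ (b : O), ∀ w ∈ Hs, ‖h (w.1 + emb b, w.2)‖ₑ = ‖h w‖ₑ := fun b w hw => by
    rw [hN b w hw]
  have hfin := unfold_lintegral (h := fun w => ‖h w‖ₑ) hm.enorm hNe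
  refine ⟨⟨hRm.mono_ac hac, ?_⟩, ?_⟩
  · refine lt_of_le_of_lt ?_ (hfin.trans_lt hi.2)
    refine lintegral_mono fun w => ?_
    refine le_trans enorm_tsum_le_tsum_enorm (ENNReal.tsum_le_tsum fun x => ?_)
    by_cases hx : Cop x
    · rw [if_pos hx, if_pos hx]
    · rw [if_neg hx, if_neg hx]; simp
  set f₂ : ℂ × ℝ → ℂ := (Fd 0 ×ˢ (univ : Set ℝ)).indicator h with hf₂
  have hf₂i : Integrable f₂ muH := (integrable_indicator_iff hS).2 hi
  have hf₂m : AEStronglyMeasurable f₂ muH := hf₂i.1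
  have hd : AEStronglyMeasurable (fun w => ((dens w).toReal : ℂ)) muH :=
    (Complex.measurable_ofReal.comp measurable_dens.ennreal_toReal).aestronglyMeasurable
  have hcomp : ∀ {f : ℂ × ℝ → ℂ}, AEStronglyMeasurable f muH → ∀ g : SG,
      AEStronglyMeasurable (fun w => f (mob g w)) muH := fun hf g =>
    hf.comp_quasiMeasurePreserving (mp_mob g).quasiMeasurePreserving
  have hen : ∀ w ∈ Hs, ‖((dens w).toReal : ℂ)‖ₑ = dens w := by
    intro w hw
    rw [← ofReal_norm, Complex.norm_real, Real.norm_eq_abs,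
      abs_of_nonneg ENNReal.toReal_nonneg, ENNReal.ofReal_toReal (dens_ne_top hw)]
  have hB : ∫⁻ w, (∑' g : SG, dens (mob g w)) * ‖f₂ w‖ₑ ∂muH < ⊤ := by
    have : ∫⁻ w, (∑' g : SG, dens (mob g w)) * ‖f₂ w‖ₑ ∂muH = 81 * ∫⁻ w, ‖f₂ w‖ₑ ∂muH := by
      rw [← lintegral_const_mul' _ _ (by norm_num)]
      refine lintegral_congr_ae ?_
      filter_upwards [ae_mem_Hs] with w hw
      rw [tsum_dens hw]
    rw [this]
    exact ENNReal.mul_lt_top (by norm_num) hf₂i.2
  have hA : ∫⁻ w, dens w * ∑' g : SG, ‖f₂ (mob g w)‖ₑ ∂muH < ⊤ := by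
    rw [lintegral_symm (f₂ := fun w => ‖f₂ w‖ₑ) measurable_dens.aemeasurable hf₂m.enorm]
    exact hB
  have hA' : ∑' g : SG, ∫⁻ w, ‖((dens w).toReal : ℂ) * f₂ (mob g w)‖ₑ ∂muH ≠ ⊤ := by
    rw [← lintegral_tsum (f := fun g w => ‖((dens w).toReal : ℂ) * f₂ (mob g w)‖ₑ)
      (fun g => (hd.mul (hcomp hf₂m g)).enorm)]
    refine ne_of_lt (lt_of_eq_of_lt ?_ hA)
    refine lintegral_congr_ae ?_
    filter_upwards [ae_mem_Hs] with w hw
    simp_rw [enorm_mul, hen w hw]
    rw [ENNReal.tsum_mul_left]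
  have hB' : ∑' g : SG, ∫⁻ w, ‖((dens (mob g w)).toReal : ℂ) * f₂ w‖ₑ ∂muH ≠ ⊤ := by
    rw [← lintegral_tsum (f := fun g w => ‖((dens (mob g w)).toReal : ℂ) * f₂ w‖ₑ)
      (fun g => ((hcomp hd g).mul hf₂m).enorm)]
    refine ne_of_lt (lt_of_eq_of_lt ?_ hB)
    refine lintegral_congr_ae ?_
    filter_upwards [ae_mem_Hs] with w hw
    simp_rw [enorm_mul, hen _ (mob_mem _ hw)]
    rw [ENNReal.tsum_mul_right]
  have e1 : ∫ w, ∑' g : SG, ((dens w).toReal : ℂ) * f₂ (mob g w) ∂muH =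
      ∫ w, ∑' g : SG, ((dens (mob g w)).toReal : ℂ) * f₂ w ∂muH := by
    rw [integral_tsum (f := fun g w => ((dens w).toReal : ℂ) * f₂ (mob g w))
      (fun g => hd.mul (hcomp hf₂m g)) hA',
      integral_tsum (f := fun g w => ((dens (mob g w)).toReal : ℂ) * f₂ w)
      (fun g => (hcomp hd g).mul hf₂m) hB', ← (Equiv.inv SG).tsum_eq]
    refine tsum_congr fun g => ?_
    have h3 : AEStronglyMeasurable (fun w => ((dens w).toReal : ℂ) * f₂ (mob g⁻¹ w)) muH :=
      hd.mul (hcomp hf₂m _)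
    rw [Equiv.inv_apply, ← integral_mob g h3]
    refine integral_congr_ae ?_
    filter_upwards [ae_mem_Hs] with w hw
    rw [← mob_mul _ _ hw, inv_mul_cancel, mob_one]
  have e2 : ∫ w, ∑' g : SG, ((dens (mob g w)).toReal : ℂ) * f₂ w ∂muH =
      81 * ∫ w in Fd 0 ×ˢ (univ : Set ℝ), h w ∂muH := by
    rw [← integral_indicator hS, ← integral_const_mul]
    refine integral_congr_ae ?_
    filter_upwards [ae_mem_Hs] with w hw
    rw [tsum_mul_right, ← Complex.ofReal_tsum,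
      ← ENNReal.tsum_toReal_eq (fun g => dens_ne_top (mob_mem g hw)), tsum_dens hw]
    norm_num [hf₂]
  have e3 : ∫ w, ∑' g : SG, ((dens w).toReal : ℂ) * f₂ (mob g w) ∂muH =
      81 * ∫ w, R w ∂nuH := by
    rw [nuH_eq, integral_withDensity_eq_integral_toReal_smul₀ measurable_dens.aemeasurable
      (by filter_upwards [ae_mem_Hs] with w hw using (dens_ne_top hw).lt_top),
      ← integral_const_mul]
    refine integral_congr_ae ?_
    have hlt := ae_lt_top' (measurable_dens.aemeasurable.mul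
      (AEMeasurable.tsum fun g => (hcomp hf₂m g).enorm)) hA.ne
    filter_upwards [ae_mem_Hs, hlt] with w hw hw'
    rw [tsum_mul_left, Complex.real_smul]
    by_cases h0 : dens w = 0
    · simp [h0]
    · have hs : ∑' g : SG, ‖f₂ (mob g w)‖ₑ ≠ ⊤ := by
        intro ht
        simp only [Pi.mul_apply] at hw'
        rw [ht, ENNReal.mul_top h0] at hw'
        exact lt_irrefl _ hw'
      have hs' : Summable fun g : SG => f₂ (mob g w) := by
        refine Summable.of_nnnorm ?_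
        exact ENNReal.tsum_coe_ne_top_iff_summable.1 hs
      rw [hf₂, tsum_ind_eq' hN hw hs']
      ring
  rw [e3, e2] at e1
  exact mul_left_cancel₀ (by norm_num) e1
/-- Invariant functions on a strip: apply `unfold_lintegral` to `1_{v ≥ δ} H` and use
`card_Qf_le`. -/
theorem strip_le : ∃ C : ℝ, 0 ≤ C ∧ ∀ H : ℂ × ℝ → ℝ≥0∞, AEMeasurable H muH →
    (∀ g : SG, ∀ w ∈ Hs, H (mob g w) = H w) → ∀ δ : ℝ, 0 < δ →
    ∫⁻ w in Fd 0 ×ˢ Ici δ, H w ∂muH ≤ ENNReal.ofReal (C * (1 + δ⁻¹ ^ 2)) * ∫⁻ w, H w ∂nuH := by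
  obtain ⟨C, hC0, hC⟩ := card_Qf_le
  refine ⟨C, hC0, fun H hH hinv δ hδ => ?_⟩
  have hS : MeasurableSet ((univ : Set ℂ) ×ˢ Ici δ) := MeasurableSet.univ.prod measurableSet_Ici
  set h : ℂ × ℝ → ℝ≥0∞ := ((univ : Set ℂ) ×ˢ Ici δ).indicator H with hh
  have hm : AEMeasurable h muH := hH.indicator hS
  have hN : ∀ (b : O), ∀ w ∈ Hs, h (w.1 + emb b, w.2) = h w := by
    intro b w hw
    by_cases hv : δ ≤ w.2
    · rw [hh, indicator_of_mem (by simpa using hv), indicator_of_mem (by simpa using hv),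
        ← mob_gT, hinv _ _ hw]
    · rw [hh, indicator_of_notMem (by simpa using hv), indicator_of_notMem (by simpa using hv)]
  have key := unfold_lintegral hm hN
  have e1 : ∫⁻ w in Fd 0 ×ˢ (univ : Set ℝ), h w ∂muH = ∫⁻ w in Fd 0 ×ˢ Ici δ, H w ∂muH := by
    rw [hh, lintegral_indicator hS, Measure.restrict_restrict hS, prod_inter_prod, univ_inter,
      inter_univ]
  rw [← e1, ← key, ← lintegral_const_mul' _ _ ENNReal.ofReal_ne_top]
  refine lintegral_mono_ae ?_
  have hae : ∀ᵐ w ∂nuH, w ∈ Hs := (withDensity_absolutelyContinuous _ _).ae_le ae_mem_Hs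
  filter_upwards [hae] with w hw
  rw [ENNReal.tsum_eq_iSup_sum]
  refine iSup_le fun S => ?_
  classical
  have h1 : ∀ x ∈ S, (if Cop x then h (mob (lift x) w) else 0) =
      if Cop x ∧ Qf w x ≤ δ⁻¹ then H w else 0 := by
    intro x _
    by_cases hx : Cop x
    · rw [if_pos hx]
      have hq := Qf_pos hw hx.ne_zero
      have hiff : δ ≤ (mob (lift x) w).2 ↔ Qf w x ≤ δ⁻¹ := by
        rw [mob_snd, bot_lift hx, le_inv_comm₀ hδ hq]
      by_cases hv : Qf w x ≤ δ⁻¹
      · rw [if_pos ⟨hx, hv⟩, hh, indicator_of_mem (by simpa using hiff.2 hv), hinv _ _ hw]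
      · rw [if_neg (fun h' => hv h'.2), hh, indicator_of_notMem (by simpa using mt hiff.1 hv)]
    · rw [if_neg hx, if_neg (fun h' => hx h'.1)]
  rw [Finset.sum_congr rfl h1, ← Finset.sum_filter, Finset.sum_const, nsmul_eq_mul]
  refine mul_le_mul_left ?_ _
  have := hC w hw δ⁻¹ (S.filter fun x => Cop x ∧ Qf w x ≤ δ⁻¹)
    (fun x hx => (Finset.mem_filter.1 hx).2)
  rw [← ENNReal.ofReal_natCast]
  exact ENNReal.ofReal_le_ofReal this

end Crest.Agent.R017.Theta

end
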