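import Crest.Agent.R017.ThIP1
import Crest.Agent.R017.ThUnf
import Crest.Agent.R017.ThSym2

/-! # Row 17, cubic theta: the invariant combination -/

set_option autoImplicit false

noncomputable section

open scoped BigOperators ComplexConjugate Topology ENNReal
open Complex MeasureTheory Filter Set

namespace Crest.Agent.R017.Theta

variable {ι : Type} [Fintype ι] [DecidableEq ι] {cl : O × O → ι} {P : O}

omit [Fintype ι] in
theorem i2t_ind_le (cl : O × O → ι) (κ : ι) (x : O × O) : ‖ind cl κ x‖ ≤ 1 := by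
  unfold ind
  split_ifs <;> simp

theorem hh_gT (P : O) (t t' : ℝ) (b : O) : ∀ w ∈ Hs, hh P t t' (w.1 + emb b, w.2) = hh P t t' w := by
  intro w hw
  unfold hh U
  have h := Uc_mob (a := cf (Be P)) (a' := cf (Be P)) (κ := 1) (g := gT b)
    (fun x => by rw [one_mul]; exact cf_Be_gT P b x) t' hw
  rw [mob_gT, one_mul] at h
  rw [h]
omit [Fintype ι] in
theorem continuousOn_U_ind (cl : O × O → ι) (κ : ι) {t : ℝ} (ht : 0 < t) :
    ContinuousOn (U (ind cl κ) t) Hs := by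
  exact continuousOn_Uc (M := 1) (norm_cf_le (i2t_ind_le cl κ)) ht
theorem continuousOn_Kc (cl : O × O → ι) {t t' : ℝ} (ht : 0 < t) (ht' : 0 < t') :
    ContinuousOn (Kc cl t t') Hs := by
  unfold Kc
  refine continuousOn_finsetSum _ fun κ _ => (continuousOn_U_ind cl κ ht).mul ?_
  exact Complex.continuous_conj.comp_continuousOn (continuousOn_U_ind cl κ ht')
/-- `Uc_mob` with `Clf.cf_eq` for `g = lift x`, `mob_snd`; then group the rows by classes. -/
theorem Clf.Kc_eq (h : Clf cl P) {t t' : ℝ} (ht : 0 < t) (ht' : 0 < t') {w : ℂ × ℝ} (hw : w ∈ Hs) :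
    Kc cl t t' w = ∑' x : O × O, if Cop x then hh P t t' (mob (lift x) w) else 0 := by
  unfold Kc
  have hs : ∀ κ, Summable fun x : O × O =>
      pw t * (cf (ind cl κ) x * (Phi (t * Qf w x) : ℂ)) * conj (U (ind cl κ) t' w) := fun κ =>
    (((summable_Uc (M := 1) (norm_cf_le (i2t_ind_le cl κ)) ht hw).of_norm).mul_left _).mul_right _
  have e1 : ∀ κ, U (ind cl κ) t w * conj (U (ind cl κ) t' w) = ∑' x : O × O,
      pw t * (cf (ind cl κ) x * (Phi (t * Qf w x) : ℂ)) * conj (U (ind cl κ) t' w) := fun κ => by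
    rw [tsum_mul_right, tsum_mul_left]
    rfl
  rw [Finset.sum_congr rfl fun κ _ => e1 κ, ← Summable.tsum_finsetSum fun κ _ => hs κ]
  refine tsum_congr fun x => ?_
  by_cases hx : Cop x
  · rw [if_pos hx]
    have h1 := Uc_mob (h.cf_eq (lift x)) t' hw
    rw [bot_lift hx] at h1
    unfold hh
    rw [mob_snd, bot_lift hx, div_inv_eq_mul]
    change _ = _ * conj (Uc (cf (Be P)) t' (mob (lift x) w))
    rw [h1, map_mul, Complex.conj_conj, Finset.sum_eq_single (cl x)]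
    · have e2 : cf (ind cl (cl x)) x = sy x := by
        unfold cf
        rw [if_pos hx]
        simp only [ind, if_true, one_mul]
      rw [e2]
      unfold U
      ring
    · intro κ _ hκ
      unfold cf
      rw [if_pos hx]
      simp only [ind, if_neg hκ.symm]
      ring
    · intro h'
      exact absurd (Finset.mem_univ _) h'
  · rw [if_neg hx]
    refine Finset.sum_eq_zero fun κ _ => ?_
    unfold cf
    rw [if_neg hx]
    ring
theorem Clf.Kc_mob (h : Clf cl P) {t t' : ℝ} (ht : 0 < t) (ht' : 0 < t') (g : SG) {w : ℂ × ℝ}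
    (hw : w ∈ Hs) : Kc cl t t' (mob g w) = Kc cl t t' w := by
  rw [h.Kc_eq ht ht' (mob_mem g hw), h.Kc_eq ht ht' hw]
  exact rowsum_mob (fun b => hh_gT P t t' b) g hw
theorem i2t_ac : nuH ≪ muH := withDensity_absolutelyContinuous _ _

theorem i2t_ae : ∀ᵐ w ∂nuH, w ∈ Hs := i2t_ac.ae_le ae_mem_Hs

theorem Clf.integrable_Kc (h : Clf cl P) {t t' : ℝ} (ht : 0 < t) (ht' : 0 < t') :
    Integrable (Kc cl t t') nuH := by
  refine (unfold (aesm_muH (continuousOn_hh P ht ht')) (fun b => hh_gT P t t' b)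
    (integrableOn_hh P ht ht')).1.congr ?_
  filter_upwards [i2t_ae] with w hw
  exact (h.Kc_eq ht ht' hw).symm
theorem Clf.integral_Kc (h : Clf cl P) {t t' : ℝ} (ht : 0 < t) (ht' : 0 < t') :
    ∫ w, Kc cl t t' w ∂nuH = IPv P t t' := by
  unfold IPv
  rw [← (unfold (aesm_muH (continuousOn_hh P ht ht')) (fun b => hh_gT P t t' b)
    (integrableOn_hh P ht ht')).2]
  refine integral_congr_ae ?_
  filter_upwards [i2t_ae] with w hw
  exact h.Kc_eq ht ht' hw
/-- A real version of `strip_le`. -/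
theorem strip_le_re : ∃ C : ℝ, 0 ≤ C ∧ ∀ (H f : ℂ × ℝ → ℂ) (M : ℝ), 0 ≤ M → ContinuousOn H Hs →
    Integrable H nuH → (∀ g : SG, ∀ w ∈ Hs, H (mob g w) = H w) →
    (∀ w ∈ Hs, ‖f w‖ ^ 2 ≤ M * (H w).re) → (∀ w ∈ Hs, 0 ≤ (H w).re) → ∀ δ : ℝ, 0 < δ →
    ∫⁻ w in Fd 0 ×ˢ Ici δ, ‖f w‖ₑ ^ 2 ∂muH ≤
      ENNReal.ofReal (C * (1 + δ⁻¹ ^ 2) * M * (∫ w, H w ∂nuH).re) := by
  obtain ⟨C, hC0, hC⟩ := strip_le
  refine ⟨C, hC0, fun H f M hM hc hi hinv hf h0 δ hδ => ?_⟩
  have hm : AEMeasurable (fun w => ENNReal.ofReal (H w).re) muH :=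
    (Complex.measurable_re.comp_aemeasurable (aesm_muH hc).aemeasurable).ennreal_ofReal
  have h1 := hC (fun w => ENNReal.ofReal (H w).re) hm (fun g w hw => by rw [hinv g w hw]) δ hδ
  have h2 : ∫⁻ w, ENNReal.ofReal (H w).re ∂nuH = ENNReal.ofReal (∫ w, H w ∂nuH).re := by
    have h3 : (∫ w, H w ∂nuH).re = ∫ w, (H w).re ∂nuH := (integral_re hi).symm
    have h4 : Integrable (fun w => (H w).re) nuH := hi.re
    rw [h3, ofReal_integral_eq_lintegral_ofReal h4]
    filter_upwards [i2t_ae] with w hw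
    exact h0 w hw
  have hA : 0 ≤ C * (1 + δ⁻¹ ^ 2) := by positivity
  calc ∫⁻ w in Fd 0 ×ˢ Ici δ, ‖f w‖ₑ ^ 2 ∂muH
      ≤ ∫⁻ w in Fd 0 ×ˢ Ici δ, ENNReal.ofReal M * ENNReal.ofReal (H w).re ∂muH := by
        refine lintegral_mono_ae ?_
        filter_upwards [ae_restrict_of_ae ae_mem_Hs] with w hw
        rw [← ENNReal.ofReal_mul hM, ← ofReal_norm, ← ENNReal.ofReal_pow (norm_nonneg _)]
        exact ENNReal.ofReal_le_ofReal (hf w hw)
    _ = ENNReal.ofReal M * ∫⁻ w in Fd 0 ×ˢ Ici δ, ENNReal.ofReal (H w).re ∂muH :=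
        lintegral_const_mul' _ _ ENNReal.ofReal_ne_top
    _ ≤ ENNReal.ofReal M * (ENNReal.ofReal (C * (1 + δ⁻¹ ^ 2)) *
          ENNReal.ofReal (∫ w, H w ∂nuH).re) := by
        rw [← h2]
        exact mul_le_mul_right h1 _
    _ = _ := by
        rw [← mul_assoc, ← ENNReal.ofReal_mul hM, ← ENNReal.ofReal_mul (mul_nonneg hM hA),
          mul_comm M]
/-- A `9`-periodic weight is a combination of class indicators. -/
theorem U_eq_sum (hcl : ∀ x y, cl x = cl y → Cg x y) {B : O × O → ℂ} (hB : Per B) :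
    ∃ b : ι → ℂ, (∀ κ, ‖b κ‖ ≤ 1) ∧ (∀ x, B x = b (cl x)) ∧
      ∀ t, 0 < t → ∀ w ∈ Hs, U B t w = ∑ κ, b κ * U (ind cl κ) t w := by
  classical
  obtain ⟨b, hb1, hb⟩ : ∃ b : ι → ℂ, (∀ κ, ‖b κ‖ ≤ 1) ∧ ∀ x, B x = b (cl x) := by
    refine ⟨fun κ => if h : ∃ x, cl x = κ then B h.choose else 0, fun κ => ?_, fun x => ?_⟩
    · simp only
      split_ifs
      · exact hB.bd _
      · simp
    · have hx : ∃ y, cl y = cl x := ⟨x, rfl⟩
      simp only [dif_pos hx]
      exact hB.per _ _ (hcl _ _ hx.choose_spec.symm)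
  refine ⟨b, hb1, hb, fun t ht w hw => ?_⟩
  · unfold U
    rw [← Uc_sum Finset.univ _ (M := 1) (fun κ => norm_cf_le (i2t_ind_le cl κ)) ht hw]
    congr 1
    funext x
    rw [Finset.sum_eq_single (cl x)]
    · unfold cf
      split_ifs with hx
      · rw [hb x]
        simp only [ind, if_true]
        ring
      · ring
    · intro κ _ hκ
      unfold cf
      simp only [ind, if_neg hκ.symm]
      simp
    · intro h'
      exact absurd (Finset.mem_univ _) h'
theorem clf_nine (hcl : ∀ x y, cl x = cl y ↔ Cg x y) : Clf cl 1 := by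
  refine ⟨fun x y g _ _ h => (hcl _ _).2 (((hcl _ _).1 h).ra g), fun x y _ _ h => (hcl _ _).1 h,
    fun x _ => ?_⟩
  rw [hcl]
  exact ⟨fun h => ⟨h, one_dvd _⟩, fun h => h.1⟩
theorem clf_line (hcl : ∀ x y, cl x = cl y ↔ Cg x y) {L : Type} {ln : O × O → L} {p : O}
    (hln : ∀ x y, Cop x → Cop y → (ln x = ln y ↔ p ∣ x.1 * y.2 - x.2 * y.1)) :
    Clf (fun x => (cl x, ln x)) p := by
  refine ⟨fun x y g hx hy h => ?_, fun x y _ _ h => (hcl _ _).1 (Prod.ext_iff.1 h).1,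
    fun x hx => ?_⟩
  · obtain ⟨h1, h2⟩ := Prod.ext_iff.1 h
    refine Prod.ext ((hcl _ _).2 (((hcl _ _).1 h1).ra g)) ?_
    refine (hln _ _ ((cop_ra g).2 hx) ((cop_ra g).2 hy)).2 ?_
    rw [det_ra]
    exact (hln _ _ hx hy).1 h2
  · rw [Prod.ext_iff]
    simp only
    rw [hcl, hln _ _ hx cop_e1]
    simp [e1]

end Crest.Agent.R017.Theta

end
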