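import Crest.Agent.R017.ThIP2

/-! # Row 17, cubic theta: mean square estimates on strips -/

set_option autoImplicit false

noncomputable section

open scoped BigOperators ComplexConjugate Topology ENNReal
open Complex MeasureTheory Filter Set

namespace Crest.Agent.R017.Theta

theorem i3t_cs {ι : Type} [Fintype ι] {b : ι → ℂ} (hb : ∀ κ, ‖b κ‖ ≤ 1) (x : ι → ℂ) :
    ‖∑ κ, b κ * x κ‖ ^ 2 ≤ (Fintype.card ι : ℝ) * ∑ κ, ‖x κ‖ ^ 2 := by
  have h1 : ‖∑ κ, b κ * x κ‖ ≤ ∑ κ, ‖x κ‖ := by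
    refine (norm_sum_le _ _).trans (Finset.sum_le_sum fun κ _ => ?_)
    rw [norm_mul]
    exact mul_le_of_le_one_left (norm_nonneg _) (hb κ)
  refine (pow_le_pow_left₀ (norm_nonneg _) h1 2).trans ?_
  exact sq_sum_le_card_mul_sum_sq

theorem i3t_mul_conj (z : ℂ) : z * conj z = ((‖z‖ ^ 2 : ℝ) : ℂ) := by
  rw [Complex.mul_conj, Complex.normSq_eq_norm_sq]

theorem i3t_Kc_self {ι : Type} [Fintype ι] [DecidableEq ι] (cl : O × O → ι) (t : ℝ) (w : ℂ × ℝ) :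
    Kc cl t t w = ((∑ κ, ‖U (ind cl κ) t w‖ ^ 2 : ℝ) : ℂ) := by
  unfold Kc
  rw [Complex.ofReal_sum]
  exact Finset.sum_congr rfl fun κ _ => i3t_mul_conj _

theorem i3t_Kc_diff {ι : Type} [Fintype ι] [DecidableEq ι] (cl : O × O → ι) (t t' : ℝ)
    (w : ℂ × ℝ) :
    Kc cl t t w + Kc cl t' t' w - Kc cl t t' w - Kc cl t' t w =
      ((∑ κ, ‖U (ind cl κ) t w - U (ind cl κ) t' w‖ ^ 2 : ℝ) : ℂ) := by
  unfold Kc
  rw [Complex.ofReal_sum, ← Finset.sum_add_distrib, ← Finset.sum_sub_distrib,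
    ← Finset.sum_sub_distrib]
  refine Finset.sum_congr rfl fun κ _ => ?_
  rw [← i3t_mul_conj, map_sub]
  ring

theorem i3t_lim {F : ℝ → ℝ → ℂ} {ρ : ℂ}
    (h : Tendsto (fun p : ℝ × ℝ => F p.1 p.2) (𝓝[>] 0 ×ˢ 𝓝[>] 0) (𝓝 ρ)) {η : ℝ} (hη : 0 < η) :
    ∃ t₀ : ℝ, 0 < t₀ ∧ ∀ s s' : ℝ, 0 < s → s < t₀ → 0 < s' → s' < t₀ → ‖F s s' - ρ‖ < η := by
  have h1 := (Metric.tendsto_nhds.1 h) η hη
  obtain ⟨T, hT, hT'⟩ := Filter.mem_prod_self_iff.1 h1
  obtain ⟨u, hu, hu'⟩ := (mem_nhdsGT_iff_exists_Ioo_subset).1 hT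
  refine ⟨u, hu, fun s s' h1 h2 h3 h4 => ?_⟩
  have : (s, s') ∈ T ×ˢ T := ⟨hu' ⟨h1, h2⟩, hu' ⟨h3, h4⟩⟩
  have := hT' this
  simpa [dist_eq_norm] using this

theorem i3t_ind_le {ι : Type} [DecidableEq ι] (cl : O × O → ι) (κ : ι) (x : O × O) :
    ‖ind cl κ x‖ ≤ 1 := by
  unfold ind
  split_ifs <;> simp

/-- Cauchy: with `cl` from `exists_cl9`, `H = Kc t t + Kc t' t' - Kc t t' - Kc t' t
= ∑_κ |U_κ t - U_κ t'|²`, `M = card ι`. -/
theorem strip_cauchy {B : O × O → ℂ} (hB : Per B) {δ ε : ℝ} (hδ : 0 < δ) (hε : 0 < ε) :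
    ∃ t₀ : ℝ, 0 < t₀ ∧ ∀ t t' : ℝ, 0 < t → t < t₀ → 0 < t' → t' < t₀ →
      ∫⁻ w in Fd 0 ×ˢ Ici δ, ‖U B t w - U B t' w‖ₑ ^ 2 ∂muH ≤ ENNReal.ofReal ε := by
  obtain ⟨ι, _, _, cl, hcl⟩ := exists_cl9
  have hC := clf_nine hcl
  obtain ⟨C, hC0, H⟩ := strip_le_re
  obtain ⟨ρ, hρ, -⟩ := IPv_lim
  obtain ⟨b, hb, -, hU⟩ := U_eq_sum (fun x y h => (hcl x y).1 h) hB
  obtain ⟨K, hK⟩ : ∃ K : ℝ, K = C * (1 + δ⁻¹ ^ 2) * (Fintype.card ι : ℝ) := ⟨_, rfl⟩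
  have hK0 : 0 ≤ K := by rw [hK]; positivity
  obtain ⟨t₀, ht₀, hl⟩ := i3t_lim (F := IPv 1) hρ (η := ε / (4 * (K + 1))) (by positivity)
  refine ⟨t₀, ht₀, fun t t' h1 h2 h3 h4 => ?_⟩
  have i11 := hC.integrable_Kc h1 h1
  have i22 := hC.integrable_Kc h3 h3
  have i12 := hC.integrable_Kc h1 h3
  have i21 := hC.integrable_Kc h3 h1
  have key := H (fun w => Kc cl t t w + Kc cl t' t' w - Kc cl t t' w - Kc cl t' t w)
    (fun w => U B t w - U B t' w) (Fintype.card ι : ℝ) (Nat.cast_nonneg _)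
    ((((continuousOn_Kc cl h1 h1).add (continuousOn_Kc cl h3 h3)).sub
      (continuousOn_Kc cl h1 h3)).sub (continuousOn_Kc cl h3 h1))
    (((i11.add i22).sub i12).sub i21)
    (fun g w hw => by
      simp only [hC.Kc_mob h1 h1 g hw, hC.Kc_mob h3 h3 g hw, hC.Kc_mob h1 h3 g hw,
        hC.Kc_mob h3 h1 g hw])
    (fun w hw => by
      simp only [i3t_Kc_diff, Complex.ofReal_re]
      rw [hU t h1 w hw, hU t' h3 w hw, ← Finset.sum_sub_distrib]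
      simp only [← mul_sub]
      exact i3t_cs hb _)
    (fun w _ => by
      simp only [i3t_Kc_diff, Complex.ofReal_re]
      positivity) δ hδ
  refine key.trans (ENNReal.ofReal_le_ofReal ?_)
  have e : ∫ w, (Kc cl t t w + Kc cl t' t' w - Kc cl t t' w - Kc cl t' t w) ∂nuH =
      (IPv 1 t t - ρ) + (IPv 1 t' t' - ρ) - (IPv 1 t t' - ρ) - (IPv 1 t' t - ρ) := by
    have j1 : Integrable (fun w => Kc cl t t w + Kc cl t' t' w) nuH := i11.add i22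
    have j2 : Integrable (fun w => Kc cl t t w + Kc cl t' t' w - Kc cl t t' w) nuH := j1.sub i12
    rw [integral_sub j2 i21, integral_sub j1 i12,
      integral_add i11 i22, hC.integral_Kc h1 h1, hC.integral_Kc h3 h3, hC.integral_Kc h1 h3,
      hC.integral_Kc h3 h1]
    ring
  rw [e, ← hK]
  have b1 := hl t t h1 h2 h1 h2
  have b2 := hl t' t' h3 h4 h3 h4
  have b3 := hl t t' h1 h2 h3 h4
  have b4 := hl t' t h3 h4 h1 h2
  have b5 : ((IPv 1 t t - ρ) + (IPv 1 t' t' - ρ) - (IPv 1 t t' - ρ) - (IPv 1 t' t - ρ)).re ≤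
      4 * (ε / (4 * (K + 1))) := by
    refine (Complex.re_le_norm _).trans ?_
    refine (norm_sub_le _ _).trans ?_
    have := norm_sub_le ((IPv 1 t t - ρ) + (IPv 1 t' t' - ρ)) (IPv 1 t t' - ρ)
    have := norm_add_le (IPv 1 t t - ρ) (IPv 1 t' t' - ρ)
    linarith
  refine (mul_le_mul_of_nonneg_left b5 hK0).trans ?_
  have e2 : K * (4 * (ε / (4 * (K + 1)))) = ε * (K / (K + 1)) := by field_simp
  rw [e2]
  exact mul_le_of_le_one_right hε.le ((div_le_one (by linarith)).2 (by linarith))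

theorem strip_bound : ∃ C t₀ : ℝ, 0 ≤ C ∧ 0 < t₀ ∧ ∀ B : O × O → ℂ, Per B → ∀ δ t : ℝ, 0 < δ →
    0 < t → t < t₀ →
      ∫⁻ w in Fd 0 ×ˢ Ici δ, ‖U B t w‖ₑ ^ 2 ∂muH ≤ ENNReal.ofReal (C * (1 + δ⁻¹ ^ 2)) := by
  obtain ⟨ι, _, _, cl, hcl⟩ := exists_cl9
  have hC := clf_nine hcl
  obtain ⟨C, hC0, H⟩ := strip_le_re
  obtain ⟨ρ, hρ, -⟩ := IPv_lim
  obtain ⟨t₀, ht₀, hl⟩ := i3t_lim (F := IPv 1) hρ one_pos
  refine ⟨C * (Fintype.card ι : ℝ) * (‖ρ‖ + 1), t₀, by positivity, ht₀,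
    fun B hB δ t hδ h1 h2 => ?_⟩
  obtain ⟨b, hb, -, hU⟩ := U_eq_sum (fun x y h => (hcl x y).1 h) hB
  have key := H (Kc cl t t) (U B t) (Fintype.card ι : ℝ) (Nat.cast_nonneg _)
    (continuousOn_Kc cl h1 h1) (hC.integrable_Kc h1 h1) (fun g w hw => hC.Kc_mob h1 h1 g hw)
    (fun w hw => by
      rw [i3t_Kc_self, Complex.ofReal_re, hU t h1 w hw]
      exact i3t_cs hb _)
    (fun w _ => by
      rw [i3t_Kc_self, Complex.ofReal_re]
      positivity) δ hδ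
  refine key.trans (ENNReal.ofReal_le_ofReal ?_)
  rw [hC.integral_Kc h1 h1]
  have b1 := hl t t h1 h2 h1 h2
  have b2 : (IPv 1 t t).re ≤ ‖ρ‖ + 1 := by
    refine (Complex.re_le_norm _).trans ?_
    have := norm_add_le (IPv 1 t t - ρ) ρ
    rw [sub_add_cancel] at this
    linarith
  calc C * (1 + δ⁻¹ ^ 2) * (Fintype.card ι : ℝ) * (IPv 1 t t).re
      ≤ C * (1 + δ⁻¹ ^ 2) * (Fintype.card ι : ℝ) * (‖ρ‖ + 1) :=
        mul_le_mul_of_nonneg_left b2 (by positivity)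
    _ = _ := by ring

/-- `∑_l |a_l - S/n|² = ∑_l |a_l|² - |S|²/n`, `S = ∑ a_l`, `n = card L`. -/
theorem sum_sub_mean {L : Type} [Fintype L] [Nonempty L] (a : L → ℂ) :
    ∑ l, ‖a l - (∑ l', a l') / (Fintype.card L : ℂ)‖ ^ 2 =
      ∑ l, ‖a l‖ ^ 2 - ‖∑ l, a l‖ ^ 2 / (Fintype.card L : ℝ) := by
  have hn : (Fintype.card L : ℂ) ≠ 0 := Nat.cast_ne_zero.2 Fintype.card_ne_zero
  apply Complex.ofReal_injective
  obtain ⟨S, hS⟩ : ∃ S : ℂ, S = ∑ l, a l := ⟨_, rfl⟩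
  have hS' : conj S = ∑ l, conj (a l) := by rw [hS, map_sum]
  rw [← hS, Complex.ofReal_sub, Complex.ofReal_div, Complex.ofReal_sum, Complex.ofReal_sum,
    ← i3t_mul_conj S]
  simp only [← i3t_mul_conj, map_sub, map_div₀, Complex.conj_natCast, Complex.ofReal_natCast]
  have e : ∀ l, (a l - S / (Fintype.card L : ℂ)) * (conj (a l) - conj S / (Fintype.card L : ℂ)) =
      a l * conj (a l) - a l * (conj S / (Fintype.card L : ℂ)) -
        conj (a l) * (S / (Fintype.card L : ℂ)) + S * conj S / (Fintype.card L : ℂ) ^ 2 :=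
    fun l => by ring
  simp only [e, Finset.sum_add_distrib, Finset.sum_sub_distrib, ← Finset.sum_mul, ← hS, ← hS',
    Finset.sum_const, Finset.card_univ, nsmul_eq_mul]
  field_simp
  ring

theorem i3t_U_ind {ι L : Type} [DecidableEq ι] [Fintype L] [DecidableEq L] (cl : O × O → ι)
    (ln : O × O → L) (κ : ι) {t : ℝ} (ht : 0 < t) {w : ℂ × ℝ} (hw : w ∈ Hs) :
    U (ind cl κ) t w = ∑ l, U (ind (fun x => (cl x, ln x)) (κ, l)) t w := by
  have h := Uc_sum (Finset.univ : Finset L) (fun _ => (1 : ℂ))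
    (a := fun l => cf (ind (fun x => (cl x, ln x)) (κ, l))) (M := 1)
    (fun l x => norm_cf_le (i3t_ind_le _ _) x) ht hw
  simp only [one_mul] at h
  unfold U
  rw [← h]
  congr 1
  funext x
  unfold cf ind
  by_cases hx : Cop x
  · simp only [hx, if_true, Prod.mk.injEq, ← Finset.sum_mul]
    congr 1
    by_cases hk : cl x = κ
    · simp [hk]
    · simp [hk]
  · simp [hx]

theorem i3t_U_Bp {ι L : Type} [Fintype ι] [DecidableEq ι] [DecidableEq L] (cl : O × O → ι)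
    {ln : O × O → L} {p : O}
    (hln : ∀ x y, Cop x → Cop y → (ln x = ln y ↔ p ∣ x.1 * y.2 - x.2 * y.1))
    {B : O × O → ℂ} {b : ι → ℂ} (hb : ∀ x, B x = b (cl x))
    {t : ℝ} (ht : 0 < t) {w : ℂ × ℝ} (hw : w ∈ Hs) :
    U (Bp p B) t w = ∑ κ, b κ * U (ind (fun x => (cl x, ln x)) (κ, ln e1)) t w := by
  have h := Uc_sum (Finset.univ : Finset ι) b
    (a := fun κ => cf (ind (fun x => (cl x, ln x)) (κ, ln e1))) (M := 1)
    (fun l x => norm_cf_le (i3t_ind_le _ _) x) ht hw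
  unfold U
  rw [← h]
  congr 1
  funext x
  unfold cf ind Bp
  by_cases hx : Cop x
  · have h1 : ln x = ln e1 ↔ p ∣ x.1 := by
      rw [hln x e1 hx cop_e1]
      simp [e1]
    by_cases hp : p ∣ x.1
    · have h2 := h1.2 hp
      simp [hx, hp, hb, h2]
    · have h2 : ¬ ln x = ln e1 := fun h => hp (h1.1 h)
      simp [hx, hp, h2]
  · simp [hx]

theorem i3t_re {ι L : Type} [Fintype ι] [DecidableEq ι] [Fintype L] [DecidableEq L] [Nonempty L]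
    (cl : O × O → ι) (ln : O × O → L) {t : ℝ} (ht : 0 < t) {w : ℂ × ℝ} (hw : w ∈ Hs) :
    (Kc (fun x => (cl x, ln x)) t t w - Kc cl t t w / (Fintype.card L : ℂ)).re =
      ∑ κ, ∑ l, ‖U (ind (fun x => (cl x, ln x)) (κ, l)) t w -
        U (ind cl κ) t w / (Fintype.card L : ℂ)‖ ^ 2 := by
  rw [i3t_Kc_self, i3t_Kc_self, ← Complex.ofReal_natCast, ← Complex.ofReal_div,
    ← Complex.ofReal_sub, Complex.ofReal_re, Fintype.sum_prod_type, Finset.sum_div,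
    ← Finset.sum_sub_distrib]
  refine Finset.sum_congr rfl fun κ _ => ?_
  rw [i3t_U_ind cl ln κ ht hw, Complex.ofReal_natCast, sum_sub_mean]

theorem i3t_pt {ι L : Type} [Fintype ι] [Fintype L] {b : ι → ℂ} (hb : ∀ κ, ‖b κ‖ ≤ 1)
    (a : ι → L → ℂ) (S : ι → ℂ) (n : ℂ) (l₀ : L) :
    ‖∑ κ, b κ * a κ l₀ - (∑ κ, b κ * S κ) / n‖ ^ 2 ≤
      (Fintype.card ι : ℝ) * ∑ κ, ∑ l, ‖a κ l - S κ / n‖ ^ 2 := by
  rw [Finset.sum_div, ← Finset.sum_sub_distrib]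
  simp only [mul_div_assoc, ← mul_sub]
  refine (i3t_cs hb _).trans (mul_le_mul_of_nonneg_left
    (Finset.sum_le_sum fun κ _ => ?_) (Nat.cast_nonneg _))
  exact Finset.single_le_sum (f := fun l => ‖a κ l - S κ / n‖ ^ 2) (fun _ _ => by positivity)
    (Finset.mem_univ l₀)

/-- The null vector: `H = Kc (cl, ln) t t - Kc cl t t / (N p + 1)`; the rows with `p ∣ c` are those
with `ln x = ln e1`. -/
theorem strip_null {B : O × O → ℂ} (hB : Per B) {p : O} (hp : Prime p) (hp' : Prim p) {δ : ℝ}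
    (hδ : 0 < δ) :
    Tendsto (fun t => ∫⁻ w in Fd 0 ×ˢ Ici δ, ‖U (Bp p B) t w - U B t w / ((Nr p : ℂ) + 1)‖ₑ ^ 2 ∂muH)
      (𝓝[>] 0) (𝓝 0) := by
  obtain ⟨ι, _, _, cl, hcl⟩ := exists_cl9
  obtain ⟨L, _, _, ln, hL, hln⟩ := exists_line hp
  have : Nonempty L := ⟨ln e1⟩
  have hC := clf_nine hcl
  have hC' := clf_line hcl hln
  obtain ⟨C, hC0, H⟩ := strip_le_re
  obtain ⟨ρ, hρ, hρ'⟩ := IPv_lim
  obtain ⟨b, hb, hb', hU⟩ := U_eq_sum (fun x y h => (hcl x y).1 h) hB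
  have hn : ((Nr p : ℂ) + 1) = (Fintype.card L : ℂ) := by
    rw [hL]; unfold Nr; push_cast; rfl
  have hρ2 := hρ' p hp hp'
  rw [hn] at hρ2 ⊢
  have hle : ∀ t, 0 < t →
      ∫⁻ w in Fd 0 ×ˢ Ici δ, ‖U (Bp p B) t w - U B t w / (Fintype.card L : ℂ)‖ₑ ^ 2 ∂muH ≤
        ENNReal.ofReal (C * (1 + δ⁻¹ ^ 2) * (Fintype.card ι : ℝ) *
          (IPv p t t - IPv 1 t t / (Fintype.card L : ℂ)).re) := by
    intro t ht
    have i1 := hC'.integrable_Kc ht ht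
    have i2 := (hC.integrable_Kc ht ht).div_const (Fintype.card L : ℂ)
    have key := H (fun w => Kc (fun x => (cl x, ln x)) t t w - Kc cl t t w / (Fintype.card L : ℂ))
      (fun w => U (Bp p B) t w - U B t w / (Fintype.card L : ℂ)) (Fintype.card ι : ℝ)
      (Nat.cast_nonneg _)
      ((continuousOn_Kc _ ht ht).sub ((continuousOn_Kc cl ht ht).div_const _)) (i1.sub i2)
      (fun g w hw => by rw [hC.Kc_mob ht ht g hw, hC'.Kc_mob ht ht g hw])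
      (fun w hw => by
        rw [i3t_re cl ln ht hw, i3t_U_Bp cl hln hb' ht hw, hU t ht w hw]
        exact i3t_pt hb (fun κ l => U (ind (fun x => (cl x, ln x)) (κ, l)) t w)
          (fun κ => U (ind cl κ) t w) _ _)
      (fun w hw => by
        rw [i3t_re cl ln ht hw]
        exact Finset.sum_nonneg fun _ _ => Finset.sum_nonneg fun _ _ => sq_nonneg _) δ hδ
    rwa [integral_sub i1 i2, integral_div, hC.integral_Kc ht ht, hC'.integral_Kc ht ht] at key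
  have hd : Tendsto (fun t : ℝ => IPv 1 t t) (𝓝[>] 0) (𝓝 ρ) :=
    Tendsto.comp (g := fun p : ℝ × ℝ => IPv 1 p.1 p.2) (f := fun t : ℝ => (t, t)) hρ
      (tendsto_id.prodMk tendsto_id)
  have h1 : Tendsto (fun t : ℝ => IPv p t t - IPv 1 t t / (Fintype.card L : ℂ)) (𝓝[>] 0)
      (𝓝 0) := by
    have := hρ2.sub (hd.div_const (Fintype.card L : ℂ))
    rwa [sub_self] at this
  have h2 : Tendsto (fun t : ℝ => C * (1 + δ⁻¹ ^ 2) * (Fintype.card ι : ℝ) *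
      (IPv p t t - IPv 1 t t / (Fintype.card L : ℂ)).re) (𝓝[>] 0) (𝓝 0) := by
    have := ((Complex.continuous_re.tendsto 0).comp h1).const_mul
      (C * (1 + δ⁻¹ ^ 2) * (Fintype.card ι : ℝ))
    rwa [Complex.zero_re, mul_zero] at this
  have h3 := ENNReal.tendsto_ofReal h2
  rw [ENNReal.ofReal_zero] at h3
  refine tendsto_of_tendsto_of_tendsto_of_le_of_le' tendsto_const_nhds h3
    (Eventually.of_forall fun _ => zero_le) ?_
  filter_upwards [self_mem_nhdsWithin] with t ht using hle t ht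

end Crest.Agent.R017.Theta

end
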