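import Crest.Agent.R017.ThDefs

/-! # Row 17, cubic theta: the Bessel function -/

set_option autoImplicit false

noncomputable section

open scoped BigOperators ComplexConjugate Topology ENNReal
open Complex MeasureTheory Filter Set

namespace Crest.Agent.R017.Theta

theorem kb_anti {x y : ℝ} (h : x ≤ y) : Phi y ≤ Phi x :=
  Real.exp_le_exp.2 (neg_le_neg (mul_le_mul_of_nonneg_left h c0_pos.le))

theorem kb_add (x y : ℝ) : Phi (x + y) = Phi x * Phi y := by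
  unfold Phi
  rw [← Real.exp_add]
  congr 1
  ring

theorem kb_meas (x : ℝ) : Measurable (fun y : ℝ => y ^ (-(2 / 3) : ℝ) * Phi (x * (y + y⁻¹))) := by
  unfold Phi
  fun_prop

theorem kb_pos {x y : ℝ} (hy : 0 < y) : 0 < y ^ (-(2 / 3) : ℝ) * Phi (x * (y + y⁻¹)) :=
  mul_pos (Real.rpow_pos_of_pos hy _) (Phi_pos _)

theorem kb_mono {x x' y : ℝ} (h : x ≤ x') (hy : 0 < y) :
    y ^ (-(2 / 3) : ℝ) * Phi (x' * (y + y⁻¹)) ≤ y ^ (-(2 / 3) : ℝ) * Phi (x * (y + y⁻¹)) :=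
  mul_le_mul_of_nonneg_left (kb_anti (mul_le_mul_of_nonneg_right h (by positivity)))
    (Real.rpow_pos_of_pos hy _).le

theorem integrableOn_K1 {x : ℝ} (hx : 0 < x) :
    IntegrableOn (fun y : ℝ => y ^ (-(2 / 3) : ℝ) * Phi (x * (y + y⁻¹))) (Ioi 0) := by
  have h := integrableOn_rpow_mul_exp_neg_mul_rpow (s := -(2 / 3)) (p := 1) (b := c0 * x)
    (by norm_num) one_pos (mul_pos c0_pos hx)
  refine h.mono' (kb_meas x).aestronglyMeasurable
    ((ae_restrict_iff' measurableSet_Ioi).2 (ae_of_all _ fun y (hy : 0 < y) => ?_))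
  rw [Real.norm_of_nonneg (kb_pos hy).le, Real.rpow_one]
  refine mul_le_mul_of_nonneg_left ?_ (Real.rpow_pos_of_pos hy _).le
  refine (kb_anti (show x * y ≤ x * (y + y⁻¹) from
    mul_le_mul_of_nonneg_left (le_add_of_nonneg_right (inv_pos.2 hy).le) hx.le)).trans_eq ?_
  unfold Phi
  congr 1
  ring
theorem K1_pos {x : ℝ} (hx : 0 < x) : 0 < K1 x := by
  unfold K1
  rw [setIntegral_pos_iff_support_of_nonneg_ae
    ((ae_restrict_iff' measurableSet_Ioi).2 (ae_of_all _ fun y (hy : 0 < y) => (kb_pos hy).le))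
    (integrableOn_K1 hx), inter_eq_right.2 (show Ioi (0 : ℝ) ⊆ _ from
      fun y hy => Function.mem_support.2 (kb_pos hy).ne')]
  simp
theorem K1_anti {x x' : ℝ} (hx : 0 < x) (h : x ≤ x') : K1 x' ≤ K1 x :=
  setIntegral_mono_on (integrableOn_K1 (hx.trans_le h)) (integrableOn_K1 hx) measurableSet_Ioi
    fun _ hy => kb_mono h hy
theorem continuousOn_K1 : ContinuousOn K1 (Ioi 0) := by
  intro x₀ (hx₀ : 0 < x₀)
  refine ContinuousAt.continuousWithinAt ?_
  refine continuousAt_of_dominated (Eventually.of_forall fun x => (kb_meas x).aestronglyMeasurable) ?_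
    (integrableOn_K1 (half_pos hx₀)) (ae_of_all _ fun y => ?_)
  · filter_upwards [Ioi_mem_nhds (half_lt_self hx₀)] with x hx
    refine (ae_restrict_iff' measurableSet_Ioi).2 (ae_of_all _ fun y (hy : 0 < y) => ?_)
    rw [Real.norm_of_nonneg (kb_pos hy).le]
    exact kb_mono (le_of_lt hx) hy
  · unfold Phi
    fun_prop
/-- `x (y + 1/y) ≥ (2 x - δ) + (δ/2)(y + 1/y)`. -/
theorem K1_le {δ : ℝ} (hδ : 0 < δ) : ∃ C : ℝ, 0 ≤ C ∧ ∀ x, δ ≤ x → K1 x ≤ C * Phi x := by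
  refine ⟨K1 (δ / 2), (K1_pos (half_pos hδ)).le, fun x hx => ?_⟩
  unfold K1
  rw [← integral_mul_const]
  refine setIntegral_mono_on (integrableOn_K1 (hδ.trans_le hx))
    ((integrableOn_K1 (half_pos hδ)).mul_const _) measurableSet_Ioi fun y (hy : 0 < y) => ?_
  rw [mul_assoc, ← kb_add]
  refine mul_le_mul_of_nonneg_left (kb_anti ?_) (Real.rpow_pos_of_pos hy _).le
  have h1 : 2 ≤ y + y⁻¹ := by
    have h2 : y + y⁻¹ - 2 = (y - 1) ^ 2 / y := by field_simp; ring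
    have h3 : 0 ≤ (y - 1) ^ 2 / y := by positivity
    linarith
  nlinarith
theorem kb_one_le {c : O} (hc : c ≠ 0) : 1 ≤ ‖emb c‖ := by
  rw [norm_emb]
  exact Real.one_le_sqrt.2 (one_le_Nr hc)

theorem kb_summable {δ : ℝ} (hδ : 0 < δ) (A : ℝ) :
    Summable (fun c : O => Nr c ^ A * (if c = 0 then 0 else Phi (δ * ‖emb c‖))) := by
  obtain ⟨C, hC⟩ := Phi_le_rpow (A := 2 * (|A| + 2)) (by positivity)
  refine Summable.of_nonneg_of_le (fun c => mul_nonneg (Real.rpow_nonneg (Nr_nonneg c) _) ?_) (fun c => ?_)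
    ((summable_Nr_rpow one_lt_two).mul_left (|C| * δ ^ (-(2 * (|A| + 2)))))
  · split_ifs
    · exact le_rfl
    · exact (Phi_pos _).le
  · split_ifs with hc
    · rw [mul_zero]
      exact mul_nonneg (by positivity) (Real.rpow_nonneg (Nr_nonneg c) _)
    · have h1 := kb_one_le hc
      have h2 := one_le_Nr hc
      have h3 := hC (δ * ‖emb c‖) (by positivity)
      have h4 : ‖emb c‖ ^ (-(2 * (|A| + 2))) = Nr c ^ (-(|A| + 2)) := by
        rw [norm_emb, Real.sqrt_eq_rpow, ← Real.rpow_mul (by linarith)]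
        congr 1
        ring
      rw [Real.mul_rpow hδ.le (by linarith), h4] at h3
      have h5 : Nr c ^ A * Nr c ^ (-(|A| + 2)) ≤ Nr c ^ (-(2 : ℝ)) := by
        rw [← Real.rpow_add (by linarith)]
        exact Real.rpow_le_rpow_of_exponent_le h2 (by linarith [le_abs_self A])
      calc _ ≤ Nr c ^ A * (|C| * (δ ^ (-(2 * (|A| + 2))) * Nr c ^ (-(|A| + 2)))) :=
            mul_le_mul_of_nonneg_left (h3.trans (mul_le_mul_of_nonneg_right (le_abs_self C)
              (by positivity))) (by positivity)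
        _ = |C| * δ ^ (-(2 * (|A| + 2))) * (Nr c ^ A * Nr c ^ (-(|A| + 2))) := by ring
        _ ≤ _ := mul_le_mul_of_nonneg_left h5 (by positivity)

theorem kb_nonneg {δ : ℝ} (hδ : 0 < δ) (A : ℝ) (c : O) :
    0 ≤ Nr c ^ A * (if c = 0 then 0 else K1 (δ * ‖emb c‖)) := by
  refine mul_nonneg (Real.rpow_nonneg (Nr_nonneg c) _) ?_
  split_ifs with hc
  · exact le_rfl
  · exact (K1_pos (mul_pos hδ (by linarith [kb_one_le hc]))).le

theorem kb_two_le : 2 ≤ c0 := by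
  unfold c0
  have h1 : Real.sqrt 3 ≤ 2 := Real.sqrt_le_iff.2 ⟨by norm_num, by norm_num⟩
  rw [le_div_iff₀ (by positivity)]
  linarith [Real.pi_gt_three]

theorem summable_K1 {δ : ℝ} (hδ : 0 < δ) (A : ℝ) :
    Summable (fun c : O => Nr c ^ A * (if c = 0 then 0 else K1 (δ * ‖emb c‖))) := by
  obtain ⟨C, hC, H⟩ := K1_le hδ
  refine Summable.of_nonneg_of_le (kb_nonneg hδ A) (fun c => ?_) ((kb_summable hδ A).mul_left C)
  rw [mul_left_comm]
  refine mul_le_mul_of_nonneg_left ?_ (Real.rpow_nonneg (Nr_nonneg c) _)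
  split_ifs with hc
  · rw [mul_zero]
  · exact H _ (le_mul_of_one_le_right hδ.le (kb_one_le hc))
/-- Rapid decay of Bessel series. -/
theorem tsum_K1_le {δ : ℝ} (hδ : 0 < δ) (A : ℝ) : ∃ C : ℝ, ∀ x, δ ≤ x →
    ∑' c : O, Nr c ^ A * (if c = 0 then 0 else K1 (x * ‖emb c‖)) ≤ C * Real.exp (-x) := by
  obtain ⟨C, hC, H⟩ := K1_le hδ
  refine ⟨C * ∑' c : O, Nr c ^ A * (if c = 0 then 0 else Phi (δ / 2 * ‖emb c‖)), fun x hx => ?_⟩
  have hx0 : 0 < x := hδ.trans_le hx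
  rw [mul_right_comm, ← tsum_mul_left]
  refine (summable_K1 hx0 A).tsum_le_tsum (fun c => ?_) ((kb_summable (half_pos hδ) A).mul_left _)
  rw [mul_left_comm]
  refine mul_le_mul_of_nonneg_left ?_ (Real.rpow_nonneg (Nr_nonneg c) _)
  split_ifs with hc
  · rw [mul_zero]
  · have h1 := kb_one_le hc
    refine (H _ (hx.trans (le_mul_of_one_le_right hx0.le h1))).trans ?_
    rw [mul_assoc]
    refine mul_le_mul_of_nonneg_left ?_ hC
    unfold Phi
    rw [← Real.exp_add]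
    refine Real.exp_le_exp.2 ?_
    have h2 : x ≤ x * ‖emb c‖ := le_mul_of_one_le_right hx0.le h1
    have h3 : δ * ‖emb c‖ ≤ x * ‖emb c‖ := mul_le_mul_of_nonneg_right hx (by linarith)
    have h4 := kb_two_le
    nlinarith
theorem kb_cpow {x : ℝ} (hx : 0 < x) (s : ℂ) : (x : ℂ) ^ s = Complex.exp ((Real.log x : ℝ) * s) := by
  rw [Complex.cpow_def_of_ne_zero (ofReal_ne_zero.2 hx.ne'), ← Complex.ofReal_log hx.le]

/-- the real part of the two-variable integrand -/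
def kb_g (x a : ℝ) : ℝ := a ^ (-(2 / 3) : ℝ) * Real.exp (-(c0 * a)) * Real.exp (-(c0 / a) * x ^ (2 : ℝ))

theorem kb_g_nonneg (x : ℝ) {a : ℝ} (ha : 0 < a) : 0 ≤ kb_g x a := by
  unfold kb_g
  positivity

theorem kb_sub {x : ℝ} (hx : 0 < x) : ∫ a in Ioi (0 : ℝ), kb_g x a = x ^ (1 / 3 : ℝ) * K1 x := by
  have h1 := integral_comp_mul_left_Ioi (kb_g x) 0 hx
  rw [mul_zero, smul_eq_mul] at h1
  have h2 : ∫ y in Ioi (0 : ℝ), kb_g x (x * y) = x ^ (-(2 / 3) : ℝ) * K1 x := by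
    unfold K1
    rw [← integral_const_mul]
    refine setIntegral_congr_fun measurableSet_Ioi fun y (hy : 0 < y) => ?_
    simp only [kb_g, Phi]
    rw [Real.mul_rpow hx.le hy.le, mul_assoc, ← Real.exp_add, mul_assoc, Real.rpow_two]
    congr 3
    field_simp
    ring
  have h3 : x ^ (1 / 3 : ℝ) = x * x ^ (-(2 / 3) : ℝ) := by
    rw [← Real.rpow_one_add' hx.le (by norm_num)]
    norm_num
  rw [h3, mul_assoc, ← h2, h1, mul_inv_cancel_left₀ hx.ne']

/-- the two-variable integrand -/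
def kb_F (w : ℂ) (x a : ℝ) : ℂ := (x : ℂ) ^ (w - 1 / 3 - 1) * (kb_g x a : ℂ)

theorem kb_F_left (w : ℂ) {x : ℝ} (hx : 0 < x) :
    ∫ a in Ioi (0 : ℝ), kb_F w x a = (x : ℂ) ^ (w - 1) • (K1 x : ℂ) := by
  unfold kb_F
  rw [integral_const_mul, integral_complex_ofReal, kb_sub hx, ofReal_mul, ofReal_cpow hx.le, ← mul_assoc,
    ← cpow_add _ _ (ofReal_ne_zero.2 hx.ne'), smul_eq_mul]
  congr 2
  push_cast
  ring

theorem kb_F_norm (w : ℂ) {x a : ℝ} (hx : 0 < x) (ha : 0 < a) :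
    ‖kb_F w x a‖ = a ^ (-(2 / 3) : ℝ) * Real.exp (-(c0 * a)) *
      (x ^ (w.re - 4 / 3) * Real.exp (-(c0 / a) * x ^ (2 : ℝ))) := by
  unfold kb_F
  rw [norm_mul, norm_cpow_eq_rpow_re_of_pos hx, norm_real, Real.norm_of_nonneg (kb_g_nonneg x ha)]
  have : (w - 1 / 3 - 1).re = w.re - 4 / 3 := by
    simp only [sub_re, one_re, div_ofNat_re]
    ring
  rw [this, kb_g]
  ring

theorem kb_F_meas (w : ℂ) : Measurable (Function.uncurry (kb_F w)) := by
  unfold kb_F kb_g Function.uncurry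
  refine Measurable.mul (Measurable.pow_const (by fun_prop) _) (measurable_ofReal.comp ?_)
  fun_prop

theorem kb_F_int {w : ℂ} (hw : 1 / 3 < w.re) : Integrable (Function.uncurry (kb_F w))
    ((volume.restrict (Ioi (0 : ℝ))).prod (volume.restrict (Ioi (0 : ℝ)))) := by
  have hc := c0_pos
  rw [integrable_prod_iff' (kb_F_meas w).aestronglyMeasurable]
  constructor
  · refine (ae_restrict_iff' measurableSet_Ioi).2 (ae_of_all _ fun a (ha : 0 < a) => ?_)
    have h := (integrableOn_rpow_mul_exp_neg_mul_rpow (s := w.re - 4 / 3) (p := 2) (b := c0 / a)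
      (by linarith) two_pos (div_pos hc ha)).const_mul (a ^ (-(2 / 3) : ℝ) * Real.exp (-(c0 * a)))
    refine h.mono' ((kb_F_meas w).comp measurable_prodMk_right).aestronglyMeasurable
      ((ae_restrict_iff' measurableSet_Ioi).2 (ae_of_all _ fun x (hx : 0 < x) => ?_))
    exact (kb_F_norm w hx ha).le
  · have h := (integrableOn_rpow_mul_exp_neg_mul_rpow (s := w.re / 2 - 5 / 6) (p := 1) (b := c0)
      (by linarith) one_pos hc).const_mul
      (c0 ^ (-(w.re - 4 / 3 + 1) / 2) * (1 / 2) * Real.Gamma ((w.re - 4 / 3 + 1) / 2))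
    refine h.congr ((ae_restrict_iff' measurableSet_Ioi).2 (ae_of_all _ fun a (ha : 0 < a) => ?_))
    have h1 : ∫ x in Ioi (0 : ℝ), ‖Function.uncurry (kb_F w) (x, a)‖ =
        ∫ x in Ioi (0 : ℝ), a ^ (-(2 / 3) : ℝ) * Real.exp (-(c0 * a)) *
          (x ^ (w.re - 4 / 3) * Real.exp (-(c0 / a) * x ^ (2 : ℝ))) :=
      setIntegral_congr_fun measurableSet_Ioi fun x (hx : 0 < x) => kb_F_norm w hx ha
    simp only
    rw [h1, integral_const_mul, _root_.integral_rpow_mul_exp_neg_mul_rpow two_pos (by linarith) (div_pos hc ha),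
      Real.div_rpow hc.le ha.le, Real.rpow_one, neg_mul]
    have h2 : a ^ (w.re / 2 - 5 / 6) = a ^ (-(2 / 3) : ℝ) / a ^ (-(w.re - 4 / 3 + 1) / 2) := by
      rw [← Real.rpow_sub ha]
      congr 1
      ring
    rw [h2]
    ring

theorem kb_F_right {w : ℂ} (hw : 1 / 3 < w.re) {a : ℝ} (ha : 0 < a) :
    ∫ x in Ioi (0 : ℝ), kb_F w x a = (1 / 2 : ℂ) * (c0 : ℂ) ^ (-(w / 2 - 1 / 6)) *
      Complex.Gamma (w / 2 - 1 / 6) * ((a : ℂ) ^ (w / 2 + 1 / 6 - 1) * Complex.exp (-(c0 * a))) := by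
  have hc := c0_pos
  have h1 := mellin_comp_rpow (fun t : ℝ => Complex.exp (-(((c0 / a : ℝ) : ℂ) * t))) (w - 1 / 3) 2
  have h2 : (w - 1 / 3) / ((2 : ℝ) : ℂ) = w / 2 - 1 / 6 := by
    push_cast
    ring
  have h3 : 0 < (w / 2 - 1 / 6).re := by
    simp only [sub_re, div_ofNat_re, one_re]
    linarith
  rw [h2] at h1
  simp only [mellin, smul_eq_mul] at h1
  rw [integral_cpow_mul_exp_neg_mul_Ioi h3 (div_pos hc ha)] at h1
  have h4 : ∫ x in Ioi (0 : ℝ), kb_F w x a =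
      ∫ x in Ioi (0 : ℝ), ((a ^ (-(2 / 3) : ℝ) * Real.exp (-(c0 * a)) : ℝ) : ℂ) *
        ((x : ℂ) ^ (w - 1 / 3 - 1) * Complex.exp (-(((c0 / a : ℝ) : ℂ) * ((x ^ (2 : ℝ) : ℝ) : ℂ)))) := by
    refine setIntegral_congr_fun measurableSet_Ioi fun x _ => ?_
    simp only [kb_F, kb_g, ofReal_mul, ofReal_exp, ofReal_neg, neg_mul]
    ring
  rw [h4, integral_const_mul, h1, ← ofReal_one, ← ofReal_div, kb_cpow (one_div_pos.2 (div_pos hc ha)),
    kb_cpow hc, kb_cpow ha, Real.rpow_def_of_pos ha, one_div_div, Real.log_div ha.ne' hc.ne']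
  have h5 : Complex.exp ((Real.log a : ℝ) * (w / 2 + 1 / 6 - 1)) *
      Complex.exp ((Real.log c0 : ℝ) * -(w / 2 - 1 / 6)) =
      Complex.exp ((Real.log a : ℝ) * -(2 / 3)) *
        Complex.exp (((Real.log a : ℝ) - (Real.log c0 : ℝ)) * (w / 2 - 1 / 6)) := by
    rw [← Complex.exp_add, ← Complex.exp_add]
    congr 1
    ring
  simp only [abs_two, real_smul]
  push_cast
  linear_combination (-(1 / 2 : ℂ) * Complex.Gamma (w / 2 - 1 / 6) * Complex.exp (-(c0 * a))) * h5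

theorem mellinConvergent_K1 {w : ℂ} (hw : 1 / 3 < w.re) :
    MellinConvergent (fun x => (K1 x : ℂ)) w :=
  (kb_F_int hw).integral_prod_left.congr
    ((ae_restrict_iff' measurableSet_Ioi).2 (ae_of_all _ fun _ hx => kb_F_left w hx))
/-- Substitute `y = a / x`, Fubini, two Gamma integrals. -/
theorem mellin_K1 {w : ℂ} (hw : 1 / 3 < w.re) :
    mellin (fun x => (K1 x : ℂ)) w = (1 / 2 : ℂ) * (c0 : ℂ) ^ (-w) *
      (Complex.Gamma (w / 2 + 1 / 6) * Complex.Gamma (w / 2 - 1 / 6)) := by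
  have hc := c0_pos
  have h1 : mellin (fun x => (K1 x : ℂ)) w = ∫ x in Ioi (0 : ℝ), ∫ a in Ioi (0 : ℝ), kb_F w x a :=
    setIntegral_congr_fun measurableSet_Ioi fun x hx => (kb_F_left w hx).symm
  have h3 : 0 < (w / 2 + 1 / 6).re := by
    simp only [add_re, div_ofNat_re, one_re]
    linarith
  rw [h1, integral_integral_swap (kb_F_int hw),
    setIntegral_congr_fun measurableSet_Ioi fun a ha => kb_F_right hw ha, integral_const_mul,
    integral_cpow_mul_exp_neg_mul_Ioi h3 hc, ← ofReal_one, ← ofReal_div, kb_cpow (one_div_pos.2 hc),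
    kb_cpow hc, kb_cpow hc, one_div c0, Real.log_inv]
  have h5 : Complex.exp ((Real.log c0 : ℝ) * -(w / 2 - 1 / 6)) *
      Complex.exp (-(Real.log c0 : ℝ) * (w / 2 + 1 / 6)) = Complex.exp ((Real.log c0 : ℝ) * -w) := by
    rw [← Complex.exp_add]
    congr 1
    ring
  push_cast
  linear_combination ((1 / 2 : ℂ) * Complex.Gamma (w / 2 - 1 / 6) * Complex.Gamma (w / 2 + 1 / 6)) * h5
theorem fk_eq {ν v y : ℝ} (hν : 0 < ν) (hy : 0 < y) :
    fk ν v y = ν⁻¹ * f1 (v * (Real.sqrt ν / 9)) (y / (Real.sqrt ν / 9)) := by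
  have hs := Real.sqrt_pos.2 hν
  have hs2 := Real.mul_self_sqrt hν.le
  set s := Real.sqrt ν
  unfold fk f1
  have e1 : v / (81 * y) = ν⁻¹ * (v * (s / 9) / (y / (s / 9))) := by
    rw [← hs2]
    field_simp
    norm_num
  have e2 : v * y + v * ν / (81 * y) = v * (s / 9) * (y / (s / 9) + (y / (s / 9))⁻¹) := by
    rw [← hs2]
    field_simp
    ring
  rw [mul_assoc, ← kb_add, e1, e2, mul_assoc]
theorem Me_fk {ν v : ℝ} (hν : 0 < ν) (hv : 0 < v) :
    Me (fun y => (fk ν v y : ℂ)) =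
      ((ν ^ (1 / 6 : ℝ) * ((9 : ℝ) ^ (-(7 / 3) : ℝ) * v * K1 (v * Real.sqrt ν / 9)) : ℝ) : ℂ) := by
  have hs : 0 < Real.sqrt ν / 9 := div_pos (Real.sqrt_pos.2 hν) (by norm_num)
  unfold Me
  simp only [← ofReal_mul]
  rw [integral_complex_ofReal]
  congr 1
  have h1 := integral_comp_mul_left_Ioi (fun y => fk ν v y * y ^ (1 / 3 : ℝ)) 0 hs
  rw [mul_zero, smul_eq_mul] at h1
  have h2 : ∫ u in Ioi (0 : ℝ), fk ν v (Real.sqrt ν / 9 * u) * (Real.sqrt ν / 9 * u) ^ (1 / 3 : ℝ) =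
      ν⁻¹ * v * (Real.sqrt ν / 9) * (Real.sqrt ν / 9) ^ (1 / 3 : ℝ) * K1 (v * Real.sqrt ν / 9) := by
    unfold K1
    rw [← integral_const_mul]
    refine setIntegral_congr_fun measurableSet_Ioi fun u (hu : 0 < u) => ?_
    have h3 : u ^ (1 / 3 : ℝ) = u * u ^ (-(2 / 3) : ℝ) := by
      rw [← Real.rpow_one_add' hu.le (by norm_num)]
      norm_num
    rw [fk_eq hν (mul_pos hs hu), mul_div_cancel_left₀ _ hs.ne', f1, Real.mul_rpow hs.le hu.le, h3,
      mul_div_assoc v (Real.sqrt ν)]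
    field_simp
  have h4 : ν⁻¹ * (Real.sqrt ν / 9 * (Real.sqrt ν / 9) * (Real.sqrt ν / 9) ^ (1 / 3 : ℝ)) =
      ν ^ (1 / 6 : ℝ) * (9 : ℝ) ^ (-(7 / 3) : ℝ) := by
    have h5 : Real.sqrt ν / 9 * (Real.sqrt ν / 9) * (Real.sqrt ν / 9) ^ (1 / 3 : ℝ) =
        (Real.sqrt ν / 9) ^ (7 / 3 : ℝ) := by
      rw [← sq, ← Real.rpow_two, ← Real.rpow_add hs]
      norm_num
    rw [h5, Real.div_rpow (Real.sqrt_nonneg _) (by norm_num), Real.sqrt_eq_rpow, ← Real.rpow_mul hν.le,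
      ← Real.rpow_neg_one, ← mul_div_assoc, ← Real.rpow_add hν, Real.rpow_neg (by norm_num),
      div_eq_mul_inv]
    norm_num
  rw [h2] at h1
  rw [← mul_inv_cancel_left₀ hs.ne' (∫ y in Ioi (0 : ℝ), fk ν v y * y ^ (1 / 3 : ℝ)), ← h1]
  linear_combination (v * K1 (v * Real.sqrt ν / 9)) * h4

end Crest.Agent.R017.Theta

end
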