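import Crest.Agent.R017.ThGeo2
import Crest.Agent.R017.ThFd

/-! # Row 17, cubic theta: local mean square convergence -/

set_option autoImplicit false

noncomputable section

open scoped BigOperators ComplexConjugate Topology ENNReal
open Complex MeasureTheory Filter Set

namespace Crest.Agent.R017.Theta

theorem l2_sq_add (a b : ℂ) : ‖a + b‖ₑ ^ 2 ≤ 2 * ‖a‖ₑ ^ 2 + 2 * ‖b‖ₑ ^ 2 := by
  have h : ‖a + b‖₊ ^ 2 ≤ 2 * ‖a‖₊ ^ 2 + 2 * ‖b‖₊ ^ 2 := by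
    rw [← NNReal.coe_le_coe]
    push_cast
    have h1 := norm_add_le a b
    have h2 := norm_nonneg (a + b)
    nlinarith [sq_nonneg (‖a‖ - ‖b‖), norm_nonneg a, norm_nonneg b]
  simp only [enorm_eq_nnnorm]
  exact_mod_cast h

theorem l2_aem {f : ℂ × ℝ → ℂ} (hf : ContinuousOn f Hs) :
    AEMeasurable (fun w => ‖f w‖ₑ ^ 2) muH :=
  (aesm_muH hf).enorm.pow_const 2

theorem l2_comp {f : ℝ → ℂ × ℝ → ℂ} (hf : L2z f) {φ : ℂ × ℝ → ℂ × ℝ}
    (hm : MeasurePreserving φ muH muH) (hc : ContinuousOn φ Hs) (hmaps : MapsTo φ Hs Hs) :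
    L2z (fun t w => f t (φ w)) := by
  refine ⟨fun t ht => (hf.cont t ht).comp hc hmaps, fun K hK hK' => ?_⟩
  have hK1 : IsCompact (φ '' K) := hK.image_of_continuousOn (hc.mono hK')
  have hK2 : φ '' K ⊆ Hs := by
    rintro _ ⟨w, hw, rfl⟩
    exact hmaps (hK' hw)
  refine tendsto_of_tendsto_of_tendsto_of_le_of_le' tendsto_const_nhds (hf.lim _ hK1 hK2)
    (Eventually.of_forall fun _ => bot_le) ?_
  filter_upwards [self_mem_nhdsWithin] with t ht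
  have h1 := hm.restrict_preimage hK1.measurableSet
  calc ∫⁻ w in K, ‖f t (φ w)‖ₑ ^ 2 ∂muH ≤ ∫⁻ w in φ ⁻¹' (φ '' K), ‖f t (φ w)‖ₑ ^ 2 ∂muH :=
        lintegral_mono_set (subset_preimage_image φ K)
    _ = ∫⁻ w in φ '' K, ‖f t w‖ₑ ^ 2 ∂muH := by
        rw [← h1.map_eq, lintegral_map' _ h1.measurable.aemeasurable]
        rw [h1.map_eq]
        exact (l2_aem (hf.cont t ht)).restrict

theorem L2z.congr {f g : ℝ → ℂ × ℝ → ℂ} (h : L2z f) (e : ∀ t, 0 < t → ∀ w ∈ Hs, f t w = g t w) :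
    L2z g := by
  refine ⟨fun t ht => (h.cont t ht).congr fun w hw => (e t ht w hw).symm, fun K hK hK' => ?_⟩
  refine (h.lim K hK hK').congr' ?_
  filter_upwards [self_mem_nhdsWithin] with t ht
  refine setLIntegral_congr_fun hK.measurableSet fun w hw => ?_
  simp only [e t ht w (hK' hw)]

theorem L2z.add {f g : ℝ → ℂ × ℝ → ℂ} (hf : L2z f) (hg : L2z g) : L2z (fun t w => f t w + g t w) := by
  refine ⟨fun t ht => (hf.cont t ht).add (hg.cont t ht), fun K hK hK' => ?_⟩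
  have h1 := (ENNReal.Tendsto.const_mul (a := 2) (hf.lim K hK hK') (Or.inr (by simp))).add
    (ENNReal.Tendsto.const_mul (a := 2) (hg.lim K hK hK') (Or.inr (by simp)))
  simp only [mul_zero, add_zero] at h1
  refine tendsto_of_tendsto_of_tendsto_of_le_of_le' tendsto_const_nhds h1
    (Eventually.of_forall fun _ => bot_le) ?_
  filter_upwards [self_mem_nhdsWithin] with t ht
  rw [← lintegral_const_mul' _ _ (by simp), ← lintegral_const_mul' _ _ (by simp),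
    ← lintegral_add_left' ((l2_aem (hf.cont t ht)).restrict.const_mul 2)]
  exact lintegral_mono fun w => l2_sq_add _ _

theorem L2z.const_mul {f : ℝ → ℂ × ℝ → ℂ} (hf : L2z f) (κ : ℂ) : L2z (fun t w => κ * f t w) := by
  refine ⟨fun t ht => continuousOn_const.mul (hf.cont t ht), fun K hK hK' => ?_⟩
  have h1 := ENNReal.Tendsto.const_mul (a := ‖κ‖ₑ ^ 2) (hf.lim K hK hK') (Or.inr (by simp))
  simp only [mul_zero] at h1
  refine h1.congr fun t => ?_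
  rw [← lintegral_const_mul' _ _ (by simp)]
  refine lintegral_congr fun w => ?_
  rw [enorm_mul, mul_pow]

theorem L2z.sub {f g : ℝ → ℂ × ℝ → ℂ} (hf : L2z f) (hg : L2z g) : L2z (fun t w => f t w - g t w) :=
  (hf.add (hg.const_mul (-1))).congr fun t _ w _ => by ring

theorem L2z.comp_mob {f : ℝ → ℂ × ℝ → ℂ} (hf : L2z f) (g : SG) : L2z (fun t w => f t (mob g w)) :=
  l2_comp hf (mp_mob g) (continuousOn_mob g) (fun _ hw => mob_mem g hw)

theorem L2z.comp_rfl {f : ℝ → ℂ × ℝ → ℂ} (hf : L2z f) (z₀ : ℂ) :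
    L2z (fun t w => f t (rfl' z₀ w)) := by
  refine l2_comp hf (mp_rfl' z₀) ?_ (fun _ hw => hw)
  unfold rfl'
  fun_prop

theorem L2z.eq_zero {g : ℂ × ℝ → ℂ} (h : L2z (fun _ => g)) : ∀ w ∈ Hs, g w = 0 := by
  intro w₀ hw₀
  by_contra hne
  have hc : ContinuousOn g Hs := h.cont 1 one_pos
  obtain ⟨K, hK, hw, hKs⟩ := exists_compact_subset isOpen_Hs hw₀
  have h0 : ∫⁻ w in K, ‖g w‖ₑ ^ 2 ∂muH = 0 :=
    tendsto_nhds_unique tendsto_const_nhds (h.lim K hK hKs)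
  rw [lintegral_eq_zero_iff' (l2_aem hc).restrict] at h0
  have hV : IsOpen (interior K ∩ g ⁻¹' {0}ᶜ) :=
    (hc.mono (interior_subset.trans hKs)).isOpen_inter_preimage isOpen_interior
      isOpen_compl_singleton
  have hpos := muH_open_pos hV (inter_subset_left.trans (interior_subset.trans hKs))
    ⟨w₀, hw, hne⟩
  have h1 := (ae_restrict_iff' hK.measurableSet).1 h0
  refine hpos.ne' (measure_mono_null ?_ (ae_iff.1 h1))
  rintro w ⟨hw1, hw2⟩ hw3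
  have h2 := hw3 (interior_subset hw1)
  simp only [Pi.zero_apply, ne_eq, OfNat.ofNat_ne_zero, not_false_eq_true, pow_eq_zero_iff,
    enorm_eq_zero] at h2
  exact hw2 h2

theorem L2z.of_unif {f : ℝ → ℂ × ℝ → ℂ} (hc : ∀ t, 0 < t → ContinuousOn (f t) Hs)
    (h : ∀ v₁ v₂ ε : ℝ, 0 < v₁ → v₁ < v₂ → 0 < ε → ∃ t₀ : ℝ, 0 < t₀ ∧ ∀ t, 0 < t → t < t₀ →
      ∀ w : ℂ × ℝ, w.2 ∈ Icc v₁ v₂ → ‖f t w‖ ≤ ε) : L2z f := by
  refine ⟨hc, fun K hK hK' => ?_⟩
  obtain ⟨S, v₁, v₂, h1, h2, hcov⟩ := exists_cover hK hK'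
  have hM := muH_compact_lt_top hK hK'
  rw [ENNReal.tendsto_nhds_zero]
  intro ε hε
  have ht : Tendsto (fun δ : ℝ => ENNReal.ofReal δ ^ 2 * muH K) (𝓝[>] 0) (𝓝 0) := by
    have h3 : Tendsto (fun δ : ℝ => ENNReal.ofReal δ ^ 2) (𝓝[>] 0) (𝓝 0) := by
      have h4 : Tendsto (fun δ : ℝ => ENNReal.ofReal δ) (𝓝[>] 0) (𝓝 0) := by
        simpa using (ENNReal.continuous_ofReal.tendsto 0).mono_left nhdsWithin_le_nhds
      simpa using ENNReal.Tendsto.pow (n := 2) h4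
    simpa using ENNReal.Tendsto.mul_const h3 (Or.inr hM.ne)
  obtain ⟨δ, hδ1, hδ⟩ := (((ENNReal.tendsto_nhds_zero.1 ht) ε hε).and self_mem_nhdsWithin).exists
  obtain ⟨t₀, ht₀, hb⟩ := h v₁ v₂ δ h1 h2 hδ
  filter_upwards [Ioo_mem_nhdsGT ht₀] with t ht
  refine le_trans ?_ hδ1
  rw [← setLIntegral_const]
  refine setLIntegral_mono' hK.measurableSet fun w hw => ?_
  obtain ⟨z₀, -, hz⟩ := mem_iUnion₂.1 (hcov hw)
  have h5 := hb t ht.1 ht.2 w hz.2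
  gcongr
  rw [← ofReal_norm]
  exact ENNReal.ofReal_le_ofReal h5

theorem L2z.of_box {f : ℝ → ℂ × ℝ → ℂ} (hc : ∀ t, 0 < t → ContinuousOn (f t) Hs)
    (h : ∀ (z₀ : ℂ) (v₁ v₂ : ℝ), 0 < v₁ → v₁ < v₂ →
      Tendsto (fun t => ∫⁻ w in Fd z₀ ×ˢ Icc v₁ v₂, ‖f t w‖ₑ ^ 2 ∂muH) (𝓝[>] 0) (𝓝 0)) :
    L2z f := by
  refine ⟨hc, fun K hK hK' => ?_⟩
  obtain ⟨S, v₁, v₂, h1, h2, hcov⟩ := exists_cover hK hK'
  have h3 := tendsto_finsetSum S (fun z₀ _ => h z₀ v₁ v₂ h1 h2)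
  simp only [Finset.sum_const_zero] at h3
  refine tendsto_of_tendsto_of_tendsto_of_le_of_le tendsto_const_nhds h3 (fun _ => bot_le)
    fun t => ?_
  refine (lintegral_mono_set hcov).trans ?_
  rw [← Finset.set_biUnion_coe, biUnion_eq_iUnion]
  refine (lintegral_iUnion_le _ _).trans (le_of_eq ?_)
  exact Finset.tsum_subtype S (fun z₀ => ∫⁻ w in Fd z₀ ×ˢ Icc v₁ v₂, ‖f t w‖ₑ ^ 2 ∂muH)


end Crest.Agent.R017.Theta

end
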