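import Crest.Agent.R017.ThRes3
import Crest.Agent.R017.ThL2

/-! # Row 17, cubic theta: the theta function -/

set_option autoImplicit false

noncomputable section

open scoped BigOperators ComplexConjugate Topology ENNReal
open Complex MeasureTheory Filter Set

namespace Crest.Agent.R017.Theta

theorem m1t_bound {B : O × O → ℂ} (hB : Per B) {v₁ v₂ : ℝ} (h₁ : 0 < v₁) :
    ∃ u : O → ℝ, Summable u ∧ ∀ h : O, ∀ v ∈ Icc v₁ v₂, ‖if h = 0 then 0 else th B h v‖ ≤ u h := by
  obtain ⟨K, hK0, hK⟩ := norm_Tc_le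
  refine ⟨_, (summable_K1 (δ := v₁ / 9) (by positivity) (1 / 2)).mul_left
    (K * ((9 : ℝ) ^ (-(7 / 3) : ℝ) * v₂)), fun h v hv => ?_⟩
  split_ifs with h0
  · simp
  · have hv0 : 0 < v := h₁.trans_le hv.1
    have hn : 0 < ‖emb h‖ := norm_pos_iff.2 (fun e => h0 (emb_injective (by simpa using e)))
    have h2 : 0 < K1 (v * ‖emb h‖ / 9) := K1_pos (by positivity)
    have h3 : K1 (v * ‖emb h‖ / 9) ≤ K1 (v₁ / 9 * ‖emb h‖) := K1_anti (by positivity) (by
      have := mul_le_mul_of_nonneg_right hv.1 hn.le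
      linarith)
    have h4 := hv.2
    have h4' : 0 < v₂ := hv0.trans_le h4
    have h5 := hK B hB h
    unfold th
    rw [norm_mul, Complex.norm_real, Real.norm_of_nonneg (by positivity), ← Real.sqrt_eq_rpow]
    calc _ ≤ (K * Real.sqrt (Nr h)) * ((9 : ℝ) ^ (-(7 / 3) : ℝ) * v₂ * K1 (v₁ / 9 * ‖emb h‖)) := by
          gcongr
      _ = _ := by ring

theorem m1t_snd : MapsTo (fun w : ℂ × ℝ => w.2) Hs (Ioi 0) := fun _ hw => hw

theorem m1t_cont_U {B : O × O → ℂ} (hB : Per B) {t : ℝ} (ht : 0 < t) : ContinuousOn (U B t) Hs :=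
  continuousOn_Uc (norm_cf_le hB.bd) ht

theorem m1t_cont_ahf {B : O × O → ℂ} (hB : Per B) {t : ℝ} (ht : 0 < t) :
    ContinuousOn (fun w : ℂ × ℝ => ahf B 0 t w.2) Hs :=
  (continuousOn_ahf hB.bd 0 ht).comp continuousOn_snd m1t_snd

theorem m1t_rfl_mob {g : SG} (hq : g 1 0 ≠ 0) {w : ℂ × ℝ} (hw : w ∈ Hs) :
    rfl' (emb (g 0 0) / emb (g 1 0)) (mob g w) = mob g (rfl' (-(emb (g 1 1) / emb (g 1 0))) w) := by
  obtain ⟨z, v⟩ := w
  obtain ⟨ζ, rfl⟩ : ∃ ζ, z = -(emb (g 1 1) / emb (g 1 0)) + ζ := ⟨z + emb (g 1 1) / emb (g 1 0), by ring⟩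
  have e : rfl' (-(emb (g 1 1) / emb (g 1 0))) (-(emb (g 1 1) / emb (g 1 0)) + ζ, v) =
      (-(emb (g 1 1) / emb (g 1 0)) + -ζ, v) := Prod.ext (by simp only [rfl']; ring) rfl
  rw [e, mob_geod g hq ζ hw, mob_geod g hq (-ζ) hw, norm_neg, map_neg]
  exact Prod.ext (by simp only [rfl']; ring) rfl

open Classical in
theorem summable_th {B : O × O → ℂ} (hB : Per B) {v : ℝ} (hv : 0 < v) :
    Summable (fun h : O => ‖if h = 0 then 0 else th B h v‖) := by
  obtain ⟨u, hu, hb⟩ := m1t_bound hB (v₂ := v) hv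
  exact hu.of_nonneg_of_le (fun _ => norm_nonneg _) fun h => hb h v ⟨le_rfl, le_rfl⟩
theorem continuousOn_Th {B : O × O → ℂ} (hB : Per B) : ContinuousOn (Th B) Hs := by
  intro w hw
  have hw0 : 0 < w.2 := hw
  obtain ⟨u, hu, hb⟩ := m1t_bound hB (v₁ := w.2 / 2) (v₂ := 2 * w.2) (by positivity)
  have h1 : ContinuousOn (Th B) ((fun w : ℂ × ℝ => w.2) ⁻¹' Icc (w.2 / 2) (2 * w.2)) := by
    refine continuousOn_tsum (fun h => ?_) hu fun h x hx => ?_
    · split_ifs with h0
      · exact continuousOn_const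
      · refine ((continuousOn_th B h0).comp continuousOn_snd fun x hx => ?_).mul
          ((continuous_eh h).comp continuous_fst).continuousOn
        exact lt_of_lt_of_le (by positivity) hx.1
    · refine le_trans (le_of_eq ?_) (hb h x.2 hx)
      split_ifs
      · rfl
      · rw [norm_mul, norm_eh, mul_one]
  refine (h1.continuousAt ?_).continuousWithinAt
  exact continuous_snd.continuousAt.preimage_mem_nhds (Icc_mem_nhds (by linarith) (by linarith))
/-- `L2z.of_box`, `pars_box`, `U_fourier`, `ah_strong`. -/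
theorem l2z_U {B : O × O → ℂ} (hB : Per B) :
    L2z (fun t w => U B t w - ahf B 0 t w.2 - Th B w) := by
  have hc : ∀ t, 0 < t → ContinuousOn (fun w => U B t w - ahf B 0 t w.2 - Th B w) Hs :=
    fun t ht => ((m1t_cont_U hB ht).sub (m1t_cont_ahf hB ht)).sub (continuousOn_Th hB)
  refine L2z.of_box hc fun z₀ v₁ v₂ h₁ h₂ => ENNReal.tendsto_nhds_zero.2 fun ε hε => ?_
  obtain ⟨δ, -, hδ, hδε⟩ := ENNReal.lt_iff_exists_real_btwn.1 hε
  rw [ENNReal.ofReal_pos] at hδ
  obtain ⟨t₀, ht₀, hS⟩ := ah_strong hB h₁ h₂.le (div_pos hδ vF_pos)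
  filter_upwards [Ioo_mem_nhdsGT ht₀] with t ht
  have hs : ∀ v, 0 < v → Summable fun h : O =>
      ‖if h = 0 then 0 else ah B h t v - th B h v‖ := fun v hv => by
    refine ((summable_ahf hB.bd ht.1 hv).add (summable_th hB hv)).of_nonneg_of_le
      (fun _ => norm_nonneg _) fun h => ?_
    split_ifs with h0
    · simp
    · rw [ahf_of_ne h0]
      exact norm_sub_le _ _
  rw [pars_box z₀ h₁ h₂.le (hc t ht.1)
    (a := fun h v => if h = 0 then 0 else ah B h t v - th B h v) (fun h => ?_) hs fun z v hv => ?_]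
  · refine le_trans ?_ hδε.le
    rw [← mul_div_cancel₀ δ vF_pos.ne', ENNReal.ofReal_mul vF_pos.le]
    refine mul_le_mul_right (ENNReal.summable.tsum_le_of_sum_le fun S => ?_) _
    rw [← ENNReal.ofReal_sum_of_nonneg fun h _ => nI_nonneg h₁ h₂.le _]
    refine ENNReal.ofReal_le_ofReal (le_trans (le_of_eq ?_)
      (hS t ht.1 ht.2 (S.erase 0) (Finset.notMem_erase _ _)))
    rw [← Finset.sum_erase S (a := 0) (by simp [nI])]
    exact Finset.sum_congr rfl fun h hh => by simp only [if_neg (Finset.mem_erase.1 hh).1]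
  · split_ifs with h0
    · exact continuousOn_const
    · exact (continuousOn_ah hB.bd h ht.1).sub (continuousOn_th B h0)
  · have s1 : Summable fun h : O => ahf B h t v * eh h z :=
      Summable.of_norm_bounded (summable_ahf hB.bd ht.1 hv) fun h => by
        rw [norm_mul, norm_eh, mul_one]
    have s2 : Summable fun h : O => if h = 0 then 0 else ahf B h t v * eh h z :=
      Summable.of_norm_bounded s1.norm fun h => by
        split_ifs
        · rw [norm_zero]; exact norm_nonneg _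
        · rfl
    have s3 : Summable fun h : O => if h = 0 then 0 else th B h v * eh h z :=
      Summable.of_norm_bounded (summable_th hB hv) fun h => by
        split_ifs
        · rfl
        · rw [norm_mul, norm_eh, mul_one]
    rw [U_fourier hB.wt ht.1 hv, s1.tsum_eq_add_tsum_ite 0, eh_zero, mul_one, add_sub_cancel_left,
      Th, ← s2.tsum_sub s3]
    refine tsum_congr fun h => ?_
    split_ifs with h0
    · simp
    · rw [ahf_of_ne h0, sub_mul]
theorem l2z_odd {B : O × O → ℂ} (hB : Per B) (z₀ : ℂ) :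
    L2z (fun t w => (U B t w - U B t (rfl' z₀ w)) - (Th B w - Th B (rfl' z₀ w))) :=
  ((l2z_U hB).sub ((l2z_U hB).comp_rfl z₀)).congr fun t _ w _ => by
    rw [show (rfl' z₀ w).2 = w.2 from rfl]
    ring
/-- Automorphy of the odd part; `mob g` intertwines the rotations about the geodesics over `-d/q`
and `a/q` (`mob_geod`). -/
theorem Th_mob {B B' : O × O → ℂ} (hB : Per B) (hB' : Per B') {κ : ℂ} {g : SG} (hq : g 1 0 ≠ 0)
    (h : ∀ x, cf B x = κ * cf B' (ra x g)) {w : ℂ × ℝ} (hw : w ∈ Hs) :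
    Th B (mob g w) - Th B (rfl' (emb (g 0 0) / emb (g 1 0)) (mob g w)) =
      κ * (Th B' w - Th B' (rfl' (-(emb (g 1 1) / emb (g 1 0))) w)) := by
  have h1 := (((l2z_odd hB' (-(emb (g 1 1) / emb (g 1 0)))).const_mul κ).sub
    ((l2z_odd hB (emb (g 0 0) / emb (g 1 0))).comp_mob g)).congr
    (g := fun _ w => Th B (mob g w) - Th B (rfl' (emb (g 0 0) / emb (g 1 0)) (mob g w)) -
      κ * (Th B' w - Th B' (rfl' (-(emb (g 1 1) / emb (g 1 0))) w))) fun t _ w hw => by
      have e1 : U B t (mob g w) = κ * U B' t w := Uc_mob h t hw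
      have e2 : U B t (rfl' (emb (g 0 0) / emb (g 1 0)) (mob g w)) =
          κ * U B' t (rfl' (-(emb (g 1 1) / emb (g 1 0))) w) := by
        rw [m1t_rfl_mob hq hw]
        exact Uc_mob h t hw
      rw [e1, e2]
      ring
  exact sub_eq_zero.1 (h1.eq_zero w hw)
theorem m1t_const {α₀ : ℂ} (hα : Tendsto (alpha 1) (𝓝[>] 0) (𝓝 α₀)) :
    L2z (fun t w => ahf (Be 1) 0 t w.2 - ((w.2 ^ (2 / 3 : ℝ) : ℝ) : ℂ) * α₀) := by
  refine L2z.of_unif (fun t ht => (m1t_cont_ahf per_Be ht).sub (ContinuousOn.mul ?_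
    continuousOn_const)) fun v₁ v₂ ε h₁ h₂ hε => ?_
  · exact continuous_ofReal.comp_continuousOn
      (continuousOn_snd.rpow_const fun _ _ => Or.inr (by norm_num))
  have hv₂ : 0 < v₂ := h₁.trans h₂
  have hV : 0 < v₂ ^ (2 / 3 : ℝ) := by positivity
  obtain ⟨δ, hδ, hd⟩ := Metric.tendsto_nhdsWithin_nhds.1 hα (ε / 2 / v₂ ^ (2 / 3 : ℝ))
    (by positivity)
  refine ⟨min (δ / v₂) (min 1 (ε / 2)), by positivity, fun t ht ht' w hw => ?_⟩
  have hw0 : 0 < w.2 := h₁.trans_le hw.1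
  have t1 : t < δ / v₂ := ht'.trans_le (min_le_left _ _)
  have t2 : t < 1 := ht'.trans_le ((min_le_right _ _).trans (min_le_left _ _))
  have t3 : t < ε / 2 := ht'.trans_le ((min_le_right _ _).trans (min_le_right _ _))
  have h3 := hd (x := t * w.2) (show 0 < t * w.2 by positivity) (by
    rw [Real.dist_eq, sub_zero, abs_of_pos (by positivity)]
    exact (mul_le_mul_of_nonneg_left hw.2 ht.le).trans_lt ((lt_div_iff₀ hv₂).1 t1))
  rw [dist_eq_norm, lt_div_iff₀ hV] at h3
  have h4 : w.2 ^ (2 / 3 : ℝ) ≤ v₂ ^ (2 / 3 : ℝ) := Real.rpow_le_rpow hw0.le hw.2 (by norm_num)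
  have h5 : t ^ (4 / 3 : ℝ) ≤ t := by
    simpa using Real.rpow_le_rpow_of_exponent_ge ht t2.le (show (1 : ℝ) ≤ 4 / 3 by norm_num)
  have h6 : Phi (t / w.2) ≤ 1 := Phi_le_one (by positivity)
  have h7 := Phi_pos (t / w.2)
  rw [ahf_Be 1 ht hw0, add_sub_right_comm, ← mul_sub]
  refine (norm_add_le _ _).trans ?_
  rw [norm_mul, norm_mul, pw, Complex.norm_real, Complex.norm_real, Complex.norm_real,
    Real.norm_of_nonneg (by positivity), Real.norm_of_nonneg (by positivity),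
    Real.norm_of_nonneg h7.le]
  have h8 := mul_le_mul_of_nonneg_right h4 (norm_nonneg (alpha 1 (t * w.2) - α₀))
  have h9 := mul_le_mul h5 h6 h7.le ht.le
  linarith

/-- Non-vanishing: otherwise `U (Be 1) t → α₀ v^{2/3}` (`ahf_Be`, `alpha_lim`, `L2z.of_unif`), which
is not invariant under `(1 0; 9 1)` (`cf_Be_low`; test at `w = (0, 1)`). -/
theorem exists_Tc_ne : ∃ h : O, h ≠ 0 ∧ Tc (Be 1) h ≠ 0 := by
  by_contra hc
  push Not at hc
  have hT : ∀ w, Th (Be 1) w = 0 := fun w => by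
    refine (tsum_congr fun h => ?_).trans tsum_zero
    split_ifs with h0
    · rfl
    · rw [th, hc h h0, zero_mul, zero_mul]
  obtain ⟨α₀, hα₀, hα, -⟩ := alpha_lim
  have h1 := ((l2z_U per_Be).add (m1t_const hα)).congr
    (g := fun t w => U (Be 1) t w - ((w.2 ^ (2 / 3 : ℝ) : ℝ) : ℂ) * α₀) fun t _ w _ => by
      rw [hT]; ring
  set g : SG := mkSG 1 0 9 1 (by simp) with hg
  have h2 := (h1.sub (h1.comp_mob g)).congr
    (g := fun _ w => (((mob g w).2 ^ (2 / 3 : ℝ) : ℝ) : ℂ) * α₀ - ((w.2 ^ (2 / 3 : ℝ) : ℝ) : ℂ) * α₀)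
    fun t _ w hw => by
      have e1 : U (Be 1) t (mob g w) = 1 * U (Be 1) t w :=
        Uc_mob (fun x => by rw [one_mul]; exact cf_Be_low x) t hw
      rw [e1]
      ring
  have h3 := h2.eq_zero (0, 1) (show (0 : ℝ) < 1 from one_pos)
  have h4 : (mob g (0, 1)).2 = 1 / 82 := by
    have : Nr 9 = 81 := by
      have := Nr_natCast 9
      norm_num at this
      exact this
    simp only [mob, Dn, bot, hg, mkSG_10, mkSG_11, this]
    norm_num
  rw [h4, sub_eq_zero, mul_left_inj' hα₀, Complex.ofReal_inj, Real.one_rpow] at h3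
  exact (Real.rpow_lt_one (by norm_num) (by norm_num) (by norm_num)).ne h3

end Crest.Agent.R017.Theta

end
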