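import Crest.Agent.R017.ThK

/-! # Row 17, cubic theta: smoothed sums -/

set_option autoImplicit false

noncomputable section

open scoped BigOperators ComplexConjugate Topology ENNReal
open Complex MeasureTheory Filter Set

namespace Crest.Agent.R017.Theta

theorem r1t_pow {F : ℝ → ℂ} (hF : Nice F) {A : ℝ} (hA : 0 ≤ A) :
    ∃ K : ℝ, 0 ≤ K ∧ ∀ y, 0 < y → ‖F y‖ ≤ K * y ^ (-A) := by
  obtain ⟨C, c, hc, h⟩ := hF.bd
  obtain ⟨K, hK⟩ := Phi_le_rpow hA
  have hc0 := c0_pos
  refine ⟨|C| * |K| * (c / c0) ^ (-A), by positivity, fun y hy => (h y hy).trans ?_⟩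
  have h1 := hK (c / c0 * y) (by positivity)
  have h2 : Real.exp (-(c * (y + y⁻¹))) ≤ Phi (c / c0 * y) := by
    unfold Phi
    refine Real.exp_le_exp.2 ?_
    have : c0 * (c / c0 * y) = c * y := by field_simp
    rw [this]
    have : 0 ≤ c * y⁻¹ := by positivity
    nlinarith
  rw [Real.mul_rpow (by positivity) hy.le] at h1
  calc C * Real.exp (-(c * (y + y⁻¹))) ≤ |C| * Real.exp (-(c * (y + y⁻¹))) := by
        gcongr; exact le_abs_self _
    _ ≤ |C| * (|K| * ((c / c0) ^ (-A) * y ^ (-A))) := by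
        gcongr
        refine h2.trans (h1.trans ?_)
        gcongr; exact le_abs_self _
    _ = _ := by ring

theorem r1t_term {F : ℝ → ℂ} (hF : Nice F) {a : O → ℂ} (ha : PG a) : ∃ K : ℝ, 0 ≤ K ∧
    ∀ t : ℝ, 0 < t → ∀ c : O, ‖if c = 0 then 0 else a c * F (t * Nr c)‖ ≤
      K * t ^ (-3 : ℝ) * Nr c ^ (-2 : ℝ) := by
  obtain ⟨K, hK0, hK⟩ := r1t_pow hF (A := 3) (by norm_num)
  obtain ⟨C, hC⟩ := ha
  refine ⟨|C| * K, by positivity, fun t ht c => ?_⟩
  have hN := Nr_nonneg c
  split_ifs with h0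
  · rw [norm_zero]; positivity
  · have hN' := Nr_pos h0
    rw [norm_mul]
    have h1 := hK (t * Nr c) (by positivity)
    rw [Real.mul_rpow ht.le hN] at h1
    have h2 : ‖a c‖ ≤ |C| * Nr c := (hC c).trans (by gcongr; exact le_abs_self _)
    have h3 : Nr c ^ (-2 : ℝ) = Nr c * Nr c ^ (-3 : ℝ) := by
      rw [show (-2 : ℝ) = 1 + -3 by norm_num, Real.rpow_add hN', Real.rpow_one]
    calc ‖a c‖ * ‖F (t * Nr c)‖ ≤ (|C| * Nr c) * (K * (t ^ (-3 : ℝ) * Nr c ^ (-3 : ℝ))) :=
          mul_le_mul h2 h1 (norm_nonneg _) (by positivity)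
      _ = _ := by rw [h3]; ring

theorem Nice.summable {F : ℝ → ℂ} (hF : Nice F) {a : O → ℂ} (ha : PG a) {t : ℝ} (ht : 0 < t) :
    Summable (fun c : O => ‖if c = 0 then 0 else a c * F (t * Nr c)‖) := by
  obtain ⟨K, -, hK⟩ := r1t_term hF ha
  exact Summable.of_nonneg_of_le (fun _ => norm_nonneg _) (fun c => hK t ht c)
    ((summable_Nr_rpow (σ := 2) (by norm_num)).mul_left _)
theorem Nice.integrableOn {F : ℝ → ℂ} (hF : Nice F) (s : ℝ) :
    IntegrableOn (fun y : ℝ => F y * ((y ^ s : ℝ) : ℂ)) (Ioi 0) := by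
  obtain ⟨C, c, hc, h⟩ := hF.bd
  obtain ⟨K, hK⟩ := Phi_le_rpow (abs_nonneg s)
  have hc0 := c0_pos
  have hi := (integrableOn_rpow_mul_exp_neg_mul_rpow (s := s + |s|) (p := 1) (b := c)
    (by have := neg_abs_le s; linarith) one_pos hc).const_mul (|C| * |K| * (c / c0) ^ (-|s|))
  refine Integrable.mono' hi ?_ ?_
  · refine ContinuousOn.aestronglyMeasurable (hF.cont.mul ?_) measurableSet_Ioi
    exact Complex.continuous_ofReal.comp_continuousOn
      (continuousOn_id.rpow_const fun y hy => Or.inl (ne_of_gt hy))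
  · refine (ae_restrict_iff' measurableSet_Ioi).2 (Eventually.of_forall fun y hy => ?_)
    have hy : 0 < y := hy
    have h1 := hK (c / c0 * y⁻¹) (by positivity)
    have h2 : Real.exp (-(c * (y + y⁻¹))) = Phi (c / c0 * y⁻¹) * Real.exp (-c * y) := by
      unfold Phi
      rw [← Real.exp_add]
      congr 1
      field_simp
      ring
    rw [Real.mul_rpow (by positivity) (by positivity), Real.inv_rpow hy.le, Real.rpow_neg hy.le,
      inv_inv] at h1
    rw [norm_mul, Complex.norm_real, Real.norm_of_nonneg (by positivity), Real.rpow_one,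
      Real.rpow_add hy]
    calc ‖F y‖ * y ^ s ≤ (|C| * (Phi (c / c0 * y⁻¹) * Real.exp (-c * y))) * y ^ s := by
          gcongr
          refine (h y hy).trans ?_
          rw [← h2]
          gcongr; exact le_abs_self _
      _ ≤ (|C| * ((|K| * ((c / c0) ^ (-|s|) * y ^ |s|)) * Real.exp (-c * y))) * y ^ s := by
          gcongr
          refine h1.trans ?_
          gcongr; exact le_abs_self _
      _ = _ := by ring
theorem Nice.continuousOn_Sm {F : ℝ → ℂ} (hF : Nice F) {a : O → ℂ} (ha : PG a) :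
    ContinuousOn (Sm a F) (Ioi 0) := by
  obtain ⟨K, hK0, hK⟩ := r1t_term hF ha
  intro t ht
  have ht : 0 < t := ht
  refine ContinuousAt.continuousWithinAt ?_
  have h1 : ContinuousOn (fun t : ℝ => ∑' c : O, if c = 0 then 0 else a c * F (t * Nr c))
      (Ioi (t / 2)) := by
    refine continuousOn_tsum (u := fun c : O => K * (t / 2) ^ (-3 : ℝ) * Nr c ^ (-2 : ℝ))
      (fun c => ?_) ((summable_Nr_rpow (σ := 2) (by norm_num)).mul_left _) (fun c s hs => ?_)
    · by_cases h0 : c = 0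
      · simp only [if_pos h0]; exact continuousOn_const
      · simp only [if_neg h0]
        refine continuousOn_const.mul (hF.cont.comp (by fun_prop) fun s hs => ?_)
        have : t / 2 < s := hs
        have := Nr_pos h0
        exact mul_pos (by linarith) this
    · have hs : t / 2 < s := hs
      refine (hK s (by linarith) c).trans ?_
      have := Nr_nonneg c
      gcongr ?_ * _
      exact mul_le_mul_of_nonneg_left
        (Real.rpow_le_rpow_of_nonpos (by positivity) hs.le (by norm_num)) hK0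
  have h2 : ContinuousAt pw t := by
    unfold pw
    exact Complex.continuous_ofReal.continuousAt.comp
      (Real.continuousAt_rpow_const _ _ (Or.inl ht.ne'))
  exact h2.mul (h1.continuousAt (Ioi_mem_nhds (by linarith)))
theorem Nice.norm_Sm_le {F : ℝ → ℂ} (hF : Nice F) {a : O → ℂ} (ha : PG a) {t₀ : ℝ} (ht₀ : 0 < t₀) :
    ∃ C : ℝ, ∀ t, t₀ ≤ t → ‖Sm a F t‖ ≤ C := by
  obtain ⟨K, hK0, hK⟩ := r1t_term hF ha
  have hs := summable_Nr_rpow (σ := 2) (by norm_num)
  have hS : 0 ≤ ∑' c : O, Nr c ^ (-2 : ℝ) := tsum_nonneg fun c => Real.rpow_nonneg (Nr_nonneg c) _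
  refine ⟨K * t₀ ^ (-(5 / 3) : ℝ) * ∑' c : O, Nr c ^ (-2 : ℝ), fun t ht => ?_⟩
  have ht' : 0 < t := ht₀.trans_le ht
  unfold Sm pw
  rw [norm_mul, Complex.norm_real, Real.norm_of_nonneg (by positivity)]
  have h1 := tsum_of_norm_bounded ((hs.mul_left (K * t ^ (-3 : ℝ))).hasSum) (hK t ht')
  rw [tsum_mul_left] at h1
  have h2 : t ^ (4 / 3 : ℝ) * t ^ (-3 : ℝ) ≤ t₀ ^ (-(5 / 3) : ℝ) := by
    rw [← Real.rpow_add ht', show (4 / 3 + -3 : ℝ) = -(5 / 3) by norm_num]
    exact Real.rpow_le_rpow_of_nonpos ht₀ ht (by norm_num)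
  calc _ ≤ t ^ (4 / 3 : ℝ) * (K * t ^ (-3 : ℝ) * ∑' c : O, Nr c ^ (-2 : ℝ)) := by gcongr
    _ = K * (t ^ (4 / 3 : ℝ) * t ^ (-3 : ℝ)) * ∑' c : O, Nr c ^ (-2 : ℝ) := by ring
    _ ≤ _ := by gcongr
theorem r1t_symm (F G : ℝ → ℂ) {x : ℝ} (hx : 0 < x) :
    ∫ y in Ioi (0 : ℝ), F (x / y) * G y / (y : ℂ) = ∫ y in Ioi (0 : ℝ), G (x / y) * F y / (y : ℂ) := by
  have him : (fun y : ℝ => x / y) '' Ioi 0 = Ioi 0 := by
    ext u
    constructor
    · rintro ⟨y, hy, rfl⟩; exact div_pos hx hy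
    · intro hu
      have hu : 0 < u := hu
      exact ⟨x / u, div_pos hx hu, by field_simp⟩
  have h := integral_image_eq_integral_abs_deriv_smul (s := Ioi (0 : ℝ)) (f := fun y => x / y)
    (f' := fun y => -x / y ^ 2) measurableSet_Ioi (fun y hy => by
      have hy : y ≠ 0 := ne_of_gt hy
      have := (hasDerivAt_inv hy).const_mul x
      refine (HasDerivAt.congr_deriv (by simpa only [div_eq_mul_inv] using this) ?_).hasDerivWithinAt
      ring)
    (fun y hy y' hy' e => by
      have hy : y ≠ 0 := ne_of_gt hy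
      have hy' : y' ≠ 0 := ne_of_gt hy'
      simp only at e
      field_simp at e
      exact e.symm)
    (fun y => G (x / y) * F y / (y : ℂ))
  rw [him] at h
  rw [h]
  refine setIntegral_congr_fun measurableSet_Ioi fun y hy => ?_
  have hy : 0 < y := hy
  have hy' : (y : ℂ) ≠ 0 := by exact_mod_cast hy.ne'
  have hx' : (x : ℂ) ≠ 0 := by exact_mod_cast hx.ne'
  rw [show x / (x / y) = y by field_simp, neg_div, abs_neg, abs_of_pos (by positivity),
    Complex.real_smul]
  push_cast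
  field_simp

theorem r1t_expand {a : O → ℂ} (ha : PG a) {F G : ℝ → ℂ} (hF : Nice F) (hG : Nice G) {t : ℝ}
    (ht : 0 < t) :
    ∫ y in Ioi (0 : ℝ), Sm a F (t / y) * (G y * ((y ^ (1 / 3 : ℝ) : ℝ) : ℂ)) =
      pw t * ∑' c : O, if c = 0 then 0 else
        a c * ∫ y in Ioi (0 : ℝ), F (t * Nr c / y) * G y / (y : ℂ) := by
  obtain ⟨K, hK0, hK⟩ := r1t_term hF ha
  set T : O → ℝ → ℂ := fun c y => (if c = 0 then 0 else a c * F (t / y * Nr c)) * (G y / (y : ℂ))
    with hT
  have hG2 := (hG.integrableOn 2).norm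
  have hbd : ∀ c : O, ∀ y ∈ Ioi (0 : ℝ), ‖T c y‖ ≤
      (K * t ^ (-3 : ℝ) * Nr c ^ (-2 : ℝ)) * ‖G y * ((y ^ (2 : ℝ) : ℝ) : ℂ)‖ := by
    intro c y hy
    have hy : 0 < y := hy
    have h1 := hK (t / y) (by positivity) c
    have hN := Nr_nonneg c
    simp only [hT]
    rw [norm_mul, norm_mul, norm_div, Complex.norm_real, Complex.norm_real,
      Real.norm_of_nonneg hy.le, Real.norm_of_nonneg (by positivity)]
    have h2 : (t / y) ^ (-3 : ℝ) = t ^ (-3 : ℝ) * (y ^ (2 : ℝ) * y) := by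
      rw [Real.div_rpow ht.le hy.le, Real.rpow_neg hy.le, div_inv_eq_mul,
        show (3 : ℝ) = 2 + 1 by norm_num, Real.rpow_add hy, Real.rpow_one]
    rw [h2] at h1
    calc _ ≤ (K * (t ^ (-3 : ℝ) * (y ^ (2 : ℝ) * y)) * Nr c ^ (-2 : ℝ)) * (‖G y‖ / y) := by gcongr
      _ = _ := by field_simp
  have hint : ∀ c : O, IntegrableOn (T c) (Ioi 0) := by
    intro c
    refine Integrable.mono' (hG2.const_mul (K * t ^ (-3 : ℝ) * Nr c ^ (-2 : ℝ))) ?_
      ((ae_restrict_iff' measurableSet_Ioi).2 (Eventually.of_forall (hbd c)))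
    refine ContinuousOn.aestronglyMeasurable (ContinuousOn.mul ?_ (hG.cont.div
      Complex.continuous_ofReal.continuousOn fun y hy => by exact_mod_cast ne_of_gt hy))
      measurableSet_Ioi
    by_cases h0 : c = 0
    · simp only [if_pos h0]; exact continuousOn_const
    · simp only [if_neg h0]
      refine continuousOn_const.mul (hF.cont.comp ((continuousOn_const.div continuousOn_id
        fun y hy => ne_of_gt hy).mul continuousOn_const) fun y hy => ?_)
      exact mul_pos (div_pos ht hy) (Nr_pos h0)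
  have hsum : Summable fun c : O => ∫ y in Ioi (0 : ℝ), ‖T c y‖ := by
    refine Summable.of_nonneg_of_le (fun c => integral_nonneg fun _ => norm_nonneg _) (fun c => ?_)
      (((summable_Nr_rpow (σ := 2) (by norm_num)).mul_left (K * t ^ (-3 : ℝ))).mul_right
        (∫ y in Ioi (0 : ℝ), ‖G y * ((y ^ (2 : ℝ) : ℝ) : ℂ)‖))
    rw [← integral_const_mul]
    exact setIntegral_mono_on (hint c).norm (hG2.const_mul _) measurableSet_Ioi (hbd c)
  have key := integral_tsum_of_summable_integral_norm hint hsum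
  have e1 : (∑' c : O, if c = 0 then 0 else
      a c * ∫ y in Ioi (0 : ℝ), F (t * Nr c / y) * G y / (y : ℂ)) =
      ∑' c : O, ∫ y in Ioi (0 : ℝ), T c y := by
    refine tsum_congr fun c => ?_
    simp only [hT]
    split_ifs
    · simp
    · rw [← integral_const_mul]
      refine setIntegral_congr_fun measurableSet_Ioi fun y _ => ?_
      rw [show t / y * Nr c = t * Nr c / y by ring]
      ring
  rw [e1, key, ← integral_const_mul]
  refine setIntegral_congr_fun measurableSet_Ioi fun y hy => ?_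
  have hy : 0 < y := hy
  simp only [hT]
  rw [tsum_mul_right]
  unfold Sm pw
  have h3 : (t / y) ^ (4 / 3 : ℝ) * y ^ (1 / 3 : ℝ) = t ^ (4 / 3 : ℝ) / y := by
    rw [Real.div_rpow ht.le hy.le, show (4 / 3 : ℝ) = 1 / 3 + 1 by norm_num, Real.rpow_add hy,
      Real.rpow_one]
    have : 0 < y ^ (1 / 3 : ℝ) := by positivity
    field_simp
  have h4 := congrArg (fun r : ℝ => (r : ℂ)) h3
  simp only [Complex.ofReal_mul, Complex.ofReal_div] at h4
  linear_combination (G y * ∑' c : O, if c = 0 then 0 else a c * F (t / y * Nr c)) * h4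

theorem r1t_lim {a : O → ℂ} (ha : PG a) {F G : ℝ → ℂ} (hF : Nice F) (hG : Nice G) {LF : ℂ}
    (h₁ : Tendsto (Sm a F) (𝓝[>] 0) (𝓝 LF)) :
    Tendsto (fun t => ∫ y in Ioi (0 : ℝ), Sm a F (t / y) * (G y * ((y ^ (1 / 3 : ℝ) : ℝ) : ℂ)))
      (𝓝[>] 0) (𝓝 (LF * Me G)) := by
  obtain ⟨M, hM⟩ : ∃ M : ℝ, ∀ t, 0 < t → ‖Sm a F t‖ ≤ M := by
    have h2 : ∀ᶠ t in 𝓝[>] (0 : ℝ), ‖Sm a F t‖ < ‖LF‖ + 1 :=
      h₁.norm.eventually (gt_mem_nhds (by linarith))
    obtain ⟨t₀, ht₀, h3⟩ := (mem_nhdsGT_iff_exists_Ioo_subset).1 h2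
    obtain ⟨C, hC⟩ := hF.norm_Sm_le ha (t₀ := t₀) ht₀
    refine ⟨max C (‖LF‖ + 1), fun t ht => ?_⟩
    by_cases h : t < t₀
    · exact (le_of_lt (h3 ⟨ht, h⟩)).trans (le_max_right _ _)
    · exact (hC t (not_lt.1 h)).trans (le_max_left _ _)
  have hGi := hG.integrableOn (1 / 3)
  unfold Me
  rw [← integral_const_mul]
  refine tendsto_integral_filter_of_dominated_convergence
    (fun y => M * ‖G y * ((y ^ (1 / 3 : ℝ) : ℝ) : ℂ)‖) ?_ ?_ (hGi.norm.const_mul M) ?_
  · filter_upwards [self_mem_nhdsWithin] with t ht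
    refine AEStronglyMeasurable.mul ?_ hGi.1
    refine ContinuousOn.aestronglyMeasurable ((hF.continuousOn_Sm ha).comp
      (continuousOn_const.div continuousOn_id fun y hy => ne_of_gt hy) fun y hy => ?_)
      measurableSet_Ioi
    exact div_pos (mem_Ioi.1 ht) (mem_Ioi.1 hy)
  · filter_upwards [self_mem_nhdsWithin] with t ht
    refine (ae_restrict_iff' measurableSet_Ioi).2 (Eventually.of_forall fun y hy => ?_)
    rw [norm_mul]
    exact mul_le_mul_of_nonneg_right (hM _ (div_pos ht hy)) (norm_nonneg _)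
  · refine (ae_restrict_iff' measurableSet_Ioi).2 (Eventually.of_forall fun y hy => ?_)
    refine Tendsto.mul_const _ (h₁.comp ?_)
    refine tendsto_nhdsWithin_of_tendsto_nhds_of_eventually_within _ ?_ ?_
    · have : Tendsto (fun t : ℝ => t / y) (𝓝 0) (𝓝 (0 / y)) := tendsto_id.div_const y
      rw [zero_div] at this
      exact tendsto_nhdsWithin_of_tendsto_nhds this
    · filter_upwards [self_mem_nhdsWithin] with t ht using div_pos (mem_Ioi.1 ht) (mem_Ioi.1 hy)

/-- Commutativity of multiplicative convolution: both `∫ Sm a F (t u) G(1/u) u^{-7/3} du` and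
`∫ Sm a G (t u) F(1/u) u^{-7/3} du` equal `t^{4/3} ∑ a(c) (F ⋆ G)(t N c)`; let `t → 0`. -/
theorem conv {a : O → ℂ} (ha : PG a) {F G : ℝ → ℂ} (hF : Nice F) (hG : Nice G) {LF LG : ℂ}
    (h₁ : Tendsto (Sm a F) (𝓝[>] 0) (𝓝 LF)) (h₂ : Tendsto (Sm a G) (𝓝[>] 0) (𝓝 LG)) :
    LF * Me G = LG * Me F := by
  have e1 := r1t_lim ha hF hG h₁
  have e2 := r1t_lim ha hG hF h₂
  refine tendsto_nhds_unique e1 (e2.congr' ?_)
  filter_upwards [self_mem_nhdsWithin] with t ht
  rw [r1t_expand ha hF hG ht, r1t_expand ha hG hF ht]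
  congr 1
  refine tsum_congr fun c => ?_
  split_ifs with h0
  · rfl
  · rw [r1t_symm F G (mul_pos ht (Nr_pos h0))]
theorem nice_F0 : Nice F0 := by
  have hc0 := c0_pos
  constructor
  · have h1 : Continuous (fun s : ℝ => ∫ v in (1 : ℝ)..2, f1 v (Real.exp s)) := by
      refine intervalIntegral.continuous_parametric_intervalIntegral_of_continuous' ?_ 1 2
      unfold f1 Phi
      have : ∀ s, Real.exp s ≠ 0 := Real.exp_ne_zero
      change Continuous fun p : ℝ × ℝ => p.2 / Real.exp p.1 *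
        Real.exp (-(c0 * (p.2 * (Real.exp p.1 + (Real.exp p.1)⁻¹))))
      fun_prop (disch := intros; exact Real.exp_ne_zero _)
    have h2 : ContinuousOn (fun y : ℝ => ((∫ v in (1 : ℝ)..2, f1 v (Real.exp (Real.log y)) : ℝ) : ℂ))
        (Ioi 0) :=
      Complex.continuous_ofReal.comp_continuousOn (h1.comp_continuousOn
        (Real.continuousOn_log.mono fun y hy => ne_of_gt hy))
    refine h2.congr fun y hy => ?_
    unfold F0
    simp only [Real.exp_log (mem_Ioi.1 hy)]
  · refine ⟨4 / c0, c0 / 2, by positivity, fun y hy => ?_⟩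
    unfold F0
    rw [Complex.norm_real]
    have := intervalIntegral.norm_integral_le_of_norm_le_const (a := 1) (b := 2)
      (C := 4 / c0 * Real.exp (-(c0 / 2 * (y + y⁻¹)))) (f := fun v => f1 v y) (fun v hv => by
        rw [uIoc_of_le (by norm_num)] at hv
        have hv1 : 1 < v := hv.1
        have hv2 : v ≤ 2 := hv.2
        unfold f1 Phi
        rw [Real.norm_of_nonneg (by positivity)]
        have hs : 0 < y + y⁻¹ := by positivity
        have h1 : c0 / 2 * (y + y⁻¹) ≤ Real.exp (c0 / 2 * (y + y⁻¹)) := by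
          have := Real.add_one_le_exp (c0 / 2 * (y + y⁻¹)); linarith
        have h2 : v / y ≤ 4 / c0 * Real.exp (c0 / 2 * (y + y⁻¹)) := by
          calc v / y ≤ 2 * (y + y⁻¹) := by
                rw [div_eq_mul_inv]
                have : 0 < y⁻¹ := by positivity
                nlinarith
            _ = 4 / c0 * (c0 / 2 * (y + y⁻¹)) := by field_simp; ring
            _ ≤ _ := by gcongr
        have h3 : Real.exp (-(c0 * (v * (y + y⁻¹)))) ≤ Real.exp (-(c0 * (y + y⁻¹))) := by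
          refine Real.exp_le_exp.2 (neg_le_neg ?_)
          gcongr
          nlinarith
        calc _ ≤ (4 / c0 * Real.exp (c0 / 2 * (y + y⁻¹))) * Real.exp (-(c0 * (y + y⁻¹))) := by
              gcongr
          _ = _ := by
              rw [mul_assoc, ← Real.exp_add]; congr 2; ring)
    norm_num at this ⊢
    exact this
theorem Me_F0_ne : Me F0 ≠ 0 := by
  have hpos : ∀ y : ℝ, 0 < y → 0 < ∫ v in (1 : ℝ)..2, f1 v y := by
    intro y hy
    refine intervalIntegral.intervalIntegral_pos_of_pos_on ?_ (fun v hv => ?_) (by norm_num)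
    · refine Continuous.intervalIntegrable ?_ _ _
      unfold f1 Phi
      fun_prop
    · have : 0 < v := by linarith [hv.1]
      unfold f1
      have := Phi_pos (v * (y + y⁻¹))
      positivity
  have hi := nice_F0.integrableOn (1 / 3)
  have e : (fun y : ℝ => F0 y * ((y ^ (1 / 3 : ℝ) : ℝ) : ℂ)) =
      fun y : ℝ => (((∫ v in (1 : ℝ)..2, f1 v y) * y ^ (1 / 3 : ℝ) : ℝ) : ℂ) := by
    funext y; unfold F0; push_cast; rfl
  unfold Me
  rw [e] at hi ⊢
  rw [integral_complex_ofReal]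
  have hi' : IntegrableOn (fun y : ℝ => (∫ v in (1 : ℝ)..2, f1 v y) * y ^ (1 / 3 : ℝ)) (Ioi 0) := by
    unfold IntegrableOn
    simpa using hi.re
  have h2 : 0 < ∫ y in Ioi (0 : ℝ), (∫ v in (1 : ℝ)..2, f1 v y) * y ^ (1 / 3 : ℝ) := by
    rw [setIntegral_pos_iff_support_of_nonneg_ae ?_ hi']
    · have : Ioi (0 : ℝ) ⊆ Function.support
          (fun y : ℝ => (∫ v in (1 : ℝ)..2, f1 v y) * y ^ (1 / 3 : ℝ)) ∩ Ioi 0 := fun y hy =>
        ⟨(mul_pos (hpos y hy) (Real.rpow_pos_of_pos hy _)).ne', hy⟩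
      exact lt_of_lt_of_le (by simp) (measure_mono this)
    · refine (ae_restrict_iff' measurableSet_Ioi).2 (Eventually.of_forall fun y hy => ?_)
      exact (mul_pos (hpos y hy) (Real.rpow_pos_of_pos hy _)).le
  exact_mod_cast h2.ne'
theorem Res.unique {a : O → ℂ} {L L' : ℂ} (h : Res a L) (h' : Res a L') : L = L' := tendsto_nhds_unique h h'
theorem Res.congr {a b : O → ℂ} {L : ℂ} (h : Res a L) (e : ∀ c, c ≠ 0 → a c = b c) : Res b L := by
  have : Sm a F0 = Sm b F0 := by
    funext t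
    unfold Sm
    congr 1
    refine tsum_congr fun c => ?_
    split_ifs with h0
    · rfl
    · rw [e c h0]
  unfold Res
  rw [← this]
  exact h
theorem res_zero : Res (fun _ => 0) 0 := by
  have : Sm (fun _ => 0) F0 = fun _ => 0 := by
    funext t
    simp [Sm]
  unfold Res
  rw [this]
  exact tendsto_const_nhds
theorem Res.add {a b : O → ℂ} (ha : PG a) (hb : PG b) {L L' : ℂ} (h : Res a L) (h' : Res b L') :
    Res (fun c => a c + b c) (L + L') := by
  refine (Tendsto.add h h').congr' ?_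
  filter_upwards [self_mem_nhdsWithin] with t ht
  unfold Sm
  rw [← mul_add, ← Summable.tsum_add (nice_F0.summable ha ht).of_norm
    (nice_F0.summable hb ht).of_norm]
  congr 1
  refine tsum_congr fun c => ?_
  split_ifs
  · simp
  · ring
theorem Res.sub {a b : O → ℂ} (ha : PG a) (hb : PG b) {L L' : ℂ} (h : Res a L) (h' : Res b L') :
    Res (fun c => a c - b c) (L - L') := by
  refine (Tendsto.sub h h').congr' ?_
  filter_upwards [self_mem_nhdsWithin] with t ht
  unfold Sm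
  rw [← mul_sub, ← Summable.tsum_sub (nice_F0.summable ha ht).of_norm
    (nice_F0.summable hb ht).of_norm]
  congr 1
  refine tsum_congr fun c => ?_
  split_ifs
  · simp
  · ring
theorem Res.const_mul {a : O → ℂ} {L : ℂ} (h : Res a L) (κ : ℂ) :
    Res (fun c => κ * a c) (κ * L) := by
  refine (Tendsto.const_mul κ h).congr fun t => ?_
  unfold Sm
  rw [mul_left_comm, ← tsum_mul_left]
  congr 1
  refine tsum_congr fun c => ?_
  split_ifs
  · simp
  · ring
/-- Dilation. -/
theorem Res.scale {a b : O → ℂ} {n : O} (hn : n ≠ 0) {L : ℂ} (h : Res b L)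
    (h₁ : ∀ c, a (n * c) = b c) (h₂ : ∀ c, ¬ n ∣ c → a c = 0) :
    Res a (((Nr n ^ (-(4 / 3) : ℝ) : ℝ) : ℂ) * L) := by
  have hN := Nr_pos hn
  have h3 : Tendsto (fun t : ℝ => t * Nr n) (𝓝[>] 0) (𝓝[>] 0) := by
    refine tendsto_nhdsWithin_of_tendsto_nhds_of_eventually_within _ ?_ ?_
    · have : Tendsto (fun t : ℝ => t * Nr n) (𝓝 0) (𝓝 (0 * Nr n)) := tendsto_id.mul_const _
      rw [zero_mul] at this
      exact tendsto_nhdsWithin_of_tendsto_nhds this
    · filter_upwards [self_mem_nhdsWithin] with t ht using mul_pos ht hN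
  refine (Tendsto.const_mul _ (Tendsto.comp h h3)).congr' ?_
  filter_upwards [self_mem_nhdsWithin] with t ht
  have ht : 0 < t := ht
  simp only [Function.comp]
  unfold Sm
  have e1 : ((Nr n ^ (-(4 / 3) : ℝ) : ℝ) : ℂ) * pw (t * Nr n) = pw t := by
    unfold pw
    rw [← Complex.ofReal_mul, Real.mul_rpow ht.le hN.le, Real.rpow_neg hN.le]
    have : 0 < Nr n ^ (4 / 3 : ℝ) := by positivity
    congr 1
    field_simp
  rw [← mul_assoc, e1]
  congr 1
  rw [← (mul_right_injective₀ hn).tsum_eq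
    (f := fun c : O => if c = 0 then 0 else a c * F0 (t * Nr c))]
  · refine tsum_congr fun c => ?_
    by_cases h0 : c = 0
    · simp [h0]
    · rw [if_neg h0, if_neg (mul_ne_zero hn h0), h₁, Nr_mul, mul_assoc]
  · intro c hc
    by_contra hc'
    have : ¬ n ∣ c := fun ⟨k, hk⟩ => hc' ⟨k, hk.symm⟩
    simp [h₂ c this] at hc

end Crest.Agent.R017.Theta

end
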