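import Crest.Agent.R017.ThCoef

/-! # Row 17, cubic theta: the coefficients of the limit -/

set_option autoImplicit false

noncomputable section

open scoped BigOperators ComplexConjugate Topology ENNReal
open Complex MeasureTheory Filter Set

namespace Crest.Agent.R017.Theta

theorem r3t_sub {v₁ v₂ : ℝ} (h₁ : 0 < v₁) : Icc v₁ v₂ ⊆ Ioi 0 := fun _ hv => h₁.trans_le hv.1

theorem r3t_weak {B : O × O → ℂ} (hB : Per B) {h : O} (hh : h ≠ 0) {v₁ v₂ : ℝ} (h₁ : 0 < v₁)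
    (h₂ : v₁ ≤ v₂) {ξ : ℝ → ℂ} (hξ : ContinuousOn ξ (Icc v₁ v₂)) :
    ∃ L : ℂ, Tendsto (fun t => ∫ v in v₁..v₂, ah B h t v * ξ v) (𝓝[>] 0) (𝓝 L) := by
  refine exists_weak_lim h₁ h₂ (fun t ht => (continuousOn_ah hB.bd h ht).mono (r3t_sub h₁))
    (fun ε hε => ?_) hξ
  obtain ⟨t₀, h0, H⟩ := coef_cauchy hB h₁ h₂ hε
  refine ⟨t₀, h0, fun t t' k1 k2 k3 k4 => ?_⟩
  simpa using H t t' k1 k2 k3 k4 {h} (by simpa using hh.symm)

theorem r3t_scale {η : ℝ} (hη : 0 < η) : Tendsto (fun t : ℝ => t * η) (𝓝[>] 0) (𝓝[>] 0) := by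
  refine tendsto_nhdsWithin_iff.2 ⟨?_, ?_⟩
  · have : Tendsto (fun t : ℝ => t * η) (𝓝 0) (𝓝 (0 * η)) := tendsto_id.mul_const η
    rw [zero_mul] at this
    exact this.mono_left nhdsWithin_le_nhds
  · filter_upwards [self_mem_nhdsWithin] with t ht using mul_pos ht hη

theorem r3t_F0 {h : O} (hh : h ≠ 0) : ∃ (κ : ℂ) (η v₁ v₂ : ℝ), 0 < η ∧ 0 < v₁ ∧ v₁ ≤ v₂ ∧
    ∀ B : O × O → ℂ, (∀ x, ‖B x‖ ≤ 1) → ∀ t : ℝ, 0 < t →
      Sm (fun c => Ac B c h) F0 t = κ * ∫ v in v₁..v₂, ah B h (t * η) v * 1 := by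
  have hN := Nr_pos hh
  have hη : 0 < Real.sqrt (Nr h) / 9 := by positivity
  have h₁ : 0 < (Real.sqrt (Nr h) / 9)⁻¹ := inv_pos.2 hη
  have h₂ : (Real.sqrt (Nr h) / 9)⁻¹ ≤ 2 * (Real.sqrt (Nr h) / 9)⁻¹ := by linarith
  refine ⟨((Nr h * (Real.sqrt (Nr h) / 9) ^ (-(1 / 3) : ℝ) : ℝ) : ℂ), _, _, _, hη, h₁, h₂,
    fun B hB t ht => ?_⟩
  rw [Sm_F0 _ hN ht, Sm_Fx (pg_Ac hB h) hN h₁ h₂ continuousOn_const (mul_pos ht hη)]
  rfl

/-- `Sm_F0`, `Sm_Fx`, `exists_weak_lim`, `coef_cauchy`. -/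
theorem res_rs {B : O × O → ℂ} (hB : Per B) {h : O} (hh : h ≠ 0) :
    Res (fun c => Ac B c h) (rs B h) := by
  obtain ⟨κ, η, v₁, v₂, hη, h₁, h₂, H⟩ := r3t_F0 hh
  obtain ⟨L, hL⟩ := r3t_weak hB hh h₁ h₂ (ξ := fun _ => 1) continuousOn_const
  refine tendsto_nhds_limUnder ⟨κ * L, ((hL.comp (r3t_scale hη)).const_mul κ).congr' ?_⟩
  filter_upwards [self_mem_nhdsWithin] with t ht using (H B hB.bd t ht).symm
/-- `Sm_F0`, `Sm_Fx`, `norm_integral_sq_le`, `coef_null`. -/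
theorem res_Bp {B : O × O → ℂ} (hB : Per B) {p : O} (hp : Prime p) (hp' : Prim p) {h : O}
    (hh : h ≠ 0) : Res (fun c => Ac (Bp p B) c h) (rs B h / ((Nr p : ℂ) + 1)) := by
  obtain ⟨κ, η, v₁, v₂, hη, h₁, h₂, H⟩ := r3t_F0 hh
  obtain ⟨C, -, hC⟩ := norm_integral_sq_le h₁ h₂ (ξ := fun _ => 1) continuousOn_const
  have hb := (hB.wt.bp p).bd
  have c1 : ∀ t, 0 < t → ContinuousOn (ah (Bp p B) h t) (Icc v₁ v₂) := fun t ht =>
    (continuousOn_ah hb h ht).mono (r3t_sub h₁)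
  have c2 : ∀ t, 0 < t → ContinuousOn (fun v => ah B h t v / ((Nr p : ℂ) + 1)) (Icc v₁ v₂) :=
    fun t ht => ((continuousOn_ah hB.bd h ht).mono (r3t_sub h₁)).div_const _
  have h1 : Tendsto (fun t => ∫ v in v₁..v₂,
      (ah (Bp p B) h t v - ah B h t v / ((Nr p : ℂ) + 1)) * 1) (𝓝[>] 0) (𝓝 0) := by
    have h2 := ((coef_null hB hp hp' hh h₁ h₂).const_mul C).sqrt
    rw [mul_zero, Real.sqrt_zero] at h2
    refine squeeze_zero_norm' ?_ h2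
    filter_upwards [self_mem_nhdsWithin] with t ht
    exact Real.le_sqrt_of_sq_le (hC _ ((c1 t ht).sub (c2 t ht)))
  have h3 := ((h1.comp (r3t_scale hη)).const_mul κ).add ((res_rs hB hh).div_const ((Nr p : ℂ) + 1))
  rw [mul_zero, zero_add] at h3
  refine h3.congr' ?_
  filter_upwards [self_mem_nhdsWithin] with t ht
  have ht' : 0 < t * η := mul_pos ht hη
  rw [H B hB.bd t ht, H _ hb t ht]
  simp only [Function.comp, mul_one]
  rw [intervalIntegral.integral_sub ((c1 _ ht').intervalIntegrable_of_Icc h₂)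
    ((c2 _ ht').intervalIntegrable_of_Icc h₂), intervalIntegral.integral_div]
  ring
theorem continuousOn_th (B : O × O → ℂ) {h : O} (hh : h ≠ 0) : ContinuousOn (th B h) (Ioi 0) := by
  have hn : 0 < ‖emb h‖ := by rw [norm_emb]; exact Real.sqrt_pos.2 (Nr_pos hh)
  refine continuousOn_const.mul (Complex.continuous_ofReal.comp_continuousOn ?_)
  refine (continuousOn_const.mul continuousOn_id).mul
    (continuousOn_K1.comp (by fun_prop) fun v hv => ?_)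
  have : 0 < v := hv
  show 0 < v * ‖emb h‖ / 9
  positivity
/-- `conv` with `F0` and `Fx`, `Me_Fx`, `Me_fk`. -/
theorem ah_weak {B : O × O → ℂ} (hB : Per B) {h : O} (hh : h ≠ 0) {v₁ v₂ : ℝ} (h₁ : 0 < v₁)
    (h₂ : v₁ ≤ v₂) {ξ : ℝ → ℂ} (hξ : ContinuousOn ξ (Icc v₁ v₂)) :
    Tendsto (fun t => ∫ v in v₁..v₂, ah B h t v * ξ v) (𝓝[>] 0)
      (𝓝 (∫ v in v₁..v₂, th B h v * ξ v)) := by
  obtain ⟨L, hL⟩ := r3t_weak hB hh h₁ h₂ hξ
  have hN := Nr_pos hh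
  have h1 : Tendsto (Sm (fun c => Ac B c h) (Fx (Nr h) v₁ v₂ ξ)) (𝓝[>] 0) (𝓝 L) := by
    refine hL.congr' ?_
    filter_upwards [self_mem_nhdsWithin] with t ht
    exact (Sm_Fx (pg_Ac hB.bd h) hN h₁ h₂ hξ ht).symm
  have h2 := conv (pg_Ac hB.bd h) nice_F0 (nice_Fx hN h₁ h₂ hξ) (res_rs hB hh) h1
  have e : L = ∫ v in v₁..v₂, th B h v * ξ v := by
    rw [← div_eq_iff Me_F0_ne] at h2
    rw [← h2, Me_Fx hN h₁ h₂ hξ, mul_div_right_comm, ← intervalIntegral.integral_const_mul]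
    refine intervalIntegral.integral_congr fun v hv => ?_
    rw [uIcc_of_le h₂] at hv
    rw [Me_fk hN (h₁.trans_le hv.1), th, Tc, norm_emb, Complex.ofReal_mul]
    ring
  rwa [e] at hL
theorem ah_strong {B : O × O → ℂ} (hB : Per B) {v₁ v₂ : ℝ} (h₁ : 0 < v₁) (h₂ : v₁ ≤ v₂) {ε : ℝ}
    (hε : 0 < ε) : ∃ t₀ : ℝ, 0 < t₀ ∧ ∀ t : ℝ, 0 < t → t < t₀ → ∀ S : Finset O, (0 : O) ∉ S →
      ∑ h ∈ S, nI v₁ v₂ (fun v => ah B h t v - th B h v) ≤ ε := by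
  obtain ⟨t₀, h0, H⟩ := coef_cauchy hB h₁ h₂ hε
  refine ⟨t₀, h0, fun t ht ht' S hS => ?_⟩
  have hne : ∀ h ∈ S, h ≠ 0 := fun h hh e => hS (e ▸ hh)
  exact weak_lsc S h₁ h₂ (g := fun h => ah B h) (l := fun h => th B h)
    (fun h _ s hs => (continuousOn_ah hB.bd h hs).mono (r3t_sub h₁))
    (fun h hh => (continuousOn_th B (hne h hh)).mono (r3t_sub h₁))
    (fun h hh ξ hξ => ah_weak hB (hne h hh) h₁ h₂ hξ) ht h0 fun s k1 k2 => H t s ht ht' k1 k2 S hS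
/-- With `δ = |h|⁻¹`: `nI δ (2 δ) (th B h) = c ‖Tc B h‖²`, `c > 0` absolute; `coef_bound`. -/
theorem norm_Tc_le : ∃ K : ℝ, 0 ≤ K ∧ ∀ B : O × O → ℂ, Per B → ∀ h : O,
    ‖Tc B h‖ ≤ K * Real.sqrt (Nr h) := by
  obtain ⟨C, t₁, hC, ht₁, H⟩ := coef_bound
  have hk : 0 < K1 (2 / 9) := K1_pos (by norm_num)
  obtain ⟨c, hc⟩ : ∃ c : ℝ, c = (9 : ℝ) ^ (-(7 / 3) : ℝ) := ⟨_, rfl⟩
  have hc0 : 0 < c := by rw [hc]; positivity
  refine ⟨Real.sqrt (4 + 8 * C) / (c * K1 (2 / 9)), by positivity, fun B hB h => ?_⟩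
  by_cases hh : h = 0
  · rw [hh, Tc, Nr_zero, Real.zero_rpow (by norm_num)]
    simp
  have hN := one_le_Nr hh
  have hn : 0 < ‖emb h‖ := by rw [norm_emb]; exact Real.sqrt_pos.2 (Nr_pos hh)
  obtain ⟨δ, hδ⟩ : ∃ δ : ℝ, δ = ‖emb h‖⁻¹ := ⟨_, rfl⟩
  have h₁ : 0 < δ := by rw [hδ]; positivity
  have h₂ : δ ≤ 2 * δ := by linarith
  obtain ⟨t₀, h0, H'⟩ := ah_strong hB h₁ h₂ one_pos
  have ht : 0 < min t₀ t₁ / 2 := half_pos (lt_min h0 ht₁)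
  have k1 := H' _ ht ((half_lt_self (lt_min h0 ht₁)).trans_le (min_le_left _ _)) {h}
    (by simpa using Ne.symm hh)
  have k2 := H B hB h hh δ _ h₁ ht ((half_lt_self (lt_min h0 ht₁)).trans_le (min_le_right _ _))
  have ca := (continuousOn_ah hB.bd h ht).mono (r3t_sub (v₂ := 2 * δ) h₁)
  have ct := (continuousOn_th B hh).mono (r3t_sub (v₂ := 2 * δ) h₁)
  have k3 := nI_add_le h₁ h₂ (g := fun v => th B h v - ah B h (min t₀ t₁ / 2) v) (ct.sub ca) ca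
  rw [Finset.sum_singleton] at k1
  have e1 : nI δ (2 * δ) (fun v => th B h v - ah B h (min t₀ t₁ / 2) v) =
      nI δ (2 * δ) (fun v => ah B h (min t₀ t₁ / 2) v - th B h v) := by
    simp only [nI, norm_sub_rev]
  have e2 : δ⁻¹ ^ 2 = Nr h := by rw [hδ, inv_inv, norm_emb_sq]
  simp only [sub_add_cancel] at k3
  rw [e1] at k3
  rw [e2] at k2
  have k4 : (‖Tc B h‖ * (c * K1 (2 / 9))) ^ 2 / 2 ≤ nI δ (2 * δ) (th B h) := by
    have e3 : (‖Tc B h‖ * (c * K1 (2 / 9))) ^ 2 / 2 =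
        ∫ _ in δ..2 * δ, (‖Tc B h‖ * (c * K1 (2 / 9))) ^ 2 / (2 * δ) := by
      rw [intervalIntegral.integral_const, smul_eq_mul]
      field_simp
      ring
    rw [e3]
    refine intervalIntegral.integral_mono_on h₂ intervalIntegrable_const
      (ContinuousOn.intervalIntegrable_of_Icc h₂ ((ct.norm.pow 2).div (by fun_prop) fun v hv =>
        (pow_pos (h₁.trans_le hv.1) 3).ne')) fun v hv => ?_
    have hv0 : 0 < v := h₁.trans_le hv.1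
    have k5 : K1 (2 / 9) ≤ K1 (v * ‖emb h‖ / 9) := by
      refine K1_anti (by positivity) ?_
      have : v * ‖emb h‖ ≤ 2 * δ * ‖emb h‖ := by gcongr; exact hv.2
      rw [hδ, mul_assoc, inv_mul_cancel₀ hn.ne'] at this
      linarith
    have k6 := hk.trans_le k5
    rw [th, norm_mul, Complex.norm_real, ← hc, Real.norm_of_nonneg (by positivity)]
    calc (‖Tc B h‖ * (c * K1 (2 / 9))) ^ 2 / (2 * δ)
        ≤ (‖Tc B h‖ * (c * K1 (v * ‖emb h‖ / 9))) ^ 2 / v := by gcongr; exact hv.2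
      _ = _ := by field_simp
  have k7 : (‖Tc B h‖ * (c * K1 (2 / 9))) ^ 2 ≤ (4 + 8 * C) * Nr h := by
    have k8 : nI δ (2 * δ) (fun v => th B h v) = nI δ (2 * δ) (th B h) := rfl
    nlinarith [mul_nonneg hC (sub_nonneg.2 hN)]
  rw [div_mul_eq_mul_div, le_div_iff₀ (by positivity), ← Real.sqrt_mul (by positivity)]
  exact Real.le_sqrt_of_sq_le k7

end Crest.Agent.R017.Theta

end
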