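import Crest.Agent.R017.ThDefs

/-! # Row 17, cubic theta: the symbol of a row -/

set_option autoImplicit false

noncomputable section

open scoped BigOperators ComplexConjugate Topology ENNReal
open Complex MeasureTheory Filter Set

namespace Crest.Agent.R017.Theta

theorem s1t_three_nine : (3 : O) ∣ 9 := ⟨3, by norm_num⟩

theorem s1t_not_lam_unit {u : O} (hu : IsUnit u) : ¬ lam ∣ u :=
  fun h => prime_lam.not_isUnit (isUnit_of_dvd_unit h hu)

theorem s1t_ne_zero {x : O} (hx : ¬ lam ∣ x) : x ≠ 0 := fun h => hx (h ▸ dvd_zero _)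

theorem s1t_unit_eq {u v : O} (hu : IsUnit u) (hv : IsUnit v) (h : (3 : O) ∣ u - v) : u = v := by
  obtain ⟨w, hw⟩ := hv.exists_right_inv
  have hw' : IsUnit w := IsUnit.of_mul_eq_one_right v hw
  have h1 : Prim (u * w) := by
    have : u * w - 1 = (u - v) * w := by rw [← hw]; ring
    unfold Prim
    rw [this]
    exact h.mul_right w
  have h2 := h1.eq_one_of_isUnit (hu.mul hw')
  calc u = u * (v * w) := by rw [hw, mul_one]
    _ = v * (u * w) := by ring
    _ = v := by rw [h2, mul_one]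

theorem s1t_lam_congr {x y : O} (h : (3 : O) ∣ x - y) : lam ∣ x ↔ lam ∣ y :=
  (dvd_iff_dvd_of_dvd_sub (lam_dvd_three.trans h))

theorem s1t_lam_mul {n : O} (hn : Prim n) (x : O) : lam ∣ n * x ↔ lam ∣ x :=
  ⟨fun h => (prime_lam.dvd_or_dvd h).resolve_left hn.not_lam_dvd, fun h => h.mul_left n⟩

theorem s1t_not_lam {c d : O} (h : IsCoprime c d) (hd : lam ∣ d) : ¬ lam ∣ c :=
  fun hc => prime_lam.not_isUnit (h.isUnit_of_dvd' hc hd)

theorem isUnit_un (x : O) : IsUnit (un x) := by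
  unfold un
  split_ifs with h
  · exact h.choose_spec.1
  · exact isUnit_one

theorem s1t_un_eq {x u : O} (hu : IsUnit u) (h : (3 : O) ∣ x - u) : un x = u := by
  have h' : ∃ u : O, IsUnit u ∧ (3 : O) ∣ x - u := ⟨u, hu, h⟩
  unfold un
  rw [dif_pos h']
  refine s1t_unit_eq h'.choose_spec.1 hu ?_
  have := dvd_sub h h'.choose_spec.2
  rwa [sub_sub_sub_cancel_left] at this

theorem un_spec {x : O} (hx : ¬ lam ∣ x) : (3 : O) ∣ x - un x := by
  obtain ⟨u, hu, hp⟩ := exists_prim hx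
  obtain ⟨w, hw⟩ := hu.exists_right_inv
  have hw' : IsUnit w := IsUnit.of_mul_eq_one_right u hw
  have h : (3 : O) ∣ x - w := by
    have : x - w = (u * x - 1) * w := by linear_combination (-x) * hw
    rw [this]
    exact Dvd.dvd.mul_right hp w
  rwa [s1t_un_eq hw' h]

theorem un_of_dvd {x : O} (hx : lam ∣ x) : un x = 1 := by
  unfold un
  rw [dif_neg]
  rintro ⟨u, hu, h⟩
  exact s1t_not_lam_unit hu ((s1t_lam_congr h).1 hx)

theorem un_congr {x y : O} (h : (3 : O) ∣ x - y) : un x = un y := by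
  by_cases hy : lam ∣ y
  · rw [un_of_dvd hy, un_of_dvd ((s1t_lam_congr h).2 hy)]
  · refine s1t_un_eq (isUnit_un y) ?_
    have := dvd_add h (un_spec hy)
    rwa [sub_add_sub_cancel] at this

theorem un_prim_mul {n : O} (hn : Prim n) (x : O) : un (n * x) = un x := by
  refine un_congr ?_
  rw [← sub_one_mul]
  exact Dvd.dvd.mul_right hn x

theorem un_prim {n : O} (hn : Prim n) : un n = 1 := s1t_un_eq isUnit_one hn

theorem norm_rc_le (n x : O) : ‖rc n x‖ ≤ 1 := by
  rw [rc, Complex.norm_conj]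
  exact norm_kap_le _ _

theorem s1t_kap_ne {n x : O} (hn : ¬ lam ∣ n) (h : IsCoprime n x) : kap n x ≠ 0 := by
  rw [Ne, kap_eq_zero (s1t_ne_zero hn)]
  tauto

theorem s1t_kap_un_cube {n : O} (hn : ¬ lam ∣ n) (x : O) : kap n (un x) ^ 3 = 1 :=
  kap_cube (s1t_kap_ne hn ((isCoprime_one_right (x := n)).of_isCoprime_of_dvd_right
    (isUnit_un x).dvd))

theorem rc_cube {n : O} (hn : ¬ lam ∣ n) (x : O) : rc n x ^ 3 = 1 := by
  rw [rc, ← map_pow, s1t_kap_un_cube hn, map_one]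

theorem rc'_cube {n : O} (hn : ¬ lam ∣ n) (x : O × O) : rc' n x ^ 3 = 1 := by
  unfold rc'
  split_ifs
  · exact rc_cube hn _
  · exact one_pow 3

theorem s1t_rc_congr (n : O) {x y : O} (h : (3 : O) ∣ x - y) : rc n x = rc n y := by
  rw [rc, rc, un_congr h]

theorem s1t_rc_per {n n' : O} (hn : ¬ lam ∣ n) (h : (9 : O) ∣ n - n') (x : O) :
    rc n x = rc n' x := by
  rw [rc, rc, kap_unit_per (isUnit_un x) hn h]

theorem s1t_rc_prim_mul (n : O) {m : O} (hm : Prim m) (x : O) : rc n (m * x) = rc n x := by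
  rw [rc, rc, un_prim_mul hm]

theorem s1t_rc_mul {m n : O} (hm : m ≠ 0) (hn : n ≠ 0) (x : O) :
    rc (m * n) x = rc m x * rc n x := by
  rw [rc, rc, rc, kap_mul_left hm hn, map_mul]

theorem s1t_rc_of_dvd {n x : O} (hn : ¬ lam ∣ n) (hx : lam ∣ x) : rc n x = 1 := by
  rw [rc, un_of_dvd hx, kap_one_right hn, map_one]

theorem s1t_norm_rc'_le (n : O) (x : O × O) : ‖rc' n x‖ ≤ 1 := by
  unfold rc'
  split_ifs
  · exact norm_rc_le _ _
  · simp

/-- Cubic reciprocity with one argument not primary (write `x = un x * x₁`, `x₁` primary). -/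
theorem kap_recip {n x : O} (hn : Prim n) (hx : ¬ lam ∣ x) : kap x n = kap n x * rc n x := by
  obtain ⟨w, hw⟩ := (isUnit_un x).exists_right_inv
  have h1 : Prim (w * x) := by
    have : w * x - 1 = (x - un x) * w := by linear_combination hw
    unfold Prim
    rw [this]
    exact (un_spec hx).mul_right w
  have e : x = un x * (w * x) := by rw [← mul_assoc, hw, one_mul]
  have h2 : kap x n = kap n (w * x) := by
    rw [← cubic_recip h1 hn, ← r1_kap_unit_mul (n := w * x) (isUnit_un x), ← e]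
  have h3 : kap n x = kap n (un x) * kap n (w * x) := by rw [← kap_mul_right, ← e]
  have h4 := s1t_kap_un_cube hn.not_lam_dvd x
  rw [h2, h3, rc, conj_kap]
  linear_combination (-kap n (w * x)) * h4

/-- Periodicity in the denominator: decompose `c = u λ^k c₁` (`exists_decomp`) and use
`kap_unit_per`, `kap_lam_per`, `kap_recip`; for `c = 0` one has `n = n'`. -/
theorem kap_per9 {c n n' : O} (hn : ¬ lam ∣ n) (h9 : (9 : O) ∣ n - n') (hc : c ∣ n - n') :
    kap n c = kap n' c := by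
  rcases eq_or_ne c 0 with rfl | hc0
  · rw [sub_eq_zero.1 (zero_dvd_iff.1 hc)]
  have hn' := r1_not_lam hn h9
  obtain ⟨u, k, c₁, hu, h1, rfl⟩ := exists_decomp hc0
  have h2 : kap n (lam ^ k) = kap n' (lam ^ k) := by
    rcases eq_or_ne k 0 with rfl | hk
    · rw [pow_zero, kap_one_right hn, kap_one_right hn']
    · rw [kap_pow_right _ _ hk, kap_pow_right _ _ hk, kap_lam_per hn h9]
  rw [kap_mul_right, kap_mul_right, kap_mul_right, kap_mul_right, kap_unit_per hu hn h9, h2,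
    kap_recip h1 hn, kap_recip h1 hn', kap_congr' h1.ne_zero ((dvd_mul_left c₁ _).trans hc),
    s1t_rc_congr c₁ (s1t_three_nine.trans h9)]

theorem prim_cube_nine {n : O} (hn : Prim n) : (9 : O) ∣ n ^ 3 - 1 := by
  obtain ⟨t, ht⟩ := hn
  have : n = 1 + 3 * t := by linear_combination ht
  exact ⟨t + 3 * t ^ 2 + 3 * t ^ 3, by rw [this]; ring⟩

theorem s1t_sy_ne {x : O × O} (hx : Cop x) : ∃ n y : O, sy x = kap n y ∧ kap n y ≠ 0 := by
  unfold sy sym
  split_ifs with h
  · exact ⟨_, _, rfl, s1t_kap_ne (s1t_not_lam hx h) hx⟩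
  · exact ⟨_, _, rfl, s1t_kap_ne h (IsCoprime.symm hx)⟩

theorem sy_cube {x : O × O} (hx : Cop x) : sy x ^ 3 = 1 := by
  obtain ⟨n, y, e, h⟩ := s1t_sy_ne hx
  rw [e, kap_cube h]

theorem norm_sy {x : O × O} (hx : Cop x) : ‖sy x‖ = 1 := by
  obtain ⟨n, y, e, h⟩ := s1t_sy_ne hx
  rw [e, norm_kap h]

theorem s1t_norm_sym_le (c d : O) : ‖sym c d‖ ≤ 1 := by
  unfold sym
  split_ifs <;> exact norm_kap_le _ _

theorem norm_sy_le (x : O × O) : ‖sy x‖ ≤ 1 := s1t_norm_sym_le _ _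

theorem sy_e1 : sy e1 = 1 := by
  change sym 0 1 = 1
  rw [sym, if_neg (s1t_not_lam_unit isUnit_one), kap_unit_left isUnit_one]

theorem cop_e1 : Cop e1 := isCoprime_one_right

/-- Periodicity in the second entry. -/
theorem sym_per {c d d' : O} (h9 : (9 : O) ∣ d - d') (hc : c ∣ d - d') : sym c d = sym c d' := by
  have h := s1t_lam_congr (s1t_three_nine.trans h9)
  unfold sym
  by_cases hd : lam ∣ d
  · rw [if_pos hd, if_pos (h.1 hd)]
    rcases eq_or_ne c 0 with rfl | hc0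
    · rw [sub_eq_zero.1 (zero_dvd_iff.1 hc)]
    · exact kap_congr' hc0 hc
  · rw [if_neg hd, if_neg fun h' => hd (h.2 h')]
    exact kap_per9 hd h9 hc

theorem sym_mul_left {n c d : O} (hn : Prim n) (h : IsCoprime c d) :
    sym (n * c) d = kap n d * rc n d * sym c d := by
  unfold sym
  by_cases hd : lam ∣ d
  · rw [if_pos hd, if_pos hd, kap_mul_left hn.ne_zero (s1t_ne_zero (s1t_not_lam h hd)),
      s1t_rc_of_dvd hn.not_lam_dvd hd, mul_one]
  · rw [if_neg hd, if_neg hd, kap_mul_right, kap_recip hn hd]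

theorem sym_mul_right {n c d : O} (hn : Prim n) (h : IsCoprime c d) :
    sym c (n * d) = kap n c * rc' n (c, d) * sym c d := by
  unfold sym rc'
  by_cases hd : lam ∣ d
  · rw [if_pos hd, if_pos hd, if_pos ((s1t_lam_mul hn d).2 hd), kap_mul_right,
      kap_recip hn (s1t_not_lam h hd)]
  · rw [if_neg hd, if_neg hd, if_neg fun h' => hd ((s1t_lam_mul hn d).1 h'),
      kap_mul_left hn.ne_zero (s1t_ne_zero hd), mul_one]

/-- Take `Ξ x y = rc x' y * sym q₀ y` with `x'` a chosen primary element `≡ x mod 9` (else `0`). -/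
theorem sym_split' (q₀ : O) (hq₀ : q₀ ≠ 0) : ∃ Ξ : O → O → ℂ, (∀ x y, ‖Ξ x y‖ ≤ 1) ∧
    (∀ x x' y y', (9 : O) ∣ x - x' → 9 * q₀ ∣ y - y' → Ξ x y = Ξ x' y') ∧
    ∀ q₁ d : O, Prim q₁ → IsCoprime (q₀ * q₁) d → sym (q₀ * q₁) d = Ξ q₁ d * kap q₁ d := by
  refine ⟨fun x y => if Prim x then rc x y * sym q₀ y else 0, fun x y => ?_,
    fun x x' y y' hx hy => ?_, fun q₁ d hq hd => ?_⟩
  · dsimp only
    split_ifs
    · rw [norm_mul]
      exact mul_le_one₀ (norm_rc_le _ _) (norm_nonneg _) (s1t_norm_sym_le _ _)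
    · simp
  · dsimp only
    have h9 : (9 : O) ∣ y - y' := (dvd_mul_right _ _).trans hy
    by_cases hp : Prim x
    · rw [if_pos hp, if_pos (r1_prim_congr hp hx), s1t_rc_per hp.not_lam_dvd hx,
        s1t_rc_congr x' (s1t_three_nine.trans h9), sym_per h9 ((dvd_mul_left _ _).trans hy)]
    · rw [if_neg hp, if_neg fun h => hp (r1_prim_congr h (dvd_sub_comm.1 hx))]
  · dsimp only
    rw [if_pos hq, mul_comm q₀, sym_mul_left hq hd.of_mul_left_left]
    ring

theorem Cg.refl (x : O × O) : Cg x x := ⟨by simp, by simp⟩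
theorem Cg.symm {x y : O × O} (h : Cg x y) : Cg y x := ⟨dvd_sub_comm.1 h.1, dvd_sub_comm.1 h.2⟩
theorem Cg.trans {x y z : O × O} (h : Cg x y) (h' : Cg y z) : Cg x z :=
  ⟨by simpa using dvd_add h.1 h'.1, by simpa using dvd_add h.2 h'.2⟩
theorem Per.wt {B : O × O → ℂ} (h : Per B) : Wt B :=
  ⟨h.bd, fun _ _ _ hd => h.per _ _ ⟨by simp, hd⟩⟩

theorem Wt.bp {B : O × O → ℂ} (h : Wt B) (p : O) : Wt (Bp p B) := by
  refine ⟨fun x => ?_, fun c d d' hd => ?_⟩
  · unfold Bp
    split_ifs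
    · exact h.bd x
    · simp
  · unfold Bp
    rw [h.per c d d' hd]

theorem s1t_norm_Be (P : O) (x : O × O) : ‖Be P x‖ ≤ 1 := by
  unfold Be
  split_ifs <;> simp

theorem wt_Be (P : O) : Wt (Be P) := by
  classical
  refine ⟨s1t_norm_Be P, fun c d d' hd => ?_⟩
  have h : Cg (c, d) (c, d') := ⟨by simp, hd⟩
  unfold Be
  exact if_congr (and_congr_left' ⟨h.symm.trans, h.trans⟩) rfl rfl

theorem per_Be : Per (Be 1) := by
  classical
  refine ⟨s1t_norm_Be 1, fun x y h => ?_⟩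
  unfold Be
  exact if_congr (and_congr ⟨h.symm.trans, h.trans⟩ (by simp)) rfl rfl

theorem norm_cf_le {B : O × O → ℂ} (h : ∀ x, ‖B x‖ ≤ 1) (x : O × O) : ‖cf B x‖ ≤ 1 := by
  unfold cf
  split_ifs
  · rw [norm_mul]
    exact mul_le_one₀ (h x) (norm_nonneg _) (norm_sy_le x)
  · simp

theorem Wt.cf_per {B : O × O → ℂ} (h : Wt B) {c d d' : O} (hd : 9 * c ∣ d - d') (hc : c ≠ 0) :
    cf B (c, d) = cf B (c, d') := by
  have h9 : (9 : O) ∣ d - d' := (dvd_mul_right _ _).trans hd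
  have h1 : c ∣ d - d' := (dvd_mul_left _ _).trans hd
  have h2 : Cop (c, d) ↔ Cop (c, d') := by
    obtain ⟨k, hk⟩ := h1
    have : d = d' + c * k := by linear_combination hk
    change IsCoprime c d ↔ IsCoprime c d'
    rw [this, IsCoprime.add_mul_left_right_iff]
  unfold cf
  refine if_congr h2 ?_ rfl
  rw [h.per c d d' h9]
  exact congrArg _ (sym_per h9 h1)

theorem s1t_rc'_congr (n : O) {x y : O × O} (h : Cg x y) : rc' n x = rc' n y := by
  classical
  unfold rc'
  exact if_congr (s1t_lam_congr (s1t_three_nine.trans h.2))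
    (s1t_rc_congr n (s1t_three_nine.trans h.1)) rfl

theorem Per.op {B : O × O → ℂ} (h : Per B) (n : O) : Per (Op n B) := by
  refine ⟨fun x => ?_, fun x y hxy => ?_⟩
  · unfold Op
    rw [norm_mul, norm_mul, norm_pow]
    exact mul_le_one₀ (mul_le_one₀ (h.bd _) (norm_nonneg _) (norm_rc_le _ _)) (by positivity)
      (pow_le_one₀ (norm_nonneg _) (s1t_norm_rc'_le _ _))
  · unfold Op
    rw [s1t_rc'_congr n hxy, s1t_rc_congr n (s1t_three_nine.trans hxy.2),
      h.per (n * x.1, n ^ 2 * x.2) (n * y.1, n ^ 2 * y.2)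
        ⟨by simpa only [← mul_sub] using hxy.1.mul_left n,
          by simpa only [← mul_sub] using hxy.2.mul_left (n ^ 2)⟩]

theorem Op_mul {m n : O} (hm : Prim m) (hn : Prim n) (B : O × O → ℂ) :
    Op m (Op n B) = Op (n * m) B := by
  classical
  funext x
  have h1 : rc' n (m * x.1, m ^ 2 * x.2) = rc' n x := by
    unfold rc'
    exact if_congr (s1t_lam_mul (hm.pow 2) _) (s1t_rc_prim_mul n hm _) rfl
  have h2 : rc' (n * m) x = rc' n x * rc' m x := by
    unfold rc'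
    split_ifs
    · exact s1t_rc_mul hn.ne_zero hm.ne_zero _
    · exact (mul_one _).symm
  simp only [Op]
  rw [h1, h2, s1t_rc_prim_mul n (hm.pow 2), s1t_rc_mul hn.ne_zero hm.ne_zero, mul_pow n m,
    mul_assoc n m, mul_assoc (n ^ 2)]
  ring

theorem Per.op_congr {B : O × O → ℂ} (h : Per B) {n n' : O} (hn : Prim n)
    (h9 : (9 : O) ∣ n - n') : Op n B = Op n' B := by
  funext x
  have h1 : rc' n x = rc' n' x := by
    unfold rc'
    rw [s1t_rc_per hn.not_lam_dvd h9]
  have h2 : (9 : O) ∣ n ^ 2 - n' ^ 2 := h9.trans (sub_dvd_pow_sub_pow n n' 2)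
  simp only [Op]
  rw [h1, s1t_rc_per hn.not_lam_dvd h9, h.per (n * x.1, n ^ 2 * x.2) (n' * x.1, n' ^ 2 * x.2)
    ⟨by simpa only [← sub_mul] using h9.mul_right x.1,
      by simpa only [← sub_mul] using h2.mul_right x.2⟩]

theorem Per.op_cube {B : O × O → ℂ} (h : Per B) {j : O} (hj : Prim j) : Op (j ^ 3) B = B := by
  rw [h.op_congr (hj.pow 3) (prim_cube_nine hj)]
  funext x
  have h1 : ∀ y, rc 1 y = 1 := fun y => by rw [rc, kap_unit_left isUnit_one, map_one]
  have h2 : rc' 1 x = 1 := by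
    unfold rc'
    rw [h1, ite_self]
  simp only [Op, h1, h2, one_pow, one_mul, mul_one]

theorem e0_Be (P : O) : e0 (Be P) = 1 := by
  unfold e0
  rw [tsum_eq_single 1]
  · change cf (Be P) e1 = 1
    rw [cf, if_pos cop_e1, sy_e1, Be, if_pos ⟨Cg.refl _, dvd_zero P⟩, mul_one]
  · intro d hd
    unfold cf
    split_ifs with h
    · rw [Be, if_neg, zero_mul]
      rintro ⟨h1, -⟩
      exact hd ((r1_prim_of_nine h1.2).eq_one_of_isUnit (isCoprime_zero_left.1 h))
    · rfl

end Crest.Agent.R017.Theta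

end
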