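import Crest.Agent.R017.ThV1
import Crest.Agent.R017.ThK

/-! # Row 17, cubic theta: the functional equation -/

set_option autoImplicit false

noncomputable section

open scoped BigOperators ComplexConjugate Topology ENNReal
open Complex MeasureTheory Filter Set

namespace Crest.Agent.R017.Theta

open Classical in
/-- The Dirichlet series over all non-zero elements. -/
def Dall (a : O → ℂ) (s : ℂ) : ℂ := ∑' c : O, if c = 0 then 0 else a c * (Nr c : ℂ) ^ (-s)
theorem v2t_pos {c : O} (h0 : c ≠ 0) : 0 < ‖emb c‖ :=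
  norm_pos_iff.2 (fun e => h0 (emb_injective (by simpa using e)))

theorem v2t_term {a : O → ℂ} {K : ℝ} (ha : ∀ c, ‖a c‖ ≤ K * Real.sqrt (Nr c)) {v : ℝ} (hv : 0 < v)
    (c : O) : ‖if c = 0 then 0 else a c * ((‖emb c‖ * K1 (v * ‖emb c‖ / 9) : ℝ) : ℂ)‖ ≤
      |K| * (Nr c ^ (1 : ℝ) * if c = 0 then 0 else K1 (v / 9 * ‖emb c‖)) := by
  split_ifs with h0
  · simp
  · have h3 := v2t_pos h0
    have h4 : 0 < K1 (v * ‖emb c‖ / 9) := K1_pos (by positivity)
    have h5 := ha c
    rw [← norm_emb] at h5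
    rw [norm_mul, Complex.norm_real, Real.norm_of_nonneg (by positivity), Real.rpow_one,
      ← norm_emb_sq, show v / 9 * ‖emb c‖ = v * ‖emb c‖ / 9 by ring]
    calc _ ≤ (|K| * ‖emb c‖) * (‖emb c‖ * K1 (v * ‖emb c‖ / 9)) := by
          gcongr
          exact h5.trans (by gcongr; exact le_abs_self _)
      _ = _ := by ring

theorem v2t_cpow {x : ℝ} (hx : 0 < x) (w : ℂ) : (x : ℂ) ^ w = Complex.exp ((Real.log x : ℂ) * w) := by
  rw [Complex.cpow_def_of_ne_zero (by exact_mod_cast hx.ne'), Complex.ofReal_log hx.le]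

theorem continuousOn_Jb {a : O → ℂ} {K : ℝ} (ha : ∀ c, ‖a c‖ ≤ K * Real.sqrt (Nr c)) :
    ContinuousOn (Jb a) (Ioi 0) := by
  intro t ht
  have ht : 0 < t := ht
  refine ContinuousAt.continuousWithinAt ?_
  have h1 : ContinuousOn (Jb a) (Ioi (t / 2)) := by
    unfold Jb
    refine continuousOn_tsum
      (u := fun c : O => |K| * (Nr c ^ (1 : ℝ) * if c = 0 then 0 else K1 (t / 18 * ‖emb c‖)))
      (fun c => ?_) ((summable_K1 (by positivity) 1).mul_left _) (fun c s hs => ?_)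
    · by_cases h0 : c = 0
      · simp only [if_pos h0]; exact continuousOn_const
      · simp only [if_neg h0]
        refine continuousOn_const.mul (Complex.continuous_ofReal.comp_continuousOn
          (continuousOn_const.mul (continuousOn_K1.comp (by fun_prop) fun s hs => ?_)))
        have h2 : t / 2 < s := hs
        have h3 := v2t_pos h0
        have h4 : 0 < s := by linarith
        exact mem_Ioi.2 (by positivity)
    · have hs : t / 2 < s := hs
      refine (v2t_term ha (by linarith) c).trans ?_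
      have := Nr_nonneg c
      gcongr
      split_ifs with h0
      · exact le_rfl
      · have h3 := v2t_pos h0
        exact K1_anti (by positivity) (by nlinarith)
  exact h1.continuousAt (Ioi_mem_nhds (by linarith))
theorem norm_Jb_le {a : O → ℂ} {K : ℝ} (ha : ∀ c, ‖a c‖ ≤ K * Real.sqrt (Nr c)) {δ : ℝ} (hδ : 0 < δ) :
    ∃ C : ℝ, ∀ v, δ ≤ v → ‖Jb a v‖ ≤ C * Real.exp (-(v / 9)) := by
  obtain ⟨C, hC⟩ := tsum_K1_le (δ := δ / 9) (by positivity) 1
  refine ⟨|K| * C, fun v hv => ?_⟩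
  have hv0 : 0 < v := hδ.trans_le hv
  have h1 := tsum_of_norm_bounded
    (((summable_K1 (δ := v / 9) (by positivity) 1).mul_left |K|).hasSum) (v2t_term ha hv0)
  rw [tsum_mul_left] at h1
  unfold Jb
  refine h1.trans ?_
  rw [mul_assoc]
  exact mul_le_mul_of_nonneg_left (hC (v / 9) (by linarith)) (abs_nonneg _)
/-- Termwise Mellin transform (`mellin_K1`, `mellin_comp_mul_right`, `integral_tsum`). -/
theorem mellin_Jb {a : O → ℂ} {K : ℝ} (ha : ∀ c, ‖a c‖ ≤ K * Real.sqrt (Nr c)) {s : ℂ}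
    (hs : 3 / 2 < s.re) :
    mellin (Jb a) (2 * s + 1) = (1 / 2 : ℂ) * ((9 / c0 : ℝ) : ℂ) ^ (2 * s + 1) *
      (Complex.Gamma (s + 2 / 3) * Complex.Gamma (s + 1 / 3)) * Dall a s := by
  have hre : (2 * s + 1).re = 2 * s.re + 1 := by simp
  have hw : 1 / 3 < (2 * s + 1).re := by rw [hre]; linarith
  have hK := mellinConvergent_K1 hw
  set T : O → ℝ → ℂ := fun c v => (v : ℂ) ^ (2 * s + 1 - 1) •
    (if c = 0 then 0 else a c * ((‖emb c‖ * K1 (v * ‖emb c‖ / 9) : ℝ) : ℂ)) with hT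
  have hT' : ∀ c : O, c ≠ 0 → T c = fun v : ℝ => (a c * (‖emb c‖ : ℂ)) *
      ((v : ℂ) ^ (2 * s + 1 - 1) • (K1 (‖emb c‖ / 9 * v) : ℂ)) := by
    intro c h0
    funext v
    simp only [hT, if_neg h0, smul_eq_mul]
    rw [show v * ‖emb c‖ / 9 = ‖emb c‖ / 9 * v by ring]
    push_cast
    ring
  have hint : ∀ c : O, IntegrableOn (T c) (Ioi 0) := by
    intro c
    by_cases h0 : c = 0
    · simp only [hT, if_pos h0, smul_zero]; exact integrableOn_zero
    · rw [hT' c h0]
      have h3 := v2t_pos h0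
      exact Integrable.const_mul
        ((MellinConvergent.comp_mul_left (f := fun x => (K1 x : ℂ)) (a := ‖emb c‖ / 9)
          (by positivity)).2 hK) _
  set g : ℝ → ℝ := fun v => ‖(v : ℂ) ^ (2 * s + 1 - 1) • (K1 v : ℂ)‖ with hg
  have hM : 0 ≤ ∫ v in Ioi (0 : ℝ), g v := integral_nonneg fun _ => norm_nonneg _
  have hsum : Summable fun c : O => ∫ v in Ioi (0 : ℝ), ‖T c v‖ := by
    refine Summable.of_nonneg_of_le (fun c => integral_nonneg fun _ => norm_nonneg _) (fun c => ?_)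
      ((summable_Nr_rpow (σ := s.re - 1 / 2) (by linarith)).mul_left
        (|K| * 9 ^ (2 * s.re + 1) * ∫ v in Ioi (0 : ℝ), g v))
    have hN := Nr_nonneg c
    by_cases h0 : c = 0
    · simp only [hT, if_pos h0, smul_zero, norm_zero, integral_zero]
      positivity
    · have h3 := v2t_pos h0
      have hr : 0 < ‖emb c‖ / 9 := by positivity
      have e1 : ∫ v in Ioi (0 : ℝ), ‖T c v‖ = ∫ v in Ioi (0 : ℝ),
          (‖a c‖ * ‖emb c‖ * (‖emb c‖ / 9) ^ (-(2 * s.re))) * g (‖emb c‖ / 9 * v) := by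
        rw [hT' c h0]
        refine setIntegral_congr_fun measurableSet_Ioi fun v hv => ?_
        have hv : 0 < v := hv
        simp only [hg, norm_mul, norm_smul]
        rw [Complex.norm_cpow_eq_rpow_re_of_pos hv,
          Complex.norm_cpow_eq_rpow_re_of_pos (mul_pos hr hv), Real.mul_rpow hr.le hv.le,
          Complex.norm_real, Real.norm_of_nonneg h3.le, Real.rpow_neg hr.le,
          show (2 * s + 1 - 1).re = 2 * s.re by simp]
        have : 0 < (‖emb c‖ / 9) ^ (2 * s.re) := by positivity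
        field_simp
      rw [e1, integral_const_mul, integral_comp_mul_left_Ioi g 0 hr, mul_zero, smul_eq_mul]
      have h5 := ha c
      rw [← norm_emb] at h5
      have h6 : ‖a c‖ ≤ |K| * ‖emb c‖ := h5.trans (by gcongr; exact le_abs_self _)
      have e2 : ‖emb c‖ * ‖emb c‖ * (‖emb c‖ / 9) ^ (-(2 * s.re)) * (‖emb c‖ / 9)⁻¹ =
          9 ^ (2 * s.re + 1) * Nr c ^ (-(s.re - 1 / 2)) := by
        rw [← norm_emb_sq, ← Real.rpow_natCast, ← Real.rpow_mul h3.le, Real.div_rpow h3.le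
          (by norm_num), Real.rpow_neg (x := 9) (by norm_num), Real.rpow_add (by norm_num),
          Real.rpow_one, show ((2 : ℕ) : ℝ) * -(s.re - 1 / 2) = -(2 * s.re) + 1 by push_cast; ring,
          Real.rpow_add h3, Real.rpow_one]
        field_simp
      calc _ ≤ (|K| * ‖emb c‖) * ‖emb c‖ * (‖emb c‖ / 9) ^ (-(2 * s.re)) *
            ((‖emb c‖ / 9)⁻¹ * ∫ v in Ioi (0 : ℝ), g v) := by gcongr
        _ = |K| * (‖emb c‖ * ‖emb c‖ * (‖emb c‖ / 9) ^ (-(2 * s.re)) * (‖emb c‖ / 9)⁻¹) *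
            ∫ v in Ioi (0 : ℝ), g v := by ring
        _ = _ := by rw [e2]; ring
  have key := integral_tsum_of_summable_integral_norm hint hsum
  have e3 : mellin (Jb a) (2 * s + 1) = ∫ v in Ioi (0 : ℝ), ∑' c : O, T c v := by
    unfold mellin Jb
    refine setIntegral_congr_fun measurableSet_Ioi fun v _ => ?_
    simp only [hT, smul_eq_mul]
    rw [tsum_mul_left]
  rw [e3, ← key]
  unfold Dall
  rw [← tsum_mul_left]
  refine tsum_congr fun c => ?_
  by_cases h0 : c = 0
  · simp [hT, h0]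
  · have h3 := v2t_pos h0
    have hr : 0 < ‖emb c‖ / 9 := by positivity
    have hc0 := c0_pos
    rw [hT' c h0, if_neg h0, integral_const_mul]
    have e4 := mellin_comp_mul_left (fun x => (K1 x : ℂ)) (2 * s + 1) hr
    rw [mellin_K1 hw] at e4
    unfold mellin at e4
    rw [e4, smul_eq_mul, show (2 * s + 1) / 2 + 1 / 6 = s + 2 / 3 by ring,
      show (2 * s + 1) / 2 - 1 / 6 = s + 1 / 3 by ring]
    have e5 : (‖emb c‖ : ℂ) * ((‖emb c‖ / 9 : ℝ) : ℂ) ^ (-(2 * s + 1)) * (c0 : ℂ) ^ (-(2 * s + 1)) =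
        ((9 / c0 : ℝ) : ℂ) ^ (2 * s + 1) * (Nr c : ℂ) ^ (-s) := by
      have e6 : (‖emb c‖ : ℂ) = Complex.exp (Real.log ‖emb c‖ : ℂ) := by
        rw [← Complex.ofReal_exp, Real.exp_log h3]
      rw [v2t_cpow hr, v2t_cpow hc0, v2t_cpow (by positivity : (0 : ℝ) < 9 / c0),
        v2t_cpow (Nr_pos h0), ← norm_emb_sq, Real.log_pow, Real.log_div h3.ne' (by norm_num),
        Real.log_div (by norm_num) hc0.ne', e6, ← Complex.exp_add, ← Complex.exp_add,
        ← Complex.exp_add]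
      congr 1
      push_cast
      ring
    linear_combination (a c * (1 / 2) * (Complex.Gamma (s + 2 / 3) * Complex.Gamma (s + 1 / 3))) * e5
/-- `Jb a` decays rapidly at `0` and `∞`, so its Mellin transform `Λ` is entire and bounded in
strips; `D s = 2 Λ(2 s + 1) (9/c₀)^{-(2s+1)} / (Γ(s + 2/3) Γ(s + 1/3))`. -/
theorem exists_FE {a b : O → ℂ} {K : ℝ} (ha : ∀ c, ‖a c‖ ≤ K * Real.sqrt (Nr c))
    (hb : ∀ c, ‖b c‖ ≤ K * Real.sqrt (Nr c)) {ε : ℂ} {N : ℝ} (hN : 0 < N)
    (h : ∀ v : ℝ, 0 < v → Jb a v = ε * (((N ^ 2 * v ^ 4)⁻¹ : ℝ) : ℂ) * Jb b (N * v)⁻¹) :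
    ∃ D : ℂ → ℂ, Differentiable ℂ D ∧ (∀ σ₁ σ₂, ExpGr D σ₁ σ₂) ∧
      (∀ s : ℂ, 3 / 2 < s.re → D s = Dall a s) ∧
      ∀ w : ℂ, 3 / 2 < w.re → D (1 - w) = ε * (N : ℂ) ^ (2 * w - 1) * gam w * Dall b w := by
  have hc0 := c0_pos
  have hloc : LocallyIntegrableOn (Jb a) (Ioi 0) :=
    (continuousOn_Jb ha).locallyIntegrableOn measurableSet_Ioi
  have htop : Jb a =O[atTop] fun t => Real.exp (-(1 / 9) * t) := by
    obtain ⟨C, hC⟩ := norm_Jb_le ha one_pos
    refine Asymptotics.IsBigO.of_bound C ?_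
    filter_upwards [eventually_ge_atTop (1 : ℝ)] with v hv
    rw [Real.norm_of_nonneg (Real.exp_pos _).le, show -(1 / 9) * v = -(v / 9) by ring]
    exact hC v hv
  have hbot : ∀ β : ℝ, Jb a =O[𝓝[>] 0] (· ^ (-β)) := by
    intro β
    obtain ⟨C, hC⟩ := norm_Jb_le hb one_pos
    obtain ⟨K', hK'⟩ := Phi_le_rpow (A := |β| + 4) (by positivity)
    refine Asymptotics.IsBigO.of_bound
      (‖ε‖ * (N ^ 2)⁻¹ * (|C| * (|K'| * (9 * c0 * N) ^ (|β| + 4)))) ?_
    have h1 : ∀ᶠ v in 𝓝[>] (0 : ℝ), v < min 1 N⁻¹ :=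
      nhdsWithin_le_nhds (gt_mem_nhds (by positivity))
    filter_upwards [h1, self_mem_nhdsWithin] with v hv hv0
    have hv0 : 0 < v := hv0
    have hv1 : v ≤ 1 := (hv.trans_le (min_le_left _ _)).le
    have hv2 : v < N⁻¹ := hv.trans_le (min_le_right _ _)
    have h2 : 1 ≤ (N * v)⁻¹ := by
      refine (one_le_inv₀ (by positivity)).2 ?_
      calc N * v ≤ N * N⁻¹ := by gcongr
        _ = 1 := by field_simp
    have h3 := hC _ h2
    have h4 := hK' (9 * c0 * N * v)⁻¹ (by positivity)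
    have h5 : Phi (9 * c0 * N * v)⁻¹ = Real.exp (-((N * v)⁻¹ / 9)) := by
      unfold Phi; congr 1; field_simp
    rw [h5, Real.inv_rpow (by positivity), Real.rpow_neg (by positivity), inv_inv,
      Real.mul_rpow (by positivity) hv0.le, Real.rpow_add hv0] at h4
    have h6 : v ^ |β| ≤ v ^ (-β) := Real.rpow_le_rpow_of_exponent_ge hv0 hv1 (neg_le_abs β)
    have h7 : v ^ (4 : ℝ) = v ^ 4 := by exact_mod_cast Real.rpow_natCast v 4
    rw [h v hv0, norm_mul, norm_mul, Complex.norm_real, Real.norm_of_nonneg (by positivity),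
      Real.norm_of_nonneg (by positivity)]
    rw [h7] at h4
    calc _ ≤ ‖ε‖ * (N ^ 2 * v ^ 4)⁻¹ * (|C| * (|K'| * ((9 * c0 * N) ^ (|β| + 4) *
          (v ^ (-β) * v ^ 4)))) := by
          gcongr
          refine h3.trans ((mul_le_mul_of_nonneg_right (le_abs_self _) (Real.exp_pos _).le).trans ?_)
          gcongr
          refine h4.trans ((mul_le_mul_of_nonneg_right (le_abs_self _) (by positivity)).trans ?_)
          gcongr
      _ = _ := by field_simp
  have hdiff : Differentiable ℂ (mellin (Jb a)) := fun s =>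
    mellin_differentiableAt_of_isBigO_rpow_exp (by norm_num) hloc htop (hbot (s.re - 1))
      (by linarith)
  have hconv : ∀ s : ℂ, MellinConvergent (Jb a) s := fun s =>
    mellinConvergent_of_isBigO_rpow_exp (by norm_num) hloc htop (hbot (s.re - 1)) (by linarith)
  have hbdd : ∀ σ₁ σ₂ : ℝ, ∃ M : ℝ, ∀ s : ℂ, σ₁ ≤ s.re → s.re ≤ σ₂ → ‖mellin (Jb a) s‖ ≤ M := by
    intro σ₁ σ₂
    have hi := (hconv σ₁).norm.add (hconv σ₂).norm
    refine ⟨_, fun s h1 h2 => norm_integral_le_of_norm_le hi ?_⟩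
    refine (ae_restrict_iff' measurableSet_Ioi).2 (Eventually.of_forall fun v hv => ?_)
    have hv : 0 < v := hv
    simp only [norm_smul, Pi.add_apply]
    rw [Complex.norm_cpow_eq_rpow_re_of_pos hv, Complex.norm_cpow_eq_rpow_re_of_pos hv,
      Complex.norm_cpow_eq_rpow_re_of_pos hv, ← add_mul]
    refine mul_le_mul_of_nonneg_right ?_ (norm_nonneg _)
    simp only [Complex.sub_re, Complex.ofReal_re, Complex.one_re]
    rcases le_total 1 v with h3 | h3
    · have := Real.rpow_le_rpow_of_exponent_le h3 (show s.re - 1 ≤ σ₂ - 1 by linarith)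
      have := Real.rpow_pos_of_pos hv (σ₁ - 1)
      linarith
    · have := Real.rpow_le_rpow_of_exponent_ge hv h3 (show σ₁ - 1 ≤ s.re - 1 by linarith)
      have := Real.rpow_pos_of_pos hv (σ₂ - 1)
      linarith
  set L : ℂ := (Real.log (9 / c0) : ℂ) with hL
  have hcp : ∀ w : ℂ, ((9 / c0 : ℝ) : ℂ) ^ w = Complex.exp (L * w) :=
    v2t_cpow (by positivity : (0 : ℝ) < 9 / c0)
  refine ⟨fun s => 2 * Complex.exp (-L) * Complex.exp ((-2 * L) * s) * mellin (Jb a) (2 * s + 1) *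
    ((Complex.Gamma (s + 2 / 3))⁻¹ * (Complex.Gamma (s + 1 / 3))⁻¹), ?_, fun σ₁ σ₂ => ?_,
    fun s hs => ?_, fun w hw => ?_⟩
  · refine Differentiable.mul (Differentiable.mul (by fun_prop) (hdiff.comp (by fun_prop))) ?_
    exact (Complex.differentiable_one_div_Gamma.comp (by fun_prop)).mul
      (Complex.differentiable_one_div_Gamma.comp (by fun_prop))
  · obtain ⟨M, hM⟩ := hbdd (2 * σ₁ + 1) (2 * σ₂ + 1)
    refine ExpGr.mul (ExpGr.mul ((ExpGr.const _ _ _).mul (expGr_exp_mul _ _ _))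
      (ExpGr.of_bdd M 0 fun s hs _ => hM _ ?_ ?_))
      ((ExpGr.comp_add (F := fun s => (Complex.Gamma s)⁻¹) _ (expGr_inv_Gamma _ _)).mul
        (ExpGr.comp_add (F := fun s => (Complex.Gamma s)⁻¹) _ (expGr_inv_Gamma _ _)))
    · have := hs.1
      simp only [Complex.add_re, Complex.mul_re, Complex.re_ofNat, Complex.im_ofNat, zero_mul,
        sub_zero, Complex.one_re]
      linarith
    · have := hs.2
      simp only [Complex.add_re, Complex.mul_re, Complex.re_ofNat, Complex.im_ofNat, zero_mul,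
        sub_zero, Complex.one_re]
      linarith
  · have g1 : Complex.Gamma (s + 2 / 3) ≠ 0 := Complex.Gamma_ne_zero_of_re_pos (by
      have : (s + 2 / 3).re = s.re + 2 / 3 := by norm_num
      rw [this]; linarith)
    have g2 : Complex.Gamma (s + 1 / 3) ≠ 0 := Complex.Gamma_ne_zero_of_re_pos (by
      have : (s + 1 / 3).re = s.re + 1 / 3 := by norm_num
      rw [this]; linarith)
    have e1 : Complex.exp (-L) * Complex.exp ((-2 * L) * s) * Complex.exp (L * (2 * s + 1)) = 1 := by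
      rw [← Complex.exp_add, ← Complex.exp_add,
        show -L + -2 * L * s + L * (2 * s + 1) = 0 by ring, Complex.exp_zero]
    simp only
    rw [mellin_Jb ha hs, hcp]
    have g3 := mul_inv_cancel₀ g1
    have g4 := mul_inv_cancel₀ g2
    generalize Complex.Gamma (s + 2 / 3) = G₁ at *
    generalize Complex.Gamma (s + 1 / 3) = G₂ at *
    linear_combination (Dall a s * (G₁ * G₁⁻¹) * (G₂ * G₂⁻¹)) * e1 +
      (Dall a s * (G₂ * G₂⁻¹)) * g3 + Dall a s * g4
  · have e0 : mellin (Jb a) (2 * (1 - w) + 1) =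
        ε * (N : ℂ) ^ (2 * w - 1) * mellin (Jb b) (2 * w + 1) := by
      have hN' : (N : ℂ) ≠ 0 := by exact_mod_cast hN.ne'
      have e1 : mellin (Jb a) (2 * (1 - w) + 1) = mellin (fun v : ℝ => (ε * ((N : ℂ) ^ 2)⁻¹) •
          ((v : ℂ) ^ (-4 : ℂ) • (fun u : ℝ => Jb b u⁻¹) (N * v))) (2 * (1 - w) + 1) := by
        refine setIntegral_congr_fun measurableSet_Ioi fun v hv => ?_
        have hv : 0 < v := hv
        have hv' : (v : ℂ) ≠ 0 := by exact_mod_cast hv.ne'
        simp only [smul_eq_mul]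
        rw [h v hv, Complex.cpow_neg, show (4 : ℂ) = ((4 : ℕ) : ℂ) by norm_num, Complex.cpow_natCast]
        push_cast
        field_simp
      rw [e1, mellin_const_smul, mellin_cpow_smul, mellin_comp_mul_left (fun u : ℝ => Jb b u⁻¹) _ hN, mellin_comp_inv,
        show -(2 * (1 - w) + 1 + -4) = 2 * w + 1 by ring, smul_eq_mul, smul_eq_mul,
        show 2 * w + 1 = (2 * w - 1) + ((2 : ℕ) : ℂ) by push_cast; ring, Complex.cpow_add _ _ hN',
        Complex.cpow_natCast]
      field_simp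
    have e1 : Complex.exp (-L) * Complex.exp ((-2 * L) * (1 - w)) * Complex.exp (L * (2 * w + 1)) =
        Complex.exp (L * (4 * w - 2)) := by
      rw [← Complex.exp_add, ← Complex.exp_add]; congr 1; ring
    simp only
    unfold gam
    rw [e0, mellin_Jb hb hw, hcp, hcp, show 1 - w + 2 / 3 = 5 / 3 - w by ring,
      show 1 - w + 1 / 3 = 4 / 3 - w by ring, ← e1]
    ring

end Crest.Agent.R017.Theta

end
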